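import Crest.Agent.Iso341.Defs

/-! S0341, part CALC: calculus of `dx`, `dy`, `br`, `Dp`, `Dy`, `LL` and integration by parts. -/

set_option autoImplicit false

open MeasureTheory Set
open scoped ContDiff

namespace Crest.Agent.Iso341

/-! ### differentiability -/

theorem diffAt {f : PP → ℝ} (hf : ContDiff ℝ ∞ f) (z : PP) : DifferentiableAt ℝ f z :=
  (hf.differentiable (by simp)) z

theorem contDiff_dx {f : PP → ℝ} (hf : ContDiff ℝ ∞ f) : ContDiff ℝ ∞ (dx f) :=
  (hf.fderiv_right (m := ∞) (by simp)).clm_apply contDiff_const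

theorem contDiff_dy {f : PP → ℝ} (hf : ContDiff ℝ ∞ f) : ContDiff ℝ ∞ (dy f) :=
  (hf.fderiv_right (m := ∞) (by simp)).clm_apply contDiff_const

theorem contDiff_br {f g : PP → ℝ} (hf : ContDiff ℝ ∞ f) (hg : ContDiff ℝ ∞ g) :
    ContDiff ℝ ∞ (br f g) :=
  ((contDiff_dx hf).mul (contDiff_dy hg)).sub ((contDiff_dy hf).mul (contDiff_dx hg))

theorem contDiffOn_dx {f : PP → ℝ} {U : Set PP} (hU : IsOpen U) (hf : ContDiffOn ℝ ∞ f U) :
    ContDiffOn ℝ ∞ (dx f) U :=
  (hf.fderiv_of_isOpen (m := ∞) hU (by simp)).clm_apply contDiffOn_const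

theorem contDiffOn_dy {f : PP → ℝ} {U : Set PP} (hU : IsOpen U) (hf : ContDiffOn ℝ ∞ f U) :
    ContDiffOn ℝ ∞ (dy f) U :=
  (hf.fderiv_of_isOpen (m := ∞) hU (by simp)).clm_apply contDiffOn_const

theorem diffAt_on {f : PP → ℝ} {U : Set PP} (hU : IsOpen U) (hf : ContDiffOn ℝ ∞ f U) {z : PP}
    (hz : z ∈ U) : DifferentiableAt ℝ f z :=
  (hf.contDiffAt (hU.mem_nhds hz)).differentiableAt (by simp)

/-! ### the rules at a point -/

theorem dx_of {f : PP → ℝ} {f' : PP →L[ℝ] ℝ} {z : PP} (h : HasFDerivAt f f' z) :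
    dx f z = f' (1, 0) := by rw [dx, h.fderiv]

theorem dy_of {f : PP → ℝ} {f' : PP →L[ℝ] ℝ} {z : PP} (h : HasFDerivAt f f' z) :
    dy f z = f' (0, 1) := by rw [dy, h.fderiv]

section at_point

variable {f g : PP → ℝ} {z : PP}

theorem dx_add_at (hf : DifferentiableAt ℝ f z) (hg : DifferentiableAt ℝ g z) :
    dx (fun w => f w + g w) z = dx f z + dx g z := by
  exact (dx_of (hf.hasFDerivAt.fun_add hg.hasFDerivAt)).trans rfl

theorem dy_add_at (hf : DifferentiableAt ℝ f z) (hg : DifferentiableAt ℝ g z) :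
    dy (fun w => f w + g w) z = dy f z + dy g z := by
  exact (dy_of (hf.hasFDerivAt.fun_add hg.hasFDerivAt)).trans rfl

theorem dx_sub_at (hf : DifferentiableAt ℝ f z) (hg : DifferentiableAt ℝ g z) :
    dx (fun w => f w - g w) z = dx f z - dx g z := by
  exact (dx_of (hf.hasFDerivAt.fun_sub hg.hasFDerivAt)).trans rfl

theorem dy_sub_at (hf : DifferentiableAt ℝ f z) (hg : DifferentiableAt ℝ g z) :
    dy (fun w => f w - g w) z = dy f z - dy g z := by
  exact (dy_of (hf.hasFDerivAt.fun_sub hg.hasFDerivAt)).trans rfl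

theorem dx_neg_at (f : PP → ℝ) (z : PP) : dx (fun w => - f w) z = - dx f z := by
  simp [dx, fderiv_fun_neg]

theorem dy_neg_at (f : PP → ℝ) (z : PP) : dy (fun w => - f w) z = - dy f z := by
  simp [dy, fderiv_fun_neg]

theorem dx_mul_at (hf : DifferentiableAt ℝ f z) (hg : DifferentiableAt ℝ g z) :
    dx (fun w => f w * g w) z = dx f z * g z + f z * dx g z := by
  refine (dx_of (hf.hasFDerivAt.fun_mul hg.hasFDerivAt)).trans ?_
  simp [dx]; ring

theorem dy_mul_at (hf : DifferentiableAt ℝ f z) (hg : DifferentiableAt ℝ g z) :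
    dy (fun w => f w * g w) z = dy f z * g z + f z * dy g z := by
  refine (dy_of (hf.hasFDerivAt.fun_mul hg.hasFDerivAt)).trans ?_
  simp [dy]; ring

theorem dx_comp_at {G : ℝ → ℝ} (hG : DifferentiableAt ℝ G (f z)) (hf : DifferentiableAt ℝ f z) :
    dx (fun w => G (f w)) z = deriv G (f z) * dx f z := by
  refine (dx_of (hG.hasDerivAt.comp_hasFDerivAt z hf.hasFDerivAt)).trans ?_
  simp [dx]

theorem dy_comp_at {G : ℝ → ℝ} (hG : DifferentiableAt ℝ G (f z)) (hf : DifferentiableAt ℝ f z) :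
    dy (fun w => G (f w)) z = deriv G (f z) * dy f z := by
  refine (dy_of (hG.hasDerivAt.comp_hasFDerivAt z hf.hasFDerivAt)).trans ?_
  simp [dy]

theorem dx_div_at (hf : DifferentiableAt ℝ f z) (hg : DifferentiableAt ℝ g z) (h0 : g z ≠ 0) :
    dx (fun w => f w / g w) z = (dx f z * g z - f z * dx g z) / g z ^ 2 := by
  have h1 : dx (fun w => (g w)⁻¹) z = -(dx g z) / g z ^ 2 := by
    rw [dx_comp_at (G := fun t => t⁻¹) (differentiableAt_inv h0) hg, deriv_inv]
    ring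
  have h2 : (fun w => f w / g w) = fun w => f w * (g w)⁻¹ := by
    funext w; rw [div_eq_mul_inv]
  rw [h2, dx_mul_at hf (hg.fun_inv h0), h1]
  field_simp
  ring

theorem dy_div_at (hf : DifferentiableAt ℝ f z) (hg : DifferentiableAt ℝ g z) (h0 : g z ≠ 0) :
    dy (fun w => f w / g w) z = (dy f z * g z - f z * dy g z) / g z ^ 2 := by
  have h1 : dy (fun w => (g w)⁻¹) z = -(dy g z) / g z ^ 2 := by
    rw [dy_comp_at (G := fun t => t⁻¹) (differentiableAt_inv h0) hg, deriv_inv]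
    ring
  have h2 : (fun w => f w / g w) = fun w => f w * (g w)⁻¹ := by
    funext w; rw [div_eq_mul_inv]
  rw [h2, dy_mul_at hf (hg.fun_inv h0), h1]
  field_simp
  ring

theorem dx_pow_at (n : ℕ) (hf : DifferentiableAt ℝ f z) :
    dx (fun w => f w ^ n) z = n * f z ^ (n - 1) * dx f z := by
  rw [dx_comp_at (G := fun t => t ^ n) (by fun_prop) hf]; simp

theorem dy_pow_at (n : ℕ) (hf : DifferentiableAt ℝ f z) :
    dy (fun w => f w ^ n) z = n * f z ^ (n - 1) * dy f z := by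
  rw [dy_comp_at (G := fun t => t ^ n) (by fun_prop) hf]; simp

theorem dx_sum_at {ι : Type*} (s : Finset ι) {F : ι → PP → ℝ}
    (hF : ∀ i ∈ s, DifferentiableAt ℝ (F i) z) :
    dx (fun w => ∑ i ∈ s, F i w) z = ∑ i ∈ s, dx (F i) z := by
  rw [dx_of (HasFDerivAt.fun_sum fun i hi => (hF i hi).hasFDerivAt)]
  simp [dx]

theorem dy_sum_at {ι : Type*} (s : Finset ι) {F : ι → PP → ℝ}
    (hF : ∀ i ∈ s, DifferentiableAt ℝ (F i) z) :
    dy (fun w => ∑ i ∈ s, F i w) z = ∑ i ∈ s, dy (F i) z := by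
  rw [dy_of (HasFDerivAt.fun_sum fun i hi => (hF i hi).hasFDerivAt)]
  simp [dy]

end at_point

@[simp] theorem dx_const (c : ℝ) (z : PP) : dx (fun _ => c) z = 0 := by simp [dx]
@[simp] theorem dy_const (c : ℝ) (z : PP) : dy (fun _ => c) z = 0 := by simp [dy]
@[simp] theorem dx_fst (z : PP) : dx (fun w => w.1) z = 1 := by
  rw [dx_of hasFDerivAt_fst]; simp
@[simp] theorem dy_fst (z : PP) : dy (fun w => w.1) z = 0 := by
  rw [dy_of hasFDerivAt_fst]; simp
@[simp] theorem dx_snd (z : PP) : dx (fun w => w.2) z = 0 := by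
  rw [dx_of hasFDerivAt_snd]; simp
@[simp] theorem dy_snd (z : PP) : dy (fun w => w.2) z = 1 := by
  rw [dy_of hasFDerivAt_snd]; simp

/-! ### local congruence -/

theorem dx_congr {f g : PP → ℝ} {z : PP} (h : f =ᶠ[nhds z] g) : dx f z = dx g z := by
  rw [dx, dx, h.fderiv_eq]

theorem dy_congr {f g : PP → ℝ} {z : PP} (h : f =ᶠ[nhds z] g) : dy f z = dy g z := by
  rw [dy, dy, h.fderiv_eq]

theorem dx_eventuallyEq {f g : PP → ℝ} {z : PP} (h : f =ᶠ[nhds z] g) : dx f =ᶠ[nhds z] dx g := by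
  filter_upwards [h.eventuallyEq_nhds] with w hw using dx_congr hw

theorem dy_eventuallyEq {f g : PP → ℝ} {z : PP} (h : f =ᶠ[nhds z] g) : dy f =ᶠ[nhds z] dy g := by
  filter_upwards [h.eventuallyEq_nhds] with w hw using dy_congr hw

theorem dx_congr_on {f g : PP → ℝ} {U : Set PP} (hU : IsOpen U) (h : ∀ z ∈ U, f z = g z) :
    ∀ z ∈ U, dx f z = dx g z := fun z hz =>
  dx_congr (Filter.eventuallyEq_of_mem (hU.mem_nhds hz) h)

theorem dy_congr_on {f g : PP → ℝ} {U : Set PP} (hU : IsOpen U) (h : ∀ z ∈ U, f z = g z) :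
    ∀ z ∈ U, dy f z = dy g z := fun z hz =>
  dy_congr (Filter.eventuallyEq_of_mem (hU.mem_nhds hz) h)

/-! ### the rules for smooth functions -/

section smooth

variable {f g : PP → ℝ}

theorem dx_add (hf : ContDiff ℝ ∞ f) (hg : ContDiff ℝ ∞ g) (z : PP) :
    dx (fun w => f w + g w) z = dx f z + dx g z := dx_add_at (diffAt hf z) (diffAt hg z)
theorem dy_add (hf : ContDiff ℝ ∞ f) (hg : ContDiff ℝ ∞ g) (z : PP) :
    dy (fun w => f w + g w) z = dy f z + dy g z := dy_add_at (diffAt hf z) (diffAt hg z)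
theorem dx_sub (hf : ContDiff ℝ ∞ f) (hg : ContDiff ℝ ∞ g) (z : PP) :
    dx (fun w => f w - g w) z = dx f z - dx g z := dx_sub_at (diffAt hf z) (diffAt hg z)
theorem dy_sub (hf : ContDiff ℝ ∞ f) (hg : ContDiff ℝ ∞ g) (z : PP) :
    dy (fun w => f w - g w) z = dy f z - dy g z := dy_sub_at (diffAt hf z) (diffAt hg z)
theorem dx_neg (f : PP → ℝ) (z : PP) : dx (fun w => - f w) z = - dx f z := dx_neg_at f z
theorem dy_neg (f : PP → ℝ) (z : PP) : dy (fun w => - f w) z = - dy f z := dy_neg_at f z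
theorem dx_mul (hf : ContDiff ℝ ∞ f) (hg : ContDiff ℝ ∞ g) (z : PP) :
    dx (fun w => f w * g w) z = dx f z * g z + f z * dx g z :=
  dx_mul_at (diffAt hf z) (diffAt hg z)
theorem dy_mul (hf : ContDiff ℝ ∞ f) (hg : ContDiff ℝ ∞ g) (z : PP) :
    dy (fun w => f w * g w) z = dy f z * g z + f z * dy g z :=
  dy_mul_at (diffAt hf z) (diffAt hg z)
theorem dx_const_mul (c : ℝ) (hf : ContDiff ℝ ∞ f) (z : PP) :
    dx (fun w => c * f w) z = c * dx f z := by
  rw [dx_mul contDiff_const hf, dx_const]; ring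
theorem dy_const_mul (c : ℝ) (hf : ContDiff ℝ ∞ f) (z : PP) :
    dy (fun w => c * f w) z = c * dy f z := by
  rw [dy_mul contDiff_const hf, dy_const]; ring
theorem dx_comp {g : ℝ → ℝ} {f : PP → ℝ} (hg : ContDiff ℝ ∞ g) (hf : ContDiff ℝ ∞ f) (z : PP) :
    dx (fun w => g (f w)) z = deriv g (f z) * dx f z :=
  dx_comp_at ((hg.differentiable (by simp)) _) (diffAt hf z)
theorem dy_comp {g : ℝ → ℝ} {f : PP → ℝ} (hg : ContDiff ℝ ∞ g) (hf : ContDiff ℝ ∞ f) (z : PP) :
    dy (fun w => g (f w)) z = deriv g (f z) * dy f z :=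
  dy_comp_at ((hg.differentiable (by simp)) _) (diffAt hf z)
theorem dx_div (hf : ContDiff ℝ ∞ f) (hg : ContDiff ℝ ∞ g) {z : PP} (h0 : g z ≠ 0) :
    dx (fun w => f w / g w) z = (dx f z * g z - f z * dx g z) / g z ^ 2 :=
  dx_div_at (diffAt hf z) (diffAt hg z) h0
theorem dy_div (hf : ContDiff ℝ ∞ f) (hg : ContDiff ℝ ∞ g) {z : PP} (h0 : g z ≠ 0) :
    dy (fun w => f w / g w) z = (dy f z * g z - f z * dy g z) / g z ^ 2 :=
  dy_div_at (diffAt hf z) (diffAt hg z) h0
theorem dx_pow (n : ℕ) (hf : ContDiff ℝ ∞ f) (z : PP) :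
    dx (fun w => f w ^ n) z = n * f z ^ (n - 1) * dx f z := dx_pow_at n (diffAt hf z)
theorem dy_pow (n : ℕ) (hf : ContDiff ℝ ∞ f) (z : PP) :
    dy (fun w => f w ^ n) z = n * f z ^ (n - 1) * dy f z := dy_pow_at n (diffAt hf z)
theorem dx_sq (hf : ContDiff ℝ ∞ f) (z : PP) :
    dx (fun w => f w ^ 2) z = 2 * f z * dx f z := by rw [dx_pow 2 hf]; norm_num
theorem dy_sq (hf : ContDiff ℝ ∞ f) (z : PP) :
    dy (fun w => f w ^ 2) z = 2 * f z * dy f z := by rw [dy_pow 2 hf]; norm_num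
theorem dx_sum {ι : Type*} (s : Finset ι) {F : ι → PP → ℝ} (hF : ∀ i ∈ s, ContDiff ℝ ∞ (F i))
    (z : PP) : dx (fun w => ∑ i ∈ s, F i w) z = ∑ i ∈ s, dx (F i) z :=
  dx_sum_at s fun i hi => diffAt (hF i hi) z
theorem dy_sum {ι : Type*} (s : Finset ι) {F : ι → PP → ℝ} (hF : ∀ i ∈ s, ContDiff ℝ ∞ (F i))
    (z : PP) : dy (fun w => ∑ i ∈ s, F i w) z = ∑ i ∈ s, dy (F i) z :=
  dy_sum_at s fun i hi => diffAt (hF i hi) z

/-- function (un-eta-expanded) forms, handy for rewriting under `dx`/`dy` again -/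
theorem dx_add' (hf : ContDiff ℝ ∞ f) (hg : ContDiff ℝ ∞ g) :
    dx (fun w => f w + g w) = fun z => dx f z + dx g z := funext (dx_add hf hg)
theorem dy_add' (hf : ContDiff ℝ ∞ f) (hg : ContDiff ℝ ∞ g) :
    dy (fun w => f w + g w) = fun z => dy f z + dy g z := funext (dy_add hf hg)
theorem dx_sub' (hf : ContDiff ℝ ∞ f) (hg : ContDiff ℝ ∞ g) :
    dx (fun w => f w - g w) = fun z => dx f z - dx g z := funext (dx_sub hf hg)
theorem dy_sub' (hf : ContDiff ℝ ∞ f) (hg : ContDiff ℝ ∞ g) :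
    dy (fun w => f w - g w) = fun z => dy f z - dy g z := funext (dy_sub hf hg)
theorem dx_neg' (f : PP → ℝ) : dx (fun w => - f w) = fun z => - dx f z := funext (dx_neg f)
theorem dy_neg' (f : PP → ℝ) : dy (fun w => - f w) = fun z => - dy f z := funext (dy_neg f)
theorem dx_mul' (hf : ContDiff ℝ ∞ f) (hg : ContDiff ℝ ∞ g) :
    dx (fun w => f w * g w) = fun z => dx f z * g z + f z * dx g z := funext (dx_mul hf hg)
theorem dy_mul' (hf : ContDiff ℝ ∞ f) (hg : ContDiff ℝ ∞ g) :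
    dy (fun w => f w * g w) = fun z => dy f z * g z + f z * dy g z := funext (dy_mul hf hg)
theorem dx_const' (c : ℝ) : dx (fun _ => c) = fun _ => 0 := funext (dx_const c)
theorem dy_const' (c : ℝ) : dy (fun _ => c) = fun _ => 0 := funext (dy_const c)

end smooth

/-! ### mixed partial derivatives commute -/

theorem dx_dy_at {f : PP → ℝ} {z : PP} (hf : ContDiffAt ℝ 2 f z) : dx (dy f) z = dy (dx f) z := by
  have h2 : DifferentiableAt ℝ (fderiv ℝ f) z :=
    (hf.fderiv_right (m := 1) (by norm_num)).differentiableAt (by simp)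
  have hsym : IsSymmSndFDerivAt ℝ f z := hf.isSymmSndFDerivAt (by simp)
  have e1 : dx (dy f) z = fderiv ℝ (fderiv ℝ f) z (1, 0) (0, 1) := by
    have : HasFDerivAt (dy f) (((ContinuousLinearMap.apply ℝ ℝ ((0, 1) : PP))).comp
        (fderiv ℝ (fderiv ℝ f) z)) z :=
      (ContinuousLinearMap.hasFDerivAt (ContinuousLinearMap.apply ℝ ℝ ((0, 1) : PP))).comp z
        h2.hasFDerivAt
    rw [dx_of this]; rfl
  have e2 : dy (dx f) z = fderiv ℝ (fderiv ℝ f) z (0, 1) (1, 0) := by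
    have : HasFDerivAt (dx f) (((ContinuousLinearMap.apply ℝ ℝ ((1, 0) : PP))).comp
        (fderiv ℝ (fderiv ℝ f) z)) z :=
      (ContinuousLinearMap.hasFDerivAt (ContinuousLinearMap.apply ℝ ℝ ((1, 0) : PP))).comp z
        h2.hasFDerivAt
    rw [dy_of this]; rfl
  rw [e1, e2]
  exact hsym.eq _ _

theorem dx_dy {f : PP → ℝ} (hf : ContDiff ℝ ∞ f) (z : PP) : dx (dy f) z = dy (dx f) z :=
  dx_dy_at (hf.contDiffAt.of_le (by norm_cast))

theorem dx_dy_on {f : PP → ℝ} {U : Set PP} (hU : IsOpen U) (hf : ContDiffOn ℝ ∞ f U) {z : PP}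
    (hz : z ∈ U) : dx (dy f) z = dy (dx f) z :=
  dx_dy_at ((hf.contDiffAt (hU.mem_nhds hz)).of_le (by norm_cast))

/-! ### the bracket -/

section bracket

variable {f g h : PP → ℝ}

theorem br_self (f : PP → ℝ) (z : PP) : br f f z = 0 := by simp only [br]; ring
theorem br_comm (f g : PP → ℝ) (z : PP) : br f g z = - br g f z := by simp only [br]; ring
theorem br_add_left (hf : ContDiff ℝ ∞ f) (hg : ContDiff ℝ ∞ g) (h : PP → ℝ) (z : PP) :
    br (fun w => f w + g w) h z = br f h z + br g h z := by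
  simp only [br, dx_add hf hg, dy_add hf hg]; ring
theorem br_add_right (h : PP → ℝ) (hf : ContDiff ℝ ∞ f) (hg : ContDiff ℝ ∞ g) (z : PP) :
    br h (fun w => f w + g w) z = br h f z + br h g z := by
  simp only [br, dx_add hf hg, dy_add hf hg]; ring
theorem br_sub_left (hf : ContDiff ℝ ∞ f) (hg : ContDiff ℝ ∞ g) (h : PP → ℝ) (z : PP) :
    br (fun w => f w - g w) h z = br f h z - br g h z := by
  simp only [br, dx_sub hf hg, dy_sub hf hg]; ring
theorem br_sub_right (h : PP → ℝ) (hf : ContDiff ℝ ∞ f) (hg : ContDiff ℝ ∞ g) (z : PP) :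
    br h (fun w => f w - g w) z = br h f z - br h g z := by
  simp only [br, dx_sub hf hg, dy_sub hf hg]; ring
theorem br_neg_left (f h : PP → ℝ) (z : PP) : br (fun w => - f w) h z = - br f h z := by
  simp only [br, dx_neg, dy_neg]; ring
theorem br_neg_right (h f : PP → ℝ) (z : PP) : br h (fun w => - f w) z = - br h f z := by
  simp only [br, dx_neg, dy_neg]; ring
theorem br_mul_left (hf : ContDiff ℝ ∞ f) (hg : ContDiff ℝ ∞ g) (h : PP → ℝ) (z : PP) :
    br (fun w => f w * g w) h z = br f h z * g z + f z * br g h z := by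
  simp only [br, dx_mul hf hg, dy_mul hf hg]; ring
theorem br_mul_right (h : PP → ℝ) (hf : ContDiff ℝ ∞ f) (hg : ContDiff ℝ ∞ g) (z : PP) :
    br h (fun w => f w * g w) z = br h f z * g z + f z * br h g z := by
  simp only [br, dx_mul hf hg, dy_mul hf hg]; ring
theorem br_const_left (c : ℝ) (h : PP → ℝ) (z : PP) : br (fun _ => c) h z = 0 := by
  simp [br]
theorem br_const_right (c : ℝ) (h : PP → ℝ) (z : PP) : br h (fun _ => c) z = 0 := by
  simp [br]
theorem br_comp_left {G : ℝ → ℝ} (hG : ContDiff ℝ ∞ G) (hf : ContDiff ℝ ∞ f) (h : PP → ℝ)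
    (z : PP) : br (fun w => G (f w)) h z = deriv G (f z) * br f h z := by
  simp only [br, dx_comp hG hf, dy_comp hG hf]; ring
theorem br_comp_right {G : ℝ → ℝ} (h : PP → ℝ) (hG : ContDiff ℝ ∞ G) (hf : ContDiff ℝ ∞ f)
    (z : PP) : br h (fun w => G (f w)) z = deriv G (f z) * br h f z := by
  simp only [br, dx_comp hG hf, dy_comp hG hf]; ring
theorem br_div_left (hf : ContDiff ℝ ∞ f) (hg : ContDiff ℝ ∞ g) (h : PP → ℝ) {z : PP}
    (h0 : g z ≠ 0) :
    br (fun w => f w / g w) h z = (br f h z * g z - f z * br g h z) / g z ^ 2 := by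
  simp only [br, dx_div hf hg h0, dy_div hf hg h0]; ring
theorem br_div_right (h : PP → ℝ) (hf : ContDiff ℝ ∞ f) (hg : ContDiff ℝ ∞ g) {z : PP}
    (h0 : g z ≠ 0) :
    br h (fun w => f w / g w) z = (br h f z * g z - f z * br h g z) / g z ^ 2 := by
  simp only [br, dx_div hf hg h0, dy_div hf hg h0]; ring

theorem br_congr {f f' g g' : PP → ℝ} {z : PP} (h : f =ᶠ[nhds z] f') (h' : g =ᶠ[nhds z] g') :
    br f g z = br f' g' z := by
  simp only [br, dx_congr h, dx_congr h', dy_congr h, dy_congr h']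

theorem br_eventuallyEq {f f' g g' : PP → ℝ} {z : PP} (h : f =ᶠ[nhds z] f')
    (h' : g =ᶠ[nhds z] g') : br f g =ᶠ[nhds z] br f' g' := by
  filter_upwards [h.eventuallyEq_nhds, h'.eventuallyEq_nhds] with w hw hw' using br_congr hw hw'

/-- the Pluecker identity -/
theorem pluecker (A B C D : PP → ℝ) (z : PP) :
    br A B z * br C D z - br A C z * br B D z + br A D z * br B C z = 0 := by
  simp only [br]; ring

/-- the bracket, its first partial derivatives -/
theorem dx_br (hf : ContDiff ℝ ∞ f) (hg : ContDiff ℝ ∞ g) (z : PP) :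
    dx (br f g) z = br (dx f) g z + br f (dx g) z := by
  have e : br f g = fun w => dx f w * dy g w - dy f w * dx g w := rfl
  rw [e, dx_sub ((contDiff_dx hf).mul (contDiff_dy hg)) ((contDiff_dy hf).mul (contDiff_dx hg)),
    dx_mul (contDiff_dx hf) (contDiff_dy hg), dx_mul (contDiff_dy hf) (contDiff_dx hg)]
  simp only [br, dx_dy hf, dx_dy hg]; ring

theorem dy_br (hf : ContDiff ℝ ∞ f) (hg : ContDiff ℝ ∞ g) (z : PP) :
    dy (br f g) z = br (dy f) g z + br f (dy g) z := by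
  have e : br f g = fun w => dx f w * dy g w - dy f w * dx g w := rfl
  rw [e, dy_sub ((contDiff_dx hf).mul (contDiff_dy hg)) ((contDiff_dy hf).mul (contDiff_dx hg)),
    dy_mul (contDiff_dx hf) (contDiff_dy hg), dy_mul (contDiff_dy hf) (contDiff_dx hg)]
  simp only [br, dx_dy hf, dx_dy hg]; ring

/-- the Jacobi identity -/
theorem jacobi (hf : ContDiff ℝ ∞ f) (hg : ContDiff ℝ ∞ g) (hh : ContDiff ℝ ∞ h) (z : PP) :
    br f (br g h) z + br g (br h f) z + br h (br f g) z = 0 := by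
  simp only [br.eq_1 f (br g h), br.eq_1 g (br h f), br.eq_1 h (br f g), dx_br hf hg, dx_br hg hh,
    dx_br hh hf, dy_br hf hg, dy_br hg hh, dy_br hh hf]
  simp only [br, dx_dy hf, dx_dy hg, dx_dy hh]; ring

/-- the bracket is a divergence -/
theorem br_eq_div (hf : ContDiff ℝ ∞ f) (hg : ContDiff ℝ ∞ g) (z : PP) :
    br f g z = dx (fun w => f w * dy g w) z - dy (fun w => f w * dx g w) z := by
  rw [dx_mul hf (contDiff_dy hg), dy_mul hf (contDiff_dx hg), dx_dy hg]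
  simp only [br]; ring

end bracket

/-! ### charts -/

theorem Chart.J_bounds {δ : ℝ} {p Y : PP → ℝ} (h : Chart δ p Y) (hδ : δ ≤ 1 / 10) (z : PP) :
    1 / 2 ≤ br p Y z ∧ br p Y z ≤ 2 := by
  have h1 := abs_le.1 (h.px z)
  have h2 := abs_le.1 (h.py z)
  have h3 := abs_le.1 (h.Yx z)
  have h4 := abs_le.1 (h.Yy z)
  have h0 : 0 ≤ δ := (abs_nonneg _).trans (h.px z)
  have a1 : |dy p z * dx Y z| ≤ (1 / 10) * (1 / 10) := by
    rw [abs_mul]
    exact mul_le_mul ((h.py z).trans hδ) ((h.Yx z).trans hδ) (abs_nonneg _) (by norm_num)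
  have a2 := abs_le.1 a1
  simp only [br]
  constructor
  · nlinarith [mul_nonneg (sub_nonneg.2 h1.1) (sub_nonneg.2 h4.1)]
  · nlinarith [mul_nonneg (sub_nonneg.2 h1.2) (sub_nonneg.2 h4.2)]

theorem Chart.J_ne {δ : ℝ} {p Y : PP → ℝ} (h : Chart δ p Y) (hδ : δ ≤ 1 / 10) (z : PP) :
    br p Y z ≠ 0 := by
  have := (h.J_bounds hδ z).1
  intro h0
  rw [h0] at this
  norm_num at this

theorem Chart.J_pos {δ : ℝ} {p Y : PP → ℝ} (h : Chart δ p Y) (hδ : δ ≤ 1 / 10) (z : PP) :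
    0 < br p Y z := lt_of_lt_of_le (by norm_num) (h.J_bounds hδ z).1

section chart

variable {p Y f g : PP → ℝ}

theorem contDiff_Dp (hp : ContDiff ℝ ∞ p) (hY : ContDiff ℝ ∞ Y)
    (hJ : ∀ z, br p Y z ≠ 0) (hf : ContDiff ℝ ∞ f) : ContDiff ℝ ∞ (Dp p Y f) :=
  (contDiff_br hf hY).div (contDiff_br hp hY) hJ

theorem contDiff_Dy (hp : ContDiff ℝ ∞ p) (hY : ContDiff ℝ ∞ Y)
    (hJ : ∀ z, br p Y z ≠ 0) (hf : ContDiff ℝ ∞ f) : ContDiff ℝ ∞ (Dy p Y f) :=
  (contDiff_br hp hf).div (contDiff_br hp hY) hJ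

theorem contDiff_LL {κ : ℝ} {k : PP → ℝ} (hp : ContDiff ℝ ∞ p) (hY : ContDiff ℝ ∞ Y)
    (hJ : ∀ z, br p Y z ≠ 0) (hk : ContDiff ℝ ∞ k) (hf : ContDiff ℝ ∞ f) :
    ContDiff ℝ ∞ (LL κ p Y k f) :=
  (contDiff_Dy hp hY hJ (contDiff_Dy hp hY hJ hf)).add
    (contDiff_const.mul (contDiff_Dp hp hY hJ (hk.mul (contDiff_Dp hp hY hJ hf))))

theorem Dp_p (hJ : ∀ z, br p Y z ≠ 0) (z : PP) : Dp p Y p z = 1 := div_self (hJ z)
theorem Dy_Y (hJ : ∀ z, br p Y z ≠ 0) (z : PP) : Dy p Y Y z = 1 := div_self (hJ z)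
theorem Dp_Y (p Y : PP → ℝ) (z : PP) : Dp p Y Y z = 0 := by simp [Dp, br_self]
theorem Dy_p (p Y : PP → ℝ) (z : PP) : Dy p Y p z = 0 := by simp [Dy, br_self]

theorem Dp_const (c : ℝ) (z : PP) : Dp p Y (fun _ => c) z = 0 := by simp [Dp, br_const_left]
theorem Dy_const (c : ℝ) (z : PP) : Dy p Y (fun _ => c) z = 0 := by simp [Dy, br_const_right]

theorem Dp_add (hf : ContDiff ℝ ∞ f) (hg : ContDiff ℝ ∞ g) (z : PP) :
    Dp p Y (fun w => f w + g w) z = Dp p Y f z + Dp p Y g z := by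
  simp only [Dp, br_add_left hf hg]; ring
theorem Dy_add (hf : ContDiff ℝ ∞ f) (hg : ContDiff ℝ ∞ g) (z : PP) :
    Dy p Y (fun w => f w + g w) z = Dy p Y f z + Dy p Y g z := by
  simp only [Dy, br_add_right p hf hg]; ring
theorem Dp_sub (hf : ContDiff ℝ ∞ f) (hg : ContDiff ℝ ∞ g) (z : PP) :
    Dp p Y (fun w => f w - g w) z = Dp p Y f z - Dp p Y g z := by
  simp only [Dp, br_sub_left hf hg]; ring
theorem Dy_sub (hf : ContDiff ℝ ∞ f) (hg : ContDiff ℝ ∞ g) (z : PP) :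
    Dy p Y (fun w => f w - g w) z = Dy p Y f z - Dy p Y g z := by
  simp only [Dy, br_sub_right p hf hg]; ring
theorem Dp_neg (f : PP → ℝ) (z : PP) : Dp p Y (fun w => - f w) z = - Dp p Y f z := by
  simp only [Dp, br_neg_left]; ring
theorem Dy_neg (f : PP → ℝ) (z : PP) : Dy p Y (fun w => - f w) z = - Dy p Y f z := by
  simp only [Dy, br_neg_right]; ring
theorem Dp_mul (hf : ContDiff ℝ ∞ f) (hg : ContDiff ℝ ∞ g) (z : PP) :
    Dp p Y (fun w => f w * g w) z = Dp p Y f z * g z + f z * Dp p Y g z := by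
  simp only [Dp, br_mul_left hf hg]; ring
theorem Dy_mul (hf : ContDiff ℝ ∞ f) (hg : ContDiff ℝ ∞ g) (z : PP) :
    Dy p Y (fun w => f w * g w) z = Dy p Y f z * g z + f z * Dy p Y g z := by
  simp only [Dy, br_mul_right p hf hg]; ring
theorem Dp_const_mul (c : ℝ) (hf : ContDiff ℝ ∞ f) (z : PP) :
    Dp p Y (fun w => c * f w) z = c * Dp p Y f z := by
  rw [Dp_mul contDiff_const hf, Dp_const]; ring
theorem Dy_const_mul (c : ℝ) (hf : ContDiff ℝ ∞ f) (z : PP) :
    Dy p Y (fun w => c * f w) z = c * Dy p Y f z := by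
  rw [Dy_mul contDiff_const hf, Dy_const]; ring
theorem Dp_comp {G : ℝ → ℝ} (hG : ContDiff ℝ ∞ G) (hf : ContDiff ℝ ∞ f) (z : PP) :
    Dp p Y (fun w => G (f w)) z = deriv G (f z) * Dp p Y f z := by
  simp only [Dp, br_comp_left hG hf]; ring
theorem Dy_comp {G : ℝ → ℝ} (hG : ContDiff ℝ ∞ G) (hf : ContDiff ℝ ∞ f) (z : PP) :
    Dy p Y (fun w => G (f w)) z = deriv G (f z) * Dy p Y f z := by
  simp only [Dy, br_comp_right p hG hf]; ring
theorem Dp_div (hf : ContDiff ℝ ∞ f) (hg : ContDiff ℝ ∞ g) {z : PP} (h0 : g z ≠ 0) :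
    Dp p Y (fun w => f w / g w) z = (Dp p Y f z * g z - f z * Dp p Y g z) / g z ^ 2 := by
  simp only [Dp, br_div_left hf hg Y h0]; ring
theorem Dy_div (hf : ContDiff ℝ ∞ f) (hg : ContDiff ℝ ∞ g) {z : PP} (h0 : g z ≠ 0) :
    Dy p Y (fun w => f w / g w) z = (Dy p Y f z * g z - f z * Dy p Y g z) / g z ^ 2 := by
  simp only [Dy, br_div_right p hf hg h0]; ring
theorem Dp_sq (hf : ContDiff ℝ ∞ f) (z : PP) :
    Dp p Y (fun w => f w ^ 2) z = 2 * f z * Dp p Y f z := by
  have e : (fun w => f w ^ 2) = fun w => f w * f w := by funext w; ring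
  rw [e, Dp_mul hf hf]; ring
theorem Dy_sq (hf : ContDiff ℝ ∞ f) (z : PP) :
    Dy p Y (fun w => f w ^ 2) z = 2 * f z * Dy p Y f z := by
  have e : (fun w => f w ^ 2) = fun w => f w * f w := by funext w; ring
  rw [e, Dy_mul hf hf]; ring
theorem Dp_pow (n : ℕ) (hf : ContDiff ℝ ∞ f) (z : PP) :
    Dp p Y (fun w => f w ^ n) z = n * f z ^ (n - 1) * Dp p Y f z := by
  rw [Dp_comp (G := fun t => t ^ n) (by fun_prop) hf]; simp
theorem Dy_pow (n : ℕ) (hf : ContDiff ℝ ∞ f) (z : PP) :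
    Dy p Y (fun w => f w ^ n) z = n * f z ^ (n - 1) * Dy p Y f z := by
  rw [Dy_comp (G := fun t => t ^ n) (by fun_prop) hf]; simp

theorem Dp_congr {z : PP} (h : f =ᶠ[nhds z] g) : Dp p Y f z = Dp p Y g z := by
  simp only [Dp, br_congr h (Filter.EventuallyEq.refl _ Y)]
theorem Dy_congr {z : PP} (h : f =ᶠ[nhds z] g) : Dy p Y f z = Dy p Y g z := by
  simp only [Dy, br_congr (Filter.EventuallyEq.refl _ p) h]
theorem Dp_eventuallyEq {z : PP} (h : f =ᶠ[nhds z] g) : Dp p Y f =ᶠ[nhds z] Dp p Y g := by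
  filter_upwards [h.eventuallyEq_nhds] with w hw using Dp_congr hw
theorem Dy_eventuallyEq {z : PP} (h : f =ᶠ[nhds z] g) : Dy p Y f =ᶠ[nhds z] Dy p Y g := by
  filter_upwards [h.eventuallyEq_nhds] with w hw using Dy_congr hw
theorem LL_congr {κ : ℝ} {k : PP → ℝ} {z : PP} (h : f =ᶠ[nhds z] g) :
    LL κ p Y k f z = LL κ p Y k g z := by
  have h1 : (fun w => k w * Dp p Y f w) =ᶠ[nhds z] fun w => k w * Dp p Y g w := by
    filter_upwards [Dp_eventuallyEq h] with w hw; rw [hw]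
  simp only [LL, Dy_congr (Dy_eventuallyEq h), Dp_congr h1]

/-- `D_p` and `D_y` commute -/
theorem Dp_Dy (hp : ContDiff ℝ ∞ p) (hY : ContDiff ℝ ∞ Y)
    (hJ : ∀ z, br p Y z ≠ 0) (hf : ContDiff ℝ ∞ f) (z : PP) :
    Dp p Y (Dy p Y f) z = Dy p Y (Dp p Y f) z := by
  have hJc := contDiff_br hp hY
  have e1 : Dp p Y (Dy p Y f) z
      = (br (br p f) Y z * br p Y z - br p f z * br (br p Y) Y z) / br p Y z ^ 3 := by
    have e : Dy p Y f = fun w => br p f w / br p Y w := rfl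
    rw [Dp, e, br_div_left (contDiff_br hp hf) hJc Y (hJ z)]
    have := hJ z
    field_simp
  have e2 : Dy p Y (Dp p Y f) z
      = (br p (br f Y) z * br p Y z - br f Y z * br p (br p Y) z) / br p Y z ^ 3 := by
    have e : Dp p Y f = fun w => br f Y w / br p Y w := rfl
    rw [Dy, e, br_div_right p (contDiff_br hf hY) hJc (hJ z)]
    have := hJ z
    field_simp
  rw [e1, e2]
  congr 1
  have j1 := jacobi hp hf hY z
  have j2 := pluecker f (br p Y) p Y z
  have c1 : br Y (br p f) z = - br (br p f) Y z := br_comm _ _ _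
  have c2 : br f (br Y p) z = - br f (br p Y) z := by
    have : br Y p = fun w => - br p Y w := by funext w; exact br_comm _ _ _
    rw [this, br_neg_right]
  have c3 : br f p z = - br p f z := br_comm _ _ _
  have c4 : br (br p Y) p z = - br p (br p Y) z := br_comm _ _ _
  rw [c1, c2] at j1
  rw [c3, c4] at j2
  linear_combination (-(br p Y z)) * j1 - j2

/-- `f_x = p_x D_p f + Y_x D_y f` -/
theorem dx_eq_Dp_Dy (hJ : ∀ z, br p Y z ≠ 0) (z : PP) :
    dx f z = dx p z * Dp p Y f z + dx Y z * Dy p Y f z := by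
  have := hJ z
  simp only [Dp, Dy]
  field_simp
  simp only [br]; ring

theorem dy_eq_Dp_Dy (hJ : ∀ z, br p Y z ≠ 0) (z : PP) :
    dy f z = dy p z * Dp p Y f z + dy Y z * Dy p Y f z := by
  have := hJ z
  simp only [Dp, Dy]
  field_simp
  simp only [br]; ring

/-- the bracket in the chart -/
theorem br_eq_Dp_Dy (hJ : ∀ z, br p Y z ≠ 0) (z : PP) :
    br f g z = (Dp p Y f z * Dy p Y g z - Dy p Y f z * Dp p Y g z) * br p Y z := by
  simp only [br.eq_1 f g, dx_eq_Dp_Dy (f := f) hJ, dy_eq_Dp_Dy (f := f) hJ,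
    dx_eq_Dp_Dy (f := g) hJ, dy_eq_Dp_Dy (f := g) hJ]
  simp only [br.eq_1 p Y]; ring

end chart

/-! ### compact supports -/

section supports

variable {p Y f g : PP → ℝ}

theorem hcs_dx (hs : HasCompactSupport f) : HasCompactSupport (dx f) :=
  hs.fderiv_apply (𝕜 := ℝ) (1, 0)

theorem hcs_dy (hs : HasCompactSupport f) : HasCompactSupport (dy f) :=
  hs.fderiv_apply (𝕜 := ℝ) (0, 1)

theorem hcs_mul_left (hs : HasCompactSupport f) (g : PP → ℝ) :
    HasCompactSupport fun z => f z * g z := hs.mul_right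

theorem hcs_mul_right (hs : HasCompactSupport f) (g : PP → ℝ) :
    HasCompactSupport fun z => g z * f z := hs.mul_left

theorem hcs_div (hs : HasCompactSupport f) (g : PP → ℝ) :
    HasCompactSupport fun z => f z / g z := by
  simp only [div_eq_mul_inv]
  exact hcs_mul_left hs _

theorem hcs_add (hf : HasCompactSupport f) (hg : HasCompactSupport g) :
    HasCompactSupport fun z => f z + g z := hf.add hg

theorem hcs_sub (hf : HasCompactSupport f) (hg : HasCompactSupport g) :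
    HasCompactSupport fun z => f z - g z := by
  have h2 : HasCompactSupport fun z => - g z := hg.comp_left (g := fun t => -t) neg_zero
  simp only [sub_eq_add_neg]
  exact hf.add h2

theorem hcs_br_left (hs : HasCompactSupport f) (g : PP → ℝ) : HasCompactSupport (br f g) :=
  hcs_sub (hcs_mul_left (hcs_dx hs) _) (hcs_mul_left (hcs_dy hs) _)

theorem hcs_br_right (hs : HasCompactSupport f) (g : PP → ℝ) : HasCompactSupport (br g f) :=
  hcs_sub (hcs_mul_right (hcs_dy hs) _) (hcs_mul_right (hcs_dx hs) _)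

theorem hcs_Dp (hs : HasCompactSupport f) : HasCompactSupport (Dp p Y f) :=
  hcs_div (hcs_br_left hs _) _

theorem hcs_Dy (hs : HasCompactSupport f) : HasCompactSupport (Dy p Y f) :=
  hcs_div (hcs_br_right hs _) _

theorem hcs_LL {κ : ℝ} {k : PP → ℝ} (hs : HasCompactSupport f) :
    HasCompactSupport (LL κ p Y k f) :=
  hcs_add (hcs_Dy (hcs_Dy hs)) (hcs_mul_right (hcs_Dp (hcs_mul_right (hcs_Dp hs) _)) _)

theorem integrable_cs (hf : Continuous f) (hs : HasCompactSupport f) : Integrable f :=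
  hf.integrable_of_hasCompactSupport hs

theorem integrable_smooth_cs (hf : ContDiff ℝ ∞ f) (hs : HasCompactSupport f) : Integrable f :=
  hf.continuous.integrable_of_hasCompactSupport hs

end supports

/-! ### integration -/

theorem integral_fderiv_zero {A : PP → ℝ} (v : PP) (hA : ContDiff ℝ ∞ A)
    (hs : HasCompactSupport A) : ∫ z, fderiv ℝ A z v = 0 := by
  have hc : Continuous fun z => fderiv ℝ A z v :=
    (((hA.fderiv_right (m := ∞) (by simp)).clm_apply contDiff_const)).continuous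
  have hs' : HasCompactSupport fun z => fderiv ℝ A z v := hs.fderiv_apply (𝕜 := ℝ) v
  have h := integral_mul_fderiv_eq_neg_fderiv_mul_of_integrable (μ := (volume : Measure PP))
    (f := fun _ : PP => (1 : ℝ)) (g := A) (v := v) (by simp)
    (by simpa using hc.integrable_of_hasCompactSupport hs')
    (by simpa using hA.continuous.integrable_of_hasCompactSupport hs)
    (fun x _ => differentiableAt_const _) (fun x _ => diffAt hA x)
  simpa using h

theorem integral_dx {A : PP → ℝ} (hA : ContDiff ℝ ∞ A) (hs : HasCompactSupport A) :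
    ∫ z, dx A z = 0 := integral_fderiv_zero (1, 0) hA hs

theorem integral_dy {A : PP → ℝ} (hA : ContDiff ℝ ∞ A) (hs : HasCompactSupport A) :
    ∫ z, dy A z = 0 := integral_fderiv_zero (0, 1) hA hs

theorem integral_br {A B : PP → ℝ} (hA : ContDiff ℝ ∞ A) (hB : ContDiff ℝ ∞ B)
    (hs : HasCompactSupport A) : ∫ z, br A B z = 0 := by
  simp only [br_eq_div hA hB]
  have h1 : ContDiff ℝ ∞ fun w => A w * dy B w := hA.mul (contDiff_dy hB)
  have h2 : ContDiff ℝ ∞ fun w => A w * dx B w := hA.mul (contDiff_dx hB)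
  have s1 : HasCompactSupport fun w => A w * dy B w := hcs_mul_left hs _
  have s2 : HasCompactSupport fun w => A w * dx B w := hcs_mul_left hs _
  rw [integral_sub (integrable_smooth_cs (contDiff_dx h1) (hcs_dx s1))
    (integrable_smooth_cs (contDiff_dy h2) (hcs_dy s2)), integral_dx h1 s1, integral_dy h2 s2,
    sub_zero]

section integration

variable {p Y : PP → ℝ}

theorem Dp_mul_J (hJ : ∀ z, br p Y z ≠ 0) (A : PP → ℝ) (z : PP) :
    Dp p Y A z * br p Y z = br A Y z := div_mul_cancel₀ _ (hJ z)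

theorem Dy_mul_J (hJ : ∀ z, br p Y z ≠ 0) (A : PP → ℝ) (z : PP) :
    Dy p Y A z * br p Y z = br p A z := div_mul_cancel₀ _ (hJ z)

theorem integral_Dp {p Y A : PP → ℝ} (_hp : ContDiff ℝ ∞ p) (hY : ContDiff ℝ ∞ Y)
    (hJ : ∀ z, br p Y z ≠ 0) (hA : ContDiff ℝ ∞ A) (hs : HasCompactSupport A) :
    ∫ z, Dp p Y A z * br p Y z = 0 := by
  simp only [Dp_mul_J hJ]
  exact integral_br hA hY hs

theorem integral_Dy {p Y A : PP → ℝ} (hp : ContDiff ℝ ∞ p) (_hY : ContDiff ℝ ∞ Y)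
    (hJ : ∀ z, br p Y z ≠ 0) (hA : ContDiff ℝ ∞ A) (hs : HasCompactSupport A) :
    ∫ z, Dy p Y A z * br p Y z = 0 := by
  simp only [Dy_mul_J hJ, br_comm p A]
  rw [integral_neg, integral_br hA hp hs, neg_zero]

/-- divergence theorem in the chart -/
theorem integral_div {p Y A B : PP → ℝ} (hp : ContDiff ℝ ∞ p) (hY : ContDiff ℝ ∞ Y)
    (hJ : ∀ z, br p Y z ≠ 0) (hA : ContDiff ℝ ∞ A) (hB : ContDiff ℝ ∞ B)
    (hsA : HasCompactSupport A) (hsB : HasCompactSupport B) :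
    ∫ z, (Dp p Y A z + Dy p Y B z) * br p Y z = 0 := by
  simp only [add_mul]
  rw [integral_add, integral_Dp hp hY hJ hA hsA, integral_Dy hp hY hJ hB hsB, add_zero]
  · exact integrable_smooth_cs ((contDiff_Dp hp hY hJ hA).mul (contDiff_br hp hY))
      (hcs_mul_left (hcs_Dp hsA) _)
  · exact integrable_smooth_cs ((contDiff_Dy hp hY hJ hB).mul (contDiff_br hp hY))
      (hcs_mul_left (hcs_Dy hsB) _)

/-- integration by parts in `p`; one of the two functions has compact support -/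
theorem integral_mul_Dp {p Y f g : PP → ℝ} (hp : ContDiff ℝ ∞ p) (hY : ContDiff ℝ ∞ Y)
    (hJ : ∀ z, br p Y z ≠ 0) (hf : ContDiff ℝ ∞ f) (hg : ContDiff ℝ ∞ g)
    (hs : HasCompactSupport f ∨ HasCompactSupport g) :
    ∫ z, f z * Dp p Y g z * br p Y z = - ∫ z, Dp p Y f z * g z * br p Y z := by
  have hJs := contDiff_br hp hY
  have i1 : Integrable fun z => f z * Dp p Y g z * br p Y z :=
    integrable_smooth_cs ((hf.mul (contDiff_Dp hp hY hJ hg)).mul hJs)
      (hcs_mul_left (hs.elim (fun h => hcs_mul_left h _) fun h => hcs_mul_right (hcs_Dp h) _) _)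
  have i2 : Integrable fun z => Dp p Y f z * g z * br p Y z :=
    integrable_smooth_cs (((contDiff_Dp hp hY hJ hf).mul hg).mul hJs)
      (hcs_mul_left (hs.elim (fun h => hcs_mul_left (hcs_Dp h) _) fun h => hcs_mul_right h _) _)
  have h := integral_Dp hp hY hJ (hf.mul hg)
    (hs.elim (fun h => hcs_mul_left h _) fun h => hcs_mul_right h _)
  have e : ∀ z, Dp p Y (fun w => f w * g w) z * br p Y z
      = Dp p Y f z * g z * br p Y z + f z * Dp p Y g z * br p Y z := by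
    intro z; rw [Dp_mul hf hg]; ring
  change ∫ z, Dp p Y (fun w => f w * g w) z * br p Y z = 0 at h
  simp only [e] at h
  rw [integral_add i2 i1] at h
  linarith

/-- integration by parts in `Y`; one of the two functions has compact support -/
theorem integral_mul_Dy {p Y f g : PP → ℝ} (hp : ContDiff ℝ ∞ p) (hY : ContDiff ℝ ∞ Y)
    (hJ : ∀ z, br p Y z ≠ 0) (hf : ContDiff ℝ ∞ f) (hg : ContDiff ℝ ∞ g)
    (hs : HasCompactSupport f ∨ HasCompactSupport g) :
    ∫ z, f z * Dy p Y g z * br p Y z = - ∫ z, Dy p Y f z * g z * br p Y z := by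
  have hJs := contDiff_br hp hY
  have i1 : Integrable fun z => f z * Dy p Y g z * br p Y z :=
    integrable_smooth_cs ((hf.mul (contDiff_Dy hp hY hJ hg)).mul hJs)
      (hcs_mul_left (hs.elim (fun h => hcs_mul_left h _) fun h => hcs_mul_right (hcs_Dy h) _) _)
  have i2 : Integrable fun z => Dy p Y f z * g z * br p Y z :=
    integrable_smooth_cs (((contDiff_Dy hp hY hJ hf).mul hg).mul hJs)
      (hcs_mul_left (hs.elim (fun h => hcs_mul_left (hcs_Dy h) _) fun h => hcs_mul_right h _) _)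
  have h := integral_Dy hp hY hJ (hf.mul hg)
    (hs.elim (fun h => hcs_mul_left h _) fun h => hcs_mul_right h _)
  have e : ∀ z, Dy p Y (fun w => f w * g w) z * br p Y z
      = Dy p Y f z * g z * br p Y z + f z * Dy p Y g z * br p Y z := by
    intro z; rw [Dy_mul hf hg]; ring
  change ∫ z, Dy p Y (fun w => f w * g w) z * br p Y z = 0 at h
  simp only [e] at h
  rw [integral_add i2 i1] at h
  linarith

/-- integration by parts in `x`, `y` -/
theorem integral_mul_dx {f g : PP → ℝ} (hf : ContDiff ℝ ∞ f) (hg : ContDiff ℝ ∞ g)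
    (hs : HasCompactSupport f ∨ HasCompactSupport g) :
    ∫ z, f z * dx g z = - ∫ z, dx f z * g z := by
  have i1 : Integrable fun z => f z * dx g z :=
    integrable_smooth_cs (hf.mul (contDiff_dx hg))
      (hs.elim (fun h => hcs_mul_left h _) fun h => hcs_mul_right (hcs_dx h) _)
  have i2 : Integrable fun z => dx f z * g z :=
    integrable_smooth_cs ((contDiff_dx hf).mul hg)
      (hs.elim (fun h => hcs_mul_left (hcs_dx h) _) fun h => hcs_mul_right h _)
  have h := integral_dx (hf.mul hg)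
    (hs.elim (fun h => hcs_mul_left h _) fun h => hcs_mul_right h _)
  change ∫ z, dx (fun w => f w * g w) z = 0 at h
  simp only [dx_mul hf hg] at h
  rw [integral_add i2 i1] at h
  linarith

theorem integral_mul_dy {f g : PP → ℝ} (hf : ContDiff ℝ ∞ f) (hg : ContDiff ℝ ∞ g)
    (hs : HasCompactSupport f ∨ HasCompactSupport g) :
    ∫ z, f z * dy g z = - ∫ z, dy f z * g z := by
  have i1 : Integrable fun z => f z * dy g z :=
    integrable_smooth_cs (hf.mul (contDiff_dy hg))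
      (hs.elim (fun h => hcs_mul_left h _) fun h => hcs_mul_right (hcs_dy h) _)
  have i2 : Integrable fun z => dy f z * g z :=
    integrable_smooth_cs ((contDiff_dy hf).mul hg)
      (hs.elim (fun h => hcs_mul_left (hcs_dy h) _) fun h => hcs_mul_right h _)
  have h := integral_dy (hf.mul hg)
    (hs.elim (fun h => hcs_mul_left h _) fun h => hcs_mul_right h _)
  change ∫ z, dy (fun w => f w * g w) z = 0 at h
  simp only [dy_mul hf hg] at h
  rw [integral_add i2 i1] at h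
  linarith

/-- `LL` in terms of derivatives -/
theorem LL_expand {κ : ℝ} {k φ : PP → ℝ} (hp : ContDiff ℝ ∞ p)
    (hY : ContDiff ℝ ∞ Y) (hJ : ∀ z, br p Y z ≠ 0) (hk : ContDiff ℝ ∞ k) (hφ : ContDiff ℝ ∞ φ)
    (z : PP) : LL κ p Y k φ z = Dy p Y (Dy p Y φ) z
      + κ * (Dp p Y k z * Dp p Y φ z + k z * Dp p Y (Dp p Y φ) z) := by
  rw [LL, Dp_mul hk (contDiff_Dp hp hY hJ hφ)]

theorem LL_add {κ : ℝ} {k φ V : PP → ℝ} (hp : ContDiff ℝ ∞ p)
    (hY : ContDiff ℝ ∞ Y) (hJ : ∀ z, br p Y z ≠ 0) (hk : ContDiff ℝ ∞ k) (hφ : ContDiff ℝ ∞ φ)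
    (hV : ContDiff ℝ ∞ V) (z : PP) :
    LL κ p Y k (fun w => φ w + V w) z = LL κ p Y k φ z + LL κ p Y k V z := by
  have e1 : Dy p Y (fun w => φ w + V w) = fun w => Dy p Y φ w + Dy p Y V w :=
    funext (Dy_add hφ hV)
  have e2 : Dp p Y (fun w => φ w + V w) = fun w => Dp p Y φ w + Dp p Y V w :=
    funext (Dp_add hφ hV)
  rw [LL_expand hp hY hJ hk (hφ.add hV), LL_expand hp hY hJ hk hφ, LL_expand hp hY hJ hk hV, e1, e2,
    Dy_add (contDiff_Dy hp hY hJ hφ) (contDiff_Dy hp hY hJ hV),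
    Dp_add (contDiff_Dp hp hY hJ hφ) (contDiff_Dp hp hY hJ hV)]
  ring

theorem LL_sub {κ : ℝ} {k φ V : PP → ℝ} (hp : ContDiff ℝ ∞ p)
    (hY : ContDiff ℝ ∞ Y) (hJ : ∀ z, br p Y z ≠ 0) (hk : ContDiff ℝ ∞ k) (hφ : ContDiff ℝ ∞ φ)
    (hV : ContDiff ℝ ∞ V) (z : PP) :
    LL κ p Y k (fun w => φ w - V w) z = LL κ p Y k φ z - LL κ p Y k V z := by
  have e1 : Dy p Y (fun w => φ w - V w) = fun w => Dy p Y φ w - Dy p Y V w :=
    funext (Dy_sub hφ hV)
  have e2 : Dp p Y (fun w => φ w - V w) = fun w => Dp p Y φ w - Dp p Y V w :=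
    funext (Dp_sub hφ hV)
  rw [LL_expand hp hY hJ hk (hφ.sub hV), LL_expand hp hY hJ hk hφ, LL_expand hp hY hJ hk hV, e1, e2,
    Dy_sub (contDiff_Dy hp hY hJ hφ) (contDiff_Dy hp hY hJ hV),
    Dp_sub (contDiff_Dp hp hY hJ hφ) (contDiff_Dp hp hY hJ hV)]
  ring

/-- `LL` of a product with a cutoff -/
theorem LL_mul {κ : ℝ} {k φ χ : PP → ℝ} (hp : ContDiff ℝ ∞ p)
    (hY : ContDiff ℝ ∞ Y) (hJ : ∀ z, br p Y z ≠ 0) (hk : ContDiff ℝ ∞ k) (hφ : ContDiff ℝ ∞ φ)
    (hχ : ContDiff ℝ ∞ χ) (z : PP) :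
    LL κ p Y k (fun w => χ w * φ w) z = χ z * LL κ p Y k φ z + φ z * LL κ p Y k χ z
      + 2 * (Dy p Y χ z * Dy p Y φ z + κ * k z * (Dp p Y χ z * Dp p Y φ z)) := by
  have e1 : Dy p Y (fun w => χ w * φ w) = fun w => Dy p Y χ w * φ w + χ w * Dy p Y φ w :=
    funext (Dy_mul hχ hφ)
  have e2 : Dp p Y (fun w => χ w * φ w) = fun w => Dp p Y χ w * φ w + χ w * Dp p Y φ w :=
    funext (Dp_mul hχ hφ)
  have c1 := contDiff_Dy hp hY hJ hχ
  have c2 := contDiff_Dy hp hY hJ hφ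
  have c3 := contDiff_Dp hp hY hJ hχ
  have c4 := contDiff_Dp hp hY hJ hφ
  rw [LL_expand hp hY hJ hk (hχ.mul hφ), LL_expand hp hY hJ hk hφ, LL_expand hp hY hJ hk hχ, e1, e2,
    Dy_add (c1.mul hφ) (hχ.mul c2), Dp_add (c3.mul hφ) (hχ.mul c4), Dy_mul c1 hφ, Dy_mul hχ c2,
    Dp_mul c3 hφ, Dp_mul hχ c4]
  ring

/-- `LL` is symmetric -/
theorem integral_LL_symm {κ : ℝ} {p Y k φ V : PP → ℝ} (hp : ContDiff ℝ ∞ p)
    (hY : ContDiff ℝ ∞ Y) (hJ : ∀ z, br p Y z ≠ 0) (hk : ContDiff ℝ ∞ k) (hφ : ContDiff ℝ ∞ φ)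
    (hV : ContDiff ℝ ∞ V) (hs : HasCompactSupport φ) :
    ∫ z, V z * LL κ p Y k φ z * br p Y z = ∫ z, φ z * LL κ p Y k V z * br p Y z := by
  have c1 := contDiff_Dy hp hY hJ hφ
  have c2 := contDiff_Dy hp hY hJ hV
  have c3 := contDiff_Dp hp hY hJ hφ
  have c4 := contDiff_Dp hp hY hJ hV
  have hJs := contDiff_br hp hY
  have key := integral_div hp hY hJ
    (A := fun z => κ * (k z * (V z * Dp p Y φ z - φ z * Dp p Y V z)))
    (B := fun z => V z * Dy p Y φ z - φ z * Dy p Y V z)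
    (contDiff_const.mul (hk.mul ((hV.mul c3).sub (hφ.mul c4)))) ((hV.mul c1).sub (hφ.mul c2))
    (hcs_mul_right (hcs_mul_right (hcs_sub (hcs_mul_right (hcs_Dp hs) _) (hcs_mul_left hs _)) _) _)
    (hcs_sub (hcs_mul_right (hcs_Dy hs) _) (hcs_mul_left hs _))
  have e : ∀ z, (Dp p Y (fun z => κ * (k z * (V z * Dp p Y φ z - φ z * Dp p Y V z))) z
      + Dy p Y (fun z => V z * Dy p Y φ z - φ z * Dy p Y V z) z) * br p Y z
      = V z * LL κ p Y k φ z * br p Y z - φ z * LL κ p Y k V z * br p Y z := by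
    intro z
    rw [Dp_const_mul κ (hk.mul ((hV.mul c3).sub (hφ.mul c4))),
      Dp_mul hk ((hV.mul c3).sub (hφ.mul c4)), Dp_sub (hV.mul c3) (hφ.mul c4), Dp_mul hV c3,
      Dp_mul hφ c4, Dy_sub (hV.mul c1) (hφ.mul c2), Dy_mul hV c1, Dy_mul hφ c2,
      LL_expand hp hY hJ hk hφ, LL_expand hp hY hJ hk hV]
    ring
  simp only [e] at key
  rw [integral_sub] at key
  · linarith
  · exact integrable_smooth_cs ((hV.mul (contDiff_LL hp hY hJ hk hφ)).mul hJs)
      (hcs_mul_left (hcs_mul_right (hcs_LL hs) _) _)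
  · exact integrable_smooth_cs ((hφ.mul (contDiff_LL hp hY hJ hk hV)).mul hJs)
      (hcs_mul_left (hcs_mul_left hs _) _)

end integration

end Crest.Agent.Iso341
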