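import Crest.Agent.Iso341.CloseA

/-! S0341, CLOSE: consequences of `Near`. -/

set_option autoImplicit false

open MeasureTheory Set
open scoped ContDiff

namespace Crest.Agent.Iso341

namespace Close

open Crest.Agent.Iso341.Test

theorem Cl_union {A B : Set PP} {c : ℝ} : ∀ {n : ℕ} {f : PP → ℝ}, Cl n f A c → Cl n f B c →
    Cl n f (A ∪ B) c
  | 0, _, h, k => fun z hz => hz.elim (h z) (k z)
  | _ + 1, _, h, k => ⟨fun z hz => hz.elim (h.1 z) (k.1 z), Cl_union h.2.1 k.2.1,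
      Cl_union h.2.2 k.2.2⟩

/-- the base functions -/
noncomputable def X0 : PP → ℝ := fun z => z.1
noncomputable def Y0 : PP → ℝ := fun z => z.2
noncomputable def f0 : PP → ℝ := fun z => z.1 ^ 2 / 2
noncomputable def w0 : PP → ℝ := fun z => z.1 ^ 2 + z.2 ^ 2 - 1 / 4

theorem sX0 : ContDiff ℝ ∞ X0 := contDiff_fst
theorem sY0 : ContDiff ℝ ∞ Y0 := contDiff_snd
theorem sf0 : ContDiff ℝ ∞ f0 := (contDiff_fst.pow 2).div_const 2
theorem sw0 : ContDiff ℝ ∞ w0 := ((contDiff_fst.pow 2).add (contDiff_snd.pow 2)).sub contDiff_const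

theorem dxX0 : dx X0 = fun _ => 1 := funext dx_fst
theorem dyX0 : dy X0 = fun _ => 0 := funext dy_fst
theorem dxY0 : dx Y0 = fun _ => 0 := funext dx_snd
theorem dyY0 : dy Y0 = fun _ => 1 := funext dy_snd
theorem dxf0 : dx f0 = fun z => z.1 := by
  funext z
  have e : f0 = fun z => (1 / 2) * (X0 z ^ 2) := by funext w; simp only [f0, X0]; ring
  rw [e, dx_const_mul _ (sX0.pow 2), dx_sq sX0, dxX0]
  simp only [X0]; ring
theorem dyf0 : dy f0 = fun _ => 0 := by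
  funext z
  have e : f0 = fun z => (1 / 2) * (X0 z ^ 2) := by funext w; simp only [f0, X0]; ring
  rw [e, dy_const_mul _ (sX0.pow 2), dy_sq sX0, dyX0]
  simp only [X0]; ring
theorem dxw0 : dx w0 = fun z => 2 * z.1 := by
  funext z
  have e : w0 = fun z => (X0 z ^ 2 + Y0 z ^ 2) - 1 / 4 := by funext w; simp only [w0, X0, Y0]
  rw [e, dx_sub ((sX0.pow 2).add (sY0.pow 2)) contDiff_const, dx_add (sX0.pow 2) (sY0.pow 2),
    dx_sq sX0, dx_sq sY0, dxX0, dxY0, dx_const]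
  simp only [X0]; ring
theorem dyw0 : dy w0 = fun z => 2 * z.2 := by
  funext z
  have e : w0 = fun z => (X0 z ^ 2 + Y0 z ^ 2) - 1 / 4 := by funext w; simp only [w0, X0, Y0]
  rw [e, dy_sub ((sX0.pow 2).add (sY0.pow 2)) contDiff_const, dy_add (sX0.pow 2) (sY0.pow 2),
    dy_sq sX0, dy_sq sY0, dyX0, dyY0, dy_const]
  simp only [Y0]; ring

theorem brXY0 : br X0 Y0 = fun _ => 1 := by
  funext z; simp only [br, dxX0, dyX0, dxY0, dyY0]; norm_num
theorem slp0 : slp X0 Y0 f0 = X0 := by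
  funext z; simp only [slp, brXY0]; simp only [br, dxf0, dyf0, dxY0, dyY0, X0]; norm_num
theorem slq0 : slq X0 Y0 f0 = fun _ => 0 := by
  funext z; simp only [slq, brXY0]; simp only [br, dxf0, dyf0, dxX0, dyX0]; norm_num
theorem KK0 : KK X0 Y0 f0 = fun _ => 0 := by
  funext z; simp only [KK, brXY0, slp0, slq0]; simp only [br, dx_const', dy_const']; norm_num
theorem Dp0 (g : PP → ℝ) : Dp X0 Y0 g = dx g := by
  funext z; simp only [Dp, brXY0]; simp only [br, dxY0, dyY0]; norm_num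
theorem Dy0 (g : PP → ℝ) : Dy X0 Y0 g = dy g := by
  funext z; simp only [Dy, brXY0]; simp only [br, dxX0, dyX0]; norm_num
theorem dxdxw0 : dx (dx w0) = fun _ => 2 := by
  funext z
  rw [dxw0]
  have e : (fun z : PP => 2 * z.1) = fun z => 2 * X0 z := rfl
  rw [e, dx_const_mul _ sX0, dxX0]; norm_num
theorem dydyw0 : dy (dy w0) = fun _ => 2 := by
  funext z
  rw [dyw0]
  have e : (fun z : PP => 2 * z.2) = fun z => 2 * Y0 z := rfl
  rw [e, dy_const_mul _ sY0, dyY0]; norm_num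

/-- the inner and outer regions -/
def AA : Set PP := {z | z.1 ^ 2 + z.2 ^ 2 < 5}
def BB : Set PP := {z | 4 < z.1 ^ 2 + z.2 ^ 2}
def UU : Set PP := {z | z.1 ^ 2 + z.2 ^ 2 < 9 / 4}

theorem openA : IsOpen AA := isOpen_lt (by fun_prop) continuous_const
theorem openB : IsOpen BB := isOpen_lt continuous_const (by fun_prop)
theorem openU : IsOpen UU := isOpen_lt (by fun_prop) continuous_const
theorem AB : AA ∪ BB = univ := by
  ext z
  simp only [AA, BB, mem_union, mem_ofPred_eq, mem_univ, iff_true]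
  by_cases h : z.1 ^ 2 + z.2 ^ 2 < 5
  · exact Or.inl h
  · right; linarith [not_lt.1 h]
theorem UA : UU ⊆ AA := fun z hz => by
  simp only [UU, AA, mem_ofPred_eq] at *; linarith
theorem A_sub : AA ⊆ Metric.closedBall (0 : PP) 3 := by
  intro z hz
  simp only [AA, mem_ofPred_eq] at hz
  rw [mem_closedBall_zero_iff, Prod.norm_def, max_le_iff, Real.norm_eq_abs, Real.norm_eq_abs]
  constructor
  · apply abs_le_of_sq_le_sq _ (by norm_num); nlinarith [sq_nonneg z.2]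
  · apply abs_le_of_sq_le_sq _ (by norm_num); nlinarith [sq_nonneg z.1]

theorem Cl_univ {n : ℕ} {f : PP → ℝ} {c : ℝ} (h : Cl n f AA c) (h0 : ∀ z ∈ BB, f z = 0)
    (hc : 0 ≤ c) : Cl n f univ c := by
  rw [← AB]
  exact Cl_union h (Cl.congr_on openB h0 (Cl.zero hc))

/-- a uniform bound for the base functions -/
theorem exists_M0 : ∃ M : ℝ, 1 ≤ M ∧ Cl 4 X0 AA M ∧ Cl 4 Y0 AA M ∧ Cl 4 f0 AA M ∧ Cl 4 w0 AA M := by
  have hK : IsCompact (Metric.closedBall (0 : PP) 3) := isCompact_closedBall 0 3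
  obtain ⟨a, ha, h1⟩ := Cl.of_compact 4 sX0 hK
  obtain ⟨b, hb, h2⟩ := Cl.of_compact 4 sY0 hK
  obtain ⟨c, hc, h3⟩ := Cl.of_compact 4 sf0 hK
  obtain ⟨d, hd, h4⟩ := Cl.of_compact 4 sw0 hK
  refine ⟨1 + a + b + c + d, by linarith, Cl.mono (Cl.anti h1 A_sub) (by linarith),
    Cl.mono (Cl.anti h2 A_sub) (by linarith), Cl.mono (Cl.anti h3 A_sub) (by linarith),
    Cl.mono (Cl.anti h4 A_sub) (by linarith)⟩

/-- data of the first perturbation lemma -/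
structure Dat (M : ℝ) where
  X : PP → ℝ
  Y : PP → ℝ
  f : PP → ℝ
  X' : PP → ℝ
  Y' : PP → ℝ
  f' : PP → ℝ
  A : Set PP
  ε : ℝ
  hε : 0 ≤ ε
  hX : Pn 4 X X' A M ε
  hY : Pn 4 Y Y' A M ε
  hf : Pn 4 f f' A M ε
  hJ : ∀ z, 1 / 2 ≤ br X Y z
  hJ' : ∀ z, 1 / 2 ≤ br X' Y' z

theorem key (M : ℝ) (hM : 0 < M) : ∃ C : ℝ, 0 < C ∧ ∀ d : Dat M,
    Pn 3 (slp d.X d.Y d.f) (slp d.X' d.Y' d.f') d.A C d.ε ∧
    Pn 3 (slq d.X d.Y d.f) (slq d.X' d.Y' d.f') d.A C d.ε ∧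
    Pn 3 (br d.X d.Y) (br d.X' d.Y') d.A C d.ε ∧
    Pn 2 (KK d.X d.Y d.f) (KK d.X' d.Y' d.f') d.A C d.ε ∧
    Pn 2 (br (slp d.X d.Y d.f) d.Y) (br (slp d.X' d.Y' d.f') d.Y') d.A C d.ε := by
  have hε : ∀ d : Dat M, 0 ≤ d.ε := fun d => d.hε
  have gX : Good Dat.A Dat.ε 4 (Dat.X (M := M)) Dat.X' := ⟨M, hM, fun d => d.hX⟩
  have gY : Good Dat.A Dat.ε 4 (Dat.Y (M := M)) Dat.Y' := ⟨M, hM, fun d => d.hY⟩
  have gf : Good Dat.A Dat.ε 4 (Dat.f (M := M)) Dat.f' := ⟨M, hM, fun d => d.hf⟩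
  have gJ : Good Dat.A Dat.ε 3 (fun d : Dat M => br d.X d.Y) (fun d => br d.X' d.Y') :=
    Good.br hε gX gY
  have gp : Good Dat.A Dat.ε 3 (fun d : Dat M => slp d.X d.Y d.f)
      (fun d => slp d.X' d.Y' d.f') :=
    Good.div hε (Good.br hε gf gY) gJ (fun d => d.hJ) (fun d => d.hJ')
  have gq : Good Dat.A Dat.ε 3 (fun d : Dat M => slq d.X d.Y d.f)
      (fun d => slq d.X' d.Y' d.f') :=
    Good.div hε (Good.br hε gX gf) gJ (fun d => d.hJ) (fun d => d.hJ')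
  have gK : Good Dat.A Dat.ε 2 (fun d : Dat M => KK d.X d.Y d.f)
      (fun d => KK d.X' d.Y' d.f') :=
    Good.div hε (Good.br hε gp gq) (gJ.le (by norm_num)) (fun d => d.hJ) (fun d => d.hJ')
  have gb : Good Dat.A Dat.ε 2 (fun d : Dat M => br (slp d.X d.Y d.f) d.Y)
      (fun d => br (slp d.X' d.Y' d.f') d.Y') :=
    Good.br hε gp (gY.le (by norm_num))
  obtain ⟨C1, h1, H1⟩ := gp
  obtain ⟨C2, h2, H2⟩ := gq
  obtain ⟨C3, h3, H3⟩ := gJ
  obtain ⟨C4, h4, H4⟩ := gK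
  obtain ⟨C5, h5, H5⟩ := gb
  refine ⟨C1 + C2 + C3 + C4 + C5, by positivity, fun d => ⟨(H1 d).mono (by linarith) d.hε,
    (H2 d).mono (by linarith) d.hε, (H3 d).mono (by linarith) d.hε,
    (H4 d).mono (by linarith) d.hε, (H5 d).mono (by linarith) d.hε⟩⟩

section near

variable {δ : ℝ} {X Y f : PP → ℝ}

theorem near_der (h : Near δ X Y f) (z : PP) : |dx X z - 1| ≤ δ ∧ |dy X z| ≤ δ ∧
    |dx Y z| ≤ δ ∧ |dy Y z - 1| ≤ δ := by
  have h1 := Cl.bd h.clX.2.1 z (mem_univ z)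
  have h2 := Cl.bd h.clX.2.2 z (mem_univ z)
  have h3 := Cl.bd h.clY.2.1 z (mem_univ z)
  have h4 := Cl.bd h.clY.2.2 z (mem_univ z)
  rw [dx_sub h.smX contDiff_fst, dx_fst] at h1
  rw [dy_sub h.smX contDiff_fst, dy_fst, sub_zero] at h2
  rw [dx_sub h.smY contDiff_snd, dx_snd, sub_zero] at h3
  rw [dy_sub h.smY contDiff_snd, dy_snd] at h4
  exact ⟨h1, h2, h3, h4⟩

theorem near_J (h : Near δ X Y f) (hδ : δ ≤ 1 / 10) (z : PP) : 1 / 2 ≤ br X Y z := by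
  obtain ⟨h1, h2, h3, h4⟩ := near_der h z
  simp only [br]
  rw [abs_le] at *
  nlinarith [h1.1, h1.2, h2.1, h2.2, h3.1, h3.2, h4.1, h4.2,
    mul_nonneg (by linarith [h1.1] : 0 ≤ dx X z - 1 + δ) (by linarith [h4.1] : 0 ≤ dy Y z - 1 + δ),
    mul_nonneg (by linarith [h2.2] : 0 ≤ δ - dy X z) (by linarith [h3.1] : 0 ≤ dx Y z + δ),
    mul_nonneg (by linarith [h2.1] : 0 ≤ δ + dy X z) (by linarith [h3.2] : 0 ≤ δ - dx Y z)]

theorem near_out (h : Near δ X Y f) {z : PP} (hz : z ∈ BB) :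
    X =ᶠ[nhds z] X0 ∧ Y =ᶠ[nhds z] Y0 ∧ f =ᶠ[nhds z] f0 := by
  have hn : BB ∈ nhds z := openB.mem_nhds hz
  refine ⟨?_, ?_, ?_⟩
  · filter_upwards [hn] with w hw; exact (h.out w (le_of_lt hw)).1
  · filter_upwards [hn] with w hw; exact (h.out w (le_of_lt hw)).2.1
  · filter_upwards [hn] with w hw; exact (h.out w (le_of_lt hw)).2.2

theorem near_slp (h : Near δ X Y f) {z : PP} (hz : z ∈ BB) :
    slp X Y f =ᶠ[nhds z] X0 := by
  obtain ⟨h1, h2, h3⟩ := near_out h hz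
  rw [← slp0]
  filter_upwards [br_eventuallyEq h3 h2, br_eventuallyEq h1 h2] with w e1 e2
  simp only [slp, e1, e2]

theorem near_slq (h : Near δ X Y f) {z : PP} (hz : z ∈ BB) :
    slq X Y f =ᶠ[nhds z] fun _ => 0 := by
  obtain ⟨h1, h2, h3⟩ := near_out h hz
  rw [← slq0]
  filter_upwards [br_eventuallyEq h1 h3, br_eventuallyEq h1 h2] with w e1 e2
  simp only [slq, e1, e2]

theorem near_KK (h : Near δ X Y f) {z : PP} (hz : z ∈ BB) : KK X Y f z = 0 := by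
  obtain ⟨h1, h2, h3⟩ := near_out h hz
  have e1 := br_congr (near_slp h hz) (near_slq h hz)
  simp only [KK, e1, br_const_right, zero_div]

theorem near_br (h : Near δ X Y f) {z : PP} (hz : z ∈ BB) : br X Y z = 1 := by
  obtain ⟨h1, h2, h3⟩ := near_out h hz
  rw [br_congr h1 h2, brXY0]

theorem near_brp (h : Near δ X Y f) {z : PP} (hz : z ∈ BB) : br (slp X Y f) Y z = 1 := by
  obtain ⟨h1, h2, h3⟩ := near_out h hz
  rw [br_congr (near_slp h hz) h2, brXY0]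

variable {M : ℝ}

theorem bound_of_near {g g0 : PP → ℝ} {n : ℕ} {A : Set PP} (hg : ContDiff ℝ ∞ g)
    (hg0 : ContDiff ℝ ∞ g0) (h0 : Cl n g0 A M) (h : Cl n (fun z => g z - g0 z) univ δ)
    (hδ : δ ≤ 1) : Cl n g A (M + 1) := by
  have := Cl.add hg0 (hg.sub hg0) h0 (Cl.anti h (subset_univ A))
  refine Cl.mono ?_ (add_le_add_right hδ M)
  convert this using 2
  ring

end near

end Close

open Crest.Agent.Iso341.Test Close

theorem chart_of_near : ∃ Cc : ℝ, 1 ≤ Cc ∧ ∀ δ : ℝ, 0 < δ → δ ≤ 1 / Cc →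
    ∀ X Y f : PP → ℝ, Near δ X Y f →
    (∀ z, br X Y z ≠ 0) ∧ Chart (Cc * δ) (slp X Y f) Y ∧
    ContDiff ℝ ∞ (slq X Y f) ∧ ContDiff ℝ ∞ (KK X Y f) ∧
    Cl 3 (fun z => slp X Y f z - z.1) univ (Cc * δ) ∧ Cl 3 (slq X Y f) univ (Cc * δ) ∧
    Cl 3 (fun z => br X Y z - 1) univ (Cc * δ) ∧
    Cl 2 (fun z => br (slp X Y f) Y z - 1) univ (Cc * δ) := by
  obtain ⟨M, hM, m1, m2, m3, -⟩ := exists_M0
  obtain ⟨C, hC, H⟩ := key (M + 1) (by linarith)
  refine ⟨C + 10, by linarith, fun δ hδ hδC X Y f h => ?_⟩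
  have hCp : 0 < C + 10 := by linarith
  have hδ10 : δ ≤ 1 / 10 := hδC.trans (one_div_le_one_div_of_le (by norm_num) (by linarith))
  have hJ := near_J h hδ10
  have hM1 : δ ≤ (M + 1) * δ := by nlinarith
  let d : Dat (M + 1) :=
    { X := X, Y := Y, f := f, X' := X0, Y' := Y0, f' := f0, A := AA, ε := δ, hε := hδ.le
      hX := ⟨h.smX, sX0, bound_of_near h.smX sX0 m1 h.clX (by linarith), Cl.mono m1 (by linarith),
        Cl.mono (Cl.anti h.clX (subset_univ _)) hM1⟩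
      hY := ⟨h.smY, sY0, bound_of_near h.smY sY0 m2 h.clY (by linarith), Cl.mono m2 (by linarith),
        Cl.mono (Cl.anti h.clY (subset_univ _)) hM1⟩
      hf := ⟨h.smf, sf0, bound_of_near h.smf sf0 m3 h.clf (by linarith), Cl.mono m3 (by linarith),
        Cl.mono (Cl.anti h.clf (subset_univ _)) hM1⟩
      hJ := hJ
      hJ' := fun z => by rw [brXY0]; norm_num }
  obtain ⟨h1, h2, h3, h4, h5⟩ := H d
  have hp0 : 0 ≤ C * δ := by positivity
  have hle : C * δ ≤ (C + 10) * δ := by nlinarith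
  have hle2 : δ ≤ (C + 10) * δ := by nlinarith
  have c1 : Cl 3 (fun z => slp X Y f z - z.1) univ ((C + 10) * δ) := by
    refine Cl.mono (Cl_univ (c := C * δ) ?_ ?_ hp0) hle
    · have := h1.bd
      simp only [d, slp0] at this
      exact this
    · intro z hz
      rw [(near_slp h hz).eq_of_nhds]; simp [X0]
  have c2 : Cl 3 (slq X Y f) univ ((C + 10) * δ) := by
    refine Cl.mono (Cl_univ (c := C * δ) ?_ ?_ hp0) hle
    · have := h2.bd
      simp only [d, slq0, sub_zero] at this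
      exact this
    · intro z hz
      rw [(near_slq h hz).eq_of_nhds]
  have c3 : Cl 3 (fun z => br X Y z - 1) univ ((C + 10) * δ) := by
    refine Cl.mono (Cl_univ (c := C * δ) ?_ ?_ hp0) hle
    · have := h3.bd
      simp only [d, brXY0] at this
      exact this
    · intro z hz
      rw [near_br h hz, sub_self]
  have c4 : Cl 2 (fun z => br (slp X Y f) Y z - 1) univ ((C + 10) * δ) := by
    refine Cl.mono (Cl_univ (c := C * δ) ?_ ?_ hp0) hle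
    · have := h5.bd
      simp only [d, slp0, brXY0] at this
      exact this
    · intro z hz
      rw [near_brp h hz, sub_self]
  refine ⟨fun z => by have := hJ z; positivity, ?_, h2.smf, h4.smf, c1, c2, c3, c4⟩
  have hders := near_der h
  have hpd := fun z => Cl.bd c1.2.1 z (mem_univ z)
  have hpd' := fun z => Cl.bd c1.2.2 z (mem_univ z)
  exact
    { smp := h1.smf
      smY := h.smY
      p0 := fun z => Cl.bd c1 z (mem_univ z)
      Y0 := fun z => (Cl.bd h.clY z (mem_univ z)).trans hle2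
      px := fun z => by
        have := hpd z
        rwa [dx_sub h1.smf contDiff_fst, dx_fst] at this
      py := fun z => by
        have := hpd' z
        rwa [dy_sub h1.smf contDiff_fst, dy_fst, sub_zero] at this
      Yx := fun z => (hders z).2.2.1.trans hle2
      Yy := fun z => (hders z).2.2.2.trans hle2 }

theorem near_diff : ∃ Cc : ℝ, 1 ≤ Cc ∧ ∀ δ δ₁ : ℝ, 0 < δ → δ ≤ 1 / Cc → 0 < δ₁ → δ₁ ≤ 1 →
    ∀ X Y f X' Y' f' : PP → ℝ, Near δ X Y f → Near δ X' Y' f' →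
    Cl 4 (fun z => X z - X' z) univ δ₁ → Cl 4 (fun z => Y z - Y' z) univ δ₁ →
    Cl 4 (fun z => f z - f' z) univ δ₁ →
    Cl 3 (fun z => slp X Y f z - slp X' Y' f' z) univ (Cc * δ₁) ∧
    Cl 2 (fun z => KK X Y f z - KK X' Y' f' z) univ (Cc * δ₁) := by
  obtain ⟨M, hM, m1, m2, m3, -⟩ := exists_M0
  obtain ⟨C, hC, H⟩ := key (M + 1) (by linarith)
  refine ⟨C + 10, by linarith, fun δ δ₁ hδ hδC hδ₁ hδ₁1 X Y f X' Y' f' h h' dX dY df => ?_⟩
  have hδ10 : δ ≤ 1 / 10 := hδC.trans (one_div_le_one_div_of_le (by norm_num) (by linarith))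
  have hM1 : δ₁ ≤ (M + 1) * δ₁ := by nlinarith
  let d : Dat (M + 1) :=
    { X := X, Y := Y, f := f, X' := X', Y' := Y', f' := f', A := AA, ε := δ₁, hε := hδ₁.le
      hX := ⟨h.smX, h'.smX, bound_of_near h.smX sX0 m1 h.clX (by linarith),
        bound_of_near h'.smX sX0 m1 h'.clX (by linarith),
        Cl.mono (Cl.anti dX (subset_univ _)) hM1⟩
      hY := ⟨h.smY, h'.smY, bound_of_near h.smY sY0 m2 h.clY (by linarith),
        bound_of_near h'.smY sY0 m2 h'.clY (by linarith),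
        Cl.mono (Cl.anti dY (subset_univ _)) hM1⟩
      hf := ⟨h.smf, h'.smf, bound_of_near h.smf sf0 m3 h.clf (by linarith),
        bound_of_near h'.smf sf0 m3 h'.clf (by linarith),
        Cl.mono (Cl.anti df (subset_univ _)) hM1⟩
      hJ := near_J h hδ10
      hJ' := near_J h' hδ10 }
  obtain ⟨h1, h2, h3, h4, h5⟩ := H d
  have hp0 : 0 ≤ C * δ₁ := by positivity
  have hle : C * δ₁ ≤ (C + 10) * δ₁ := by nlinarith
  refine ⟨Cl.mono (Cl_univ (c := C * δ₁) h1.bd ?_ hp0) hle,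
    Cl.mono (Cl_univ (c := C * δ₁) h4.bd ?_ hp0) hle⟩
  · intro z hz
    rw [(near_slp h hz).eq_of_nhds, (near_slp h' hz).eq_of_nhds, sub_self]
  · intro z hz
    rw [near_KK h hz, near_KK h' hz, sub_self]

namespace Close

/-- data for `k` -/
structure Dat3 (M : ℝ) where
  L : PP → ℝ
  h : PP → ℝ
  J : PP → ℝ
  A : Set PP
  ε : ℝ
  hε : 0 ≤ ε
  hε1 : ε ≤ 1
  hL : Pn 2 L w0 A M ε
  hs : ContDiff ℝ ∞ h
  hh : Cl 2 h A (M * ε)
  hJ : Pn 2 J (fun _ => 1) A M ε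
  hJ2 : ∀ z, 1 / 2 ≤ J z

theorem key3 (M : ℝ) (hM : 0 < M) : ∃ C : ℝ, 0 < C ∧ ∀ d : Dat3 M,
    Pn 2 (fun z => d.L z * Real.exp (d.h z) * (((d.J z)⁻¹ * (d.J z)⁻¹) * ((d.J z)⁻¹ * (d.J z)⁻¹)))
      (fun z => w0 z * 1 * (((1 : ℝ)⁻¹ * (1 : ℝ)⁻¹) * ((1 : ℝ)⁻¹ * (1 : ℝ)⁻¹))) d.A C d.ε := by
  have hε : ∀ d : Dat3 M, 0 ≤ d.ε := fun d => d.hε
  have gL : Good Dat3.A Dat3.ε 2 (Dat3.L (M := M)) (fun _ => w0) := ⟨M, hM, fun d => d.hL⟩
  have gJ : Good Dat3.A Dat3.ε 2 (Dat3.J (M := M)) (fun _ _ => 1) := ⟨M, hM, fun d => d.hJ⟩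
  have gi := Good.inv hε gJ (fun d => d.hJ2) (fun _ _ => by norm_num)
  have ge : Good Dat3.A Dat3.ε 2 (fun (d : Dat3 M) z => Real.exp (d.h z)) (fun _ _ => 1) := by
    obtain ⟨C, hC, H⟩ := Cl_exp_sub 2 M hM.le
    refine ⟨C * M + 1, by positivity, fun d => ?_⟩
    have h0 : M * d.ε ≤ M := by nlinarith [d.hε1]
    have h1 := H d.h d.A (M * d.ε) (mul_nonneg hM.le d.hε) h0 d.hs d.hh
    have hc : Cl 2 (fun _ : PP => (1 : ℝ)) d.A 1 := Cl.const (by norm_num)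
    have hes : ContDiff ℝ ∞ (fun z => Real.exp (d.h z)) := d.hs.exp
    refine ⟨hes, contDiff_const, ?_, Cl.mono hc (by nlinarith), Cl.mono h1 ?_⟩
    · have h2 := Cl.add (hes.sub contDiff_const) contDiff_const h1 hc
      refine Cl.mono ?_ (add_le_add_left (mul_le_mul_of_nonneg_left h0 hC.le) 1)
      convert h2 using 2
      ring
    · nlinarith [d.hε]
  obtain ⟨C, hC, H⟩ := Good.mul hε (Good.mul hε gL ge) (Good.mul hε (Good.mul hε gi gi)
    (Good.mul hε gi gi))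
  exact ⟨C, hC, H⟩

/-- data for the derivatives of `k` in the chart -/
structure Dat2 (M : ℝ) where
  p : PP → ℝ
  Y : PP → ℝ
  k : PP → ℝ
  A : Set PP
  ε : ℝ
  hε : 0 ≤ ε
  hp : Pn 3 p X0 A M ε
  hY : Pn 3 Y Y0 A M ε
  hk : Pn 2 k w0 A M ε
  hJ : ∀ z, 1 / 2 ≤ br p Y z

theorem key2 (M : ℝ) (hM : 0 < M) : ∃ C : ℝ, 0 < C ∧ ∀ d : Dat2 M,
    Pn 1 (Dp d.p d.Y d.k) (Dp X0 Y0 w0) d.A C d.ε ∧
    Pn 1 (Dy d.p d.Y d.k) (Dy X0 Y0 w0) d.A C d.ε ∧
    Pn 0 (Dp d.p d.Y (Dp d.p d.Y d.k)) (Dp X0 Y0 (Dp X0 Y0 w0)) d.A C d.ε ∧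
    Pn 0 (Dy d.p d.Y (Dy d.p d.Y d.k)) (Dy X0 Y0 (Dy X0 Y0 w0)) d.A C d.ε := by
  have hε : ∀ d : Dat2 M, 0 ≤ d.ε := fun d => d.hε
  have gp : Good Dat2.A Dat2.ε 3 (Dat2.p (M := M)) (fun _ => X0) := ⟨M, hM, fun d => d.hp⟩
  have gY : Good Dat2.A Dat2.ε 3 (Dat2.Y (M := M)) (fun _ => Y0) := ⟨M, hM, fun d => d.hY⟩
  have gk : Good Dat2.A Dat2.ε 2 (Dat2.k (M := M)) (fun _ => w0) := ⟨M, hM, fun d => d.hk⟩
  have gJ : Good Dat2.A Dat2.ε 2 (fun d : Dat2 M => br d.p d.Y) (fun _ => br X0 Y0) :=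
    Good.br hε gp gY
  have hJ0 : ∀ (_ : Dat2 M) (z : PP), 1 / 2 ≤ br X0 Y0 z := fun _ z => by rw [brXY0]; norm_num
  have g1 : Good Dat2.A Dat2.ε 1 (fun d : Dat2 M => Dp d.p d.Y d.k) (fun _ => Dp X0 Y0 w0) :=
    Good.div hε (Good.br hε gk (gY.le (by norm_num))) (gJ.le (by norm_num)) (fun d => d.hJ) hJ0
  have g2 : Good Dat2.A Dat2.ε 1 (fun d : Dat2 M => Dy d.p d.Y d.k) (fun _ => Dy X0 Y0 w0) :=
    Good.div hε (Good.br hε (gp.le (by norm_num)) gk) (gJ.le (by norm_num)) (fun d => d.hJ) hJ0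
  have g3 : Good Dat2.A Dat2.ε 0 (fun d : Dat2 M => Dp d.p d.Y (Dp d.p d.Y d.k))
      (fun _ => Dp X0 Y0 (Dp X0 Y0 w0)) :=
    Good.div hε (Good.br hε g1 (gY.le (by norm_num))) (gJ.le (by norm_num)) (fun d => d.hJ) hJ0
  have g4 : Good Dat2.A Dat2.ε 0 (fun d : Dat2 M => Dy d.p d.Y (Dy d.p d.Y d.k))
      (fun _ => Dy X0 Y0 (Dy X0 Y0 w0)) :=
    Good.div hε (Good.br hε (gp.le (by norm_num)) g2) (gJ.le (by norm_num)) (fun d => d.hJ) hJ0
  obtain ⟨C1, h1, H1⟩ := g1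
  obtain ⟨C2, h2, H2⟩ := g2
  obtain ⟨C3, h3, H3⟩ := g3
  obtain ⟨C4, h4, H4⟩ := g4
  exact ⟨C1 + C2 + C3 + C4, by positivity, fun d => ⟨(H1 d).mono (by linarith) d.hε,
    (H2 d).mono (by linarith) d.hε, (H3 d).mono (by linarith) d.hε,
    (H4 d).mono (by linarith) d.hε⟩⟩

/-- the Gauss equation, solved for `KK` -/
theorem KK_eq {m κ : ℝ} (hm : 0 < m) (hκ : 0 < κ) {X Y f v₀ : PP → ℝ} {z : PP}
    (hJ : br X Y z ≠ 0)
    (h : m * KK X Y f z * br X Y z ^ 4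
      = -(dx (dx (fun w => κ * m * v₀ w)) z + dy (dy (fun w => κ * m * v₀ w)) z)
        * Real.exp (6 * (κ * m * v₀ z))) (hv : ContDiff ℝ ∞ v₀) :
    KK X Y f z / κ = -(dx (dx v₀) z + dy (dy v₀) z) * Real.exp (6 * (κ * m) * v₀ z) *
      (((br X Y z)⁻¹ * (br X Y z)⁻¹) * ((br X Y z)⁻¹ * (br X Y z)⁻¹)) := by
  have e1 : dx (fun w => κ * m * v₀ w) = fun w => κ * m * dx v₀ w :=
    funext (dx_const_mul _ hv)
  have e2 : dy (fun w => κ * m * v₀ w) = fun w => κ * m * dy v₀ w :=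
    funext (dy_const_mul _ hv)
  rw [e1, e2, dx_const_mul _ (contDiff_dx hv), dy_const_mul _ (contDiff_dy hv)] at h
  have e3 : 6 * (κ * m) * v₀ z = 6 * (κ * m * v₀ z) := by ring
  rw [e3]
  set E := Real.exp (6 * (κ * m * v₀ z)) with hE
  field_simp
  have h4 : m * (KK X Y f z * br X Y z ^ 4) =
      m * (κ * (-(dx (dx v₀) z + dy (dy v₀) z) * E)) := by
    rw [← mul_assoc, h]; ring
  have h5 := mul_left_cancel₀ hm.ne' h4
  linarith

end Close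

theorem pocket_of_near : ∃ Cc : ℝ, 1 ≤ Cc ∧ ∀ δ δ₁ κ m : ℝ, 0 < δ → δ ≤ 1 / Cc → 0 < δ₁ →
    δ₁ ≤ κ * δ → 0 < κ → κ ≤ 1 → 0 < m → m ≤ 1 → κ * m ≤ δ →
    ∀ X Y f X' Y' f' v₀ : PP → ℝ, Near δ X Y f → Near δ X' Y' f' →
    Cl 4 (fun z => X z - X' z) univ δ₁ → Cl 4 (fun z => Y z - Y' z) univ δ₁ →
    Cl 4 (fun z => f z - f' z) univ δ₁ → ContDiff ℝ ∞ v₀ →
    Cl 4 v₀ {z : PP | z.1 ^ 2 + z.2 ^ 2 < 9 / 4} 100 →
    Cl 2 (fun z => -(dx (dx v₀) z + dy (dy v₀) z) - (z.1 ^ 2 + z.2 ^ 2 - 1 / 4))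
      {z : PP | z.1 ^ 2 + z.2 ^ 2 < 9 / 4} δ →
    (∀ z : PP, z.1 ^ 2 + z.2 ^ 2 < 9 / 4 →
      dx X' z ^ 2 + dx Y' z ^ 2 + m * dx f' z ^ 2 = Real.exp (2 * (κ * m * v₀ z))) →
    (∀ z : PP, z.1 ^ 2 + z.2 ^ 2 < 9 / 4 →
      dy X' z ^ 2 + dy Y' z ^ 2 + m * dy f' z ^ 2 = Real.exp (2 * (κ * m * v₀ z))) →
    (∀ z : PP, z.1 ^ 2 + z.2 ^ 2 < 9 / 4 →
      dx X' z * dy X' z + dx Y' z * dy Y' z + m * (dx f' z * dy f' z) = 0) →
    Pocket (Cc * δ) (slp X Y f) Y (fun z => KK X Y f z / κ) := by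
  obtain ⟨M, hM, m1, m2, -, m4⟩ := exists_M0
  obtain ⟨C1, hC1, H1⟩ := chart_of_near
  obtain ⟨C2, hC2, H2⟩ := near_diff
  obtain ⟨C3, hC3, H3⟩ := key3 (M + C1 + 601) (by linarith)
  obtain ⟨C4, hC4, H4⟩ := key2 (M + C1 + C2 + C3 + 1) (by linarith)
  refine ⟨100 * C1 + C2 + C3 + C4 + 100, by linarith, ?_⟩
  intro δ δ₁ κ m hδ hδC hδ₁ hδ₁κ hκ hκ1 hm hm1 hκm X Y f X' Y' f' v₀ h h' dX dY df hv hv4 hv2
    e1 e2 e3
  set Cc := 100 * C1 + C2 + C3 + C4 + 100 with hCc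
  have hCcp : 0 < Cc := by rw [hCc]; linarith
  have hCδ : Cc * δ ≤ 1 := by
    have := mul_le_mul_of_nonneg_left hδC hCcp.le
    rwa [mul_one_div, div_self hCcp.ne'] at this
  have hexp : Cc * δ = 100 * (C1 * δ) + C2 * δ + C3 * δ + C4 * δ + 100 * δ := by rw [hCc]; ring
  have p1 : 0 < C1 * δ := by positivity
  have p2 : 0 < C2 * δ := by positivity
  have p3 : 0 < C3 * δ := by positivity
  have p4 : 0 < C4 * δ := by positivity
  have hδ1 : δ ≤ 1 := by linarith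
  have hC1δ : δ ≤ 1 / C1 := by
    rw [le_div_iff₀ (by linarith)]; linarith
  have hC2δ : δ ≤ 1 / C2 := by
    rw [le_div_iff₀ (by linarith)]; linarith
  obtain ⟨c1, c2, c3, c4, c5, c6, c7, c8⟩ := H1 δ hδ hC1δ X Y f h
  obtain ⟨c1', c2', c3', c4', c5', c6', c7', c8'⟩ := H1 δ hδ hC1δ X' Y' f' h'
  have hδ₁1 : δ₁ ≤ 1 := hδ₁κ.trans (by nlinarith)
  obtain ⟨n1, n2⟩ := H2 δ δ₁ hδ hC2δ hδ₁ hδ₁1 X Y f X' Y' f' h h' dX dY df
  -- gauss
  have hL : ContDiff ℝ ∞ (fun z => -(dx (dx v₀) z + dy (dy v₀) z)) :=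
    ((contDiff_dx (contDiff_dx hv)).add (contDiff_dy (contDiff_dy hv))).neg
  have G := gauss m hm X' Y' f' (fun w => κ * m * v₀ w) h'.smX h'.smY h'.smf
    (contDiff_const.mul hv) c1' UU openU (fun z hz => e1 z hz) (fun z hz => e2 z hz)
    (fun z hz => e3 z hz)
  have w2 : Cl 2 w0 UU M := Cl.anti (Cl.le m4 (by norm_num)) UA
  have hw2 : Cl 2 (fun z => -(dx (dx v₀) z + dy (dy v₀) z) - w0 z) UU δ := hv2
  have hLb : Cl 2 (fun z => -(dx (dx v₀) z + dy (dy v₀) z)) UU (M + 1) := by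
    have := Cl.add sw0 (hL.sub sw0) w2 hw2
    refine Cl.mono ?_ (add_le_add_right hδ1 M)
    convert this using 2
    ring
  have hone : Cl 2 (fun _ : PP => (1 : ℝ)) UU 1 := Cl.const (by norm_num)
  have hJs : ContDiff ℝ ∞ (br X' Y') := contDiff_br h'.smX h'.smY
  have hJd : Cl 2 (fun z => br X' Y' z - 1) UU (C1 * δ) :=
    Cl.anti (Cl.le c7' (by norm_num)) (subset_univ _)
  have hJb : Cl 2 (br X' Y') UU (1 + 1) := by
    have := Cl.add contDiff_const (hJs.sub contDiff_const) hone hJd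
    refine Cl.mono ?_ (add_le_add_right (by linarith : C1 * δ ≤ 1) 1)
    convert this using 2
    ring
  have hJ2 : ∀ z, 1 / 2 ≤ br X' Y' z := near_J h' (by linarith)
  let d : Dat3 (M + C1 + 601) :=
    { L := fun z => -(dx (dx v₀) z + dy (dy v₀) z)
      h := fun z => 6 * (κ * m) * v₀ z
      J := br X' Y'
      A := UU
      ε := δ
      hε := hδ.le
      hε1 := hδ1
      hL := ⟨hL, sw0, Cl.mono hLb (by linarith), Cl.mono w2 (by linarith),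
        Cl.mono hw2 (by nlinarith)⟩
      hs := contDiff_const.mul hv
      hh := by
        have := Cl.const_mul (c := 6 * (κ * m)) hv (Cl.le hv4 (by norm_num : 2 ≤ 4))
        refine Cl.mono this ?_
        rw [abs_of_pos (by positivity)]
        nlinarith
      hJ := ⟨hJs, contDiff_const, Cl.mono hJb (by linarith), Cl.mono hone (by linarith),
        Cl.mono hJd (by nlinarith)⟩
      hJ2 := hJ2 }
  have k1 := (H3 d).bd
  have k2 : Cl 2 (fun z => KK X' Y' f' z / κ - w0 z) UU (C3 * δ) := by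
    refine Cl.congr_on openU ?_ k1
    intro z hz
    rw [KK_eq hm hκ (c1' z) (G z hz) hv]
    simp only [d]
    norm_num
  have k3 : Cl 2 (fun z => κ⁻¹ * (KK X Y f z - KK X' Y' f' z)) UU (C2 * δ) := by
    have := Cl.const_mul (c := κ⁻¹) (c4.sub c4') (Cl.anti n2 (subset_univ UU))
    refine Cl.mono this ?_
    rw [abs_of_pos (by positivity), inv_mul_le_iff₀ hκ]
    nlinarith
  have hks : ContDiff ℝ ∞ (fun z => KK X Y f z / κ) := c4.div_const κ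
  have hks' : ContDiff ℝ ∞ (fun z => KK X' Y' f' z / κ) := c4'.div_const κ
  have k4 : Cl 2 (fun z => KK X Y f z / κ - w0 z) UU (C2 * δ + C3 * δ) := by
    have := Cl.add (contDiff_const.mul (c4.sub c4')) (hks'.sub sw0) k3 k2
    convert this using 2
    field_simp
    ring
  have k5 : Cl 2 (fun z => KK X Y f z / κ) UU (M + 1) := by
    have := Cl.add sw0 (hks.sub sw0) w2 k4
    refine Cl.mono ?_ (add_le_add_right (by linarith : C2 * δ + C3 * δ ≤ 1) M)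
    convert this using 2
    ring
  have hJp : ∀ z, 1 / 2 ≤ br (slp X Y f) Y z := fun z => by
    have := Cl.bd c8 z (mem_univ z)
    rw [abs_le] at this
    linarith [this.1]
  have x3 : Cl 3 X0 UU M := Cl.anti (Cl.le m1 (by norm_num)) UA
  have y3 : Cl 3 Y0 UU M := Cl.anti (Cl.le m2 (by norm_num)) UA
  have hpb : Cl 3 (slp X Y f) UU (M + 1) := bound_of_near c2.smp sX0 x3 c5 (by linarith)
  have hYb : Cl 3 Y UU (M + 1) := bound_of_near h.smY sY0 y3 (Cl.le h.clY (by norm_num)) hδ1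
  let d2 : Dat2 (M + C1 + C2 + C3 + 1) :=
    { p := slp X Y f
      Y := Y
      k := fun z => KK X Y f z / κ
      A := UU
      ε := δ
      hε := hδ.le
      hp := ⟨c2.smp, sX0, Cl.mono hpb (by linarith), Cl.mono x3 (by linarith),
        Cl.mono (Cl.anti c5 (subset_univ _)) (by nlinarith)⟩
      hY := ⟨h.smY, sY0, Cl.mono hYb (by linarith), Cl.mono y3 (by linarith),
        Cl.mono (Cl.anti (Cl.le h.clY (by norm_num)) (subset_univ _)) (by nlinarith)⟩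
      hk := ⟨hks, sw0, Cl.mono k5 (by linarith), Cl.mono w2 (by linarith),
        Cl.mono k4 (by nlinarith)⟩
      hJ := hJp }
  obtain ⟨q1, q2, q3, q4⟩ := H4 d2
  -- points of the pocket
  have hpt : ∀ z, slp X Y f z ^ 2 + Y z ^ 2 < 1 → z ∈ UU ∧ |z.1 + slp X Y f z| ≤ 3 ∧
      |z.2 + Y z| ≤ 3 ∧ |slp X Y f z - z.1| ≤ C1 * δ ∧ |Y z - z.2| ≤ δ := by
    intro z hz
    have t1 := c2.p0 z
    have t2 := Cl.bd h.clY z (mem_univ z)
    have s1 : |slp X Y f z| ≤ 1 := abs_le_of_sq_le_sq (by nlinarith [sq_nonneg (Y z)]) (by norm_num)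
    have s2 : |Y z| ≤ 1 := abs_le_of_sq_le_sq (by nlinarith [sq_nonneg (slp X Y f z)]) (by norm_num)
    have u1 := t1
    have u2 := t2
    rw [abs_le] at u1 u2 s1 s2
    have v1 : C1 * δ ≤ 1 / 100 := by linarith
    have v2 : δ ≤ 1 / 100 := by linarith
    refine ⟨?_, ?_, ?_, t1, t2⟩
    · simp only [UU, mem_ofPred_eq]
      have w1 : z.1 ^ 2 ≤ slp X Y f z ^ 2 + 3 / 100 := by
        nlinarith [u1.1, u1.2, s1.1, s1.2]
      have w2 : z.2 ^ 2 ≤ Y z ^ 2 + 3 / 100 := by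
        nlinarith [u2.1, u2.2, s2.1, s2.2]
      linarith
    · rw [abs_le]; constructor <;> linarith [u1.1, u1.2, s1.1, s1.2]
    · rw [abs_le]; constructor <;> linarith [u2.1, u2.2, s2.1, s2.2]
  have fin : ∀ (g g0 : PP → ℝ) (n : ℕ), Pn n g g0 UU C4 δ → ∀ z ∈ UU, |g z - g0 z| ≤ C4 * δ :=
    fun g g0 n hg z hz => Cl.bd hg.bd z hz
  refine ⟨hks, ?_, ?_, ?_, ?_, ?_⟩
  · intro z hz
    obtain ⟨z1, z2, z3, z4, z5⟩ := hpt z hz
    have a1 := Cl.bd k4 z z1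
    have a2 : |w0 z - (slp X Y f z ^ 2 + Y z ^ 2 - 1 / 4)| ≤ 3 * (C1 * δ) + 3 * δ := by
      have : w0 z - (slp X Y f z ^ 2 + Y z ^ 2 - 1 / 4)
          = -((slp X Y f z - z.1) * (z.1 + slp X Y f z)) - (Y z - z.2) * (z.2 + Y z) := by
        simp only [w0]; ring
      rw [this]
      refine (abs_sub _ _).trans (add_le_add ?_ ?_)
      · rw [abs_neg, abs_mul, mul_comm]
        exact mul_le_mul z2 z4 (abs_nonneg _) (by norm_num)
      · rw [abs_mul, mul_comm]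
        exact mul_le_mul z3 z5 (abs_nonneg _) (by norm_num)
    have a3 := abs_sub_le (KK X Y f z / κ) (w0 z) (slp X Y f z ^ 2 + Y z ^ 2 - 1 / 4)
    rw [hexp]
    linarith
  · intro z hz
    obtain ⟨z1, z2, z3, z4, z5⟩ := hpt z hz
    have a1 := fin _ _ _ q1 z z1
    rw [Dp0, dxw0] at a1
    have a3 := abs_sub_le (Dp (slp X Y f) Y (fun z => KK X Y f z / κ) z) (2 * z.1)
      (2 * slp X Y f z)
    have a4 : |2 * z.1 - 2 * slp X Y f z| = 2 * |slp X Y f z - z.1| := by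
      rw [← mul_sub, abs_mul, abs_sub_comm]; norm_num
    rw [a4] at a3
    rw [hexp]
    simp only [d2] at a1
    linarith
  · intro z hz
    obtain ⟨z1, z2, z3, z4, z5⟩ := hpt z hz
    have a1 := fin _ _ _ q2 z z1
    rw [Dy0, dyw0] at a1
    have a3 := abs_sub_le (Dy (slp X Y f) Y (fun z => KK X Y f z / κ) z) (2 * z.2)
      (2 * Y z)
    have a4 : |2 * z.2 - 2 * Y z| = 2 * |Y z - z.2| := by
      rw [← mul_sub, abs_mul, abs_sub_comm]; norm_num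
    rw [a4] at a3
    rw [hexp]
    simp only [d2] at a1
    linarith
  · intro z hz
    obtain ⟨z1, z2, z3, z4, z5⟩ := hpt z hz
    have a1 := fin _ _ _ q3 z z1
    rw [Dp0, Dp0, dxdxw0] at a1
    simp only [d2] at a1
    rw [abs_le] at a1 ⊢
    constructor <;> linarith [a1.1, a1.2]
  · intro z hz
    obtain ⟨z1, z2, z3, z4, z5⟩ := hpt z hz
    have a1 := fin _ _ _ q4 z z1
    rw [Dy0, Dy0, dydyw0] at a1
    simp only [d2] at a1
    rw [abs_le] at a1 ⊢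
    constructor <;> linarith [a1.1, a1.2]

end Crest.Agent.Iso341
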