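import Crest.Agent.Iso341.Calc

/-! S0341, part GEOM (Gauss equation): `gauss_ambient` and `gauss`. -/

set_option autoImplicit false

open MeasureTheory Set
open scoped ContDiff

namespace Crest.Agent.Iso341

/-- derivative of a weighted scalar product of vector fields -/
theorem dx_trip {A1 B1 A2 B2 A3 B3 : PP → ℝ} {z : PP} (m : ℝ)
    (a1 : DifferentiableAt ℝ A1 z) (b1 : DifferentiableAt ℝ B1 z)
    (a2 : DifferentiableAt ℝ A2 z) (b2 : DifferentiableAt ℝ B2 z)
    (a3 : DifferentiableAt ℝ A3 z) (b3 : DifferentiableAt ℝ B3 z) :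
    dx (fun w => A1 w * B1 w + A2 w * B2 w + m * (A3 w * B3 w)) z
      = (dx A1 z * B1 z + A1 z * dx B1 z) + (dx A2 z * B2 z + A2 z * dx B2 z)
        + m * (dx A3 z * B3 z + A3 z * dx B3 z) := by
  rw [dx_add_at ((a1.fun_mul b1).fun_add (a2.fun_mul b2))
      ((differentiableAt_const m).fun_mul (a3.fun_mul b3)),
    dx_add_at (a1.fun_mul b1) (a2.fun_mul b2), dx_mul_at a1 b1, dx_mul_at a2 b2,
    dx_mul_at (differentiableAt_const m) (a3.fun_mul b3), dx_mul_at a3 b3, dx_const]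
  ring

theorem dy_trip {A1 B1 A2 B2 A3 B3 : PP → ℝ} {z : PP} (m : ℝ)
    (a1 : DifferentiableAt ℝ A1 z) (b1 : DifferentiableAt ℝ B1 z)
    (a2 : DifferentiableAt ℝ A2 z) (b2 : DifferentiableAt ℝ B2 z)
    (a3 : DifferentiableAt ℝ A3 z) (b3 : DifferentiableAt ℝ B3 z) :
    dy (fun w => A1 w * B1 w + A2 w * B2 w + m * (A3 w * B3 w)) z
      = (dy A1 z * B1 z + A1 z * dy B1 z) + (dy A2 z * B2 z + A2 z * dy B2 z)
        + m * (dy A3 z * B3 z + A3 z * dy B3 z) := by
  rw [dy_add_at ((a1.fun_mul b1).fun_add (a2.fun_mul b2))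
      ((differentiableAt_const m).fun_mul (a3.fun_mul b3)),
    dy_add_at (a1.fun_mul b1) (a2.fun_mul b2), dy_mul_at a1 b1, dy_mul_at a2 b2,
    dy_mul_at (differentiableAt_const m) (a3.fun_mul b3), dy_mul_at a3 b3, dy_const]
  ring

theorem dx_exp2_at {v : PP → ℝ} {z : PP} (hv : DifferentiableAt ℝ v z) :
    dx (fun w => Real.exp (2 * v w)) z = 2 * dx v z * Real.exp (2 * v z) := by
  have h := dx_comp_at (G := fun t => Real.exp (2 * t)) (f := v) (z := z) (by fun_prop) hv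
  rw [h]
  have : deriv (fun t => Real.exp (2 * t)) (v z) = 2 * Real.exp (2 * v z) := by
    have h1 : HasDerivAt (fun t => Real.exp (2 * t)) (Real.exp (2 * v z) * (2 * 1)) (v z) :=
      ((hasDerivAt_id (v z)).const_mul 2).exp
    rw [h1.deriv]; ring
  rw [this]; ring

theorem dy_exp2_at {v : PP → ℝ} {z : PP} (hv : DifferentiableAt ℝ v z) :
    dy (fun w => Real.exp (2 * v w)) z = 2 * dy v z * Real.exp (2 * v z) := by
  have h := dy_comp_at (G := fun t => Real.exp (2 * t)) (f := v) (z := z) (by fun_prop) hv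
  rw [h]
  have : deriv (fun t => Real.exp (2 * t)) (v z) = 2 * Real.exp (2 * v z) := by
    have h1 : HasDerivAt (fun t => Real.exp (2 * t)) (Real.exp (2 * v z) * (2 * 1)) (v z) :=
      ((hasDerivAt_id (v z)).const_mul 2).exp
    rw [h1.deriv]; ring
  rw [this]; ring

/-- the six Christoffel identities of an isothermal immersion -/
theorem christoffel (m : ℝ) (X Y f v : PP → ℝ) (U : Set PP) (hU : IsOpen U)
    (hX : ContDiffOn ℝ ∞ X U) (hY : ContDiffOn ℝ ∞ Y U) (hf : ContDiffOn ℝ ∞ f U)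
    (hv : ContDiffOn ℝ ∞ v U)
    (h1 : ∀ z ∈ U, dx X z ^ 2 + dx Y z ^ 2 + m * dx f z ^ 2 = Real.exp (2 * v z))
    (h2 : ∀ z ∈ U, dy X z ^ 2 + dy Y z ^ 2 + m * dy f z ^ 2 = Real.exp (2 * v z))
    (h3 : ∀ z ∈ U, dx X z * dy X z + dx Y z * dy Y z + m * (dx f z * dy f z) = 0) :
    ∀ z ∈ U,
      (dx X z * dx (dx X) z + dx Y z * dx (dx Y) z + m * (dx f z * dx (dx f) z)
        = dx v z * Real.exp (2 * v z)) ∧
      (dx X z * dx (dy X) z + dx Y z * dx (dy Y) z + m * (dx f z * dx (dy f) z)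
        = dy v z * Real.exp (2 * v z)) ∧
      (dy X z * dx (dy X) z + dy Y z * dx (dy Y) z + m * (dy f z * dx (dy f) z)
        = dx v z * Real.exp (2 * v z)) ∧
      (dy X z * dy (dy X) z + dy Y z * dy (dy Y) z + m * (dy f z * dy (dy f) z)
        = dy v z * Real.exp (2 * v z)) ∧
      (dy X z * dx (dx X) z + dy Y z * dx (dx Y) z + m * (dy f z * dx (dx f) z)
        = - (dy v z * Real.exp (2 * v z))) ∧
      (dx X z * dy (dy X) z + dx Y z * dy (dy Y) z + m * (dx f z * dy (dy f) z)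
        = - (dx v z * Real.exp (2 * v z))) := by
  intro z hz
  have xX := diffAt_on hU (contDiffOn_dx hU hX) hz
  have yX := diffAt_on hU (contDiffOn_dy hU hX) hz
  have xY := diffAt_on hU (contDiffOn_dx hU hY) hz
  have yY := diffAt_on hU (contDiffOn_dy hU hY) hz
  have xf := diffAt_on hU (contDiffOn_dx hU hf) hz
  have yf := diffAt_on hU (contDiffOn_dy hU hf) hz
  have dv := diffAt_on hU hv hz
  have sX := dx_dy_on hU hX hz
  have sY := dx_dy_on hU hY hz
  have sf := dx_dy_on hU hf hz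
  have h1' : ∀ z ∈ U, (fun w => dx X w * dx X w + dx Y w * dx Y w + m * (dx f w * dx f w)) z
      = (fun w => Real.exp (2 * v w)) z := by
    intro w hw; have := h1 w hw; simp only; rw [← this]; ring
  have h2' : ∀ z ∈ U, (fun w => dy X w * dy X w + dy Y w * dy Y w + m * (dy f w * dy f w)) z
      = (fun w => Real.exp (2 * v w)) z := by
    intro w hw; have := h2 w hw; simp only; rw [← this]; ring
  have e1 := dx_congr_on hU h1' z hz
  have e2 := dy_congr_on hU h1' z hz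
  have e3 := dx_congr_on hU h2' z hz
  have e4 := dy_congr_on hU h2' z hz
  have h3' : ∀ z ∈ U, (fun w => dx X w * dy X w + dx Y w * dy Y w + m * (dx f w * dy f w)) z
      = (fun _ => (0 : ℝ)) z := fun w hw => h3 w hw
  have e5 := dx_congr_on hU h3' z hz
  have e6 := dy_congr_on hU h3' z hz
  rw [dx_trip m xX xX xY xY xf xf, dx_exp2_at dv] at e1
  rw [dy_trip m xX xX xY xY xf xf, dy_exp2_at dv, ← sX, ← sY, ← sf] at e2
  rw [dx_trip m yX yX yY yY yf yf, dx_exp2_at dv] at e3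
  rw [dy_trip m yX yX yY yY yf yf, dy_exp2_at dv] at e4
  rw [dx_trip m xX yX xY yY xf yf, dx_const] at e5
  rw [dy_trip m xX yX xY yY xf yf, dy_const, ← sX, ← sY, ← sf] at e6
  refine ⟨by linarith, by linarith, by linarith, by linarith, by linarith, by linarith⟩

/-- ambient form of the Gauss equation -/
theorem gauss_ambient (m : ℝ) (X Y f v : PP → ℝ) (U : Set PP) (hU : IsOpen U)
    (hX : ContDiffOn ℝ ∞ X U) (hY : ContDiffOn ℝ ∞ Y U) (hf : ContDiffOn ℝ ∞ f U)
    (hv : ContDiffOn ℝ ∞ v U)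
    (h1 : ∀ z ∈ U, dx X z ^ 2 + dx Y z ^ 2 + m * dx f z ^ 2 = Real.exp (2 * v z))
    (h2 : ∀ z ∈ U, dy X z ^ 2 + dy Y z ^ 2 + m * dy f z ^ 2 = Real.exp (2 * v z))
    (h3 : ∀ z ∈ U, dx X z * dy X z + dx Y z * dy Y z + m * (dx f z * dy f z) = 0) :
    ∀ z ∈ U, (dx (dx X) z * dy (dy X) z - dx (dy X) z ^ 2)
      + (dx (dx Y) z * dy (dy Y) z - dx (dy Y) z ^ 2)
      + m * (dx (dx f) z * dy (dy f) z - dx (dy f) z ^ 2)
      = -(dx (dx v) z + dy (dy v) z + 2 * (dx v z ^ 2 + dy v z ^ 2)) * Real.exp (2 * v z) := by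
  have C := christoffel m X Y f v U hU hX hY hf hv h1 h2 h3
  intro z hz
  have oX := contDiffOn_dx hU hX
  have oY := contDiffOn_dx hU hY
  have of := contDiffOn_dx hU hf
  have pX := contDiffOn_dy hU hX
  have pY := contDiffOn_dy hU hY
  have pf := contDiffOn_dy hU hf
  have xX := diffAt_on hU oX hz
  have xY := diffAt_on hU oY hz
  have xf := diffAt_on hU of hz
  have xyX := diffAt_on hU (contDiffOn_dx hU pX) hz
  have xyY := diffAt_on hU (contDiffOn_dx hU pY) hz
  have xyf := diffAt_on hU (contDiffOn_dx hU pf) hz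
  have yyX := diffAt_on hU (contDiffOn_dy hU pX) hz
  have yyY := diffAt_on hU (contDiffOn_dy hU pY) hz
  have yyf := diffAt_on hU (contDiffOn_dy hU pf) hz
  have dv := diffAt_on hU hv hz
  have xv := diffAt_on hU (contDiffOn_dx hU hv) hz
  have yv := diffAt_on hU (contDiffOn_dy hU hv) hz
  have ev : DifferentiableAt ℝ (fun w => Real.exp (2 * v w)) z := by
    have : DifferentiableAt ℝ (fun w => 2 * v w) z := (differentiableAt_const 2).fun_mul dv
    exact this.exp
  have hA : ∀ z ∈ U, (fun w => dx X w * dy (dy X) w + dx Y w * dy (dy Y) w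
      + m * (dx f w * dy (dy f) w)) z = (fun w => - (dx v w * Real.exp (2 * v w))) z :=
    fun w hw => (C w hw).2.2.2.2.2
  have hB : ∀ z ∈ U, (fun w => dx X w * dx (dy X) w + dx Y w * dx (dy Y) w
      + m * (dx f w * dx (dy f) w)) z = (fun w => dy v w * Real.exp (2 * v w)) z :=
    fun w hw => (C w hw).2.1
  have e1 := dx_congr_on hU hA z hz
  have e2 := dy_congr_on hU hB z hz
  rw [dx_trip m xX yyX xY yyY xf yyf, dx_neg_at, dx_mul_at xv ev, dx_exp2_at dv,
    dx_dy_on hU pX hz, dx_dy_on hU pY hz, dx_dy_on hU pf hz] at e1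
  rw [dy_trip m xX xyX xY xyY xf xyf, dy_mul_at yv ev, dy_exp2_at dv, ← dx_dy_on hU hX hz,
    ← dx_dy_on hU hY hz, ← dx_dy_on hU hf hz] at e2
  linear_combination e1 - e2

/-- Gram identity for three vectors with the weight `m` on the third component -/
theorem gram_identity (m a1 a2 a3 b1 b2 b3 u1 u2 u3 w1 w2 w3 : ℝ) :
    (u1 * w1 + u2 * w2 + m * (u3 * w3))
        * ((a1 ^ 2 + a2 ^ 2 + m * a3 ^ 2) * (b1 ^ 2 + b2 ^ 2 + m * b3 ^ 2)
          - (a1 * b1 + a2 * b2 + m * (a3 * b3)) ^ 2)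
      = (a1 * u1 + a2 * u2 + m * (a3 * u3)) * (a1 * w1 + a2 * w2 + m * (a3 * w3))
          * (b1 ^ 2 + b2 ^ 2 + m * b3 ^ 2)
        + (b1 * u1 + b2 * u2 + m * (b3 * u3)) * (b1 * w1 + b2 * w2 + m * (b3 * w3))
          * (a1 ^ 2 + a2 ^ 2 + m * a3 ^ 2)
        - (a1 * b1 + a2 * b2 + m * (a3 * b3))
          * ((a1 * u1 + a2 * u2 + m * (a3 * u3)) * (b1 * w1 + b2 * w2 + m * (b3 * w3))
            + (b1 * u1 + b2 * u2 + m * (b3 * u3)) * (a1 * w1 + a2 * w2 + m * (a3 * w3)))
        + m * ((u1 * (a2 * b3 - b2 * a3) + u2 * (a3 * b1 - b3 * a1) + u3 * (a1 * b2 - b1 * a2))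
          * (w1 * (a2 * b3 - b2 * a3) + w2 * (a3 * b1 - b3 * a1) + w3 * (a1 * b2 - b1 * a2))) := by
  ring

theorem gauss (m : ℝ) (_hm : 0 < m) (X Y f v : PP → ℝ) (hX : ContDiff ℝ ∞ X)
    (hY : ContDiff ℝ ∞ Y) (hf : ContDiff ℝ ∞ f) (hv : ContDiff ℝ ∞ v)
    (hJ : ∀ z, br X Y z ≠ 0) (U : Set PP) (hU : IsOpen U)
    (h1 : ∀ z ∈ U, dx X z ^ 2 + dx Y z ^ 2 + m * dx f z ^ 2 = Real.exp (2 * v z))
    (h2 : ∀ z ∈ U, dy X z ^ 2 + dy Y z ^ 2 + m * dy f z ^ 2 = Real.exp (2 * v z))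
    (h3 : ∀ z ∈ U, dx X z * dy X z + dx Y z * dy Y z + m * (dx f z * dy f z) = 0) :
    ∀ z ∈ U, m * KK X Y f z * br X Y z ^ 4
      = -(dx (dx v) z + dy (dy v) z) * Real.exp (6 * v z) := by
  intro z hz
  have GA := gauss_ambient m X Y f v U hU hX.contDiffOn hY.contDiffOn hf.contDiffOn hv.contDiffOn
    h1 h2 h3 z hz
  obtain ⟨c1, c2, c3, c4, c5, c6⟩ := christoffel m X Y f v U hU hX.contDiffOn hY.contDiffOn
    hf.contDiffOn hv.contDiffOn h1 h2 h3 z hz
  have g1 := h1 z hz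
  have g2 := h2 z hz
  have g3 := h3 z hz
  -- the slopes
  have hps : ContDiff ℝ ∞ (slp X Y f) := (contDiff_br hf hY).div (contDiff_br hX hY) hJ
  have hqs : ContDiff ℝ ∞ (slq X Y f) := (contDiff_br hX hf).div (contDiff_br hX hY) hJ
  have fx : dx f = fun w => slp X Y f w * dx X w + slq X Y f w * dx Y w := by
    funext w
    have := hJ w
    simp only [slp, slq]
    field_simp
    simp only [br]; ring
  have fy : dy f = fun w => slp X Y f w * dy X w + slq X Y f w * dy Y w := by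
    funext w
    have := hJ w
    simp only [slp, slq]
    field_simp
    simp only [br]; ring
  have hxX := contDiff_dx hX
  have hyX := contDiff_dy hX
  have hxY := contDiff_dx hY
  have hyY := contDiff_dy hY
  have fxx : dx (dx f) z = (dx (slp X Y f) z * dx X z + slp X Y f z * dx (dx X) z)
      + (dx (slq X Y f) z * dx Y z + slq X Y f z * dx (dx Y) z) := by
    rw [fx, dx_add (hps.mul hxX) (hqs.mul hxY), dx_mul hps hxX, dx_mul hqs hxY]
  have fyx : dy (dx f) z = (dy (slp X Y f) z * dx X z + slp X Y f z * dy (dx X) z)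
      + (dy (slq X Y f) z * dx Y z + slq X Y f z * dy (dx Y) z) := by
    rw [fx, dy_add (hps.mul hxX) (hqs.mul hxY), dy_mul hps hxX, dy_mul hqs hxY]
  have fxy : dx (dy f) z = (dx (slp X Y f) z * dy X z + slp X Y f z * dx (dy X) z)
      + (dx (slq X Y f) z * dy Y z + slq X Y f z * dx (dy Y) z) := by
    rw [fy, dx_add (hps.mul hyX) (hqs.mul hyY), dx_mul hps hyX, dx_mul hqs hyY]
  have fyy : dy (dy f) z = (dy (slp X Y f) z * dy X z + slp X Y f z * dy (dy X) z)
      + (dy (slq X Y f) z * dy Y z + slq X Y f z * dy (dy Y) z) := by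
    rw [fy, dy_add (hps.mul hyX) (hqs.mul hyY), dy_mul hps hyX, dy_mul hqs hyY]
  rw [← dx_dy hf, ← dx_dy hX, ← dx_dy hY] at fyx
  have vx : dx f z = slp X Y f z * dx X z + slq X Y f z * dx Y z := congrFun fx z
  have vy : dy f z = slp X Y f z * dy X z + slq X Y f z * dy Y z := congrFun fy z
  have hKK : KK X Y f z * br X Y z = br (slp X Y f) (slq X Y f) z := by
    rw [KK, div_mul_cancel₀ _ (hJ z)]
  set J := br X Y z with hJdef
  have hJe : J = dx X z * dy Y z - dy X z * dx Y z := rfl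
  set E := Real.exp (2 * v z) with hE
  have hE3 : Real.exp (6 * v z) = E ^ 3 := by
    rw [hE, ← Real.exp_nat_mul]; congr 1; push_cast; ring
  set p := slp X Y f z
  set q := slq X Y f z
  set px := dx (slp X Y f) z
  set py := dy (slp X Y f) z
  set qx := dx (slq X Y f) z
  set qy := dy (slq X Y f) z
  -- the normal components
  have nxx : dx (dx X) z * (dx Y z * dy f z - dy Y z * dx f z)
      + dx (dx Y) z * (dx f z * dy X z - dy f z * dx X z)
      + dx (dx f) z * (dx X z * dy Y z - dy X z * dx Y z) = J * (dx X z * px + dx Y z * qx) := by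
    rw [fxx, vx, vy, hJe]; ring
  have nyy : dy (dy X) z * (dx Y z * dy f z - dy Y z * dx f z)
      + dy (dy Y) z * (dx f z * dy X z - dy f z * dx X z)
      + dy (dy f) z * (dx X z * dy Y z - dy X z * dx Y z) = J * (dy X z * py + dy Y z * qy) := by
    rw [fyy, vx, vy, hJe]; ring
  have nxy : dx (dy X) z * (dx Y z * dy f z - dy Y z * dx f z)
      + dx (dy Y) z * (dx f z * dy X z - dy f z * dx X z)
      + dx (dy f) z * (dx X z * dy Y z - dy X z * dx Y z) = J * (dy X z * px + dy Y z * qx) := by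
    rw [fxy, vx, vy, hJe]; ring
  have nyx : dx (dy X) z * (dx Y z * dy f z - dy Y z * dx f z)
      + dx (dy Y) z * (dx f z * dy X z - dy f z * dx X z)
      + dx (dy f) z * (dx X z * dy Y z - dy X z * dx Y z) = J * (dx X z * py + dx Y z * qy) := by
    rw [fyx, vx, vy, hJe]; ring
  have G1 := gram_identity m (dx X z) (dx Y z) (dx f z) (dy X z) (dy Y z) (dy f z)
    (dx (dx X) z) (dx (dx Y) z) (dx (dx f) z) (dy (dy X) z) (dy (dy Y) z) (dy (dy f) z)
  have G2 := gram_identity m (dx X z) (dx Y z) (dx f z) (dy X z) (dy Y z) (dy f z)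
    (dx (dy X) z) (dx (dy Y) z) (dx (dy f) z) (dx (dy X) z) (dx (dy Y) z) (dx (dy f) z)
  rw [g1, g2, g3, c1, c6, c5, c4, nxx, nyy] at G1
  rw [g1, g2, g3, c2, c3] at G2
  have n2 : (dx (dy X) z * (dx Y z * dy f z - dy Y z * dx f z)
      + dx (dy Y) z * (dx f z * dy X z - dy f z * dx X z)
      + dx (dy f) z * (dx X z * dy Y z - dy X z * dx Y z))
      * (dx (dy X) z * (dx Y z * dy f z - dy Y z * dx f z)
      + dx (dy Y) z * (dx f z * dy X z - dy f z * dx X z)
      + dx (dy f) z * (dx X z * dy Y z - dy X z * dx Y z))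
      = (J * (dy X z * px + dy Y z * qx)) * (J * (dx X z * py + dx Y z * qy)) := by
    nth_rewrite 1 [nxy]
    rw [nyx]
  rw [n2] at G2
  have hbr : br (slp X Y f) (slq X Y f) z = px * qy - py * qx := rfl
  rw [hE3]
  have key : m * (J ^ 3 * (px * qy - py * qx)) = -(dx (dx v) z + dy (dy v) z) * E ^ 3 := by
    have hJ2 : J * (px * qy - py * qx) = (dx X z * px + dx Y z * qx) * (dy X z * py + dy Y z * qy)
        - (dy X z * px + dy Y z * qx) * (dx X z * py + dx Y z * qy) := by rw [hJe]; ring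
    have : m * (J ^ 3 * (px * qy - py * qx)) = m * (J ^ 2 * (J * (px * qy - py * qx))) := by ring
    rw [this, hJ2]
    linear_combination (E ^ 2) * GA - G1 + G2
  calc m * KK X Y f z * J ^ 4 = m * (J ^ 3 * (KK X Y f z * J)) := by ring
    _ = m * (J ^ 3 * (px * qy - py * qx)) := by rw [hKK, hbr]
    _ = _ := key

end Crest.Agent.Iso341
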