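import Crest.Agent.Iso341.TestCl
import Crest.Agent.Iso341.GeomGauss

/-! S0341, CLOSE: uniform perturbation calculus for `Cl`. -/

set_option autoImplicit false

open MeasureTheory Set
open scoped ContDiff

namespace Crest.Agent.Iso341.Close

open Crest.Agent.Iso341.Test

/-- `f` and `g` are bounded by `M` and `M * ε`-close in `C^n (A)` -/
structure Pn (n : ℕ) (f g : PP → ℝ) (A : Set PP) (M ε : ℝ) : Prop where
  smf : ContDiff ℝ ∞ f
  smg : ContDiff ℝ ∞ g
  bf : Cl n f A M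
  bg : Cl n g A M
  bd : Cl n (fun z => f z - g z) A (M * ε)

variable {n : ℕ} {f g f' g' : PP → ℝ} {A : Set PP} {M M' ε : ℝ}

theorem Pn.mono (h : Pn n f g A M ε) (hM : M ≤ M') (hε : 0 ≤ ε) : Pn n f g A M' ε :=
  ⟨h.smf, h.smg, Cl.mono h.bf hM, Cl.mono h.bg hM,
    Cl.mono h.bd (mul_le_mul_of_nonneg_right hM hε)⟩

theorem Pn.add (h : Pn n f g A M ε) (k : Pn n f' g' A M' ε) :
    Pn n (fun z => f z + f' z) (fun z => g z + g' z) A (M + M') ε := by
  refine ⟨h.smf.add k.smf, h.smg.add k.smg, Cl.add h.smf k.smf h.bf k.bf,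
    Cl.add h.smg k.smg h.bg k.bg, ?_⟩
  have := Cl.add (h.smf.sub h.smg) (k.smf.sub k.smg) h.bd k.bd
  rw [← add_mul] at this
  convert this using 2
  ring

theorem Pn.neg (h : Pn n f g A M ε) : Pn n (fun z => - f z) (fun z => - g z) A M ε := by
  refine ⟨h.smf.neg, h.smg.neg, Cl.neg h.bf, Cl.neg h.bg, ?_⟩
  have := Cl.neg h.bd
  convert this using 2
  ring

theorem Pn.sub (h : Pn n f g A M ε) (k : Pn n f' g' A M' ε) :
    Pn n (fun z => f z - f' z) (fun z => g z - g' z) A (M + M') ε := by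
  have := Pn.add h k.neg
  simpa only [sub_eq_add_neg] using this

theorem Pn.mul (hM : 0 ≤ M) (hM' : 0 ≤ M') (hε : 0 ≤ ε) (h : Pn n f g A M ε)
    (k : Pn n f' g' A M' ε) :
    Pn n (fun z => f z * f' z) (fun z => g z * g' z) A (2 ^ (n + 1) * M * M') ε := by
  have h2 : 2 ^ n * M * M' ≤ 2 ^ (n + 1) * M * M' := by
    have : (0 : ℝ) ≤ 2 ^ n * M * M' := by positivity
    have e : 2 ^ (n + 1) * M * M' = 2 * (2 ^ n * M * M') := by ring
    linarith
  refine ⟨h.smf.mul k.smf, h.smg.mul k.smg, Cl.mono (Cl.mul hM hM' h.smf k.smf h.bf k.bf) h2,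
    Cl.mono (Cl.mul hM hM' h.smg k.smg h.bg k.bg) h2, ?_⟩
  have e1 := Cl.mul hM (by positivity) h.smf (k.smf.sub k.smg) h.bf k.bd
  have e2 := Cl.mul (by positivity) hM' (h.smf.sub h.smg) k.smg h.bd k.bg
  have e3 := Cl.add (h.smf.mul (k.smf.sub k.smg)) ((h.smf.sub h.smg).mul k.smg) e1 e2
  have e4 : 2 ^ n * M * (M' * ε) + 2 ^ n * (M * ε) * M' = 2 ^ (n + 1) * M * M' * ε := by ring
  rw [e4] at e3
  convert e3 using 2
  ring

theorem Pn.dx (h : Pn (n + 1) f g A M ε) : Pn n (dx f) (dx g) A M ε := by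
  refine ⟨contDiff_dx h.smf, contDiff_dx h.smg, h.bf.2.1, h.bg.2.1, ?_⟩
  have := h.bd.2.1
  rwa [dx_sub' h.smf h.smg] at this

theorem Pn.dy (h : Pn (n + 1) f g A M ε) : Pn n (dy f) (dy g) A M ε := by
  refine ⟨contDiff_dy h.smf, contDiff_dy h.smg, h.bf.2.2, h.bg.2.2, ?_⟩
  have := h.bd.2.2
  rwa [dy_sub' h.smf h.smg] at this

theorem Pn.le {m : ℕ} (h : Pn n f g A M ε) (hm : m ≤ n) : Pn m f g A M ε :=
  ⟨h.smf, h.smg, Cl.le h.bf hm, Cl.le h.bg hm, Cl.le h.bd hm⟩

theorem Pn.inv (n : ℕ) (M : ℝ) (hM : 0 ≤ M) : ∃ M' : ℝ, 0 < M' ∧ ∀ (f g : PP → ℝ) (A : Set PP)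
    (ε : ℝ), 0 ≤ ε → (∀ z, 1 / 2 ≤ f z) → (∀ z, 1 / 2 ≤ g z) → Pn n f g A M ε →
    Pn n (fun z => (f z)⁻¹) (fun z => (g z)⁻¹) A M' ε := by
  obtain ⟨b, hb, H⟩ := Cl.inv n M hM
  refine ⟨b + 2 ^ n * M * (2 ^ n * b * b), by positivity, fun f g A ε hε hf hg h => ?_⟩
  have hfne : ∀ z, f z ≠ 0 := fun z => by have := hf z; positivity
  have hgne : ∀ z, g z ≠ 0 := fun z => by have := hg z; positivity
  have h1 := H f A h.smf hf h.bf
  have h2 := H g A h.smg hg h.bg
  have i1 := contDiff_inv' h.smf hfne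
  have i2 := contDiff_inv' h.smg hgne
  have hp : 0 ≤ 2 ^ n * M * (2 ^ n * b * b) := by positivity
  refine ⟨i1, i2, Cl.mono h1 (by linarith), Cl.mono h2 (by linarith), ?_⟩
  have h3 := Cl.mul hb.le hb.le i1 i2 h1 h2
  have h4 := Cl.neg (Cl.mul (by positivity) (by positivity) (h.smf.sub h.smg) (i1.mul i2) h.bd h3)
  have h5 : (fun z => (f z)⁻¹ - (g z)⁻¹) = fun z => -((f z - g z) * ((f z)⁻¹ * (g z)⁻¹)) := by
    funext z
    have := hfne z; have := hgne z
    field_simp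
    ring
  rw [h5]
  refine Cl.mono h4 ?_
  have : 2 ^ n * (M * ε) * (2 ^ n * b * b) = 2 ^ n * M * (2 ^ n * b * b) * ε := by ring
  rw [this]
  apply mul_le_mul_of_nonneg_right _ hε
  linarith

theorem Cl_exp_sub (n : ℕ) (a : ℝ) (ha : 0 ≤ a) : ∃ C : ℝ, 0 < C ∧ ∀ (h : PP → ℝ) (A : Set PP)
    (e : ℝ), 0 ≤ e → e ≤ a → ContDiff ℝ ∞ h → Cl n h A e →
    Cl n (fun z => Real.exp (h z) - 1) A (C * e) := by
  have hval : ∀ (h : PP → ℝ) (A : Set PP) (e : ℝ), 0 ≤ e → e ≤ a → (∀ z ∈ A, |h z| ≤ e) →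
      ∀ z ∈ A, |Real.exp (h z) - 1| ≤ Real.exp a * e := by
    intro h A e he hea hh z hz
    have h1 := hh z hz
    have h3 : |Real.exp (h z) - 1| ≤ |h z| * Real.exp |h z| := by
      have h4 := Real.add_one_le_exp (h z)
      have h5 := Real.add_one_le_exp (-(h z))
      have h6 := Real.exp_pos (h z)
      have h7 : Real.exp (-(h z)) * Real.exp (h z) = 1 := by
        rw [← Real.exp_add]
        simp
      have h8 : Real.exp (h z) - 1 ≤ h z * Real.exp (h z) := by nlinarith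
      have h9 : Real.exp (h z) ≤ Real.exp |h z| := Real.exp_le_exp.2 (le_abs_self _)
      have h10 : 1 ≤ Real.exp |h z| := Real.one_le_exp (abs_nonneg _)
      rw [abs_le]
      constructor
      · have : -|h z| ≤ h z := neg_abs_le _
        nlinarith [abs_nonneg (h z)]
      · calc Real.exp (h z) - 1 ≤ h z * Real.exp (h z) := h8
          _ ≤ |h z| * Real.exp (h z) := by gcongr; exact le_abs_self _
          _ ≤ |h z| * Real.exp |h z| := by gcongr
    calc |Real.exp (h z) - 1| ≤ |h z| * Real.exp |h z| := h3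
      _ ≤ e * Real.exp a := by
        apply mul_le_mul h1 (Real.exp_le_exp.2 (h1.trans hea)) (Real.exp_pos _).le he
      _ = _ := by ring
  cases n with
  | zero => exact ⟨Real.exp a, Real.exp_pos _, fun h A e he hea _ hh => hval h A e he hea hh⟩
  | succ n =>
    obtain ⟨b, hb, H⟩ := Cl.exp n a ha
    refine ⟨Real.exp a + 2 ^ n * b, by positivity, fun h A e he hea hs hh => ?_⟩
    have hC := H h A hs (Cl.mono (Cl.pred hh) hea)
    have hi : ContDiff ℝ ∞ (fun z => Real.exp (h z)) := hs.exp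
    have dxe : Iso341.dx (fun z => Real.exp (h z) - 1) = fun z => Real.exp (h z) * Iso341.dx h z := by
      funext z
      rw [dx_sub hi contDiff_const, dx_comp (g := Real.exp) Real.contDiff_exp hs z,
        Real.deriv_exp, dx_const 1]
      ring
    have dye : Iso341.dy (fun z => Real.exp (h z) - 1) = fun z => Real.exp (h z) * Iso341.dy h z := by
      funext z
      rw [dy_sub hi contDiff_const, dy_comp (g := Real.exp) Real.contDiff_exp hs z,
        Real.deriv_exp, dy_const 1]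
      ring
    have p1 : 0 ≤ Real.exp a * e := by positivity
    have p2 : 0 ≤ 2 ^ n * b * e := by positivity
    refine ⟨fun z hz => (hval h A e he hea hh.1 z hz).trans ?_, ?_, ?_⟩
    · rw [add_mul]; linarith
    · rw [dxe]
      exact Cl.mono (Cl.mul hb.le he hi (contDiff_dx hs) hC hh.2.1) (by rw [add_mul]; linarith)
    · rw [dye]
      exact Cl.mono (Cl.mul hb.le he hi (contDiff_dy hs) hC hh.2.2) (by rw [add_mul]; linarith)

/-! ### families -/

section Good

variable {D : Type*} (A : D → Set PP) (ε : D → ℝ)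

/-- a family of pairs of functions, uniformly bounded and uniformly `ε`-close in `C^n` -/
def Good (n : ℕ) (F G : D → PP → ℝ) : Prop :=
  ∃ M : ℝ, 0 < M ∧ ∀ d, Pn n (F d) (G d) (A d) M (ε d)

variable {A ε} {n : ℕ} {F G F' G' : D → PP → ℝ}

theorem Good.add (h : Good A ε n F G) (k : Good A ε n F' G') :
    Good A ε n (fun d z => F d z + F' d z) (fun d z => G d z + G' d z) := by
  obtain ⟨M, hM, H⟩ := h
  obtain ⟨M', hM', H'⟩ := k
  exact ⟨M + M', by positivity, fun d => (H d).add (H' d)⟩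

theorem Good.sub (h : Good A ε n F G) (k : Good A ε n F' G') :
    Good A ε n (fun d z => F d z - F' d z) (fun d z => G d z - G' d z) := by
  obtain ⟨M, hM, H⟩ := h
  obtain ⟨M', hM', H'⟩ := k
  exact ⟨M + M', by positivity, fun d => (H d).sub (H' d)⟩

theorem Good.neg (h : Good A ε n F G) :
    Good A ε n (fun d z => - F d z) (fun d z => - G d z) := by
  obtain ⟨M, hM, H⟩ := h
  exact ⟨M, by positivity, fun d => (H d).neg⟩

theorem Good.mul (hε : ∀ d, 0 ≤ ε d) (h : Good A ε n F G) (k : Good A ε n F' G') :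
    Good A ε n (fun d z => F d z * F' d z) (fun d z => G d z * G' d z) := by
  obtain ⟨M, hM, H⟩ := h
  obtain ⟨M', hM', H'⟩ := k
  exact ⟨2 ^ (n + 1) * M * M', by positivity, fun d => Pn.mul hM.le hM'.le (hε d) (H d) (H' d)⟩

theorem Good.dx (h : Good A ε (n + 1) F G) :
    Good A ε n (fun d => dx (F d)) (fun d => dx (G d)) := by
  obtain ⟨M, hM, H⟩ := h
  exact ⟨M, by positivity, fun d => (H d).dx⟩

theorem Good.dy (h : Good A ε (n + 1) F G) :
    Good A ε n (fun d => dy (F d)) (fun d => dy (G d)) := by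
  obtain ⟨M, hM, H⟩ := h
  exact ⟨M, by positivity, fun d => (H d).dy⟩

theorem Good.le {m : ℕ} (h : Good A ε n F G) (hm : m ≤ n) : Good A ε m F G := by
  obtain ⟨M, hM, H⟩ := h
  exact ⟨M, by positivity, fun d => (H d).le hm⟩

theorem Good.inv (hε : ∀ d, 0 ≤ ε d) (h : Good A ε n F G) (hF : ∀ d z, 1 / 2 ≤ F d z)
    (hG : ∀ d z, 1 / 2 ≤ G d z) :
    Good A ε n (fun d z => (F d z)⁻¹) (fun d z => (G d z)⁻¹) := by
  obtain ⟨M, hM, H⟩ := h
  obtain ⟨M', hM', H'⟩ := Pn.inv n M hM.le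
  exact ⟨M', hM', fun d => H' _ _ _ _ (hε d) (hF d) (hG d) (H d)⟩

theorem Good.div (hε : ∀ d, 0 ≤ ε d) (k : Good A ε n F' G') (h : Good A ε n F G)
    (hF : ∀ d z, 1 / 2 ≤ F d z) (hG : ∀ d z, 1 / 2 ≤ G d z) :
    Good A ε n (fun d z => F' d z / F d z) (fun d z => G' d z / G d z) := by
  simp only [div_eq_mul_inv]
  exact Good.mul hε k (Good.inv hε h hF hG)

theorem Good.br (hε : ∀ d, 0 ≤ ε d) (h : Good A ε (n + 1) F G) (k : Good A ε (n + 1) F' G') :
    Good A ε n (fun d => br (F d) (F' d)) (fun d => br (G d) (G' d)) := by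
  unfold Iso341.br
  exact Good.sub (Good.mul hε h.dx k.dy) (Good.mul hε h.dy k.dx)

end Good

end Crest.Agent.Iso341.Close
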