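import Crest.Agent.Iso341.Calc

/-! S0341, COLOR: a finite colouring of `C^{n+1}`-bounded functions so that functions of the same
colour are `C^n`-close. -/

set_option autoImplicit false

open MeasureTheory Set
open scoped ContDiff

namespace Crest.Agent.Iso341

namespace Color

theorem Cl_zero_of {n : ℕ} {f : PP → ℝ} {A : Set PP} {c : ℝ} (h : Cl n f A c) :
    ∀ z ∈ A, |f z| ≤ c := by
  cases n with
  | zero => exact h
  | succ n => exact h.1

/-- Lipschitz bound on a ball -/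
theorem lip {f : PP → ℝ} (hf : ContDiff ℝ ∞ f) {R M : ℝ}
    (hx : ∀ z ∈ Metric.closedBall (0 : PP) R, |dx f z| ≤ M)
    (hy : ∀ z ∈ Metric.closedBall (0 : PP) R, |dy f z| ≤ M) {z w : PP}
    (hz : z ∈ Metric.closedBall (0 : PP) R) (hw : w ∈ Metric.closedBall (0 : PP) R) :
    |f w - f z| ≤ 2 * M * ‖w - z‖ := by
  have hM : 0 ≤ M := (abs_nonneg _).trans (hx z hz)
  refine Convex.norm_image_sub_le_of_norm_fderiv_le (𝕜 := ℝ) (f := f)
    (s := Metric.closedBall (0 : PP) R) (fun u _ => diffAt hf u) ?_ (convex_closedBall _ _) hz hw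
  intro u hu
  refine ContinuousLinearMap.opNorm_le_bound _ (by positivity) ?_
  rintro ⟨a, b⟩
  have e : fderiv ℝ f u (a, b) = a * dx f u + b * dy f u := by
    have : ((a, b) : PP) = a • ((1, 0) : PP) + b • ((0, 1) : PP) := by
      ext <;> simp
    rw [this, map_add, map_smul, map_smul]
    rfl
  rw [e]
  have ha : |a| ≤ ‖((a, b) : PP)‖ := le_max_left _ _
  have hb : |b| ≤ ‖((a, b) : PP)‖ := le_max_right _ _
  calc ‖a * dx f u + b * dy f u‖ ≤ ‖a * dx f u‖ + ‖b * dy f u‖ := norm_add_le _ _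
    _ = |a| * |dx f u| + |b| * |dy f u| := by simp [abs_mul]
    _ ≤ ‖((a, b) : PP)‖ * M + ‖((a, b) : PP)‖ * M := by
        gcongr
        · exact hx u hu
        · exact hy u hu
    _ = 2 * M * ‖((a, b) : PP)‖ := by ring

theorem base (R M δ : ℝ) (hδ : 0 < δ) :
    ∃ (κ : Type) (_ : Finite κ) (col : (PP → ℝ) → κ), ∀ f g : PP → ℝ, ContDiff ℝ ∞ f →
      ContDiff ℝ ∞ g → Cl 1 f (Metric.closedBall 0 R) M → Cl 1 g (Metric.closedBall 0 R) M →
      col f = col g → ∀ z ∈ Metric.closedBall (0 : PP) R, |f z - g z| ≤ δ := by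
  classical
  set r : ℝ := δ / (8 * (|M| + 1)) with hr
  have hrpos : 0 < r := by positivity
  obtain ⟨t, htK, htf, hcov⟩ := (isCompact_closedBall (0 : PP) R).finite_cover_balls hrpos
  haveI : Finite t := htf
  set η : ℝ := δ / 2 with hη
  have hηpos : 0 < η := by positivity
  obtain ⟨L, hL⟩ := exists_nat_ge (|M| / η + 1)
  refine ⟨t → Option (Finset.Icc (-(L : ℤ)) L), inferInstance, fun f p =>
    if h : ⌊f p / η⌋ ∈ Finset.Icc (-(L : ℤ)) L then some ⟨_, h⟩ else none, ?_⟩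
  intro f g hf hg hF hG hcol z hz
  have hmem : ∀ {u : PP → ℝ}, Cl 1 u (Metric.closedBall 0 R) M → ∀ p ∈ t,
      ⌊u p / η⌋ ∈ Finset.Icc (-(L : ℤ)) L := by
    intro u hu p hp
    have h1 : |u p| ≤ |M| := (hu.1 p (htK hp)).trans (le_abs_self M)
    have h2 : |u p / η| ≤ |M| / η := by
      rw [abs_div, abs_of_pos hηpos]
      gcongr
    have h3 := abs_le.1 h2
    rw [Finset.mem_Icc]
    constructor
    · rw [Int.le_floor]
      push_cast
      linarith [h3.1]
    · have : (⌊u p / η⌋ : ℝ) ≤ (L : ℝ) := (Int.floor_le _).trans (by linarith [h3.2])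
      exact_mod_cast this
  have hclose : ∀ p ∈ t, |f p - g p| ≤ η := by
    intro p hp
    have hc := congrFun hcol ⟨p, hp⟩
    simp only at hc
    rw [dif_pos (hmem hF p hp), dif_pos (hmem hG p hp)] at hc
    have hfl : ⌊f p / η⌋ = ⌊g p / η⌋ := by
      have := Option.some.inj hc
      exact congrArg Subtype.val this
    have h1 := Int.abs_sub_lt_one_of_floor_eq_floor hfl
    rw [← sub_div, abs_div, abs_of_pos hηpos, div_lt_one hηpos] at h1
    exact h1.le
  have hz' := hcov hz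
  simp only [mem_iUnion, Metric.mem_ball] at hz'
  obtain ⟨p, hp, hd⟩ := hz'
  have hn : ‖z - p‖ < r := by rwa [dist_eq_norm] at hd
  have l1 := lip hf hF.2.1 hF.2.2 (htK hp) hz
  have l2 := lip hg hG.2.1 hG.2.2 (htK hp) hz
  have hb : ∀ x : ℝ, x ≤ 2 * M * ‖z - p‖ → x ≤ δ / 4 := by
    intro x hx
    have h0 : 0 ≤ ‖z - p‖ := norm_nonneg _
    have h1 : 2 * M * ‖z - p‖ ≤ 2 * (|M| + 1) * ‖z - p‖ := by
      have : M ≤ |M| + 1 := (le_abs_self M).trans (by linarith)
      nlinarith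
    have h2 : 2 * (|M| + 1) * ‖z - p‖ ≤ 2 * (|M| + 1) * r := by
      have : 0 ≤ |M| := abs_nonneg M
      nlinarith
    have h3 : 2 * (|M| + 1) * r = δ / 4 := by
      rw [hr]
      field_simp
      ring
    linarith
  have k1 := hb _ l1
  have k2 := hb _ l2
  have k3 := hclose p hp
  have : f z - g z = (f z - f p) - (g z - g p) + (f p - g p) := by ring
  rw [this]
  calc |(f z - f p) - (g z - g p) + (f p - g p)|
      ≤ |(f z - f p) - (g z - g p)| + |f p - g p| := abs_add_le _ _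
    _ ≤ |f z - f p| + |g z - g p| + |f p - g p| := by gcongr; exact abs_sub _ _
    _ ≤ δ / 4 + δ / 4 + η := by gcongr
    _ = δ := by rw [hη]; ring

theorem main (R M δ : ℝ) (hδ : 0 < δ) (n : ℕ) :
    ∃ (κ : Type) (_ : Finite κ) (col : (PP → ℝ) → κ), ∀ f g : PP → ℝ, ContDiff ℝ ∞ f →
      ContDiff ℝ ∞ g → Cl (n + 1) f (Metric.closedBall 0 R) M →
      Cl (n + 1) g (Metric.closedBall 0 R) M →
      col f = col g → Cl n (fun z => f z - g z) (Metric.closedBall 0 R) δ := by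
  obtain ⟨κ₀, hκ₀, col₀, h₀⟩ := base R M δ hδ
  induction n with
  | zero => exact ⟨κ₀, hκ₀, col₀, h₀⟩
  | succ n ih =>
    obtain ⟨κ, hκ, col, h⟩ := ih
    refine ⟨κ₀ × κ × κ, inferInstance, fun f => (col₀ f, col (dx f), col (dy f)), ?_⟩
    intro f g hf hg hF hG hc
    simp only [Prod.mk.injEq] at hc
    obtain ⟨hc0, hc1, hc2⟩ := hc
    obtain ⟨F0, F1, F2⟩ := hF
    obtain ⟨G0, G1, G2⟩ := hG
    refine ⟨?_, ?_, ?_⟩
    · exact h₀ f g hf hg ⟨F0, Cl_zero_of F1, Cl_zero_of F2⟩ ⟨G0, Cl_zero_of G1, Cl_zero_of G2⟩ hc0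
    · rw [dx_sub' hf hg]
      exact h _ _ (contDiff_dx hf) (contDiff_dx hg) F1 G1 hc1
    · rw [dy_sub' hf hg]
      exact h _ _ (contDiff_dy hf) (contDiff_dy hg) F2 G2 hc2

end Color

theorem exists_coloring (n : ℕ) (R M δ : ℝ) (hR : 0 < R) (hδ : 0 < δ) :
    ∃ (N : ℕ) (col : (PP → ℝ) → Fin (N + 1)), ∀ f g : PP → ℝ, ContDiff ℝ ∞ f → ContDiff ℝ ∞ g →
      Cl (n + 1) f (Metric.closedBall 0 R) M → Cl (n + 1) g (Metric.closedBall 0 R) M →
      col f = col g → Cl n (fun z => f z - g z) (Metric.closedBall 0 R) δ := by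
  obtain ⟨κ, hκ, col, h⟩ := Color.main R M δ hδ n
  obtain ⟨N, ⟨e⟩⟩ := Finite.exists_equiv_fin κ
  refine ⟨N, fun f => (e (col f)).castSucc, fun f g hf hg hF hG hc => h f g hf hg hF hG ?_⟩
  exact e.injective (Fin.castSucc_injective N hc)

end Crest.Agent.Iso341
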