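import Crest.Agent.Iso341.EnLower

/-! S0341, ENERGY part 5: the one sided Morawetz estimate, integration. -/

set_option autoImplicit false

open MeasureTheory Set
open scoped ContDiff

namespace Crest.Agent.Iso341

namespace En

theorem vanish {σ d d' R r1 r2 r3 N d0 e : ℝ} {p Y k : PP → ℝ} (hp : Continuous p)
    (hY : Continuous Y) (he : e = 1 ∨ e = -1) (hσ : 0 ≤ σ) (hσ1 : σ ≤ 1 / 1000) (hd0 : 0 < d0)
    (hd0d : d0 < d) (hdd' : d < d') (hd' : d' ≤ σ / 2) (hr12 : r1 < r2) (hr23 : r2 < r3)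
    (hr3 : r3 < R ^ 2) {z : PP} (hz : z ∉ Om σ p Y R d0) :
    (AM e σ d d' r1 r2 p Y =ᶠ[nhds z] fun _ => 0) ∧
    (BM e σ d d' r1 r2 p Y =ᶠ[nhds z] fun _ => 0) ∧
    (LM e σ d d' r1 r2 r3 N p Y k =ᶠ[nhds z] fun _ => 0) := by
  have hct : Continuous (tF p Y) := by unfold tF; fun_prop
  have hcs : Continuous (sF e σ p Y) := by
    have := contDiff_om.continuous
    unfold sF; fun_prop
  have ht : tF p Y z = p z ^ 2 + Y z ^ 2 := by unfold tF; ring
  by_cases hR : p z ^ 2 + Y z ^ 2 < R ^ 2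
  · have hs : |p z| + σ * om (Y z) ≤ d0 := by
      by_contra hcon
      exact hz ⟨hR, not_le.1 hcon⟩
    have hY4 : |Y z| < 1 / 4 := by
      by_contra hcon
      rw [om_eq_one (not_lt.1 hcon)] at hs
      have := abs_nonneg (p z)
      linarith
    have hpz : |p z| ≤ 1 / 1000 := by
      have : 0 ≤ σ * om (Y z) := mul_nonneg hσ (om_nonneg _)
      linarith
    have ht35 : tF p Y z < 3 / 5 := by
      rw [ht]
      have h1 : p z ^ 2 ≤ (1 / 1000) ^ 2 := by
        rw [← sq_abs]; exact pow_le_pow_left₀ (abs_nonneg _) hpz 2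
      have h2 : Y z ^ 2 ≤ (1 / 4) ^ 2 := by
        rw [← sq_abs]; exact pow_le_pow_left₀ (abs_nonneg _) hY4.le 2
      linarith
    have hsd : sF e σ p Y z < d := by
      have h1 : e * p z ≤ |p z| := by
        rcases he with h | h <;> rw [h]
        · rw [one_mul]; exact le_abs_self _
        · rw [neg_one_mul]; exact neg_le_abs _
      unfold sF; linarith
    have E1 := hcs.continuousAt.eventually_lt continuousAt_const hsd
    have E2 := hct.continuousAt.eventually_lt continuousAt_const ht35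
    refine ⟨?_, ?_, ?_⟩
    · filter_upwards [E1] with w hw
      simp only [AM, aF, th_eq_zero hdd' hw.le]; ring
    · filter_upwards [E1] with w hw
      simp only [BM, bF, th_eq_zero hdd' hw.le]; ring
    · filter_upwards [E1, E2] with w hw hw2
      simp only [LM, lF, th_eq_zero hdd' hw.le, deriv_th_eq_zero hdd' (Or.inl hw.le),
        PF_eq_zero hw2.le]
      ring
  · have hlt : r3 < tF p Y z := by rw [ht]; linarith
    have E1 := (continuousAt_const (y := r3)).eventually_lt hct.continuousAt hlt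
    refine ⟨?_, ?_, ?_⟩
    · filter_upwards [E1] with w hw
      have hw' : r3 < tF p Y w := hw
      simp only [AM, XF, cut_eq_zero hr12 (by linarith : r2 ≤ tF p Y w)]; ring
    · filter_upwards [E1] with w hw
      have hw' : r3 < tF p Y w := hw
      simp only [BM, XF, cut_eq_zero hr12 (by linarith : r2 ≤ tF p Y w)]; ring
    · filter_upwards [E1] with w hw
      have hw' : r3 < tF p Y w := hw
      simp only [LM, XF, PF, cut_eq_zero hr12 (by linarith : r2 ≤ tF p Y w),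
        cut_eq_zero hr23 hw'.le]
      ring

/-- the half of the region on the side `e = ±1` -/
def Side (e σ : ℝ) (p Y : PP → ℝ) (R d : ℝ) : Set PP :=
  {z | p z ^ 2 + Y z ^ 2 < R ^ 2 ∧ d < sF e σ p Y z}

theorem isOpen_Side {e σ R d : ℝ} {p Y : PP → ℝ} (hp : Continuous p) (hY : Continuous Y) :
    IsOpen (Side e σ p Y R d) := by
  have hcs : Continuous (sF e σ p Y) := by
    have := contDiff_om.continuous
    unfold sF; fun_prop
  have h1 : Continuous fun z => p z ^ 2 + Y z ^ 2 := by fun_prop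
  exact (isOpen_lt h1 continuous_const).inter (isOpen_lt continuous_const hcs)

theorem isOpen_Om {σ R d : ℝ} {p Y : PP → ℝ} (hp : Continuous p) (hY : Continuous Y) :
    IsOpen (Om σ p Y R d) := by
  have := contDiff_om.continuous
  have h1 : Continuous fun z => p z ^ 2 + Y z ^ 2 := by fun_prop
  have h2 : Continuous fun z => |p z| + σ * om (Y z) := by fun_prop
  exact (isOpen_lt h1 continuous_const).inter (isOpen_lt continuous_const h2)

theorem Side_subset_Om {e σ R d R' d' : ℝ} {p Y : PP → ℝ} (he : e = 1 ∨ e = -1) (hR' : 0 ≤ R')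
    (hR : R' ≤ R) (hd : d ≤ d') : Side e σ p Y R' d' ⊆ Om σ p Y R d := by
  rintro z ⟨h1, h2⟩
  refine ⟨h1.trans_le (pow_le_pow_left₀ hR' hR 2), ?_⟩
  have h3 : e * p z ≤ |p z| := by
    rcases he with h | h <;> rw [h]
    · rw [one_mul]; exact le_abs_self _
    · rw [neg_one_mul]; exact neg_le_abs _
  unfold sF at h2
  linarith

theorem Om_subset_Side {σ R d : ℝ} {p Y : PP → ℝ} :
    Om σ p Y R d ⊆ Side 1 σ p Y R d ∪ Side (-1) σ p Y R d := by
  rintro z ⟨h1, h2⟩
  rcases le_total 0 (p z) with h | h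
  · left
    refine ⟨h1, ?_⟩
    rw [abs_of_nonneg h] at h2
    unfold sF; linarith
  · right
    refine ⟨h1, ?_⟩
    rw [abs_of_nonpos h] at h2
    unfold sF; linarith

theorem bounded_region {δ : ℝ} {p Y : PP → ℝ} (h : Chart δ p Y) (hδ : δ ≤ 1 / 10) {z : PP}
    (hz : p z ^ 2 + Y z ^ 2 < 1) : z ∈ Metric.closedBall (0 : PP) 2 := by
  have h1 := abs_le.1 (h.p0 z)
  have h2 := abs_le.1 (h.Y0 z)
  have hp : |p z| ≤ 1 := by
    rw [abs_le]; constructor <;> nlinarith [sq_nonneg (Y z)]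
  have hY : |Y z| ≤ 1 := by
    rw [abs_le]; constructor <;> nlinarith [sq_nonneg (p z)]
  have hp' := abs_le.1 hp
  have hY' := abs_le.1 hY
  rw [mem_closedBall_zero_iff, Prod.norm_def, max_le_iff, Real.norm_eq_abs, Real.norm_eq_abs,
    abs_le, abs_le]
  exact ⟨⟨by linarith, by linarith⟩, by linarith, by linarith⟩

theorem hasCompactSupport_of_vanish {δ σ R d : ℝ} {p Y f : PP → ℝ} (h : Chart δ p Y)
    (hδ : δ ≤ 1 / 10) (hR0 : 0 ≤ R) (hR : R < 1) (hf : ∀ z, z ∉ Om σ p Y R d → f z = 0) :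
    HasCompactSupport f := by
  refine HasCompactSupport.intro (isCompact_closedBall (0 : PP) 2) fun z hz => ?_
  refine hf z fun hz' => hz (bounded_region h hδ ?_)
  have : R ^ 2 < 1 := by nlinarith
  exact hz'.1.trans this

theorem sq_lin_bound {a b x y A B : ℝ} (ha : a ^ 2 ≤ A) (hb : b ^ 2 ≤ B) :
    (a * x + b * y) ^ 2 ≤ 2 * (A * x ^ 2 + B * y ^ 2) := by
  have h1 : (a * x + b * y) ^ 2 ≤ 2 * (a ^ 2 * x ^ 2 + b ^ 2 * y ^ 2) := by
    have := sq_nonneg (a * x - b * y)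
    linarith [this, (by ring : (a * x - b * y) ^ 2
      = 2 * (a ^ 2 * x ^ 2 + b ^ 2 * y ^ 2) - (a * x + b * y) ^ 2)]
  have h2 := mul_le_mul_of_nonneg_right ha (sq_nonneg x)
  have h3 := mul_le_mul_of_nonneg_right hb (sq_nonneg y)
  linarith

theorem grad_bound {p Y φ : PP → ℝ} (hc : Chart (1 / 5000) p Y) (z : PP) :
    dx φ z ^ 2 + dy φ z ^ 2 ≤ 4 * (Dp p Y φ z ^ 2 + Dy p Y φ z ^ 2) := by
  have hJ := hc.J_ne (by norm_num)
  rw [dx_eq_Dp_Dy hJ z, dy_eq_Dp_Dy hJ z]
  have t1 := abs_le.1 (hc.px z)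
  have t2 := abs_le.1 (hc.py z)
  have t3 := abs_le.1 (hc.Yx z)
  have t4 := abs_le.1 (hc.Yy z)
  have s1 : dx p z ^ 2 ≤ 5 / 4 := by
    have : dx p z ^ 2 ≤ (1 + 1 / 5000) ^ 2 := sq_le_sq' (by linarith) (by linarith)
    norm_num at this; linarith
  have s2 : dy p z ^ 2 ≤ 1 / 4 := by
    have : dy p z ^ 2 ≤ (1 / 5000) ^ 2 := sq_le_sq' (by linarith) (by linarith)
    norm_num at this; linarith
  have s3 : dx Y z ^ 2 ≤ 1 / 4 := by
    have : dx Y z ^ 2 ≤ (1 / 5000) ^ 2 := sq_le_sq' (by linarith) (by linarith)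
    norm_num at this; linarith
  have s4 : dy Y z ^ 2 ≤ 5 / 4 := by
    have : dy Y z ^ 2 ≤ (1 + 1 / 5000) ^ 2 := sq_le_sq' (by linarith) (by linarith)
    norm_num at this; linarith
  have r1 := sq_lin_bound (x := Dp p Y φ z) (y := Dy p Y φ z) s1 s3
  have r2 := sq_lin_bound (x := Dp p Y φ z) (y := Dy p Y φ z) s2 s4
  have q1 := sq_nonneg (Dy p Y φ z)
  have q2 := sq_nonneg (Dp p Y φ z)
  linarith

/-- one sided estimate -/
theorem energy_side {cσ : ℝ} (hcσ : 0 < cσ) (hcσ1 : cσ ≤ 1 / 1000)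
    (hcw : ∀ y, cσ * |deriv om y| ≤ 1 / 1000) {κ : ℝ} (hκ : 0 < κ) (hκ0 : κ ≤ 1 / 1000000)
    {R R' d0 d' : ℝ} (hR' : 4 / 5 ≤ R') (hR'R : R' < R) (hR : R ≤ 19 / 20)
    (hd0 : cσ * √κ / 16 ≤ d0) (hd0' : d0 < d') (hd' : d' ≤ cσ * √κ / 2) {e : ℝ}
    (he : e = 1 ∨ e = -1) :
    ∃ C : ℝ, 0 < C ∧ ∀ p Y k φ : PP → ℝ, Chart (1 / 5000) p Y → Pocket (1 / 5000) p Y k →
        ContDiff ℝ ∞ φ → (∀ z ∈ Om (cσ * √κ) p Y R d0, LL κ p Y k φ z = 0) →
        ∫ z in Side e (cσ * √κ) p Y R' d', (dx φ z ^ 2 + dy φ z ^ 2)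
          ≤ C * ∫ z in Om (cσ * √κ) p Y R d0, φ z ^ 2 := by
  set σ := cσ * √κ with hσdef
  have hsq : 0 < √κ := Real.sqrt_pos.2 hκ
  have hsq1 : √κ ≤ 1 / 1000 := by
    rw [Real.sqrt_le_left (by norm_num)]
    norm_num
    linarith
  have hσ : 0 < σ := mul_pos hcσ hsq
  have hσ1 : σ ≤ √κ / 1000 := by
    rw [hσdef]; nlinarith
  have hσ2 : σ ≤ 1 / 1000 := by linarith
  have hσw : ∀ y, σ * |deriv om y| ≤ √κ / 1000 := by
    intro y
    have := mul_le_mul_of_nonneg_left (hcw y) hsq.le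
    calc σ * |deriv om y| = √κ * (cσ * |deriv om y|) := by rw [hσdef]; ring
      _ ≤ √κ * (1 / 1000) := this
      _ = √κ / 1000 := by ring
  have hδ : (1 / 5000 : ℝ) ≤ 1 / 10 := by norm_num
  -- parameters
  set d := (d0 + d') / 2 with hddef
  have hd0pos : 0 < d0 := lt_of_lt_of_le (by positivity) hd0
  have hd0d : d0 < d := by rw [hddef]; linarith
  have hdd' : d < d' := by rw [hddef]; linarith
  set r1 := R' ^ 2 with hr1
  set r2 := (R' ^ 2 + R ^ 2) / 2 with hr2
  set r3 := (r2 + R ^ 2) / 2 with hr3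
  have hRR : R' ^ 2 < R ^ 2 := by nlinarith
  have hr12 : r1 < r2 := by rw [hr1, hr2]; linarith
  have hr2R : r2 < R ^ 2 := by rw [hr2]; linarith
  have hr23 : r2 < r3 := by rw [hr3]; linarith
  have hr3R : r3 < R ^ 2 := by rw [hr3]; linarith
  have hr1' : 16 / 25 ≤ r1 := by rw [hr1]; nlinarith
  have hRsq : R ^ 2 < 1 := by nlinarith
  -- constants
  obtain ⟨-, C1, hC1, B1⟩ := UB_XF hδ r1 r2
  obtain ⟨-, C2, hC2, B2⟩ := UB_aF hδ e σ d d'
  obtain ⟨-, C3, hC3, B3⟩ := UB_bF hδ e σ d d'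
  obtain ⟨-, C4, hC4, B4⟩ := UB.k hδ
  set M := 1 + C1 + C2 + C3 + C4 with hM
  have hM1 : 1 ≤ M := by rw [hM]; linarith
  set N := 2 * M ^ 3 / (κ * (3 / 10)) with hN
  obtain ⟨C5, hC5, B5⟩ := (UB_LM hδ e σ d d' r1 r2 r3 N).coef hδ κ
  refine ⟨2 * C5 * (1600 / κ) + 1, by positivity, fun p Y k φ hc hP hφ hL => ?_⟩
  have hp := hc.smp
  have hY := hc.smY
  have hJ := hc.J_ne hδ
  have hkc := hP.smk
  have cA := (UB_AM hδ e σ d d' r1 r2).1 p Y k hc hP
  have cB := (UB_BM hδ e σ d d' r1 r2).1 p Y k hc hP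
  have cL := (UB_LM hδ e σ d d' r1 r2 r3 N).1 p Y k hc hP
  have van : ∀ z, z ∉ Om σ p Y R d0 → _ := fun z hz =>
    vanish (k := k) (N := N) hp.continuous hY.continuous he hσ.le hσ2 hd0pos hd0d hdd' hd' hr12
      hr23 hr3R hz
  have sA : HasCompactSupport (AM e σ d d' r1 r2 p Y) :=
    hasCompactSupport_of_vanish hc hδ (by linarith) (by linarith)
      (fun z hz => (van z hz).1.eq_of_nhds)
  have sB : HasCompactSupport (BM e σ d d' r1 r2 p Y) :=
    hasCompactSupport_of_vanish hc hδ (by linarith) (by linarith)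
      (fun z hz => (van z hz).2.1.eq_of_nhds)
  have sL : HasCompactSupport (LM e σ d d' r1 r2 r3 N p Y k) :=
    hasCompactSupport_of_vanish hc hδ (by linarith) (by linarith)
      (fun z hz => (van z hz).2.2.eq_of_nhds)
  have hid := energy_identity (κ := κ) hp hY hJ hkc hφ cA cB cL sA sB sL
  have hzero : ∀ z, (AM e σ d d' r1 r2 p Y z * Dp p Y φ z + BM e σ d d' r1 r2 p Y z
      * Dy p Y φ z + LM e σ d d' r1 r2 r3 N p Y k z * φ z) * LL κ p Y k φ z * br p Y z = 0 := by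
    intro z
    by_cases hz : z ∈ Om σ p Y R d0
    · rw [hL z hz]; ring
    · obtain ⟨v1, v2, v3⟩ := van z hz
      rw [v1.eq_of_nhds, v2.eq_of_nhds, v3.eq_of_nhds]; ring
  simp only [hzero, integral_zero] at hid
  -- pointwise lower bound
  have hSub : Side e σ p Y R' d' ⊆ Om σ p Y R d0 :=
    Side_subset_Om he (by linarith) hR'R.le hd0'.le
  set Q := QF κ p Y k φ (AM e σ d d' r1 r2 p Y) (BM e σ d d' r1 r2 p Y)
    (LM e σ d d' r1 r2 r3 N p Y k) with hQ
  have low : ∀ z, (Side e σ p Y R' d').indicator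
      (fun z => κ / 1600 * (dx φ z ^ 2 + dy φ z ^ 2)) z
      - (Om σ p Y R d0).indicator (fun z => 2 * C5 * φ z ^ 2) z ≤ Q z * br p Y z := by
    intro z
    by_cases hz : z ∈ Om σ p Y R d0
    · have hz1 : p z ^ 2 + Y z ^ 2 < 1 := hz.1.trans hRsq
      obtain ⟨x0, x1, x2, -, -⟩ := B1 p Y k hc hP z hz1
      obtain ⟨y0, -, -, -, -⟩ := B2 p Y k hc hP z hz1
      obtain ⟨w0, -, -, -, -⟩ := B3 p Y k hc hP z hz1
      obtain ⟨k0, -, -, -, -⟩ := B4 p Y k hc hP z hz1
      have hlow := QF_lower (φ := φ) hc hP hκ hκ0 hσ.le hσ1 hσw (by norm_num) le_rfl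
        (by linarith : 0 < d) hdd' hd' he hr1' hr12 hr23 hz1 hM1 (k0.trans (by rw [hM]; linarith))
        (x1.trans (by rw [hM]; linarith)) (x2.trans (by rw [hM]; linarith))
        (y0.trans (by rw [hM]; linarith)) (w0.trans (by rw [hM]; linarith)) hN
        (B5 p Y k hc hP z hz1)
      rw [← hQ] at hlow
      have hJb := hc.J_bounds hδ z
      rw [indicator_of_mem hz]
      have hX0 : 0 ≤ XF r1 r2 p Y z := cut_nonneg _ _ _
      have hT0 : 0 ≤ th d d' (sF e σ p Y z) := th_nonneg _ _ _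
      have q1 := sq_nonneg (Dy p Y φ z)
      have q2 := sq_nonneg (Dp p Y φ z)
      have q3 := sq_nonneg (φ z)
      have hCq : 0 ≤ C5 * φ z ^ 2 := mul_nonneg hC5 q3
      by_cases hs : z ∈ Side e σ p Y R' d'
      · rw [indicator_of_mem hs]
        have e1 : XF r1 r2 p Y z = 1 := by
          refine cut_eq_one hr12 ?_
          have : tF p Y z = p z ^ 2 + Y z ^ 2 := by unfold tF; ring
          rw [this]; exact hs.1.le
        have e2 : th d d' (sF e σ p Y z) = 1 := th_eq_one hdd' hs.2.le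
        rw [e1, e2] at hlow
        have g1 : dx φ z ^ 2 + dy φ z ^ 2 ≤ 4 * (Dp p Y φ z ^ 2 + Dy p Y φ z ^ 2) :=
          grad_bound hc z
        set G := Dp p Y φ z ^ 2 + Dy p Y φ z ^ 2 with hG
        have hG0 : 0 ≤ G := by positivity
        have hlow2 : κ / 200 * G - C5 * φ z ^ 2 ≤ Q z := by
          have : κ / 200 * Dy p Y φ z ^ 2 ≤ 2 * Dy p Y φ z ^ 2 :=
            mul_le_mul_of_nonneg_right (by linarith) q1
          rw [hG]; linarith
        have hκG : 0 ≤ κ / 200 * G := by positivity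
        have step1 : (κ / 200 * G - C5 * φ z ^ 2) * br p Y z ≤ Q z * br p Y z :=
          mul_le_mul_of_nonneg_right hlow2 (by linarith)
        have step2 : κ / 200 * G * (1 / 2) ≤ κ / 200 * G * br p Y z :=
          mul_le_mul_of_nonneg_left hJb.1 hκG
        have step3 : C5 * φ z ^ 2 * br p Y z ≤ C5 * φ z ^ 2 * 2 :=
          mul_le_mul_of_nonneg_left hJb.2 hCq
        have step4 : κ / 1600 * (dx φ z ^ 2 + dy φ z ^ 2) ≤ κ / 1600 * (4 * G) :=
          mul_le_mul_of_nonneg_left g1 (by positivity)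
        linarith
      · rw [indicator_of_notMem hs]
        have hnn : 0 ≤ XF r1 r2 p Y z * (2 * th d d' (sF e σ p Y z) * Dy p Y φ z ^ 2
          + κ / 200 * th d d' (sF e σ p Y z) * Dp p Y φ z ^ 2) := by positivity
        have hlow2 : -(C5 * φ z ^ 2) ≤ Q z := by linarith
        have step1 : -(C5 * φ z ^ 2) * br p Y z ≤ Q z * br p Y z :=
          mul_le_mul_of_nonneg_right hlow2 (by linarith)
        have step3 : C5 * φ z ^ 2 * br p Y z ≤ C5 * φ z ^ 2 * 2 :=
          mul_le_mul_of_nonneg_left hJb.2 hCq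
        linarith
    · have hs : z ∉ Side e σ p Y R' d' := fun h => hz (hSub h)
      obtain ⟨v1, v2, v3⟩ := van z hz
      rw [indicator_of_notMem hz, indicator_of_notMem hs, hQ, QF_eq_zero v1 v2 v3]
      simp
  -- integrate
  have cφ := hφ.continuous
  have cdx : Continuous (dx φ) := (contDiff_dx hφ).continuous
  have cdy : Continuous (dy φ) := (contDiff_dy hφ).continuous
  have oOm : MeasurableSet (Om σ p Y R d0) :=
    (isOpen_Om hp.continuous hY.continuous).measurableSet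
  have oSi : MeasurableSet (Side e σ p Y R' d') :=
    (isOpen_Side hp.continuous hY.continuous).measurableSet
  have bOm : Om σ p Y R d0 ⊆ Metric.closedBall (0 : PP) 2 := fun z hz =>
    bounded_region hc hδ (hz.1.trans hRsq)
  have i1 : IntegrableOn (fun z => κ / 1600 * (dx φ z ^ 2 + dy φ z ^ 2))
      (Side e σ p Y R' d') :=
    (Continuous.continuousOn (by fun_prop)).integrableOn_compact
      (isCompact_closedBall (0 : PP) 2) |>.mono_set (hSub.trans bOm)
  have i2 : IntegrableOn (fun z => 2 * C5 * φ z ^ 2) (Om σ p Y R d0) :=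
    (Continuous.continuousOn (by fun_prop)).integrableOn_compact
      (isCompact_closedBall (0 : PP) 2) |>.mono_set bOm
  have i3 : Integrable (fun z => Q z * br p Y z) := by
    refine Continuous.integrable_of_hasCompactSupport
      ((continuous_QF hp hY hJ hkc hφ cA cB cL).mul (contDiff_br hp hY).continuous) ?_
    exact (hasCompactSupport_QF sA sB sL).mul_right
  have hint := integral_mono (((integrable_indicator_iff oSi).2 i1).sub
    ((integrable_indicator_iff oOm).2 i2)) i3 low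
  rw [← hid, integral_sub' ((integrable_indicator_iff oSi).2 i1)
    ((integrable_indicator_iff oOm).2 i2), integral_indicator oSi, integral_indicator oOm,
    integral_const_mul, integral_const_mul] at hint
  set I1 := ∫ z in Side e σ p Y R' d', (dx φ z ^ 2 + dy φ z ^ 2) with hI1
  set I2 := ∫ z in Om σ p Y R d0, φ z ^ 2 with hI2
  have hI2nn : 0 ≤ I2 := integral_nonneg fun z => sq_nonneg _
  have h1 : κ / 1600 * I1 ≤ 2 * C5 * I2 := by linarith
  have h2 : I1 ≤ 2 * C5 * (1600 / κ) * I2 := by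
    have h3 := mul_le_mul_of_nonneg_left h1 (by positivity : 0 ≤ 1600 / κ)
    have h4 : 1600 / κ * (κ / 1600 * I1) = I1 := by field_simp
    rw [h4] at h3
    linarith
  linarith

end En

open En

/-- ENERGY: interior energy estimate outside the diamond -/
theorem energy_estimate : ∃ cσ κ₀ δ₀ : ℝ, 0 < cσ ∧ cσ ≤ 1 ∧ 0 < κ₀ ∧ κ₀ ≤ 1 ∧ 0 < δ₀ ∧
    ∀ κ : ℝ, 0 < κ → κ ≤ κ₀ → ∀ R R' d d' : ℝ, 4 / 5 ≤ R' → R' < R → R ≤ 19 / 20 →
      cσ * √κ / 16 ≤ d → d < d' → d' ≤ cσ * √κ / 2 →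
      ∃ C : ℝ, 0 < C ∧ ∀ p Y k φ : PP → ℝ, Chart δ₀ p Y → Pocket δ₀ p Y k →
        ContDiff ℝ ∞ φ → (∀ z ∈ Om (cσ * √κ) p Y R d, LL κ p Y k φ z = 0) →
        ∫ z in Om (cσ * √κ) p Y R' d', (dx φ z ^ 2 + dy φ z ^ 2)
          ≤ C * ∫ z in Om (cσ * √κ) p Y R d, φ z ^ 2 := by
  obtain ⟨Com, hCom, hw⟩ := exists_deriv_om_bound
  have hCpos : 0 < Com := by linarith
  refine ⟨1 / (1000 * Com), 1 / 1000000, 1 / 5000, by positivity, ?_, by norm_num, by norm_num,
    by norm_num, ?_⟩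
  · rw [div_le_one (by positivity)]; linarith
  intro κ hκ hκ0 R R' d d' hR' hR'R hR hd hdd' hd'
  have hc1 : 1 / (1000 * Com) ≤ 1 / 1000 :=
    one_div_le_one_div_of_le (by norm_num) (by linarith)
  have hc2 : ∀ y, 1 / (1000 * Com) * |deriv om y| ≤ 1 / 1000 := by
    intro y
    have : 1 / (1000 * Com) * |deriv om y| ≤ 1 / (1000 * Com) * Com :=
      mul_le_mul_of_nonneg_left (hw y) (by positivity)
    refine this.trans (le_of_eq ?_)
    field_simp
  obtain ⟨C1, hC1, E1⟩ := energy_side (by positivity) hc1 hc2 hκ hκ0 hR' hR'R hR hd hdd' hd'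
    (e := 1) (Or.inl rfl)
  obtain ⟨C2, hC2, E2⟩ := energy_side (by positivity) hc1 hc2 hκ hκ0 hR' hR'R hR hd hdd' hd'
    (e := -1) (Or.inr rfl)
  refine ⟨C1 + C2, by positivity, fun p Y k φ hc hP hφ hL => ?_⟩
  have b1 := E1 p Y k φ hc hP hφ hL
  have b2 := E2 p Y k φ hc hP hφ hL
  have hδ : (1 / 5000 : ℝ) ≤ 1 / 10 := by norm_num
  have hRsq : R ^ 2 < 1 := by nlinarith
  set σ := 1 / (1000 * Com) * √κ
  have bS : ∀ e : ℝ, (e = 1 ∨ e = -1) → IntegrableOn (fun z => dx φ z ^ 2 + dy φ z ^ 2)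
      (Side e σ p Y R' d') := by
    intro e he
    have cdx : Continuous (dx φ) := (contDiff_dx hφ).continuous
    have cdy : Continuous (dy φ) := (contDiff_dy hφ).continuous
    refine ((Continuous.continuousOn (by fun_prop)).integrableOn_compact
      (isCompact_closedBall (0 : PP) 2)).mono_set fun z hz => ?_
    have hz' := Side_subset_Om (d := d) he (by linarith) hR'R.le hdd'.le hz
    exact bounded_region hc hδ (hz'.1.trans hRsq)
  have oS : ∀ e : ℝ, MeasurableSet (Side e σ p Y R' d') := fun e =>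
    (isOpen_Side hc.smp.continuous hc.smY.continuous).measurableSet
  calc ∫ z in Om σ p Y R' d', (dx φ z ^ 2 + dy φ z ^ 2)
      ≤ ∫ z in Side 1 σ p Y R' d' ∪ Side (-1) σ p Y R' d', (dx φ z ^ 2 + dy φ z ^ 2) := by
        refine setIntegral_mono_set ((bS 1 (Or.inl rfl)).union (bS (-1) (Or.inr rfl))) ?_
          (LE.le.eventuallyLE Om_subset_Side)
        exact Filter.Eventually.of_forall fun z => by positivity
    _ ≤ (∫ z in Side 1 σ p Y R' d', (dx φ z ^ 2 + dy φ z ^ 2))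
        + ∫ z in Side (-1) σ p Y R' d', (dx φ z ^ 2 + dy φ z ^ 2) := by
        have := setIntegral_mono_set
          (s := Side (-1) σ p Y R' d' \ Side 1 σ p Y R' d') (bS (-1) (Or.inr rfl))
          (Filter.Eventually.of_forall fun z => by positivity)
          (LE.le.eventuallyLE sdiff_subset)
        rw [← union_sdiff_self, setIntegral_union disjoint_sdiff_right
          ((oS (-1)).diff (oS 1)) (bS 1 (Or.inl rfl))
          ((bS (-1) (Or.inr rfl)).mono_set sdiff_subset)]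
        linarith
    _ ≤ (C1 + C2) * ∫ z in Om σ p Y R d, φ z ^ 2 := by linarith

end Crest.Agent.Iso341
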