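import Crest.Agent.Iso341.Slab3

/-! S0341, part SLAB, final file: `slab_estimate`. -/

set_option autoImplicit false

open MeasureTheory Set
open scoped ContDiff

namespace Crest.Agent.Iso341.Slab

section final

variable {ce δ κ c s ρ : ℝ} {p Y k ζ S φ : PP → ℝ}

/-- the annulus -/
def Ann (p Y : PP → ℝ) : Set PP :=
  {z : PP | 25 / 256 ≤ p z ^ 2 + Y z ^ 2 ∧ p z ^ 2 + Y z ^ 2 < 9 / 64}

theorem sq_sum3_le (a b c : ℝ) : (|a| + |b| + |c|) ^ 2 ≤ 3 * (a ^ 2 + b ^ 2 + c ^ 2) := by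
  have h1 := sq_abs a
  have h2 := sq_abs b
  have h3 := sq_abs c
  nlinarith [sq_nonneg (|a| - |b|), sq_nonneg (|a| - |c|), sq_nonneg (|b| - |c|)]

theorem E0_bound {M : ℝ} (hM0 : 0 < M)
    (hM : ∀ u, |deriv ch0 u| ≤ M ∧ |deriv (deriv ch0) u| ≤ M)
    (h : Chart δ p Y) (hP : Pocket δ p Y k) (hδ : δ ≤ 1 / 1000) (hκ : 0 < κ) (hκ1 : κ ≤ 1)
    (hζ : ContDiff ℝ ∞ ζ) (hSs : ∀ z, S z ≠ 0 → p z ^ 2 + Y z ^ 2 < 25 / 256)
    (heq : ∀ z, p z ^ 2 + Y z ^ 2 < 9 / 64 → LL κ p Y k ζ z = S z) (z : PP) :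
    (LL κ p Y k (fun w => ch0 (p w ^ 2 + Y w ^ 2) * ζ w) z - S z) ^ 2
      ≤ (Ann p Y).indicator
        (fun z => 3 * (54 * M) ^ 2 * (ζ z ^ 2 + dx ζ z ^ 2 + dy ζ z ^ 2)) z := by
  have hp := h.smp
  have hY := h.smY
  have hδ1 : δ ≤ 1 / 10 := hδ.trans (by norm_num)
  have hJ := h.J_ne hδ1
  have hq := contDiff_q hp hY
  have hpos : 0 ≤ (Ann p Y).indicator
        (fun z => 3 * (54 * M) ^ 2 * (ζ z ^ 2 + dx ζ z ^ 2 + dy ζ z ^ 2)) z :=
    indicator_nonneg (fun _ _ => by positivity) z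
  rcases lt_or_ge (p z ^ 2 + Y z ^ 2) (27 / 256) with h1 | h1
  · have e : (fun w => ch0 (p w ^ 2 + Y w ^ 2) * ζ w) =ᶠ[nhds z] ζ := by
      have hU : IsOpen {w : PP | p w ^ 2 + Y w ^ 2 < 27 / 256} :=
        isOpen_lt hq.continuous continuous_const
      refine Filter.eventuallyEq_of_mem (hU.mem_nhds h1) fun w hw => ?_
      have hw' : p w ^ 2 + Y w ^ 2 < 27 / 256 := hw
      change ch0 (p w ^ 2 + Y w ^ 2) * ζ w = ζ w
      rw [ch0_one hw'.le, one_mul]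
    rw [LL_congr e, heq z (by linarith), sub_self]
    simpa using hpos
  rcases lt_or_ge (35 / 256) (p z ^ 2 + Y z ^ 2) with h2 | h2
  · have e : (fun w => ch0 (p w ^ 2 + Y w ^ 2) * ζ w) =ᶠ[nhds z] fun _ => 0 := by
      have hU : IsOpen {w : PP | 35 / 256 < p w ^ 2 + Y w ^ 2} :=
        isOpen_lt continuous_const hq.continuous
      refine Filter.eventuallyEq_of_mem (hU.mem_nhds h2) fun w hw => ?_
      have hw' : 35 / 256 < p w ^ 2 + Y w ^ 2 := hw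
      change ch0 (p w ^ 2 + Y w ^ 2) * ζ w = 0
      rw [ch0_zero hw'.le, zero_mul]
    have hS0 : S z = 0 := by
      by_contra hne
      have := hSs z hne
      linarith
    rw [LL_congr e, LL_const, hS0]
    simpa using hpos
  · have hS0 : S z = 0 := by
      by_contra hne
      have := hSs z hne
      linarith
    have hmem : z ∈ Ann p Y := ⟨by linarith, by linarith⟩
    have hχ : ContDiff ℝ ∞ fun w => ch0 (p w ^ 2 + Y w ^ 2) := contDiff_ch0.comp hq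
    rw [indicator_of_mem hmem, LL_mul hp hY hJ hP.smk hζ hχ z, heq z (by linarith), hS0]
    have hb := comm_ch0 hM0 hM h hP hδ hκ hκ1 (z := z) (by linarith) ζ
    set Q := ζ z * LL κ p Y k (fun w => ch0 (p w ^ 2 + Y w ^ 2)) z
      + 2 * (Dy p Y (fun w => ch0 (p w ^ 2 + Y w ^ 2)) z * Dy p Y ζ z
        + κ * k z * (Dp p Y (fun w => ch0 (p w ^ 2 + Y w ^ 2)) z * Dp p Y ζ z)) with hQ
    have e : ch0 (p z ^ 2 + Y z ^ 2) * 0
        + ζ z * LL κ p Y k (fun w => ch0 (p w ^ 2 + Y w ^ 2)) z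
        + 2 * (Dy p Y (fun w => ch0 (p w ^ 2 + Y w ^ 2)) z * Dy p Y ζ z
          + κ * k z * (Dp p Y (fun w => ch0 (p w ^ 2 + Y w ^ 2)) z * Dp p Y ζ z)) - 0 = Q := by
      rw [hQ, mul_zero, zero_add, sub_zero]
    rw [e]
    have hb2 : |Q| ≤ 54 * M * (|ζ z| + |dx ζ z| + |dy ζ z|) := by
      have g1 := h.slab_abs_Dy_le hδ1 ζ z
      have g2 := h.slab_abs_Dp_le hδ1 ζ z
      refine hb.trans ?_
      have : |ζ z| + |Dy p Y ζ z| + |Dp p Y ζ z| ≤ 6 * (|ζ z| + |dx ζ z| + |dy ζ z|) := by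
        linarith [abs_nonneg (ζ z)]
      have := mul_le_mul_of_nonneg_left this (by positivity : 0 ≤ 9 * M)
      linarith
    have hb3 : Q ^ 2 ≤ (54 * M * (|ζ z| + |dx ζ z| + |dy ζ z|)) ^ 2 :=
      sq_le_sq' (by linarith [neg_abs_le Q]) ((le_abs_self Q).trans hb2)
    have := sq_sum3_le (ζ z) (dx ζ z) (dy ζ z)
    have := mul_le_mul_of_nonneg_left this (by positivity : 0 ≤ (54 * M) ^ 2)
    rw [mul_pow] at hb3
    linarith

theorem weighted (h : Chart δ p Y) (hP : Pocket δ p Y k) (hce : 0 < ce) (hce1 : ce ≤ 1)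
    (hκ : 0 < κ) (hκ1 : κ ≤ ce ^ 2 / 400) (hδ : δ ≤ 1 / 1000) (hδ' : δ ≤ ce / 10)
    (hc : ce ≤ c) (hcs : c ^ 2 + s ^ 2 = 1) (hφ : ContDiff ℝ ∞ φ) (hs : HasCompactSupport φ)
    {D : Set PP} (hD : IsClosed D) (hDs : ∀ z ∈ D, p z ^ 2 + Y z ^ 2 ≤ 9 / 64)
    (hφD : ∀ z, z ∉ D → φ z = 0) {B : ℝ → ℝ} (hB : ContDiff ℝ ∞ B)
    (hB1 : ∀ u, 40 / ce * |B u| ≤ deriv B u) (hB3 : ∀ u, |u| ≤ 1 → |B u| ≤ Real.exp (40 / ce))
    {E0 : PP → ℝ} (hE : Continuous E0) (hEs : HasCompactSupport E0)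
    (hE0 : ∀ z ∈ D, |B (tf c s z)| * LL κ p Y k φ z ^ 2 ≤ |B (tf c s z)| * E0 z ^ 2) :
    ∫ z, deriv B (tf c s z) * (φ z ^ 2 + Dy p Y φ z ^ 2 + κ * Dp p Y φ z ^ 2) * br p Y z
      ≤ 50 / ce * Real.exp (40 / ce) * ∫ z, E0 z ^ 2 := by
  have hδ1 : δ ≤ 1 / 10 := hδ.trans (by norm_num)
  have hJ := h.J_ne hδ1
  have hp := h.smp
  have hY := h.smY
  have ht := contDiff_tf c s
  have c1 := contDiff_Dy hp hY hJ hφ
  have c3 := contDiff_Dp hp hY hJ hφ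
  have cL := contDiff_LL (κ := κ) hp hY hJ hP.smk hφ
  have hB' : Continuous (deriv B) := hB.continuous_deriv (by simp)
  have hB't : Continuous fun z => deriv B (tf c s z) := hB'.comp ht.continuous
  have hJc := (contDiff_br hp hY).continuous
  have hB'0 : ∀ u, 0 ≤ deriv B u := fun u => le_trans (by positivity) (hB1 u)
  set W : ℝ → ℝ := fun u => ce / 40 * |B u| with hWdef
  have hW : Continuous W := continuous_const.mul hB.continuous.abs
  have hW0 : ∀ u, 0 ≤ W u := fun u => by positivity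
  have hB2 : ∀ u, B u ^ 2 ≤ W u * deriv B u := by
    intro u
    have := mul_le_mul_of_nonneg_left (hB1 u) (hW0 u)
    have e : W u * (40 / ce * |B u|) = B u ^ 2 := by
      rw [hWdef, ← sq_abs (B u)]; field_simp
    linarith
  have hWB : ∀ u, 4 / ce * W u ≤ ce / 400 * deriv B u := by
    intro u
    have := mul_le_mul_of_nonneg_left (hB1 u) (by positivity : 0 ≤ ce / 400)
    have e : ce / 400 * (40 / ce * |B u|) = 4 / ce * W u := by
      rw [hWdef]; field_simp; ring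
    linarith
  have m1 := energy_int h hP hce hce1 hκ hκ1 hδ hδ' hc hcs hφ hs hD hDs hφD hB hW hW0
    (fun z _ => hB1 _) (fun z _ => hB2 _)
  have m2 := mass_int (p := p) (Y := Y) h hce hδ hδ' hc hcs hφ hs hD hφD hB hW hW0
    (fun z _ => hB'0 _) (fun z _ => hB2 _)
  have sq1 : HasCompactSupport fun w => Dy p Y φ w ^ 2 :=
    (hcs_Dy hs).comp_left (g := fun t => t ^ 2) (by norm_num)
  have sq2 : HasCompactSupport fun w => Dp p Y φ w ^ 2 :=
    (hcs_Dp hs).comp_left (g := fun t => t ^ 2) (by norm_num)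
  have sq0 : HasCompactSupport fun w => φ w ^ 2 :=
    hs.comp_left (g := fun t => t ^ 2) (by norm_num)
  have sq3 : HasCompactSupport fun w => LL κ p Y k φ w ^ 2 :=
    (hcs_LL hs).comp_left (g := fun t => t ^ 2) (by norm_num)
  have sqE : HasCompactSupport fun w => E0 w ^ 2 :=
    hEs.comp_left (g := fun t => t ^ 2) (by norm_num)
  have iy : Integrable fun z => deriv B (tf c s z) * Dy p Y φ z ^ 2 * br p Y z :=
    integrable_cs ((hB't.mul (c1.continuous.pow 2)).mul hJc)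
      (hcs_mul_left (hcs_mul_right sq1 _) _)
  have ip : Integrable fun z => deriv B (tf c s z) * (κ * Dp p Y φ z ^ 2) * br p Y z :=
    integrable_cs ((hB't.mul (continuous_const.mul (c3.continuous.pow 2))).mul hJc)
      (hcs_mul_left (hcs_mul_right (hcs_mul_right sq2 _) _) _)
  have i0 : Integrable fun z => deriv B (tf c s z) * φ z ^ 2 * br p Y z :=
    integrable_cs ((hB't.mul (hφ.continuous.pow 2)).mul hJc)
      (hcs_mul_left (hcs_mul_right sq0 _) _)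
  have e1 : ∫ z, (ce / 16 * deriv B (tf c s z) * Dy p Y φ z ^ 2
        + ce / 200 * κ * deriv B (tf c s z) * Dp p Y φ z ^ 2) * br p Y z
      = ce / 16 * (∫ z, deriv B (tf c s z) * Dy p Y φ z ^ 2 * br p Y z)
        + ce / 200 * ∫ z, deriv B (tf c s z) * (κ * Dp p Y φ z ^ 2) * br p Y z := by
    rw [← integral_const_mul, ← integral_const_mul,
      ← integral_add (iy.const_mul _) (ip.const_mul _)]
    congr 1; funext z; ring
  have e2 : ∫ z, ce / 4 * deriv B (tf c s z) * φ z ^ 2 * br p Y z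
      = ce / 4 * ∫ z, deriv B (tf c s z) * φ z ^ 2 * br p Y z := by
    rw [← integral_const_mul]; congr 1; funext z; ring
  have e3 : ∫ z, deriv B (tf c s z) * (φ z ^ 2 + Dy p Y φ z ^ 2 + κ * Dp p Y φ z ^ 2) * br p Y z
      = (∫ z, deriv B (tf c s z) * φ z ^ 2 * br p Y z)
        + (∫ z, deriv B (tf c s z) * Dy p Y φ z ^ 2 * br p Y z)
        + ∫ z, deriv B (tf c s z) * (κ * Dp p Y φ z ^ 2) * br p Y z := by
    rw [← integral_add i0 iy]
    have i0y : Integrable fun z => deriv B (tf c s z) * φ z ^ 2 * br p Y z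
      + deriv B (tf c s z) * Dy p Y φ z ^ 2 * br p Y z := i0.add iy
    rw [← integral_add i0y ip]
    congr 1; funext z; ring
  have m3 : ∫ z, 4 / ce * W (tf c s z) * Dy p Y φ z ^ 2 * br p Y z
      ≤ ce / 400 * ∫ z, deriv B (tf c s z) * Dy p Y φ z ^ 2 * br p Y z := by
    rw [← integral_const_mul]
    refine integral_mono ?_ (iy.const_mul _) fun z => ?_
    · refine integrable_cs ?_ (hcs_mul_left (hcs_mul_right sq1 _) _)
      exact ((continuous_const.mul (hW.comp ht.continuous)).mul (c1.continuous.pow 2)).mul hJc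
    · have hJ0 := (h.J_pos hδ1 z).le
      have := mul_le_mul_of_nonneg_right (hWB (tf c s z))
        (by positivity : 0 ≤ Dy p Y φ z ^ 2 * br p Y z)
      change 4 / ce * W (tf c s z) * Dy p Y φ z ^ 2 * br p Y z
        ≤ ce / 400 * (deriv B (tf c s z) * Dy p Y φ z ^ 2 * br p Y z)
      linarith
  have m4 : ∫ z, 4 / ce * W (tf c s z) * LL κ p Y k φ z ^ 2 * br p Y z
      ≤ Real.exp (40 / ce) / 5 * ∫ z, E0 z ^ 2 := by
    rw [← integral_const_mul]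
    refine integral_mono ?_ ((integrable_cs (hE.pow 2) sqE).const_mul _) fun z => ?_
    · refine integrable_cs ?_ (hcs_mul_left (hcs_mul_right sq3 _) _)
      exact ((continuous_const.mul (hW.comp ht.continuous)).mul (cL.continuous.pow 2)).mul hJc
    · change 4 / ce * W (tf c s z) * LL κ p Y k φ z ^ 2 * br p Y z
        ≤ Real.exp (40 / ce) / 5 * E0 z ^ 2
      by_cases hz : z ∈ D
      · obtain ⟨j1, j2⟩ := h.J_bounds hδ1 z
        have a1 := hE0 z hz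
        have a2 := hB3 _ (abs_tf_le h hδ1 hcs (hDs z hz))
        have e4 : 4 / ce * W (tf c s z) = 1 / 10 * |B (tf c s z)| := by
          rw [hWdef]; field_simp; ring
        rw [e4]
        have a3 := mul_le_mul_of_nonneg_right a2 (sq_nonneg (E0 z))
        have a4 : 0 ≤ |B (tf c s z)| * LL κ p Y k φ z ^ 2 := by positivity
        have a5 := mul_le_mul_of_nonneg_left j2 a4
        have a6 : 1 / 10 * |B (tf c s z)| * LL κ p Y k φ z ^ 2 * br p Y z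
          = 1 / 10 * (|B (tf c s z)| * LL κ p Y k φ z ^ 2 * br p Y z) := by ring
        rw [a6]
        linarith
      · rw [LL_zero_off hD hφD hz]
        have : 0 ≤ Real.exp (40 / ce) / 5 * E0 z ^ 2 := by positivity
        simpa using this
  rw [e1] at m1
  rw [e2] at m2
  rw [e3]
  set Iy := ∫ z, deriv B (tf c s z) * Dy p Y φ z ^ 2 * br p Y z with hIy
  set Ip := ∫ z, deriv B (tf c s z) * (κ * Dp p Y φ z ^ 2) * br p Y z with hIp
  set I0 := ∫ z, deriv B (tf c s z) * φ z ^ 2 * br p Y z with hI0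
  set IE := ∫ z, E0 z ^ 2 with hIE
  have hIy0 : 0 ≤ Iy := integral_nonneg fun z => by
    have := (h.J_pos hδ1 z).le
    have := hB'0 (tf c s z)
    positivity
  have hIE0 : 0 ≤ IE := integral_nonneg fun z => by positivity
  have f1 : I0 ≤ Iy / 100 := by
    have : ce / 4 * I0 ≤ ce / 400 * Iy := m2.trans m3
    have := (mul_le_mul_iff_right₀ (by positivity : 0 < ce / 4)).1
      (this.trans (le_of_eq (by ring : ce / 400 * Iy = ce / 4 * (Iy / 100))))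
    exact this
  have f2 : ce / 200 * (Iy + Ip) ≤ Real.exp (40 / ce) / 5 * IE := by
    have : ce / 200 * Iy ≤ ce / 16 * Iy := by nlinarith
    linarith [m1.trans m4]
  have f3 : Iy + Ip ≤ 40 / ce * Real.exp (40 / ce) * IE := by
    have e5 : ce / 200 * (40 / ce * Real.exp (40 / ce) * IE) = Real.exp (40 / ce) / 5 * IE := by
      field_simp; ring
    have := f2.trans (le_of_eq e5.symm)
    exact (mul_le_mul_iff_right₀ (by positivity : 0 < ce / 200)).1 this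
  have hIp0 : 0 ≤ Ip := integral_nonneg fun z => by
    have := (h.J_pos hδ1 z).le
    have := hB'0 (tf c s z)
    positivity
  have f4 : 0 ≤ 1 / ce * Real.exp (40 / ce) * IE := by positivity
  have e6 : 40 / ce * Real.exp (40 / ce) * IE = 40 * (1 / ce * Real.exp (40 / ce) * IE) := by
    ring
  have e7 : 50 / ce * Real.exp (40 / ce) * IE = 50 * (1 / ce * Real.exp (40 / ce) * IE) := by
    ring
  rw [e7]
  rw [e6] at f3
  linarith

/-- the reflected weight -/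
noncomputable def Bm (Λ ρ : ℝ) (u : ℝ) : ℝ := - Bw Λ ρ (-u)

theorem contDiff_Bm (Λ ρ : ℝ) : ContDiff ℝ ∞ (Bm Λ ρ) :=
  ((contDiff_Bw Λ ρ).comp contDiff_neg).neg

theorem deriv_Bm (Λ ρ u : ℝ) : deriv (Bm Λ ρ) u = deriv (Bw Λ ρ) (-u) := by
  have hd : HasDerivAt (Bw Λ ρ) (deriv (Bw Λ ρ) (-u)) (-u) :=
    (((contDiff_Bw Λ ρ).differentiable (by simp)) _).hasDerivAt
  have := (hd.comp u (hasDerivAt_neg u)).neg.deriv
  have e : Bm Λ ρ = -(Bw Λ ρ ∘ fun v => -v) := by funext v; simp [Bm]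
  rw [e, this]; ring

theorem abs_Bw (Λ ρ u : ℝ) : |Bw Λ ρ u| = Bw Λ ρ u := abs_of_nonneg (Bw_nonneg _ _ _)

theorem abs_Bm (Λ ρ u : ℝ) : |Bm Λ ρ u| = Bw Λ ρ (-u) := by
  rw [Bm, abs_neg, abs_Bw]

theorem deriv_Bw_nonneg {Λ ρ : ℝ} (hΛ : 0 ≤ Λ) (hρ : 0 < ρ) (u : ℝ) :
    0 ≤ deriv (Bw Λ ρ) u :=
  le_trans (mul_nonneg hΛ (Bw_nonneg _ _ _)) (Bw_deriv_ge hρ u)

theorem integral_E0_le {M ε : ℝ} (hM0 : 0 < M)
    (hM : ∀ u, |deriv ch0 u| ≤ M ∧ |deriv (deriv ch0) u| ≤ M)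
    (h : Chart δ p Y) (hP : Pocket δ p Y k) (hδ : δ ≤ 1 / 1000) (hκ : 0 < κ) (hκ1 : κ ≤ 1)
    (hζ : ContDiff ℝ ∞ ζ) (hSs : ∀ z, S z ≠ 0 → p z ^ 2 + Y z ^ 2 < 25 / 256)
    (heq : ∀ z, p z ^ 2 + Y z ^ 2 < 9 / 64 → LL κ p Y k ζ z = S z)
    (hε : ∫ z in Ann p Y, (ζ z ^ 2 + dx ζ z ^ 2 + dy ζ z ^ 2) ≤ ε ^ 2) :
    ∫ z, (LL κ p Y k (fun w => ch0 (p w ^ 2 + Y w ^ 2) * ζ w) z - S z) ^ 2
      ≤ 3 * (54 * M) ^ 2 * ε ^ 2 := by
  have hp := h.smp
  have hY := h.smY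
  have hδ1 : δ ≤ 1 / 10 := hδ.trans (by norm_num)
  have hq := contDiff_q hp hY
  have hmeas : MeasurableSet (Ann p Y) :=
    (measurableSet_le measurable_const hq.continuous.measurable).inter
      (measurableSet_lt hq.continuous.measurable measurable_const)
  set g : PP → ℝ := fun z => 3 * (54 * M) ^ 2 * (ζ z ^ 2 + dx ζ z ^ 2 + dy ζ z ^ 2) with hg
  have gc : Continuous g := continuous_const.mul (((hζ.continuous.pow 2).add
    ((contDiff_dx hζ).continuous.pow 2)).add ((contDiff_dy hζ).continuous.pow 2))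
  have gi : IntegrableOn g (Ann p Y) := by
    refine (gc.continuousOn.integrableOn_compact
      (isCompact_disc h hδ1 (9 / 64) le_rfl)).mono_set ?_
    intro z hz
    exact hz.2.le
  calc ∫ z, (LL κ p Y k (fun w => ch0 (p w ^ 2 + Y w ^ 2) * ζ w) z - S z) ^ 2
      ≤ ∫ z, (Ann p Y).indicator g z := by
        refine integral_mono_of_nonneg (Filter.Eventually.of_forall fun z => sq_nonneg _)
          ((integrable_indicator_iff hmeas).2 gi) (Filter.Eventually.of_forall fun z => ?_)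
        exact E0_bound hM0 hM h hP hδ hκ hκ1 hζ hSs heq z
    _ = ∫ z in Ann p Y, g z := integral_indicator hmeas
    _ = 3 * (54 * M) ^ 2 * ∫ z in Ann p Y, (ζ z ^ 2 + dx ζ z ^ 2 + dy ζ z ^ 2) :=
        integral_const_mul _ _
    _ ≤ _ := mul_le_mul_of_nonneg_left hε (by positivity)

/-- the last step: a slab of width `ρ` -/
theorem thin (h : Chart δ p Y) (hP : Pocket δ p Y k) (hce : 0 < ce) (hce1 : ce ≤ 1)
    (hκ : 0 < κ) (hκ1 : κ ≤ ce ^ 2 / 400) (hδ : δ ≤ 1 / 1000) (hδ' : δ ≤ ce / 10)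
    (hρ : 0 < ρ) (hρ1 : ρ ≤ ce / 280)
    (hc : ce ≤ c) (hcs : c ^ 2 + s ^ 2 = 1) (hφ : ContDiff ℝ ∞ φ) (hs : HasCompactSupport φ)
    {D : Set PP} (hD : IsClosed D) (hDs : ∀ z ∈ D, p z ^ 2 + Y z ^ 2 ≤ 9 / 64)
    (hDt : ∀ z ∈ D, |tf c s z| ≤ 3 * ρ) (hφD : ∀ z, z ∉ D → φ z = 0) :
    ∫ z, φ z ^ 2 ≤ (3136 / ce ^ 2 * ρ ^ 2) ^ 2 * ∫ z, LL κ p Y k φ z ^ 2 := by
  have hδ1 : δ ≤ 1 / 10 := hδ.trans (by norm_num)
  have hJ := h.J_ne hδ1
  have hp := h.smp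
  have hY := h.smY
  have c1 := contDiff_Dy hp hY hJ hφ
  have c3 := contDiff_Dp hp hY hJ hφ
  have cL := contDiff_LL (κ := κ) hp hY hJ hP.smk hφ
  have hJc := (contDiff_br hp hY).continuous
  set B : ℝ → ℝ := fun u => u + 4 * ρ with hB
  have cB : ContDiff ℝ ∞ B := contDiff_id.add contDiff_const
  have dB : ∀ u, deriv B u = 1 := fun u =>
    ((hasDerivAt_id u).add_const (4 * ρ)).deriv
  set W : ℝ → ℝ := fun _ => 49 * ρ ^ 2 with hW
  have hBa : ∀ z ∈ D, |B (tf c s z)| ≤ 7 * ρ := by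
    intro z hz
    have := abs_le.1 (hDt z hz)
    rw [hB, abs_le]; constructor <;> simp only <;> linarith
  have hB1 : ∀ z ∈ D, 40 / ce * |B (tf c s z)| ≤ deriv B (tf c s z) := by
    intro z hz
    rw [dB]
    have e := mul_le_mul_of_nonneg_left (hBa z hz) (by positivity : 0 ≤ 40 / ce)
    have e2 : 40 / ce * (7 * ρ) ≤ 1 := by
      rw [div_mul_eq_mul_div, div_le_one hce]; linarith
    linarith
  have hB2 : ∀ z ∈ D, B (tf c s z) ^ 2 ≤ W (tf c s z) * deriv B (tf c s z) := by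
    intro z hz
    rw [dB, mul_one, ← sq_abs]
    have := hBa z hz
    have h0 := abs_nonneg (B (tf c s z))
    change |B (tf c s z)| ^ 2 ≤ 49 * ρ ^ 2
    nlinarith
  have hW0 : ∀ u, 0 ≤ W u := fun u => by positivity
  have cW : Continuous W := continuous_const
  have m1 := energy_int h hP hce hce1 hκ hκ1 hδ hδ' hc hcs hφ hs hD hDs hφD cB
    cW hW0 hB1 hB2
  have m2 := mass_int (p := p) (Y := Y) h hce hδ hδ' hc hcs hφ hs hD hφD cB
    cW hW0 (fun z _ => by rw [dB]; norm_num) hB2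
  have sq1 : HasCompactSupport fun w => Dy p Y φ w ^ 2 :=
    (hcs_Dy hs).comp_left (g := fun t => t ^ 2) (by norm_num)
  have sq2 : HasCompactSupport fun w => Dp p Y φ w ^ 2 :=
    (hcs_Dp hs).comp_left (g := fun t => t ^ 2) (by norm_num)
  have sq0 : HasCompactSupport fun w => φ w ^ 2 :=
    hs.comp_left (g := fun t => t ^ 2) (by norm_num)
  have sq3 : HasCompactSupport fun w => LL κ p Y k φ w ^ 2 :=
    (hcs_LL hs).comp_left (g := fun t => t ^ 2) (by norm_num)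
  have iy : Integrable fun z => Dy p Y φ z ^ 2 * br p Y z :=
    integrable_cs ((c1.continuous.pow 2).mul hJc) (hcs_mul_left sq1 _)
  have ip : Integrable fun z => Dp p Y φ z ^ 2 * br p Y z :=
    integrable_cs ((c3.continuous.pow 2).mul hJc) (hcs_mul_left sq2 _)
  have i0 : Integrable fun z => φ z ^ 2 * br p Y z :=
    integrable_cs ((hφ.continuous.pow 2).mul hJc) (hcs_mul_left sq0 _)
  have iL : Integrable fun z => LL κ p Y k φ z ^ 2 * br p Y z :=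
    integrable_cs ((cL.continuous.pow 2).mul hJc) (hcs_mul_left sq3 _)
  have e1 : ∫ z, (ce / 16 * deriv B (tf c s z) * Dy p Y φ z ^ 2
        + ce / 200 * κ * deriv B (tf c s z) * Dp p Y φ z ^ 2) * br p Y z
      = ce / 16 * (∫ z, Dy p Y φ z ^ 2 * br p Y z)
        + ce / 200 * κ * ∫ z, Dp p Y φ z ^ 2 * br p Y z := by
    rw [← integral_const_mul, ← integral_const_mul,
      ← integral_add (iy.const_mul _) (ip.const_mul _)]
    congr 1; funext z; rw [dB]; ring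
  have e2 : ∫ z, ce / 4 * deriv B (tf c s z) * φ z ^ 2 * br p Y z
      = ce / 4 * ∫ z, φ z ^ 2 * br p Y z := by
    rw [← integral_const_mul]; congr 1; funext z; rw [dB]; ring
  have e3 : ∫ z, 4 / ce * W (tf c s z) * Dy p Y φ z ^ 2 * br p Y z
      = 196 * ρ ^ 2 / ce * ∫ z, Dy p Y φ z ^ 2 * br p Y z := by
    rw [← integral_const_mul]; congr 1; funext z; rw [hW]; ring
  have e4 : ∫ z, 4 / ce * W (tf c s z) * LL κ p Y k φ z ^ 2 * br p Y z
      = 196 * ρ ^ 2 / ce * ∫ z, LL κ p Y k φ z ^ 2 * br p Y z := by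
    rw [← integral_const_mul]; congr 1; funext z; rw [hW]; ring
  rw [e1, e4] at m1
  rw [e2, e3] at m2
  have hJp : ∀ z, 0 ≤ br p Y z := fun z => (h.J_pos hδ1 z).le
  have hIp : 0 ≤ ∫ z, Dp p Y φ z ^ 2 * br p Y z :=
    integral_nonneg fun z => mul_nonneg (sq_nonneg _) (hJp z)
  set Iy := ∫ z, Dy p Y φ z ^ 2 * br p Y z
  set I0 := ∫ z, φ z ^ 2 * br p Y z
  set IL := ∫ z, LL κ p Y k φ z ^ 2 * br p Y z with hIL
  have f1 : Iy ≤ 3136 * ρ ^ 2 / ce ^ 2 * IL := by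
    have : ce / 16 * Iy ≤ 196 * ρ ^ 2 / ce * IL := by
      have : 0 ≤ ce / 200 * κ * ∫ z, Dp p Y φ z ^ 2 * br p Y z := by positivity
      linarith
    have e : 196 * ρ ^ 2 / ce * IL = ce / 16 * (3136 * ρ ^ 2 / ce ^ 2 * IL) := by
      field_simp; ring
    rw [e] at this
    exact (mul_le_mul_iff_right₀ (by positivity : 0 < ce / 16)).1 this
  have f2 : I0 ≤ 784 * ρ ^ 2 / ce ^ 2 * Iy := by
    have e : 196 * ρ ^ 2 / ce * Iy = ce / 4 * (784 * ρ ^ 2 / ce ^ 2 * Iy) := by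
      field_simp; ring
    rw [e] at m2
    exact (mul_le_mul_iff_right₀ (by positivity : 0 < ce / 4)).1 m2
  have f3 : I0 ≤ 784 * ρ ^ 2 / ce ^ 2 * (3136 * ρ ^ 2 / ce ^ 2 * IL) :=
    f2.trans (mul_le_mul_of_nonneg_left f1 (by positivity))
  have f4 : ∫ z, φ z ^ 2 ≤ 2 * I0 := by
    rw [← integral_const_mul]
    refine integral_mono (integrable_cs (hφ.continuous.pow 2) sq0) (i0.const_mul _) fun z => ?_
    have := (h.J_bounds hδ1 z).1
    change φ z ^ 2 ≤ 2 * (φ z ^ 2 * br p Y z)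
    nlinarith [sq_nonneg (φ z)]
  have f5 : IL ≤ 2 * ∫ z, LL κ p Y k φ z ^ 2 := by
    rw [← integral_const_mul, hIL]
    refine integral_mono iL ((integrable_cs (cL.continuous.pow 2) sq3).const_mul _) fun z => ?_
    have := (h.J_bounds hδ1 z).2
    change LL κ p Y k φ z ^ 2 * br p Y z ≤ 2 * LL κ p Y k φ z ^ 2
    nlinarith [sq_nonneg (LL κ p Y k φ z)]
  have f6 : 784 * ρ ^ 2 / ce ^ 2 * (3136 * ρ ^ 2 / ce ^ 2 * IL)
      ≤ 784 * ρ ^ 2 / ce ^ 2 * (3136 * ρ ^ 2 / ce ^ 2 * (2 * ∫ z, LL κ p Y k φ z ^ 2)) :=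
    mul_le_mul_of_nonneg_left (mul_le_mul_of_nonneg_left f5 (by positivity)) (by positivity)
  have e5 : 2 * (784 * ρ ^ 2 / ce ^ 2 * (3136 * ρ ^ 2 / ce ^ 2 *
      (2 * ∫ z, LL κ p Y k φ z ^ 2)))
      = (3136 / ce ^ 2 * ρ ^ 2) ^ 2 * ∫ z, LL κ p Y k φ z ^ 2 := by
    field_simp; ring
  rw [← e5]
  linarith

/-- pointwise bound of the error term, in real numbers -/
theorem pt_real {κ ρ K2 M2 e0 x r f fy fp g q J e : ℝ} (hκ : 0 < κ) (hκ1 : κ ≤ 1) (hρ : 0 < ρ)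
    (hK2 : K2 = 3 * (396 * M2) ^ 2) (he : e = x * e0 + r) (hx : |x| ≤ 1)
    (hr : |r| ≤ 396 * M2 / ρ ^ 2 * (|f| + |fy| + |fp|)) (hg : 1 ≤ g)
    (hq : q = f ^ 2 + fy ^ 2 + κ * fp ^ 2) (hJ : 1 / 2 ≤ J) :
    e ^ 2 ≤ 2 * e0 ^ 2 + 4 * K2 / (κ * ρ ^ 4) * (g * q * J) := by
  have hq0 : 0 ≤ q := by rw [hq]; positivity
  have hX2 : (x * e0) ^ 2 ≤ e0 ^ 2 := by
    rw [mul_pow, ← sq_abs x]
    have : |x| ^ 2 ≤ 1 := by
      have := abs_nonneg x
      nlinarith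
    nlinarith [sq_nonneg e0]
  have hR2 : r ^ 2 ≤ (396 * M2 / ρ ^ 2) ^ 2 * (3 * (f ^ 2 + fy ^ 2 + fp ^ 2)) := by
    have a1 : r ^ 2 ≤ (396 * M2 / ρ ^ 2 * (|f| + |fy| + |fp|)) ^ 2 :=
      sq_le_sq' (by linarith [neg_abs_le r]) ((le_abs_self r).trans hr)
    rw [mul_pow] at a1
    exact a1.trans (mul_le_mul_of_nonneg_left (sq_sum3_le _ _ _) (sq_nonneg _))
  have hQ2 : f ^ 2 + fy ^ 2 + fp ^ 2 ≤ 1 / κ * q := by
    rw [hq]
    have e1 : 1 / κ * (f ^ 2 + fy ^ 2 + κ * fp ^ 2) = 1 / κ * (f ^ 2 + fy ^ 2) + fp ^ 2 := by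
      field_simp
    have e2 : 1 ≤ 1 / κ := by rw [one_le_div hκ]; exact hκ1
    have e3 : 0 ≤ f ^ 2 + fy ^ 2 := by positivity
    rw [e1]
    nlinarith
  have hGJ : q ≤ 2 * (g * q * J) := by
    have a2 : q ≤ g * q := by nlinarith
    have a3 : g * q ≤ 2 * (g * q * J) := by
      have : 0 ≤ g * q := mul_nonneg (by linarith) hq0
      nlinarith
    exact a2.trans a3
  have hR3 : r ^ 2 ≤ 2 * K2 / (κ * ρ ^ 4) * (g * q * J) := by
    have b1 := mul_le_mul_of_nonneg_left (hQ2.trans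
      (mul_le_mul_of_nonneg_left hGJ (by positivity : 0 ≤ 1 / κ)))
      (by positivity : 0 ≤ (396 * M2 / ρ ^ 2) ^ 2 * 3)
    have e4 : (396 * M2 / ρ ^ 2) ^ 2 * 3 * (1 / κ * (2 * (g * q * J)))
      = 2 * K2 / (κ * ρ ^ 4) * (g * q * J) := by
      rw [hK2]; field_simp
    rw [e4] at b1
    linarith
  have hsum : (x * e0 + r) ^ 2 ≤ 2 * (x * e0) ^ 2 + 2 * r ^ 2 := by
    nlinarith [sq_nonneg (x * e0 - r)]
  rw [he]
  have e5 : 4 * K2 / (κ * ρ ^ 4) * (g * q * J)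
    = 2 * (2 * K2 / (κ * ρ ^ 4) * (g * q * J)) := by ring
  rw [e5]
  linarith

theorem int_combine {E E0 g : PP → ℝ} {a b d : ℝ} (ha : 0 ≤ a) (hb : 0 ≤ b)
    (iE : Integrable fun z => E z ^ 2) (iE0 : Integrable fun z => E0 z ^ 2) (ig : Integrable g)
    (hpt : ∀ z, E z ^ 2 ≤ 2 * E0 z ^ 2 + a * g z) (hg : ∫ z, g z ≤ b * ∫ z, E0 z ^ 2)
    (hd : ∫ z, E0 z ^ 2 ≤ d) : ∫ z, E z ^ 2 ≤ 2 * d + a * (b * d) := by
  have a1 : ∫ z, E z ^ 2 ≤ 2 * (∫ z, E0 z ^ 2) + a * ∫ z, g z := by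
    rw [← integral_const_mul, ← integral_const_mul,
      ← integral_add (iE0.const_mul 2) (ig.const_mul _)]
    exact integral_mono iE ((iE0.const_mul 2).add (ig.const_mul _)) hpt
  have a2 : a * (∫ z, g z) ≤ a * (b * d) :=
    mul_le_mul_of_nonneg_left (hg.trans (mul_le_mul_of_nonneg_left hd hb)) ha
  linarith

theorem final_real {C ε ρ κ K2 Kw K0 I : ℝ} (hρ : 0 < ρ) (hρ1 : ρ ≤ 1) (hκ : 0 < κ)
    (hK2 : 0 < K2) (hKw : 0 < Kw) (hK0 : 0 < K0) (hC : C = (2 + 8 * K2 * Kw / κ) * K0)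
    (hI : I ≤ 2 * (K0 * ε ^ 2) + 4 * K2 / (κ * ρ ^ 4) * (2 * Kw * (K0 * ε ^ 2))) :
    I ≤ ((C + 1) * ε / ρ ^ 3) ^ 2 := by
  have hC0 : 0 < C := by rw [hC]; positivity
  have a3 : 2 * (K0 * ε ^ 2) ≤ 2 * (K0 * ε ^ 2) / ρ ^ 4 := by
    rw [le_div_iff₀ (by positivity)]
    have : ρ ^ 4 ≤ 1 := pow_le_one₀ hρ.le hρ1
    have : 0 ≤ 2 * (K0 * ε ^ 2) := by positivity
    nlinarith
  have e : C * ε ^ 2 / ρ ^ 4
      = 2 * (K0 * ε ^ 2) / ρ ^ 4 + 4 * K2 / (κ * ρ ^ 4) * (2 * Kw * (K0 * ε ^ 2)) := by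
    rw [hC]; field_simp; ring
  have hIE : I ≤ C * ε ^ 2 / ρ ^ 4 := by rw [e]; linarith
  refine hIE.trans ?_
  have e : ((C + 1) * ε / ρ ^ 3) ^ 2 = (C + 1) ^ 2 * ε ^ 2 / ρ ^ 6 := by
    field_simp
  rw [e, div_le_div_iff₀ (by positivity) (by positivity)]
  have a1 : C ≤ (C + 1) ^ 2 := by nlinarith
  have a2 : ρ ^ 6 ≤ ρ ^ 4 := pow_le_pow_of_le_one hρ.le hρ1 (by norm_num)
  have a3 : C * ε ^ 2 ≤ (C + 1) ^ 2 * ε ^ 2 := mul_le_mul_of_nonneg_right a1 (sq_nonneg _)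
  exact mul_le_mul a3 a2 (by positivity) (by positivity)

set_option maxHeartbeats 1000000 in
/-- everything for `c ≥ ce` -/
theorem slab_pos (hce : 0 < ce) (hce1 : ce ≤ 1) (hκ : 0 < κ) (hκ1 : κ ≤ ce ^ 2 / 400) :
    ∃ C₅ : ℝ, 0 < C₅ ∧
    ∀ ρ : ℝ, 0 < ρ → ρ ≤ ce / 280 → ∀ c s : ℝ, c ^ 2 + s ^ 2 = 1 → ce ≤ c →
    ∀ (p Y k ζ S : PP → ℝ) (ε : ℝ), 0 ≤ ε → Chart (ce / 1000) p Y →
      Cl 2 (fun z => p z - z.1) univ (ce / 1000) → Cl 2 (fun z => Y z - z.2) univ (ce / 1000) →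
      Pocket (ce / 1000) p Y k → ContDiff ℝ ∞ ζ → ContDiff ℝ ∞ S →
      (∀ z, S z ≠ 0 → p z ^ 2 + Y z ^ 2 < 25 / 256 ∧ |-s * z.1 + c * z.2| ≤ ρ) →
      (∀ z, p z ^ 2 + Y z ^ 2 < 9 / 64 → LL κ p Y k ζ z = S z) →
      (∫ z in {z : PP | 25 / 256 ≤ p z ^ 2 + Y z ^ 2 ∧ p z ^ 2 + Y z ^ 2 < 9 / 64},
        (ζ z ^ 2 + dx ζ z ^ 2 + dy ζ z ^ 2) ≤ ε ^ 2) →
      ∃ ζ₂ E : PP → ℝ, ContDiff ℝ ∞ ζ₂ ∧ ContDiff ℝ ∞ E ∧ HasCompactSupport ζ₂ ∧
        (∀ z, ζ₂ z ≠ 0 → p z ^ 2 + Y z ^ 2 < 9 / 64 ∧ |-s * z.1 + c * z.2| ≤ 3 * ρ) ∧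
        (∀ z, E z ≠ 0 → p z ^ 2 + Y z ^ 2 ≤ 9 / 64) ∧
        (∀ z, LL κ p Y k ζ₂ z = S z + E z) ∧
        ∫ z, E z ^ 2 ≤ (C₅ * ε / ρ ^ 3) ^ 2 ∧
        ∫ z, ζ₂ z ^ 2 ≤ (3136 / ce ^ 2 * ρ ^ 2) ^ 2 * (∫ z, (S z + E z) ^ 2) := by
  obtain ⟨M0, hM0, hM0'⟩ := ch0_bdd
  obtain ⟨M2, hM2, hM2'⟩ := ch2_bdd
  set Kw : ℝ := 50 / ce * Real.exp (40 / ce) with hKw
  have hKw0 : 0 < Kw := by positivity
  set K0 : ℝ := 3 * (54 * M0) ^ 2 with hK0
  have hK00 : 0 < K0 := by positivity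
  set K2 : ℝ := 3 * (396 * M2) ^ 2 with hK2
  have hK20 : 0 < K2 := by positivity
  refine ⟨(2 + 8 * K2 * Kw / κ) * K0 + 1, by positivity, ?_⟩
  intro ρ hρ hρ1 c s hcs hc p Y k ζ S ε hε0 h h1 h2 hP hζ hS hSs heq hε
  have hδ : ce / 1000 ≤ 1 / 1000 := by linarith
  have hδ1 : ce / 1000 ≤ 1 / 10 := by linarith
  have hδ' : ce / 1000 ≤ ce / 10 := by linarith
  have hρ1' : ρ ≤ 1 := by linarith
  have hκ1' : κ ≤ 1 := by nlinarith
  have hp := h.smp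
  have hY := h.smY
  have hk := hP.smk
  have hJ := h.J_ne hδ1
  have hJc := (contDiff_br hp hY).continuous
  have hq := contDiff_q hp hY
  have ht := contDiff_tf c s
  have hχ : ContDiff ℝ ∞ fun w => ch0 (p w ^ 2 + Y w ^ 2) := contDiff_ch0.comp hq
  -- the first cutoff
  set φ : PP → ℝ := fun w => ch0 (p w ^ 2 + Y w ^ 2) * ζ w with hφdef
  have hφ : ContDiff ℝ ∞ φ := hχ.mul hζ
  set D : Set PP := {z : PP | p z ^ 2 + Y z ^ 2 ≤ 35 / 256} with hDdef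
  have hDc : IsCompact D := isCompact_disc h hδ1 _ (by norm_num)
  have hD : IsClosed D := hDc.isClosed
  have hDs : ∀ z ∈ D, p z ^ 2 + Y z ^ 2 ≤ 9 / 64 := fun z hz => by
    have : p z ^ 2 + Y z ^ 2 ≤ 35 / 256 := hz
    linarith
  have hφD : ∀ z, z ∉ D → φ z = 0 := by
    intro z hz
    have : 35 / 256 < p z ^ 2 + Y z ^ 2 := not_le.1 hz
    change ch0 (p z ^ 2 + Y z ^ 2) * ζ z = 0
    rw [ch0_zero this.le, zero_mul]
  have hφs : HasCompactSupport φ := HasCompactSupport.intro hDc hφD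
  have hSD : ∀ z, z ∉ D → S z = 0 := by
    intro z hz
    by_contra hne
    have := (hSs z hne).1
    have : 35 / 256 < p z ^ 2 + Y z ^ 2 := not_le.1 hz
    linarith
  set E0 : PP → ℝ := fun z => LL κ p Y k φ z - S z with hE0def
  have hE0 : ContDiff ℝ ∞ E0 := (contDiff_LL hp hY hJ hk hφ).sub hS
  have hE0D : ∀ z, z ∉ D → E0 z = 0 := by
    intro z hz
    change LL κ p Y k φ z - S z = 0
    rw [LL_zero_off hD hφD hz, hSD z hz, sub_zero]
  have hE0s : HasCompactSupport E0 := HasCompactSupport.intro hDc hE0D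
  have hIE0 : ∫ z, E0 z ^ 2 ≤ K0 * ε ^ 2 :=
    integral_E0_le hM0 hM0' h hP hδ hκ hκ1' hζ (fun z hz => (hSs z hz).1) heq hε
  set Λ : ℝ := 40 / ce with hΛ
  have hΛ0 : 0 ≤ Λ := by positivity
  have hΛ1 : 1 ≤ Λ := by rw [hΛ, one_le_div hce]; linarith
  -- weights
  have w1 := weighted (κ := κ) (φ := φ) (E0 := E0) (B := Bw Λ ρ) h hP hce hce1 hκ hκ1 hδ hδ' hc hcs
    hφ hφs hD hDs hφD (contDiff_Bw Λ ρ) (fun u => by rw [abs_Bw]; exact Bw_deriv_ge hρ u)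
    (fun u hu => by rw [abs_Bw]; exact Bw_le hΛ0 (abs_le.1 hu).2) hE0.continuous hE0s
    (fun z _ => by
      by_cases hz : tf c s z ≤ ρ
      · rw [abs_Bw, Bw_zero hρ hz]; simp
      · have hS0 : S z = 0 := by
          by_contra hne
          exact hz ((le_abs_self _).trans (hSs z hne).2)
        have : E0 z = LL κ p Y k φ z := by change LL κ p Y k φ z - S z = _; rw [hS0, sub_zero]
        rw [this])
  have w2 := weighted (κ := κ) (φ := φ) (E0 := E0) (B := Bm Λ ρ) h hP hce hce1 hκ hκ1 hδ hδ' hc hcs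
    hφ hφs hD hDs hφD (contDiff_Bm Λ ρ)
    (fun u => by rw [abs_Bm, deriv_Bm]; exact Bw_deriv_ge hρ (-u))
    (fun u hu => by rw [abs_Bm]; exact Bw_le hΛ0 (by linarith [(abs_le.1 hu).1]))
    hE0.continuous hE0s
    (fun z _ => by
      by_cases hz : -tf c s z ≤ ρ
      · rw [abs_Bm, Bw_zero hρ hz]; simp
      · have hS0 : S z = 0 := by
          by_contra hne
          exact hz ((neg_le_abs _).trans (hSs z hne).2)
        have : E0 z = LL κ p Y k φ z := by change LL κ p Y k φ z - S z = _; rw [hS0, sub_zero]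
        rw [this])
  simp only [deriv_Bm] at w2
  -- the second cutoff
  have hX := contDiff_Xt c s ρ
  set ζ₂ : PP → ℝ := fun w => Xt c s ρ w * φ w with hζ₂def
  have hζ₂ : ContDiff ℝ ∞ ζ₂ := hX.mul hφ
  have hζ₂D : ∀ z, z ∉ D → ζ₂ z = 0 := by
    intro z hz
    change Xt c s ρ z * φ z = 0
    rw [hφD z hz, mul_zero]
  have hζ₂s : HasCompactSupport ζ₂ := HasCompactSupport.intro hDc hζ₂D
  set E : PP → ℝ := fun z => LL κ p Y k ζ₂ z - S z with hEdef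
  have hE : ContDiff ℝ ∞ E := (contDiff_LL hp hY hJ hk hζ₂).sub hS
  have hED : ∀ z, z ∉ D → E z = 0 := by
    intro z hz
    change LL κ p Y k ζ₂ z - S z = 0
    rw [LL_zero_off hD hζ₂D hz, hSD z hz, sub_zero]
  have hEs : HasCompactSupport E := HasCompactSupport.intro hDc hED
  have c1 := contDiff_Dy hp hY hJ hφ
  have c3 := contDiff_Dp hp hY hJ hφ
  set G : PP → ℝ := fun z => deriv (Bw Λ ρ) (tf c s z) + deriv (Bw Λ ρ) (-tf c s z) with hGdef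
  have hG0 : ∀ z, 0 ≤ G z := fun z =>
    add_nonneg (deriv_Bw_nonneg hΛ0 hρ _) (deriv_Bw_nonneg hΛ0 hρ _)
  have hG1 : ∀ z, 2 * ρ ≤ |tf c s z| → 1 ≤ G z := by
    intro z hz
    have aux : ∀ u, 2 * ρ ≤ u → 1 ≤ deriv (Bw Λ ρ) u := by
      intro u hu
      have a1 := Bw_ge (Λ := Λ) hΛ0 hρ hu
      have a2 := Bw_deriv_ge (Λ := Λ) hρ u
      nlinarith
    rcases abs_cases (tf c s z) with ⟨ha, -⟩ | ⟨ha, -⟩
    · rw [ha] at hz
      have a1 := aux _ hz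
      have a2 := deriv_Bw_nonneg (Λ := Λ) hΛ0 hρ (-tf c s z)
      change 1 ≤ deriv (Bw Λ ρ) (tf c s z) + deriv (Bw Λ ρ) (-tf c s z)
      linarith
    · rw [ha] at hz
      have a1 := aux _ hz
      have a2 := deriv_Bw_nonneg (Λ := Λ) hΛ0 hρ (tf c s z)
      change 1 ≤ deriv (Bw Λ ρ) (tf c s z) + deriv (Bw Λ ρ) (-tf c s z)
      linarith
  set Q : PP → ℝ := fun z => φ z ^ 2 + Dy p Y φ z ^ 2 + κ * Dp p Y φ z ^ 2 with hQdef
  have hQ0 : ∀ z, 0 ≤ Q z := fun z => by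
    change 0 ≤ φ z ^ 2 + Dy p Y φ z ^ 2 + κ * Dp p Y φ z ^ 2
    positivity
  have hEpt : ∀ z, E z ^ 2 ≤ 2 * E0 z ^ 2 + 4 * K2 / (κ * ρ ^ 4) * (G z * Q z * br p Y z) := by
    intro z
    obtain ⟨j1, j2⟩ := h.J_bounds hδ1 z
    have hGQ : 0 ≤ G z * Q z * br p Y z :=
      mul_nonneg (mul_nonneg (hG0 z) (hQ0 z)) (by linarith)
    have hpos : 0 ≤ 4 * K2 / (κ * ρ ^ 4) * (G z * Q z * br p Y z) := by positivity
    rcases lt_or_ge (|tf c s z|) (2 * ρ) with h3 | h3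
    · have e : ζ₂ =ᶠ[nhds z] φ := by
        have hU : IsOpen {w : PP | |tf c s w| < 2 * ρ} :=
          isOpen_lt ht.continuous.abs continuous_const
        refine Filter.eventuallyEq_of_mem (hU.mem_nhds h3) fun w hw => ?_
        have hw' : |tf c s w| < 2 * ρ := hw
        change ch2 (tf c s w / ρ) * φ w = φ w
        rw [ch2_one, one_mul]
        rw [abs_div, abs_of_pos hρ, div_le_iff₀ hρ]
        exact hw'.le
      have : E z = E0 z := by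
        change LL κ p Y k ζ₂ z - S z = LL κ p Y k φ z - S z
        rw [LL_congr e]
      rw [this]
      linarith [sq_nonneg (E0 z)]
    · by_cases hz : z ∈ D
      · have hS0 : S z = 0 := by
          by_contra hne
          have : |tf c s z| ≤ ρ := (hSs z hne).2
          linarith
        have hL : LL κ p Y k φ z = E0 z := by
          change _ = LL κ p Y k φ z - S z; rw [hS0, sub_zero]
        set R := φ z * LL κ p Y k (Xt c s ρ) z
          + 2 * (Dy p Y (Xt c s ρ) z * Dy p Y φ z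
            + κ * k z * (Dp p Y (Xt c s ρ) z * Dp p Y φ z)) with hR
        have hRb := comm_ch2 hM2 hM2' h h1 h2 hP hδ hκ hκ1' hcs hρ hρ1' (hDs z hz) φ
        rw [← hR] at hRb
        have eE : E z = Xt c s ρ z * E0 z + R := by
          change LL κ p Y k ζ₂ z - S z = _
          rw [hζ₂def, LL_mul hp hY hJ hk hφ hX z, hL, hS0, hR]; ring
        exact pt_real hκ hκ1' hρ hK2 eE (ch2_abs_le _) hRb (hG1 z h3) rfl j1
      · rw [hED z hz]
        have := sq_nonneg (E0 z)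
        linarith
  have hB'c : Continuous (deriv (Bw Λ ρ)) := (contDiff_Bw Λ ρ).continuous_deriv (by simp)
  have hQc : Continuous Q := ((hφ.continuous.pow 2).add (c1.continuous.pow 2)).add
    (continuous_const.mul (c3.continuous.pow 2))
  have hQs : HasCompactSupport Q := by
    refine HasCompactSupport.intro hDc fun z hz => ?_
    change φ z ^ 2 + Dy p Y φ z ^ 2 + κ * Dp p Y φ z ^ 2 = 0
    rw [hφD z hz, Dy_zero_off hD hφD hz, Dp_zero_off hD hφD hz]; ring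
  have i1 : Integrable fun z => deriv (Bw Λ ρ) (tf c s z) * Q z * br p Y z :=
    integrable_cs (((hB'c.comp ht.continuous).mul hQc).mul hJc)
      (hcs_mul_left (hcs_mul_right hQs _) _)
  have i2 : Integrable fun z => deriv (Bw Λ ρ) (-tf c s z) * Q z * br p Y z :=
    integrable_cs (((hB'c.comp ht.continuous.neg).mul hQc).mul hJc)
      (hcs_mul_left (hcs_mul_right hQs _) _)
  have iE0 : Integrable fun z => E0 z ^ 2 :=
    integrable_cs (hE0.continuous.pow 2)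
      (hE0s.comp_left (g := fun t => t ^ 2) (by norm_num))
  have iE : Integrable fun z => E z ^ 2 :=
    integrable_cs (hE.continuous.pow 2)
      (hEs.comp_left (g := fun t => t ^ 2) (by norm_num))
  have hIG : ∫ z, G z * Q z * br p Y z ≤ 2 * Kw * ∫ z, E0 z ^ 2 := by
    have e : ∀ z, G z * Q z * br p Y z = deriv (Bw Λ ρ) (tf c s z) * Q z * br p Y z
        + deriv (Bw Λ ρ) (-tf c s z) * Q z * br p Y z := by
      intro z
      change (deriv (Bw Λ ρ) (tf c s z) + deriv (Bw Λ ρ) (-tf c s z)) * Q z * br p Y z = _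
      ring
    simp only [e]
    rw [integral_add i1 i2]
    have w1' : ∫ z, deriv (Bw Λ ρ) (tf c s z) * Q z * br p Y z ≤ Kw * ∫ z, E0 z ^ 2 := w1
    have w2' : ∫ z, deriv (Bw Λ ρ) (-tf c s z) * Q z * br p Y z ≤ Kw * ∫ z, E0 z ^ 2 := w2
    linarith
  have iG : Integrable fun z => G z * Q z * br p Y z := by
    have e : (fun z => G z * Q z * br p Y z) = fun z =>
        deriv (Bw Λ ρ) (tf c s z) * Q z * br p Y z
        + deriv (Bw Λ ρ) (-tf c s z) * Q z * br p Y z := by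
      funext z
      change (deriv (Bw Λ ρ) (tf c s z) + deriv (Bw Λ ρ) (-tf c s z)) * Q z * br p Y z = _
      ring
    rw [e]; exact i1.add i2
  have hIE : ∫ z, E z ^ 2 ≤ 2 * (K0 * ε ^ 2) + 4 * K2 / (κ * ρ ^ 4) * (2 * Kw * (K0 * ε ^ 2)) :=
    int_combine (by positivity) (by positivity) iE iE0 iG hEpt hIG hIE0
  refine ⟨ζ₂, E, hζ₂, hE, hζ₂s, ?_, ?_, ?_, ?_, ?_⟩
  · intro z hz
    constructor
    · have : z ∈ D := by
        by_contra hn
        exact hz (hζ₂D z hn)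
      have : p z ^ 2 + Y z ^ 2 ≤ 35 / 256 := this
      linarith
    · by_contra hn
      apply hz
      change ch2 (tf c s z / ρ) * φ z = 0
      rw [ch2_zero, zero_mul]
      rw [abs_div, abs_of_pos hρ, le_div_iff₀ hρ]
      exact (not_le.1 hn).le
  · intro z hz
    by_contra hn
    exact hz (hED z fun hzD => hn (hDs z hzD))
  · intro z
    change _ = S z + (LL κ p Y k ζ₂ z - S z)
    ring
  · exact final_real hρ hρ1' hκ hK20 hKw0 hK00 rfl hIE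
  · set D3 : Set PP := D ∩ {z | |tf c s z| ≤ 3 * ρ} with hD3
    have hD3c : IsClosed D3 := hD.inter (isClosed_le ht.continuous.abs continuous_const)
    have hζ₂D3 : ∀ z, z ∉ D3 → ζ₂ z = 0 := by
      intro z hz
      by_cases hzD : z ∈ D
      · have hn : ¬ |tf c s z| ≤ 3 * ρ := fun hh => hz ⟨hzD, hh⟩
        change ch2 (tf c s z / ρ) * φ z = 0
        rw [ch2_zero, zero_mul]
        rw [abs_div, abs_of_pos hρ, le_div_iff₀ hρ]
        exact (not_le.1 hn).le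
      · exact hζ₂D z hzD
    have := thin (κ := κ) h hP hce hce1 hκ hκ1 hδ hδ' hρ hρ1 hc hcs hζ₂ hζ₂s hD3c
      (fun z hz => hDs z hz.1) (fun z hz => hz.2) hζ₂D3
    have e : ∀ z, S z + E z = LL κ p Y k ζ₂ z := by
      intro z
      change S z + (LL κ p Y k ζ₂ z - S z) = _
      ring
    simp only [e]
    exact this

end final

end Crest.Agent.Iso341.Slab

namespace Crest.Agent.Iso341

open Slab in
theorem slab_estimate (ce : ℝ) (hce : 0 < ce) (hce1 : ce ≤ 1) : ∃ δ κ₁ C₄ : ℝ, 0 < δ ∧ 0 < κ₁ ∧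
    0 < C₄ ∧ ∀ κ : ℝ, 0 < κ → κ ≤ κ₁ → ∃ ρ₁ C₅ : ℝ, 0 < ρ₁ ∧ 0 < C₅ ∧
    ∀ ρ : ℝ, 0 < ρ → ρ ≤ ρ₁ → ∀ c s : ℝ, c ^ 2 + s ^ 2 = 1 → ce ≤ |c| →
    ∀ (p Y k ζ S : PP → ℝ) (ε : ℝ), 0 ≤ ε → Chart δ p Y →
      Cl 2 (fun z => p z - z.1) univ δ → Cl 2 (fun z => Y z - z.2) univ δ →
      Pocket δ p Y k → ContDiff ℝ ∞ ζ → ContDiff ℝ ∞ S →
      (∀ z, S z ≠ 0 → p z ^ 2 + Y z ^ 2 < 25 / 256 ∧ |-s * z.1 + c * z.2| ≤ ρ) →
      (∀ z, p z ^ 2 + Y z ^ 2 < 9 / 64 → LL κ p Y k ζ z = S z) →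
      (∫ z in {z : PP | 25 / 256 ≤ p z ^ 2 + Y z ^ 2 ∧ p z ^ 2 + Y z ^ 2 < 9 / 64},
        (ζ z ^ 2 + dx ζ z ^ 2 + dy ζ z ^ 2) ≤ ε ^ 2) →
      ∃ ζ₂ E : PP → ℝ, ContDiff ℝ ∞ ζ₂ ∧ ContDiff ℝ ∞ E ∧ HasCompactSupport ζ₂ ∧
        (∀ z, ζ₂ z ≠ 0 → p z ^ 2 + Y z ^ 2 < 9 / 64 ∧ |-s * z.1 + c * z.2| ≤ 3 * ρ) ∧
        (∀ z, E z ≠ 0 → p z ^ 2 + Y z ^ 2 ≤ 9 / 64) ∧
        (∀ z, LL κ p Y k ζ₂ z = S z + E z) ∧
        ∫ z, E z ^ 2 ≤ (C₅ * ε / ρ ^ 3) ^ 2 ∧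
        ∫ z, ζ₂ z ^ 2 ≤ (C₄ * ρ ^ 2) ^ 2 * (∫ z, (S z + E z) ^ 2) := by
  refine ⟨ce / 1000, ce ^ 2 / 400, 3136 / ce ^ 2, by positivity, by positivity, by positivity, ?_⟩
  intro κ hκ hκ1
  obtain ⟨C₅, hC₅, H⟩ := slab_pos hce hce1 hκ hκ1
  refine ⟨ce / 280, C₅, by positivity, hC₅, ?_⟩
  intro ρ hρ hρ1 c s hcs hc
  rcases le_total 0 c with h0 | h0
  · rw [abs_of_nonneg h0] at hc
    exact H ρ hρ hρ1 c s hcs hc
  · rw [abs_of_nonpos h0] at hc
    have h2 := H ρ hρ hρ1 (-c) (-s) (by nlinarith) hc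
    have e : ∀ z : PP, |-(-s) * z.1 + -c * z.2| = |-s * z.1 + c * z.2| := by
      intro z
      rw [← abs_neg]; congr 1; ring
    simp only [e] at h2
    exact h2

end Crest.Agent.Iso341
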