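import Crest.Agent.Iso341.RedDefs

/-! S0341: `CoreStatement` and `PocketStatement` are in `RedDefs.lean`. -/
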