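import Crest.Agent.Iso341.TestA
import Crest.Agent.Iso341.Close

/-! S0341, part TEST: the test function. -/

set_option autoImplicit false

open MeasureTheory Set
open scoped ContDiff

namespace Crest.Agent.Iso341

theorem Test.ctl_of_near : ∃ Cc : ℝ, 1 ≤ Cc ∧ ∀ δ : ℝ, 0 < δ → δ ≤ 1 / Cc →
    ∀ X Y f : PP → ℝ, Near δ X Y f → Test.Ctl (Cc * δ) X Y f := by
  obtain ⟨Cc, hCc, h⟩ := chart_of_near
  refine ⟨Cc, hCc, fun δ hδ hδ1 X Y f hN => ?_⟩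
  obtain ⟨h0, h1, _, _, h2, _, h3, h4⟩ := h δ hδ hδ1 X Y f hN
  have hle : δ ≤ Cc * δ := by nlinarith
  exact ⟨hN.smX, hN.smY, hN.smf, h0, h1, Test.Cl.mono hN.clX hle, Test.Cl.mono hN.clY hle, h2, h3,
    h4⟩

theorem test_bounds (ce : ℝ) (hce : 0 < ce) (hce1 : ce ≤ 1) : ∃ δ C₆ c₆ : ℝ, 0 < δ ∧ 0 < C₆ ∧
    0 < c₆ ∧ ∀ κ m : ℝ, 0 < κ → κ ≤ 1 → 0 < m → m ≤ 1 → κ * m ≤ δ → ∀ L : ℕ, 8 ≤ L →
    ∃ ρ₁ : ℝ, 0 < ρ₁ ∧ ∀ ρ : ℝ, 0 < ρ → ρ ≤ ρ₁ → ∀ n : ℕ, 8 * ρ * n / ce ≤ 1 / 64 →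
    ∀ c s : ℝ, c ^ 2 + s ^ 2 = 1 → ce ≤ |c| → ∀ X Y f : PP → ℝ, Near δ X Y f →
    ∀ b b' : Fin n → Bool, ∀ H : PP → ℝ,
      (∀ z, H z = (Real.exp (2 * (κ * m * expo ρ L ce c s b z))
        - Real.exp (2 * (κ * m * expo ρ L ce c s b' z))) / 2) →
      (∀ z, SS m X Y f H z ≠ 0 →
        slp X Y f z ^ 2 + Y z ^ 2 < 25 / 256 ∧ |-s * z.1 + c * z.2| ≤ ρ) ∧
      ∫ z, SS m X Y f H z ^ 2 ≤ (C₆ * (κ * ρ ^ L) / ρ) ^ 2 *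
          (Finset.univ.filter fun i => b i ≠ b' i).card ∧
      ∃ V : PP → ℝ, ContDiff ℝ ∞ V ∧ (∀ z, Dy (slp X Y f) Y V z = 0) ∧
        (∀ z, |V z| ≤ C₆ * ρ ^ 2) ∧
        c₆ * (κ * ρ ^ L) * ρ ^ 2 * (Finset.univ.filter fun i => b i ≠ b' i).card
          ≤ ∫ z, V z * SS m X Y f H z * br (slp X Y f) Y z ∧
        ∀ k : PP → ℝ, Pocket δ (slp X Y f) Y k →
          ∫ z in {z : PP | slp X Y f z ^ 2 + Y z ^ 2 < 9 / 64 ∧ |-s * z.1 + c * z.2| ≤ 3 * ρ},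
            (Dp (slp X Y f) Y (fun w => k w * Dp (slp X Y f) Y V w) z) ^ 2
            ≤ (C₆ * ρ) ^ 2 * (Finset.univ.filter fun i => b i ≠ b' i).card := by
  obtain ⟨Cc, hCc, hctl⟩ := Test.ctl_of_near
  obtain ⟨C₆, c₆, ρ₁, hC₆, hc₆, hρ₁, main⟩ := Test.test_ctl ce hce hce1
  have hCc0 : 0 < Cc := by linarith
  refine ⟨ce / 100 / Cc, C₆, c₆, by positivity, hC₆, hc₆, ?_⟩
  intro κ m hκ hκ1 hm hm1 _ L _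
  refine ⟨ρ₁, hρ₁, ?_⟩
  intro ρ hρ hρ1 n hn c s hcs hc X Y f hN b b' H hH
  have hH' : H = Test.HH κ m ρ L ce c s b b' := funext hH
  subst hH'
  have h1 : ce / 100 / Cc ≤ 1 / Cc := div_le_div_of_nonneg_right (by linarith) hCc0.le
  have hC := hctl (ce / 100 / Cc) (by positivity) h1 X Y f hN
  have e : Cc * (ce / 100 / Cc) = ce / 100 := by field_simp
  rw [e] at hC
  have hδ1 : ce / 100 / Cc ≤ 1 := by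
    rw [div_le_iff₀ hCc0]; linarith
  obtain ⟨h2, h3, V, h4, h5, h6, h7, h8⟩ :=
    main κ m hκ hκ1 hm hm1 L ρ hρ hρ1 n hn c s hcs hc X Y f hC b b'
  exact ⟨h2, h3, V, h4, h5, h6, h7, fun k hk => h8 _ k hδ1 hk⟩

end Crest.Agent.Iso341
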