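import Crest.Agent.Iso341.CoreI
import Crest.Agent.Iso341.Stmt
import Crest.Agent.Iso341.Energy
import Crest.Agent.Iso341.Slab
import Crest.Agent.Iso341.Test

/-! S0341: the core statement. -/

set_option autoImplicit false

open MeasureTheory Set Filter Topology
open scoped ContDiff

namespace Crest.Agent.Iso341

theorem annulus_sub {σ η : ℝ} (hσ : 0 < σ) (hσ1 : σ ≤ 1 / 4) (hη : 0 ≤ η) (hη1 : η ≤ σ / 64)
    {P Q P' Q' : ℝ} (h1 : |P - P'| ≤ η) (h2 : |Q - Q'| ≤ η) (ha : 25 / 256 ≤ P ^ 2 + Q ^ 2)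
    (hb : P ^ 2 + Q ^ 2 < 9 / 64) :
    P' ^ 2 + Q' ^ 2 < (4 / 5) ^ 2 ∧ 3 * σ / 8 < |P'| + σ * om Q' := by
  have hη2 : η ≤ 1 / 256 := by linarith
  have hP : |P| ≤ 3 / 8 := abs_le_of_sq_le_sq (by nlinarith [sq_nonneg Q]) (by norm_num)
  have hQ : |Q| ≤ 3 / 8 := abs_le_of_sq_le_sq (by nlinarith [sq_nonneg P]) (by norm_num)
  have hP' : |P'| ≤ 1 / 2 := by
    have := abs_sub_abs_le_abs_sub P' P
    rw [abs_sub_comm] at this
    linarith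
  have hQ' : |Q'| ≤ 1 / 2 := by
    have := abs_sub_abs_le_abs_sub Q' Q
    rw [abs_sub_comm] at this
    linarith
  constructor
  · have e1 : P' ^ 2 ≤ (1 / 2) ^ 2 := by
      rw [← sq_abs]; exact pow_le_pow_left₀ (abs_nonneg _) hP' 2
    have e2 : Q' ^ 2 ≤ (1 / 2) ^ 2 := by
      rw [← sq_abs]; exact pow_le_pow_left₀ (abs_nonneg _) hQ' 2
    norm_num at e1 e2 ⊢
    linarith
  · rcases le_or_gt (1 / 4) |Q'| with h | h
    · rw [core_om_one (by rw [← sq_abs]; nlinarith)]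
      have := abs_nonneg P'
      linarith
    · have e1 : |Q| ≤ 65 / 256 := by
        have := abs_sub_abs_le_abs_sub Q Q'
        linarith
      have e2 : Q ^ 2 ≤ (65 / 256) ^ 2 := by
        rw [← sq_abs]; exact pow_le_pow_left₀ (abs_nonneg _) e1 2
      have e3 : (46 / 256) ^ 2 ≤ |P| ^ 2 := by
        rw [sq_abs]; norm_num at e2 ⊢; linarith
      have e4 : 46 / 256 ≤ |P| := by
        exact le_of_pow_le_pow_left₀ (by norm_num) (abs_nonneg _) e3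
      have e5 : 45 / 256 ≤ |P'| := by
        have := abs_sub_abs_le_abs_sub P P'
        linarith
      have e6 : 0 ≤ σ * om Q' := mul_nonneg hσ.le (core_om_nonneg _)
      linarith

theorem near_diff_le_one {δ : ℝ} {X Y f X' Y' f' : PP → ℝ} (h : Near δ X Y f)
    (h' : Near δ X' Y' f') (hδ : δ ≤ 1 / 2) (z : PP) : |f z - f' z| ≤ 1 := by
  have h1 := abs_le.1 (h.clf.bound z (mem_univ z))
  have h2 := abs_le.1 (h'.clf.bound z (mem_univ z))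
  rw [abs_le]
  constructor <;> linarith [h1.1, h1.2, h2.1, h2.2]

theorem core_numeric {κ C₄ C₅ C₆ c₆ K ρ Nn : ℝ} {L : ℕ} (hκ : 0 < κ) (hC₄ : 0 < C₄)
    (hC₅ : 0 < C₅) (hC₆ : 0 < C₆) (hc₆ : 0 < c₆) (hK : 0 < K) (hρ : 0 < ρ) (hρ1 : ρ ≤ 1)
    (k5' : 3 * κ * C₄ * C₆ ^ 2 ≤ c₆ / 2)
    (r6' : 4 * (ρ * (2 * C₄ * C₅ ^ 2 * K ^ 2 + 5 * C₆ * C₅ * K)) ≤ c₆ * κ) (hN1 : 1 ≤ Nn)
    (hfin : c₆ * (κ * ρ ^ L) * ρ ^ 2 * Nn ≤ 3 * κ * C₄ * C₆ ^ 2 * (κ * ρ ^ L) * ρ ^ 2 * Nn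
      + 2 * κ * C₄ * C₅ ^ 2 * (K * ρ ^ (L + 20)) ^ 2 / (κ * ρ ^ L * ρ ^ 2)
      + 5 * C₆ * C₅ * (K * ρ ^ (L + 20)) / ρ) : False := by
  have g1 : c₆ * (κ * ρ ^ L) * ρ ^ 2 * Nn = c₆ * κ * Nn * ρ ^ (L + 2) := by ring
  have g2 : 3 * κ * C₄ * C₆ ^ 2 * (κ * ρ ^ L) * ρ ^ 2 * Nn
      = (3 * κ * C₄ * C₆ ^ 2) * κ * Nn * ρ ^ (L + 2) := by ring
  have g3 : 2 * κ * C₄ * C₅ ^ 2 * (K * ρ ^ (L + 20)) ^ 2 / (κ * ρ ^ L * ρ ^ 2)
      = 2 * C₄ * C₅ ^ 2 * K ^ 2 * ρ ^ (L + 38) := by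
    field_simp
    ring
  have g4 : 5 * C₆ * C₅ * (K * ρ ^ (L + 20)) / ρ = 5 * C₆ * C₅ * K * ρ ^ (L + 19) := by
    field_simp
    ring
  rw [g1, g2, g3, g4] at hfin
  have g5 : ρ ^ (L + 38) ≤ ρ ^ (L + 3) := pow_le_pow_of_le_one hρ.le hρ1 (by omega)
  have g6 : ρ ^ (L + 19) ≤ ρ ^ (L + 3) := pow_le_pow_of_le_one hρ.le hρ1 (by omega)
  have g7 : (3 * κ * C₄ * C₆ ^ 2) * κ * Nn * ρ ^ (L + 2)
      ≤ c₆ / 2 * κ * Nn * ρ ^ (L + 2) := by
    have : 0 ≤ κ * Nn * ρ ^ (L + 2) := by positivity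
    have := mul_le_mul_of_nonneg_right k5' this
    linarith
  have g8 : 2 * C₄ * C₅ ^ 2 * K ^ 2 * ρ ^ (L + 38) + 5 * C₆ * C₅ * K * ρ ^ (L + 19)
      ≤ ρ * (2 * C₄ * C₅ ^ 2 * K ^ 2 + 5 * C₆ * C₅ * K) * ρ ^ (L + 2) := by
    have h1 : 2 * C₄ * C₅ ^ 2 * K ^ 2 * ρ ^ (L + 38) ≤ 2 * C₄ * C₅ ^ 2 * K ^ 2 * ρ ^ (L + 3) :=
      mul_le_mul_of_nonneg_left g5 (by positivity)
    have h2 : 5 * C₆ * C₅ * K * ρ ^ (L + 19) ≤ 5 * C₆ * C₅ * K * ρ ^ (L + 3) :=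
      mul_le_mul_of_nonneg_left g6 (by positivity)
    have h3 : ρ * (2 * C₄ * C₅ ^ 2 * K ^ 2 + 5 * C₆ * C₅ * K) * ρ ^ (L + 2)
        = 2 * C₄ * C₅ ^ 2 * K ^ 2 * ρ ^ (L + 3)
        + 5 * C₆ * C₅ * K * ρ ^ (L + 3) := by ring
    linarith
  have g9 : c₆ / 2 * κ * Nn * ρ ^ (L + 2)
      ≤ ρ * (2 * C₄ * C₅ ^ 2 * K ^ 2 + 5 * C₆ * C₅ * K) * ρ ^ (L + 2) := by linarith
  have hρL : 0 < ρ ^ (L + 2) := by positivity
  have g10 : c₆ / 2 * κ * Nn ≤ ρ * (2 * C₄ * C₅ ^ 2 * K ^ 2 + 5 * C₆ * C₅ * K) :=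
    le_of_mul_le_mul_right g9 hρL
  have g11 : c₆ / 2 * κ ≤ c₆ / 2 * κ * Nn := le_mul_of_one_le_right (by positivity) hN1
  have g12 : 0 < c₆ * κ := by positivity
  linarith

set_option maxHeartbeats 2000000 in
theorem core : CoreStatement := by
  intro ce hce hce1
  obtain ⟨Cc, hCc, hpf⟩ := pair_facts
  obtain ⟨cσ, κ₀, δ₀, hcσ, hcσ1, hκ₀, hκ₀1, hδ₀, hen⟩ := energy_estimate
  obtain ⟨δS, κS, C₄, hδS, hκS, hC₄, hslab⟩ := slab_estimate ce hce hce1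
  obtain ⟨δT, C₆, c₆, hδT, hC₆, hc₆, htest⟩ := test_bounds ce hce hce1
  set δm : ℝ := min (1 / 64) (min δ₀ (min δS δT)) with hδm
  have hδm0 : 0 < δm := lt_min (by norm_num) (lt_min hδ₀ (lt_min hδS hδT))
  have hm1 : δm ≤ 1 / 64 := min_le_left _ _
  have hm2 : δm ≤ δ₀ := (min_le_right _ _).trans (min_le_left _ _)
  have hm3 : δm ≤ δS := (min_le_right _ _).trans ((min_le_right _ _).trans (min_le_left _ _))
  have hm4 : δm ≤ δT := (min_le_right _ _).trans ((min_le_right _ _).trans (min_le_right _ _))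
  have hCc0 : 0 < Cc := by linarith
  set δ : ℝ := δm / Cc with hδdef
  have hδ : 0 < δ := by positivity
  have hCδ : Cc * δ = δm := by rw [hδdef]; field_simp
  have hδδm : δ ≤ δm := by rw [← hCδ]; exact le_mul_of_one_le_left hδ.le hCc
  refine ⟨δ, min κ₀ (min κS (min (1 / 16) (min δ (c₆ / (6 * C₄ * C₆ ^ 2))))), hδ,
    lt_min hκ₀ (lt_min hκS (lt_min (by norm_num) (lt_min hδ (by positivity)))), ?_⟩
  intro κ m hκ hκs hm hm1' L hL
  have k1 : κ ≤ κ₀ := hκs.trans (min_le_left _ _)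
  have k2 : κ ≤ κS := hκs.trans ((min_le_right _ _).trans (min_le_left _ _))
  have k3 : κ ≤ 1 / 16 :=
    hκs.trans ((min_le_right _ _).trans ((min_le_right _ _).trans (min_le_left _ _)))
  have k4 : κ ≤ δ := hκs.trans ((min_le_right _ _).trans ((min_le_right _ _).trans
    ((min_le_right _ _).trans (min_le_left _ _))))
  have k5 : κ ≤ c₆ / (6 * C₄ * C₆ ^ 2) := hκs.trans ((min_le_right _ _).trans
    ((min_le_right _ _).trans ((min_le_right _ _).trans (min_le_right _ _))))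
  have k5' : 3 * κ * C₄ * C₆ ^ 2 ≤ c₆ / 2 := by
    rw [le_div_iff₀ (by positivity)] at k5
    linarith
  have hκ1 : κ ≤ 1 := by linarith
  have hκm : κ * m ≤ δ := (mul_le_of_le_one_right hκ.le hm1').trans k4
  set σ : ℝ := cσ * √κ with hσdef
  have hsκ : √κ ≤ 1 / 4 := by
    rw [show (1 / 4 : ℝ) = √(1 / 16) by
      rw [show (1 / 16 : ℝ) = (1 / 4) ^ 2 by norm_num]; exact (Real.sqrt_sq (by norm_num)).symm]
    exact Real.sqrt_le_sqrt k3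
  have hsκ0 : 0 < √κ := Real.sqrt_pos.2 hκ
  have hσ : 0 < σ := by positivity
  have hσ4 : σ ≤ 1 / 4 := (mul_le_of_le_one_left hsκ0.le hcσ1).trans hsκ
  have hσ1 : σ ≤ 1 := by linarith
  obtain ⟨ρa, hρa, hpf'⟩ := hpf ce hce hce1 δ hδ (by rw [hCδ]; exact hm1) κ m hκ hκ1 hm hm1' hκm
    L hL
  obtain ⟨ρb, hρb, htest'⟩ := htest κ m hκ hκ1 hm hm1' (hκm.trans (hδδm.trans hm4)) L hL
  obtain ⟨ρc, C₅, hρc, hC₅, hslab'⟩ := hslab κ hκ k2
  have hen' : ∀ R R' d d' : ℝ, 4 / 5 ≤ R' → R' < R → R ≤ 19 / 20 →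
      σ / 16 ≤ d → d < d' → d' ≤ σ / 2 →
      ∃ C : ℝ, 0 < C ∧ ∀ p Y k φ : PP → ℝ, Chart δm p Y → Pocket δm p Y k →
        ContDiff ℝ ∞ φ → (∀ z ∈ Om σ p Y R d, LL κ p Y k φ z = 0) →
        ∫ z in Om σ p Y R' d', (dx φ z ^ 2 + dy φ z ^ 2)
          ≤ C * ∫ z in Om σ p Y R d, φ z ^ 2 := by
    intro R R' d d' h1 h2 h3 h4 h5 h6
    obtain ⟨C, hC, h⟩ := hen κ hκ k1 R R' d d' h1 h2 h3 h4 h5 h6
    exact ⟨C, hC, fun p Y k φ ha hb hc hd => h p Y k φ (ha.mono hm2) (hb.mono hm2) hc hd⟩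
  obtain ⟨η, K, hη, hησ, hK, hfam⟩ := family_small hσ hσ1 (by linarith) hen' L
  set δ₁ : ℝ := min (κ * δ) (η / Cc) with hδ₁def
  have hδ₁ : 0 < δ₁ := lt_min (by positivity) (by positivity)
  have hδ₁κ : δ₁ ≤ κ * δ := min_le_left _ _
  have hδ₁η : Cc * δ₁ ≤ η := by
    have : δ₁ ≤ η / Cc := min_le_right _ _
    rw [le_div_iff₀ hCc0] at this
    linarith
  refine ⟨δ₁, ce * σ / 2048, hδ₁, by positivity, ?_⟩
  intro c' hc' hcn N
  obtain ⟨ρd, hρd, hfam'⟩ := hfam c' hc' N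
  obtain ⟨Q, hQ⟩ : ∃ Q : ℝ, Q = 2 * C₄ * C₅ ^ 2 * K ^ 2 + 5 * C₆ * C₅ * K := ⟨_, rfl⟩
  have hQ0 : 0 < Q := by rw [hQ]; positivity
  refine ⟨min ρa (min ρb (min ρc (min ρd (min (σ / 256) (c₆ * κ / (4 * Q)))))),
    lt_min hρa (lt_min hρb (lt_min hρc (lt_min hρd (lt_min (by positivity) (by positivity))))), ?_⟩
  intro ρ hρ hρ0 n hn hn' c s hcs hc T hT X Y f hN hcl hgrad hmet
  have r1 : ρ ≤ ρa := hρ0.trans (min_le_left _ _)
  have hρ0' := hρ0.trans (min_le_right _ _)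
  have r2 : ρ ≤ ρb := hρ0'.trans (min_le_left _ _)
  have hρ0'' := hρ0'.trans (min_le_right _ _)
  have r3 : ρ ≤ ρc := hρ0''.trans (min_le_left _ _)
  have hρ0''' := hρ0''.trans (min_le_right _ _)
  have r4 : ρ ≤ ρd := hρ0'''.trans (min_le_left _ _)
  have hρ0'''' := hρ0'''.trans (min_le_right _ _)
  have r5 : ρ ≤ σ / 256 := hρ0''''.trans (min_le_left _ _)
  have r6 : ρ ≤ c₆ * κ / (4 * Q) := hρ0''''.trans (min_le_right _ _)
  have r6' : 4 * (ρ * Q) ≤ c₆ * κ := by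
    rw [le_div_iff₀ (by positivity)] at r6
    linarith
  rw [hQ] at r6'
  have hnρ : 8 * ρ * n / ce ≤ σ / 256 := by
    rw [div_le_iff₀ hce]
    have : n * ρ ≤ ce * σ / 2048 := hn.trans hcn
    linarith
  have hn64 : 8 * ρ * n / ce ≤ 1 / 64 := by linarith
  -- all pairs
  have hP : ∀ b₀ ∈ T, ∀ b ∈ T, ∀ b' ∈ T, PairOK δm η κ m (avg (X b) (X b')) (avg (Y b) (Y b'))
      (avg (f b) (f b')) (slp (X b₀) (Y b₀) (f b₀)) (Y b₀) (fun z => f b z - f b' z)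
      (fun z => (Real.exp (2 * (κ * m * expo ρ L ce c s b z))
        - Real.exp (2 * (κ * m * expo ρ L ce c s b' z))) / 2) := by
    intro b₀ hb₀ b hb b' hb'
    have h := hpf' ρ hρ r1 n hn64 c s hcs hc δ₁ hδ₁ hδ₁κ (X b) (Y b) (f b) (X b') (Y b') (f b')
      (X b₀) (Y b₀) (f b₀) b b' (hN b hb) (hN b' hb') (hN b₀ hb₀)
      (hcl b hb b' hb').1 (hcl b hb b' hb').2.1 (hcl b hb b' hb').2.2
      (hcl b hb b₀ hb₀).1 (hcl b hb b₀ hb₀).2.1 (hcl b hb b₀ hb₀).2.2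
      (hcl b' hb' b₀ hb₀).1 (hcl b' hb' b₀ hb₀).2.1 (hcl b' hb' b₀ hb₀).2.2
      (hgrad b hb).1 (hgrad b hb).2 (hgrad b' hb').1 (hgrad b' hb').2
      (hmet b hb) (hmet b' hb')
    rw [hCδ] at h
    exact { h with
      hp₀ := fun z => (h.hp₀ z).trans hδ₁η
      hY₀ := fun z => (h.hY₀ z).trans hδ₁η
      p0 := h.p0.trans hδ₁η }
  -- the base
  have hTne : T.Nonempty := by
    rw [Finset.nonempty_iff_ne_empty]
    rintro rfl
    simp at hT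
  obtain ⟨b₀, hb₀⟩ := hTne
  have hbase : Chart (1 / 64) (slp (X b₀) (Y b₀) (f b₀)) (Y b₀) := by
    have := (hP b₀ hb₀ b₀ hb₀ b₀ hb₀).chart.mono hm1
    rwa [avg_self, avg_self, avg_self] at this
  have hr64 : 8 * ρ * n / ce + ρ ≤ σ / 64 := by linarith
  obtain ⟨b, hb, b', hb', hbb, hsmall⟩ := hfam' ρ hρ r4 n hn' T hT (slp (X b₀) (Y b₀) (f b₀))
    (Y b₀) f hbase (fun b hb => (hN b hb).smf)
    (fun b hb b' hb' z => near_diff_le_one (hN b hb) (hN b' hb') (by linarith) z)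
    (fun b hb b' hb' => ⟨_, _, _, (hP b₀ hb₀ b hb b' hb').chart,
      (hP b₀ hb₀ b hb b' hb').pocket, (hP b₀ hb₀ b hb b' hb').hp₀,
      (hP b₀ hb₀ b hb b' hb').hY₀, fun R d hR hd =>
        (hP b₀ hb₀ b hb b' hb').eq_zero hm1 hησ hσ hσ1 hρ hce hcs hr64 hR hd⟩)
  have P := hP b₀ hb₀ b hb b' hb'
  set Xa := avg (X b) (X b') with hXa
  set Ya := avg (Y b) (Y b') with hYa
  set fa := avg (f b) (f b') with hfa
  set H : PP → ℝ := (fun z => (Real.exp (2 * (κ * m * expo ρ L ce c s b z))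
        - Real.exp (2 * (κ * m * expo ρ L ce c s b' z))) / 2) with hH
  obtain ⟨t1, t2, V, t3, t4, t5, t6, t7⟩ := htest' ρ hρ r2 n hn64 c s hcs hc Xa Ya fa
    (P.near.mono hm4) b b' H (fun z => rfl)
  have hSs : ContDiff ℝ ∞ (SS m Xa Ya fa H) := smooth_SS P.near.smX P.near.smY P.near.smf P.smH
    P.J0 P.J
  set p := slp Xa Ya fa with hp
  have hε0 : 0 < K * ρ ^ (L + 20) := by positivity
  have hann : ∫ z in {z : PP | 25 / 256 ≤ p z ^ 2 + Ya z ^ 2 ∧ p z ^ 2 + Ya z ^ 2 < 9 / 64},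
        ((fun w => f b w - f b' w) z ^ 2 + dx (fun w => f b w - f b' w) z ^ 2
          + dy (fun w => f b w - f b' w) z ^ 2) ≤ (K * ρ ^ (L + 20)) ^ 2 := by
    refine le_trans ?_ hsmall
    apply setIntegral_mono_set
    · have c1 : Continuous fun z => ((f b z - f b' z) ^ 2 + dx (fun w => f b w - f b' w) z ^ 2)
          + dy (fun w => f b w - f b' w) z ^ 2 :=
        ((P.smζ.continuous.pow 2).add ((core_smooth_dx P.smζ).continuous.pow 2)).add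
          ((core_smooth_dy P.smζ).continuous.pow 2)
      refine integrable_of_bdd_cont c1 ?_
      intro z hz
      refine hbase.disc_sub (by norm_num) ?_
      have := hz.1
      norm_num at this ⊢
      linarith
    · exact Eventually.of_forall fun z => by positivity
    · apply LE.le.eventuallyLE
      intro z hz
      exact annulus_sub hσ hσ4 hη.le hησ (P.hp₀ z) (P.hY₀ z) hz.1 hz.2
  obtain ⟨ζ₂, E, s1, s2, s3, s4, s5, s6, s7, s8⟩ := hslab' ρ hρ r3 c s hcs hc p Ya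
    (fun z => KK Xa Ya fa z / κ) (fun z => f b z - f b' z) (SS m Xa Ya fa H) (K * ρ ^ (L + 20)) hε0.le
    (P.chart.mono hm3) (Cl.mono_const hm3 _ P.clp) (Cl.mono_const hm3 _ P.clY)
    (P.pocket.mono hm3) P.smζ hSs t1
    (fun z hz => P.eq z (P.chart.in_disc hm1 (by linarith))) hann
  have hfin := final_ineq (N := ((Finset.univ.filter fun i => b i ≠ b' i).card : ℝ)) hκ hC₄ hC₅
    hC₆ hρ hε0 (A := κ * ρ ^ L) (by positivity)
    (by linarith : δm ≤ 1 / 10) P.chart P.pocket.smk hSs t3 s1 s2 s3 t1 s4 s5 s6 s7 s8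
    t2 t4 t5 t6 (t7 _ (P.pocket.mono hm4))
  -- the number of different bits is at least one
  have hN1 : (1 : ℝ) ≤ ((Finset.univ.filter fun i => b i ≠ b' i).card : ℝ) := by
    have : 0 < (Finset.univ.filter fun i => b i ≠ b' i).card := by
      rw [Finset.card_pos]
      by_contra hcon
      rw [Finset.not_nonempty_iff_eq_empty, Finset.filter_eq_empty_iff] at hcon
      apply hbb
      funext i
      have := hcon (Finset.mem_univ i)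
      simpa using this
    exact_mod_cast this
  exact core_numeric hκ hC₄ hC₅ hC₆ hc₆ hK hρ (by linarith) k5' r6' hN1 hfin

end Crest.Agent.Iso341
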