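import Crest.Agent.Iso341.Defs

/-! S0341, core part A: the step function `om`, locality of the source term. -/

set_option autoImplicit false

open MeasureTheory Set Filter Topology
open scoped ContDiff

namespace Crest.Agent.Iso341

theorem core_om_zero {y : ℝ} (h : y ^ 2 ≤ 1 / 256) : om y = 0 := by
  unfold om
  exact Real.smoothTransition.zero_of_nonpos (by linarith)

theorem core_om_one {y : ℝ} (h : 1 / 16 ≤ y ^ 2) : om y = 1 := by
  unfold om
  exact Real.smoothTransition.one_of_one_le (by linarith)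

theorem core_om_nonneg (y : ℝ) : 0 ≤ om y := Real.smoothTransition.nonneg _

theorem core_om_le_one (y : ℝ) : om y ≤ 1 := Real.smoothTransition.le_one _

theorem core_contDiff_om : ContDiff ℝ ∞ om := by
  unfold om
  exact Real.smoothTransition.contDiff.comp (by fun_prop)

theorem core_deriv_om_eq_zero {y : ℝ} (h : 1 / 4 < |y|) : deriv om y = 0 := by
  have : om =ᶠ[𝓝 y] fun _ => 1 := by
    have h1 : ∀ᶠ x in 𝓝 y, 1 / 4 < |x| :=
      (continuous_abs.tendsto y).eventually (lt_mem_nhds h)
    filter_upwards [h1] with x hx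
    refine core_om_one ?_
    rw [← sq_abs]
    nlinarith [abs_nonneg x]
  rw [this.deriv_eq]
  simp

theorem core_om_deriv_bound : ∃ C : ℝ, 0 < C ∧ ∀ y, |deriv om y| ≤ C := by
  have hc : Continuous (deriv om) := core_contDiff_om.continuous_deriv (by simp)
  obtain ⟨C, hC⟩ := (isCompact_Icc (a := (-1 : ℝ)) (b := 1)).exists_bound_of_continuousOn
    hc.continuousOn
  refine ⟨max C 1, lt_max_of_lt_right one_pos, fun y => ?_⟩
  by_cases hy : y ∈ Icc (-1 : ℝ) 1
  · exact (hC y hy).trans (le_max_left _ _)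
  · rw [core_deriv_om_eq_zero, abs_zero]
    · exact le_trans zero_le_one (le_max_right _ _)
    · simp only [mem_Icc, not_and_or, not_le] at hy
      rcases hy with h | h
      · rw [abs_of_neg (by linarith)]; linarith
      · rw [abs_of_pos (by linarith)]; linarith

theorem core_om_lip : ∃ C : ℝ, 0 < C ∧ ∀ y y', |om y - om y'| ≤ C * |y - y'| := by
  obtain ⟨C, hC, h⟩ := core_om_deriv_bound
  refine ⟨C, hC, fun y y' => ?_⟩
  have := Convex.norm_image_sub_le_of_norm_deriv_le (f := om) (s := univ) (C := C)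
    (fun x _ => (core_contDiff_om.differentiable (by simp)) x) (fun x _ => h x) convex_univ
    (mem_univ y') (mem_univ y)
  simpa using this

theorem core_dx_congr {f g : PP → ℝ} {z : PP} (h : f =ᶠ[𝓝 z] g) : dx f z = dx g z := by
  unfold dx; rw [h.fderiv_eq]

theorem core_dy_congr {f g : PP → ℝ} {z : PP} (h : f =ᶠ[𝓝 z] g) : dy f z = dy g z := by
  unfold dy; rw [h.fderiv_eq]

theorem core_dx_zero_of_eventually {f : PP → ℝ} {z : PP} (h : f =ᶠ[𝓝 z] fun _ => 0) :
    dx f z = 0 := by
  rw [core_dx_congr h]; simp [dx]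

theorem core_dy_zero_of_eventually {f : PP → ℝ} {z : PP} (h : f =ᶠ[𝓝 z] fun _ => 0) :
    dy f z = 0 := by
  rw [core_dy_congr h]; simp [dy]

theorem br_zero_left {f g : PP → ℝ} {z : PP} (h : f =ᶠ[𝓝 z] fun _ => 0) : br f g z = 0 := by
  simp [br, core_dx_zero_of_eventually h, core_dy_zero_of_eventually h]

theorem br_zero_right {f g : PP → ℝ} {z : PP} (h : g =ᶠ[𝓝 z] fun _ => 0) : br f g z = 0 := by
  simp [br, core_dx_zero_of_eventually h, core_dy_zero_of_eventually h]

theorem r1_zero {X Y H : PP → ℝ} {z : PP} (h : H =ᶠ[𝓝 z] fun _ => 0) : r1 X Y H z = 0 := by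
  unfold r1
  rw [core_dx_zero_of_eventually, core_dy_zero_of_eventually]
  · simp
  · filter_upwards [h] with w hw; simp [hw]
  · filter_upwards [h] with w hw; simp [hw]

theorem r2_zero {X Y H : PP → ℝ} {z : PP} (h : H =ᶠ[𝓝 z] fun _ => 0) : r2 X Y H z = 0 := by
  unfold r2
  rw [core_dx_zero_of_eventually, core_dy_zero_of_eventually]
  · simp
  · filter_upwards [h] with w hw; simp [hw]
  · filter_upwards [h] with w hw; simp [hw]

theorem SS_zero {m : ℝ} {X Y f H : PP → ℝ} {z : PP} (h : H =ᶠ[𝓝 z] fun _ => 0) :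
    SS m X Y f H z = 0 := by
  have h' := h.eventually_nhds
  have e1 : Dy (slp X Y f) Y (fun w => r1 X Y H w / br (slp X Y f) Y w) z = 0 := by
    unfold Dy
    rw [br_zero_right, zero_div]
    filter_upwards [h'] with w hw
    simp [r1_zero hw]
  have e2 : Dp (slp X Y f) Y (fun w => (br (slp X Y f) X w / br (slp X Y f) Y w * r1 X Y H w
        + r2 X Y H w) / br X Y w) z = 0 := by
    unfold Dp
    rw [br_zero_left, zero_div]
    filter_upwards [h'] with w hw
    simp [r1_zero hw, r2_zero hw]
  unfold SS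
  rw [e1, e2]
  simp

end Crest.Agent.Iso341
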