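import Crest.Agent.Iso341.CoreA

/-! S0341, core part B: averages of near triples, pairs of immersions, supports. -/

set_option autoImplicit false

open MeasureTheory Set Filter Topology
open scoped ContDiff

namespace Crest.Agent.Iso341

theorem core_smooth_dx {f : PP → ℝ} (hf : ContDiff ℝ ∞ f) : ContDiff ℝ ∞ (dx f) := by
  unfold dx
  exact (hf.fderiv_right (m := ∞) (by simp)).clm_apply contDiff_const

theorem core_smooth_dy {f : PP → ℝ} (hf : ContDiff ℝ ∞ f) : ContDiff ℝ ∞ (dy f) := by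
  unfold dy
  exact (hf.fderiv_right (m := ∞) (by simp)).clm_apply contDiff_const

theorem core_dx_lin {f g : PP → ℝ} (hf : ContDiff ℝ ∞ f) (hg : ContDiff ℝ ∞ g) (a b : ℝ)
    (z : PP) : dx (fun w => a * f w + b * g w) z = a * dx f z + b * dx g z := by
  have h1 : DifferentiableAt ℝ f z := hf.differentiable (by simp) z
  have h2 : DifferentiableAt ℝ g z := hg.differentiable (by simp) z
  unfold dx
  rw [show (fun w => a * f w + b * g w) = fun w => (a • f) w + (b • g) w from by
    funext w; simp]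
  rw [fderiv_fun_add (h1.const_smul a) (h2.const_smul b), fderiv_const_smul h1,
    fderiv_const_smul h2]
  simp

theorem core_dy_lin {f g : PP → ℝ} (hf : ContDiff ℝ ∞ f) (hg : ContDiff ℝ ∞ g) (a b : ℝ)
    (z : PP) : dy (fun w => a * f w + b * g w) z = a * dy f z + b * dy g z := by
  have h1 : DifferentiableAt ℝ f z := hf.differentiable (by simp) z
  have h2 : DifferentiableAt ℝ g z := hg.differentiable (by simp) z
  unfold dy
  rw [show (fun w => a * f w + b * g w) = fun w => (a • f) w + (b • g) w from by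
    funext w; simp]
  rw [fderiv_fun_add (h1.const_smul a) (h2.const_smul b), fderiv_const_smul h1,
    fderiv_const_smul h2]
  simp

theorem Cl.lin {A : Set PP} {a b c c' : ℝ} (n : ℕ) : ∀ {f g : PP → ℝ}, ContDiff ℝ ∞ f →
    ContDiff ℝ ∞ g → Cl n f A c → Cl n g A c' →
    Cl n (fun z => a * f z + b * g z) A (|a| * c + |b| * c') := by
  have key : ∀ {f g : PP → ℝ}, (∀ z ∈ A, |f z| ≤ c) → (∀ z ∈ A, |g z| ≤ c') →
      ∀ z ∈ A, |a * f z + b * g z| ≤ |a| * c + |b| * c' := by
    intro f g h1 h2 z hz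
    calc |a * f z + b * g z| ≤ |a * f z| + |b * g z| := abs_add_le _ _
      _ = |a| * |f z| + |b| * |g z| := by rw [abs_mul, abs_mul]
      _ ≤ _ := add_le_add (mul_le_mul_of_nonneg_left (h1 z hz) (abs_nonneg _))
          (mul_le_mul_of_nonneg_left (h2 z hz) (abs_nonneg _))
  induction n with
  | zero => intro f g hf hg h1 h2; exact key h1 h2
  | succ n ih =>
    intro f g hf hg h1 h2
    refine ⟨key h1.1 h2.1, ?_, ?_⟩
    · have := ih (core_smooth_dx hf) (core_smooth_dx hg) h1.2.1 h2.2.1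
      convert this using 1
      funext z
      exact core_dx_lin hf hg a b z
    · have := ih (core_smooth_dy hf) (core_smooth_dy hg) h1.2.2 h2.2.2
      convert this using 1
      funext z
      exact core_dy_lin hf hg a b z

theorem Cl.bound {n : ℕ} {f : PP → ℝ} {A : Set PP} {c : ℝ} (h : Cl n f A c) :
    ∀ z ∈ A, |f z| ≤ c := by
  cases n with
  | zero => exact h
  | succ n => exact h.1

theorem Cl.mono_const {A : Set PP} {c c' : ℝ} (hc : c ≤ c') (n : ℕ) : ∀ {f : PP → ℝ},
    Cl n f A c → Cl n f A c' := by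
  induction n with
  | zero => intro f h z hz; exact (h z hz).trans hc
  | succ n ih => intro f h; exact ⟨fun z hz => (h.1 z hz).trans hc, ih h.2.1, ih h.2.2⟩

/-- the average of two functions -/
noncomputable def avg (f g : PP → ℝ) (z : PP) : ℝ := (f z + g z) / 2

theorem avg_eq (f g : PP → ℝ) : avg f g = fun z => (1 / 2) * f z + (1 / 2) * g z := by
  funext z; unfold avg; ring

theorem smooth_avg {f g : PP → ℝ} (hf : ContDiff ℝ ∞ f) (hg : ContDiff ℝ ∞ g) :
    ContDiff ℝ ∞ (avg f g) := by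
  rw [avg_eq]
  exact (contDiff_const.mul hf).add (contDiff_const.mul hg)

theorem dx_avg {f g : PP → ℝ} (hf : ContDiff ℝ ∞ f) (hg : ContDiff ℝ ∞ g) (z : PP) :
    dx (avg f g) z = (dx f z + dx g z) / 2 := by
  rw [avg_eq, core_dx_lin hf hg]; ring

theorem dy_avg {f g : PP → ℝ} (hf : ContDiff ℝ ∞ f) (hg : ContDiff ℝ ∞ g) (z : PP) :
    dy (avg f g) z = (dy f z + dy g z) / 2 := by
  rw [avg_eq, core_dy_lin hf hg]; ring

theorem core_dx_sub {f g : PP → ℝ} (hf : ContDiff ℝ ∞ f) (hg : ContDiff ℝ ∞ g) (z : PP) :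
    dx (fun w => f w - g w) z = dx f z - dx g z := by
  have := core_dx_lin hf hg 1 (-1) z
  simp only [one_mul, neg_mul, ← sub_eq_add_neg] at this
  exact this

theorem core_dy_sub {f g : PP → ℝ} (hf : ContDiff ℝ ∞ f) (hg : ContDiff ℝ ∞ g) (z : PP) :
    dy (fun w => f w - g w) z = dy f z - dy g z := by
  have := core_dy_lin hf hg 1 (-1) z
  simp only [one_mul, neg_mul, ← sub_eq_add_neg] at this
  exact this

theorem Cl.avg_sub {A : Set PP} {c : ℝ} {n : ℕ} {f g u : PP → ℝ} (hf : ContDiff ℝ ∞ f)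
    (hg : ContDiff ℝ ∞ g) (hu : ContDiff ℝ ∞ u) (h1 : Cl n (fun z => f z - u z) A c)
    (h2 : Cl n (fun z => g z - u z) A c) : Cl n (fun z => avg f g z - u z) A c := by
  have := Cl.lin (a := 1 / 2) (b := 1 / 2) n (hf.sub hu) (hg.sub hu) h1 h2
  have e : |(1 / 2 : ℝ)| * c + |(1 / 2 : ℝ)| * c = c := by
    rw [abs_of_pos (by norm_num)]; ring
  rw [e] at this
  convert this using 1
  funext z
  unfold avg; ring

theorem Near.avg {δ : ℝ} {X Y f X' Y' f' : PP → ℝ} (h : Near δ X Y f) (h' : Near δ X' Y' f') :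
    Near δ (avg X X') (avg Y Y') (avg f f') where
  smX := smooth_avg h.smX h'.smX
  smY := smooth_avg h.smY h'.smY
  smf := smooth_avg h.smf h'.smf
  out z hz := by
    obtain ⟨a1, a2, a3⟩ := h.out z hz
    obtain ⟨b1, b2, b3⟩ := h'.out z hz
    unfold Iso341.avg
    rw [a1, a2, a3, b1, b2, b3]
    refine ⟨?_, ?_, ?_⟩ <;> ring
  clX := Cl.avg_sub h.smX h'.smX (by fun_prop) h.clX h'.clX
  clY := Cl.avg_sub h.smY h'.smY (by fun_prop) h.clY h'.clY
  clf := Cl.avg_sub h.smf h'.smf (by fun_prop) h.clf h'.clf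

/-- `avg f g - g = (f - g)/2` -/
theorem Cl.avg_right {A : Set PP} {c : ℝ} {n : ℕ} {f g : PP → ℝ} (hf : ContDiff ℝ ∞ f)
    (hg : ContDiff ℝ ∞ g) (h1 : Cl n (fun z => f z - g z) A c) (hc : 0 ≤ c) :
    Cl n (fun z => Iso341.avg f g z - g z) A c := by
  have h0 : ∀ (n : ℕ), Cl n (fun _ : PP => (0 : ℝ)) A c := by
    have e1 : dx (fun _ : PP => (0 : ℝ)) = fun _ => 0 := by funext z; simp [dx]
    have e2 : dy (fun _ : PP => (0 : ℝ)) = fun _ => 0 := by funext z; simp [dy]
    intro n
    induction n with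
    | zero => intro z _; simpa using hc
    | succ n ih => exact ⟨fun z _ => by simpa using hc, by rw [e1]; exact ih, by rw [e2]; exact ih⟩
  have := Cl.avg_sub (n := n) (A := A) (c := c) hf hg hg h1 (by simpa using h0 n)
  exact this

end Crest.Agent.Iso341
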