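import Crest.Agent.Iso341.Defs

/-! S0341, GEOM: the equation of the vertical component of the difference of two isometric
immersions. -/

set_option autoImplicit false

open MeasureTheory Set
open scoped ContDiff

namespace Crest.Agent.Iso341

namespace GP

theorem smdx {f : PP → ℝ} (hf : ContDiff ℝ ∞ f) : ContDiff ℝ ∞ (dx f) := by
  unfold dx
  exact (hf.fderiv_right (m := ∞) (by simp)).clm_apply contDiff_const

theorem smdy {f : PP → ℝ} (hf : ContDiff ℝ ∞ f) : ContDiff ℝ ∞ (dy f) := by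
  unfold dy
  exact (hf.fderiv_right (m := ∞) (by simp)).clm_apply contDiff_const

theorem dat {f : PP → ℝ} (hf : ContDiff ℝ ∞ f) (z : PP) : DifferentiableAt ℝ f z :=
  (hf.differentiable (by simp)) z

theorem smbr {f g : PP → ℝ} (hf : ContDiff ℝ ∞ f) (hg : ContDiff ℝ ∞ g) :
    ContDiff ℝ ∞ (br f g) := by
  unfold br
  exact ((smdx hf).mul (smdy hg)).sub ((smdy hf).mul (smdx hg))

theorem smdiv {f g : PP → ℝ} (hf : ContDiff ℝ ∞ f) (hg : ContDiff ℝ ∞ g) (h : ∀ z, g z ≠ 0) :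
    ContDiff ℝ ∞ (fun z => f z / g z) := hf.div hg h

theorem dxadd {f g : PP → ℝ} (hf : ContDiff ℝ ∞ f) (hg : ContDiff ℝ ∞ g) (z : PP) :
    dx (fun w => f w + g w) z = dx f z + dx g z := by
  unfold dx
  rw [fderiv_fun_add (dat hf z) (dat hg z)]
  rfl

theorem dyadd {f g : PP → ℝ} (hf : ContDiff ℝ ∞ f) (hg : ContDiff ℝ ∞ g) (z : PP) :
    dy (fun w => f w + g w) z = dy f z + dy g z := by
  unfold dy
  rw [fderiv_fun_add (dat hf z) (dat hg z)]
  rfl

theorem dxsub {f g : PP → ℝ} (hf : ContDiff ℝ ∞ f) (hg : ContDiff ℝ ∞ g) (z : PP) :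
    dx (fun w => f w - g w) z = dx f z - dx g z := by
  unfold dx
  rw [fderiv_fun_sub (dat hf z) (dat hg z)]
  rfl

theorem dysub {f g : PP → ℝ} (hf : ContDiff ℝ ∞ f) (hg : ContDiff ℝ ∞ g) (z : PP) :
    dy (fun w => f w - g w) z = dy f z - dy g z := by
  unfold dy
  rw [fderiv_fun_sub (dat hf z) (dat hg z)]
  rfl

theorem dxmul {f g : PP → ℝ} (hf : ContDiff ℝ ∞ f) (hg : ContDiff ℝ ∞ g) (z : PP) :
    dx (fun w => f w * g w) z = dx f z * g z + f z * dx g z := by
  unfold dx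
  rw [fderiv_fun_mul (dat hf z) (dat hg z)]
  simp
  ring

theorem dymul {f g : PP → ℝ} (hf : ContDiff ℝ ∞ f) (hg : ContDiff ℝ ∞ g) (z : PP) :
    dy (fun w => f w * g w) z = dy f z * g z + f z * dy g z := by
  unfold dy
  rw [fderiv_fun_mul (dat hf z) (dat hg z)]
  simp
  ring

theorem dxcmul {g : PP → ℝ} (c : ℝ) (hg : ContDiff ℝ ∞ g) (z : PP) :
    dx (fun w => c * g w) z = c * dx g z := by
  unfold dx
  rw [fderiv_const_mul (dat hg z)]
  simp

theorem dycmul {g : PP → ℝ} (c : ℝ) (hg : ContDiff ℝ ∞ g) (z : PP) :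
    dy (fun w => c * g w) z = c * dy g z := by
  unfold dy
  rw [fderiv_const_mul (dat hg z)]
  simp

theorem dxdy {f : PP → ℝ} (hf : ContDiff ℝ ∞ f) (z : PP) : dx (dy f) z = dy (dx f) z := by
  have hd : DifferentiableAt ℝ (fderiv ℝ f) z :=
    ((hf.fderiv_right (m := ∞) (by simp)).differentiable (by simp)) z
  have h1 : dx (dy f) z = fderiv ℝ (fderiv ℝ f) z (1, 0) (0, 1) := by
    unfold dx dy
    rw [fderiv_clm_apply hd (by fun_prop)]
    simp
  have h2 : dy (dx f) z = fderiv ℝ (fderiv ℝ f) z (0, 1) (1, 0) := by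
    unfold dx dy
    rw [fderiv_clm_apply hd (by fun_prop)]
    simp
  rw [h1, h2]
  have hs : IsSymmSndFDerivAt ℝ f z := by
    apply ContDiffAt.isSymmSndFDerivAt (n := ∞) hf.contDiffAt
    simp only [minSmoothness_of_isRCLikeNormedField]
    exact WithTop.coe_le_coe.2 (le_top : (2 : ℕ∞) ≤ ⊤)
  exact hs.eq _ _

theorem dxcongr {f g : PP → ℝ} {U : Set PP} (hU : IsOpen U) (h : ∀ z ∈ U, f z = g z) {z : PP}
    (hz : z ∈ U) : dx f z = dx g z := by
  unfold dx
  have : f =ᶠ[nhds z] g := by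
    filter_upwards [hU.mem_nhds hz] with w hw using h w hw
  rw [this.fderiv_eq]

theorem dycongr {f g : PP → ℝ} {U : Set PP} (hU : IsOpen U) (h : ∀ z ∈ U, f z = g z) {z : PP}
    (hz : z ∈ U) : dy f z = dy g z := by
  unfold dy
  have : f =ᶠ[nhds z] g := by
    filter_upwards [hU.mem_nhds hz] with w hw using h w hw
  rw [this.fderiv_eq]

theorem Dpcongr {p Y f g : PP → ℝ} {U : Set PP} (hU : IsOpen U) (h : ∀ z ∈ U, f z = g z) {z : PP}
    (hz : z ∈ U) : Dp p Y f z = Dp p Y g z := by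
  unfold Dp br
  rw [dxcongr hU h hz, dycongr hU h hz]

theorem Dycongr {p Y f g : PP → ℝ} {U : Set PP} (hU : IsOpen U) (h : ∀ z ∈ U, f z = g z) {z : PP}
    (hz : z ∈ U) : Dy p Y f z = Dy p Y g z := by
  unfold Dy br
  rw [dxcongr hU h hz, dycongr hU h hz]

theorem Dpadd {p Y f g : PP → ℝ} (hf : ContDiff ℝ ∞ f) (hg : ContDiff ℝ ∞ g) (z : PP) :
    Dp p Y (fun w => f w + g w) z = Dp p Y f z + Dp p Y g z := by
  unfold Dp br
  rw [dxadd hf hg, dyadd hf hg]
  ring

theorem Dyadd {p Y f g : PP → ℝ} (hf : ContDiff ℝ ∞ f) (hg : ContDiff ℝ ∞ g) (z : PP) :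
    Dy p Y (fun w => f w + g w) z = Dy p Y f z + Dy p Y g z := by
  unfold Dy br
  rw [dxadd hf hg, dyadd hf hg]
  ring

theorem Dpcmul {p Y g : PP → ℝ} (c : ℝ) (hg : ContDiff ℝ ∞ g) (z : PP) :
    Dp p Y (fun w => c * g w) z = c * Dp p Y g z := by
  unfold Dp br
  rw [dxcmul c hg, dycmul c hg]
  ring

theorem Dycmul {p Y g : PP → ℝ} (c : ℝ) (hg : ContDiff ℝ ∞ g) (z : PP) :
    Dy p Y (fun w => c * g w) z = c * Dy p Y g z := by
  unfold Dy br
  rw [dxcmul c hg, dycmul c hg]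
  ring

theorem smDp {p Y f : PP → ℝ} (hp : ContDiff ℝ ∞ p) (hY : ContDiff ℝ ∞ Y)
    (hJ : ∀ z, br p Y z ≠ 0) (hf : ContDiff ℝ ∞ f) : ContDiff ℝ ∞ (Dp p Y f) :=
  smdiv (smbr hf hY) (smbr hp hY) hJ

theorem smDy {p Y f : PP → ℝ} (hp : ContDiff ℝ ∞ p) (hY : ContDiff ℝ ∞ Y)
    (hJ : ∀ z, br p Y z ≠ 0) (hf : ContDiff ℝ ∞ f) : ContDiff ℝ ∞ (Dy p Y f) :=
  smdiv (smbr hp hf) (smbr hp hY) hJ

theorem dx_rec {p Y f : PP → ℝ} (hJ : ∀ z, br p Y z ≠ 0) (z : PP) :
    dx f z = Dp p Y f z * dx p z + Dy p Y f z * dx Y z := by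
  have h := hJ z
  unfold Dp Dy
  field_simp
  unfold br
  ring

theorem dy_rec {p Y f : PP → ℝ} (hJ : ∀ z, br p Y z ≠ 0) (z : PP) :
    dy f z = Dp p Y f z * dy p z + Dy p Y f z * dy Y z := by
  have h := hJ z
  unfold Dp Dy
  field_simp
  unfold br
  ring

/-- integrability: if `df = a dg + b dh` then `{a, g} + {b, h} = 0` -/
theorem compat {f g h a b : PP → ℝ} (hf : ContDiff ℝ ∞ f) (hg : ContDiff ℝ ∞ g)
    (hh : ContDiff ℝ ∞ h) (ha : ContDiff ℝ ∞ a) (hb : ContDiff ℝ ∞ b)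
    (h1 : ∀ z, dx f z = a z * dx g z + b z * dx h z)
    (h2 : ∀ z, dy f z = a z * dy g z + b z * dy h z) (z : PP) :
    br a g z + br b h z = 0 := by
  have e1 : dx (dy f) z = dx (fun w => a w * dy g w + b w * dy h w) z := by
    congr 1
    funext w
    exact h2 w
  have e2 : dy (dx f) z = dy (fun w => a w * dx g w + b w * dx h w) z := by
    congr 1
    funext w
    exact h1 w
  have e3 := dxdy hf z
  rw [e1, e2, dxadd (ha.mul (smdy hg)) (hb.mul (smdy hh)),
    dyadd (ha.mul (smdx hg)) (hb.mul (smdx hh)), dxmul ha (smdy hg), dxmul hb (smdy hh),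
    dymul ha (smdx hg), dymul hb (smdx hh), dxdy hg, dxdy hh] at e3
  unfold br
  linear_combination e3

theorem DpDy {p Y f : PP → ℝ} (hp : ContDiff ℝ ∞ p) (hY : ContDiff ℝ ∞ Y)
    (hJ : ∀ z, br p Y z ≠ 0) (hf : ContDiff ℝ ∞ f) (z : PP) :
    Dp p Y (Dy p Y f) z = Dy p Y (Dp p Y f) z := by
  have h := compat hf hp hY (smDp hp hY hJ hf) (smDy hp hY hJ hf) (dx_rec hJ) (dy_rec hJ) z
  have e : br p (Dp p Y f) z = - br (Dp p Y f) p z := by
    unfold br
    ring
  have hz := hJ z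
  rw [Dp, Dy, e]
  field_simp
  linear_combination h

end GP

open GP

theorem pair_equation (m : ℝ) (hm : 0 < m) (X Y f ξ η ζ H : PP → ℝ) (hX : ContDiff ℝ ∞ X)
    (hY : ContDiff ℝ ∞ Y) (hf : ContDiff ℝ ∞ f) (hξ : ContDiff ℝ ∞ ξ) (hη : ContDiff ℝ ∞ η)
    (hζ : ContDiff ℝ ∞ ζ) (hH : ContDiff ℝ ∞ H) (hJ : ∀ z, br X Y z ≠ 0)
    (hJ' : ∀ z, br (slp X Y f) Y z ≠ 0) (U : Set PP) (hU : IsOpen U)
    (h1 : ∀ z ∈ U, dx X z * dx ξ z + dx Y z * dx η z + m * (dx f z * dx ζ z) = H z)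
    (h2 : ∀ z ∈ U, dy X z * dy ξ z + dy Y z * dy η z + m * (dy f z * dy ζ z) = H z)
    (h3 : ∀ z ∈ U, dx X z * dy ξ z + dy X z * dx ξ z + (dx Y z * dy η z + dy Y z * dx η z)
      + m * (dx f z * dy ζ z + dy f z * dx ζ z) = 0) :
    ∀ z ∈ U, Dy (slp X Y f) Y (Dy (slp X Y f) Y ζ) z
      + Dp (slp X Y f) Y (fun w => KK X Y f w * Dp (slp X Y f) Y ζ w) z = SS m X Y f H z := by
  have hm' : m ≠ 0 := hm.ne'
  have hp : ContDiff ℝ ∞ (slp X Y f) := smdiv (smbr hf hY) (smbr hX hY) hJ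
  have hq : ContDiff ℝ ∞ (slq X Y f) := smdiv (smbr hX hf) (smbr hX hY) hJ
  have hKK : ContDiff ℝ ∞ (KK X Y f) := smdiv (smbr hp hq) (smbr hX hY) hJ
  have hfx : ∀ z, dx f z = slp X Y f z * dx X z + slq X Y f z * dx Y z := by
    intro z
    have h := hJ z
    unfold slp slq
    field_simp
    unfold br
    ring
  have hfy : ∀ z, dy f z = slp X Y f z * dy X z + slq X Y f z * dy Y z := by
    intro z
    have h := hJ z
    unfold slp slq
    field_simp
    unfold br
    ring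
  have hIII : ∀ z, br (slp X Y f) X z + br (slq X Y f) Y z = 0 :=
    compat hf hX hY hp hq hfx hfy
  obtain ⟨G, hGdef⟩ : ∃ G : PP → ℝ, G = fun w => H w / br X Y w := ⟨_, rfl⟩
  have hG : ContDiff ℝ ∞ G := by
    rw [hGdef]
    exact smdiv hH (smbr hX hY) hJ
  have hHG : ∀ z, H z = G z * br X Y z := by
    intro z
    rw [hGdef]
    field_simp [hJ z]
  set p := slp X Y f with hpdef
  set q := slq X Y f with hqdef
  obtain ⟨om', hom'⟩ : ∃ om' : PP → ℝ, om' = fun w => (dx X w * (dy ξ w + m * (p w * dy ζ w)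
    + G w * dx Y w) - dy X w * (dx ξ w + m * (p w * dx ζ w) - G w * dy Y w)) / br X Y w :=
    ⟨_, rfl⟩
  have hm_p : ∀ {u : PP → ℝ}, ContDiff ℝ ∞ u → ContDiff ℝ ∞ (fun w => m * u w) :=
    fun hu => contDiff_const.mul hu
  have hom : ContDiff ℝ ∞ om' := by
    rw [hom']
    refine smdiv ?_ (smbr hX hY) hJ
    exact ((smdx hX).mul (((smdy hξ).add (hm_p (hp.mul (smdy hζ)))).add (hG.mul (smdx hY)))).sub
      ((smdy hX).mul (((smdx hξ).add (hm_p (hp.mul (smdx hζ)))).sub (hG.mul (smdy hY))))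
  have homJ : ∀ z, om' z * br X Y z = dx X z * (dy ξ z + m * (p z * dy ζ z)
    + G z * dx Y z) - dy X z * (dx ξ z + m * (p z * dx ζ z) - G z * dy Y z) := by
    intro z
    rw [hom']
    exact div_mul_cancel₀ _ (hJ z)
  -- the four linear relations
  have hK1 : ∀ z ∈ U, (dx ξ z + m * (p z * dx ζ z)) * dy Y z - (dy ξ z + m * (p z * dy ζ z)) *
      dx Y z - G z * (dx Y z ^ 2 + dy Y z ^ 2) = 0 := by
    intro z hz
    have a1 := h1 z hz
    have a2 := h2 z hz
    have a3 := h3 z hz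
    rw [hfx z, hHG z] at a1
    rw [hfy z, hHG z] at a2
    rw [hfx z, hfy z] at a3
    have hz' := hJ z
    apply mul_left_cancel₀ hz'
    unfold br at a1 a2 ⊢
    linear_combination (dy Y z ^ 2) * a1 + (dx Y z ^ 2) * a2 - (dx Y z * dy Y z) * a3
  have e1 : ∀ z ∈ U, dx ξ z + m * (p z * dx ζ z) = om' z * dx Y z + G z * dy Y z := by
    intro z hz
    have k := hK1 z hz
    have o := homJ z
    apply mul_left_cancel₀ (hJ z)
    unfold br at o ⊢
    linear_combination (dx X z) * k - (dx Y z) * o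
  have e2 : ∀ z ∈ U, dy ξ z + m * (p z * dy ζ z) = om' z * dy Y z - G z * dx Y z := by
    intro z hz
    have k := hK1 z hz
    have o := homJ z
    apply mul_left_cancel₀ (hJ z)
    unfold br at o ⊢
    linear_combination (dy X z) * k - (dy Y z) * o
  have hne : ∀ z, dx Y z ≠ 0 ∨ dy Y z ≠ 0 := by
    intro z
    by_contra hcon
    push Not at hcon
    apply hJ z
    unfold br
    rw [hcon.1, hcon.2]
    ring
  have e3 : ∀ z ∈ U, dx η z + m * (q z * dx ζ z) = -(om' z * dx X z) - G z * dy X z := by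
    intro z hz
    have a1 := h1 z hz
    have a2 := h2 z hz
    have a3 := h3 z hz
    rw [hfx z, hHG z] at a1
    rw [hfy z, hHG z] at a2
    rw [hfx z, hfy z] at a3
    have b1 := e1 z hz
    have b2 := e2 z hz
    unfold br at a1 a2
    rcases hne z with h | h
    · apply mul_left_cancel₀ h
      linear_combination a1 - (dx X z) * b1
    · apply mul_left_cancel₀ (pow_ne_zero 2 h)
      linear_combination (dy Y z) * a3 - (dx Y z) * a2 - (dx X z * dy Y z - dy X z * dx Y z) * b2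
        - (dy X z * dy Y z) * b1
  have e4 : ∀ z ∈ U, dy η z + m * (q z * dy ζ z) = -(om' z * dy X z) + G z * dx X z := by
    intro z hz
    have a1 := h1 z hz
    have a2 := h2 z hz
    have a3 := h3 z hz
    rw [hfx z, hHG z] at a1
    rw [hfy z, hHG z] at a2
    rw [hfx z, hfy z] at a3
    have b1 := e1 z hz
    have b2 := e2 z hz
    unfold br at a1 a2
    rcases hne z with h | h
    · apply mul_left_cancel₀ (pow_ne_zero 2 h)
      linear_combination (dx Y z) * a3 - (dy Y z) * a1 + (dx X z * dy Y z - dy X z * dx Y z) * b1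
        - (dx X z * dx Y z) * b2
    · apply mul_left_cancel₀ h
      linear_combination a2 - (dy X z) * b2
  -- the two curl relations
  have hI : ∀ z ∈ U, m * br p ζ z = br om' Y z + r1 X Y H z := by
    intro z hz
    have c2 := dxcongr hU e2 hz
    have c1 := dycongr hU e1 hz
    rw [dxadd (smdy hξ) (hm_p (hp.mul (smdy hζ))), dxcmul m (hp.mul (smdy hζ)),
      dxmul hp (smdy hζ), dxsub (hom.mul (smdy hY)) (hG.mul (smdx hY)),
      dxmul hom (smdy hY)] at c2
    rw [dyadd (smdx hξ) (hm_p (hp.mul (smdx hζ))), dycmul m (hp.mul (smdx hζ)),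
      dymul hp (smdx hζ), dyadd (hom.mul (smdx hY)) (hG.mul (smdy hY)),
      dymul hom (smdx hY)] at c1
    have s1 := dxdy hξ z
    have s2 := dxdy hζ z
    have s3 := dxdy hY z
    have r : r1 X Y H z = -(dx (fun w => G w * dx Y w) z + dy (fun w => G w * dy Y w) z) := by
      rw [hGdef]
      rfl
    rw [r]
    unfold br
    linear_combination c2 - c1 - s1 - m * p z * s2 + om' z * s3
  have hII : ∀ z ∈ U, m * br q ζ z = br X om' z + r2 X Y H z := by
    intro z hz
    have c2 := dxcongr hU e4 hz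
    have c1 := dycongr hU e3 hz
    have t1 : dx (fun w => -(om' w * dy X w) + G w * dx X w) z
        = -(dx om' z * dy X z + om' z * dx (dy X) z) + dx (fun w => G w * dx X w) z := by
      rw [show (fun w => -(om' w * dy X w) + G w * dx X w)
        = fun w => G w * dx X w - om' w * dy X w by funext w; ring,
        dxsub (hG.mul (smdx hX)) (hom.mul (smdy hX)), dxmul hom (smdy hX)]
      ring
    have t2 : dy (fun w => -(om' w * dx X w) - G w * dy X w) z
        = -(dy om' z * dx X z + om' z * dy (dx X) z) - dy (fun w => G w * dy X w) z := by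
      rw [show (fun w => -(om' w * dx X w) - G w * dy X w)
        = fun w => (-1) * (om' w * dx X w + G w * dy X w) by funext w; ring,
        dycmul (-1) ((hom.mul (smdx hX)).add (hG.mul (smdy hX))),
        dyadd (hom.mul (smdx hX)) (hG.mul (smdy hX)), dymul hom (smdx hX)]
      ring
    rw [dxadd (smdy hη) (hm_p (hq.mul (smdy hζ))), dxcmul m (hq.mul (smdy hζ)),
      dxmul hq (smdy hζ), t1] at c2
    rw [dyadd (smdx hη) (hm_p (hq.mul (smdx hζ))), dycmul m (hq.mul (smdx hζ)),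
      dymul hq (smdx hζ), t2] at c1
    have s1 := dxdy hη z
    have s2 := dxdy hζ z
    have s3 := dxdy hX z
    have r : r2 X Y H z = dx (fun w => G w * dx X w) z + dy (fun w => G w * dy X w) z := by
      rw [hGdef]
      rfl
    rw [r]
    unfold br
    linear_combination c2 - c1 - s1 - m * q z * s2 - om' z * s3
  -- smoothness of the sources
  have hr1 : ContDiff ℝ ∞ (r1 X Y H) := by
    have : r1 X Y H = fun z => -(dx (fun w => G w * dx Y w) z + dy (fun w => G w * dy Y w) z) := by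
      rw [hGdef]
      rfl
    rw [this]
    exact ((smdx (hG.mul (smdx hY))).add (smdy (hG.mul (smdy hY)))).neg
  have hr2 : ContDiff ℝ ∞ (r2 X Y H) := by
    have : r2 X Y H = fun z => dx (fun w => G w * dx X w) z + dy (fun w => G w * dy X w) z := by
      rw [hGdef]
      rfl
    rw [this]
    exact (smdx (hG.mul (smdx hX))).add (smdy (hG.mul (smdy hX)))
  have hsJ : ContDiff ℝ ∞ (fun w => r1 X Y H w / br p Y w) := smdiv hr1 (smbr hp hY) hJ'
  have hs2 : ContDiff ℝ ∞ (fun w => (br p X w / br p Y w * r1 X Y H w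
        + r2 X Y H w) / br X Y w) :=
    smdiv (((smdiv (smbr hp hX) (smbr hp hY) hJ').mul hr1).add hr2) (smbr hX hY) hJ
  -- first order system
  have hA : ∀ z ∈ U, Dy p Y ζ z = (1 / m) * (Dp p Y om' z + r1 X Y H z / br p Y z) := by
    intro z hz
    have a := hI z hz
    have hj := hJ' z
    unfold Dy Dp
    field_simp
    linear_combination a
  have hB : ∀ z ∈ U, Dy p Y om' z = (-m) * (KK X Y f z * Dp p Y ζ z)
      + (-1) * ((br p X z / br p Y z * r1 X Y H z + r2 X Y H z) / br X Y z) := by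
    intro z hz
    have a := hI z hz
    have b := hII z hz
    have c := hIII z
    have hj := hJ' z
    have hj0 := hJ z
    have hk : KK X Y f z = br p q z / br X Y z := rfl
    have pl1 : br p om' z * br X Y z = br p X z * br om' Y z + br p Y z * br X om' z := by
      unfold br
      ring
    have pl2 : br p Y z * br q ζ z - br p ζ z * br q Y z = -(br p q z * br ζ Y z) := by
      unfold br
      ring
    rw [hk]
    unfold Dy Dp
    field_simp
    linear_combination pl1 - (br p X z) * a - (br p Y z) * b + m * pl2 + m * (br p ζ z) * c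
  intro z hz
  have f1 : Dy p Y (Dy p Y ζ) z
      = (1 / m) * (Dy p Y (Dp p Y om') z + Dy p Y (fun w => r1 X Y H w / br p Y w) z) := by
    rw [Dycongr hU hA hz, Dycmul (1 / m) ((smDp hp hY hJ' hom).add hsJ),
      Dyadd (smDp hp hY hJ' hom) hsJ]
  have hKD : ContDiff ℝ ∞ (fun w => KK X Y f w * Dp p Y ζ w) := hKK.mul (smDp hp hY hJ' hζ)
  have f2 : Dp p Y (Dy p Y om') z
      = (-m) * Dp p Y (fun w => KK X Y f w * Dp p Y ζ w) z
        + (-1) * Dp p Y (fun w => (br p X w / br p Y w * r1 X Y H w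
        + r2 X Y H w) / br X Y w) z := by
    rw [Dpcongr hU hB hz, Dpadd (contDiff_const.mul hKD) (contDiff_const.mul hs2),
      Dpcmul (-m) hKD, Dpcmul (-1) hs2]
  rw [f1, ← DpDy hp hY hJ' hom z, f2]
  unfold SS
  rw [← hpdef]
  field_simp
  ring

end Crest.Agent.Iso341
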