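import Crest.Agent.Iso341.CoreB
import Crest.Agent.Iso341.Calc
import Crest.Agent.Iso341.GeomPair

/-! S0341, core part C: the equation of a pair of immersions. -/

set_option autoImplicit false

open MeasureTheory Set Filter Topology
open scoped ContDiff

namespace Crest.Agent.Iso341

/-- the metric relations -/
def MetRel (m : ℝ) (X Y f v : PP → ℝ) : Prop := ∀ z : PP, z.1 ^ 2 + z.2 ^ 2 < 9 / 4 →
    dx X z ^ 2 + dx Y z ^ 2 + m * dx f z ^ 2 = Real.exp (2 * v z) ∧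
    dy X z ^ 2 + dy Y z ^ 2 + m * dy f z ^ 2 = Real.exp (2 * v z) ∧
    dx X z * dy X z + dx Y z * dy Y z + m * (dx f z * dy f z) = 0

theorem isOpen_disc (r : ℝ) : IsOpen {z : PP | z.1 ^ 2 + z.2 ^ 2 < r} :=
  isOpen_lt (by fun_prop) continuous_const

theorem smooth_KK {X Y f : PP → ℝ} (hK : ContDiff ℝ ∞ (KK X Y f)) (κ : ℝ) :
    ContDiff ℝ ∞ fun z => KK X Y f z / κ := hK.div_const _

theorem core_Dp_mul_const {p Y W : PP → ℝ} (hW : ContDiff ℝ ∞ W) (a : ℝ) (z : PP) :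
    Dp p Y (fun w => a * W w) z = a * Dp p Y W z := by
  have e1 : (fun w => a * W w) = fun w => a * W w + 0 * W w := by funext w; ring
  unfold Dp br
  rw [e1, core_dx_lin hW hW, core_dy_lin hW hW]
  ring

theorem pair_LL {κ m : ℝ} (hκ : 0 < κ) (hm : 0 < m) {X Y f X' Y' f' v v' H : PP → ℝ}
    (hX : ContDiff ℝ ∞ X) (hY : ContDiff ℝ ∞ Y) (hf : ContDiff ℝ ∞ f)
    (hX' : ContDiff ℝ ∞ X') (hY' : ContDiff ℝ ∞ Y') (hf' : ContDiff ℝ ∞ f')
    (hH : ContDiff ℝ ∞ H)
    (hHe : ∀ z, H z = (Real.exp (2 * v z) - Real.exp (2 * v' z)) / 2)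
    (hJ : ∀ z, br (avg X X') (avg Y Y') z ≠ 0)
    (hJ' : ∀ z, br (slp (avg X X') (avg Y Y') (avg f f')) (avg Y Y') z ≠ 0)
    (hp : ContDiff ℝ ∞ (slp (avg X X') (avg Y Y') (avg f f')))
    (hK : ContDiff ℝ ∞ (KK (avg X X') (avg Y Y') (avg f f')))
    (h : MetRel m X Y f v) (h' : MetRel m X' Y' f' v') :
    ∀ z : PP, z.1 ^ 2 + z.2 ^ 2 < 9 / 4 →
      LL κ (slp (avg X X') (avg Y Y') (avg f f')) (avg Y Y')
        (fun w => KK (avg X X') (avg Y Y') (avg f f') w / κ) (fun w => f w - f' w) z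
      = SS m (avg X X') (avg Y Y') (avg f f') H z := by
  have key := pair_equation m hm (avg X X') (avg Y Y') (avg f f') (fun w => X w - X' w)
    (fun w => Y w - Y' w) (fun w => f w - f' w) H (smooth_avg hX hX') (smooth_avg hY hY')
    (smooth_avg hf hf') (hX.sub hX') (hY.sub hY') (hf.sub hf') hH hJ hJ'
    {z : PP | z.1 ^ 2 + z.2 ^ 2 < 9 / 4} (isOpen_disc _) ?_ ?_ ?_
  · intro z hz
    rw [← key z hz]
    unfold LL
    congr 1
    set p := slp (avg X X') (avg Y Y') (avg f f') with hpdef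
    set Yb := avg Y Y' with hYb
    set K := KK (avg X X') Yb (avg f f') with hKdef
    have hYs : ContDiff ℝ ∞ Yb := smooth_avg hY hY'
    have hζ : ContDiff ℝ ∞ (fun w => f w - f' w) := hf.sub hf'
    have hD : ContDiff ℝ ∞ (Dp p Yb (fun w => f w - f' w)) := contDiff_Dp hp hYs hJ' hζ
    have hKD : ContDiff ℝ ∞ (fun w => K w * Dp p Yb (fun w => f w - f' w) w) := hK.mul hD
    have e1 : (fun w => K w / κ * Dp p Yb (fun w => f w - f' w) w)
        = fun w => (1 / κ) * (K w * Dp p Yb (fun w => f w - f' w) w) := by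
      funext w; ring
    rw [e1, core_Dp_mul_const hKD]
    field_simp
  · intro z hz
    obtain ⟨a1, a2, a3⟩ := h z hz
    obtain ⟨b1, b2, b3⟩ := h' z hz
    rw [dx_avg hX hX', dx_avg hY hY', dx_avg hf hf', core_dx_sub hX hX', core_dx_sub hY hY',
      core_dx_sub hf hf', hHe]
    linear_combination (1 / 2) * a1 - (1 / 2) * b1
  · intro z hz
    obtain ⟨a1, a2, a3⟩ := h z hz
    obtain ⟨b1, b2, b3⟩ := h' z hz
    rw [dy_avg hX hX', dy_avg hY hY', dy_avg hf hf', core_dy_sub hX hX', core_dy_sub hY hY',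
      core_dy_sub hf hf', hHe]
    linear_combination (1 / 2) * a2 - (1 / 2) * b2
  · intro z hz
    obtain ⟨a1, a2, a3⟩ := h z hz
    obtain ⟨b1, b2, b3⟩ := h' z hz
    rw [dy_avg hX hX', dy_avg hY hY', dy_avg hf hf', core_dy_sub hX hX', core_dy_sub hY hY',
      core_dy_sub hf hf', dx_avg hX hX', dx_avg hY hY', dx_avg hf hf', core_dx_sub hX hX',
      core_dx_sub hY hY', core_dx_sub hf hf']
    linear_combination a3 - b3

end Crest.Agent.Iso341
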