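import Crest.Agent.Iso341.CoreB

/-! S0341, core part D: supports of the bumps and geometry of the regions. -/

set_option autoImplicit false

open MeasureTheory Set Filter Topology
open scoped ContDiff

namespace Crest.Agent.Iso341

theorem bump_zero {t : ℝ} (h : 1 / 4 ≤ t) : bump t = 0 := by
  unfold bump
  exact Real.smoothTransition.zero_of_nonpos (by linarith)

theorem expo_term_zero {ρ ce c s : ℝ} (hρ : 0 < ρ) (hce : 0 < ce) (hcs : c ^ 2 + s ^ 2 = 1)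
    {n : ℕ} (i : Fin n) {z : PP} (hz : (8 * ρ * n / ce + ρ) ^ 2 < z.1 ^ 2 + z.2 ^ 2) :
    bump (((z.1 - 8 * ρ * (i + 1) / ce * c) ^ 2 + (z.2 - 8 * ρ * (i + 1) / ce * s) ^ 2) / ρ ^ 2)
      = 0 := by
  apply bump_zero
  set t : ℝ := 8 * ρ * (i + 1) / ce with ht
  have hi : ((i : ℕ) : ℝ) + 1 ≤ n := by
    have := i.2
    exact_mod_cast this
  have ht0 : 0 ≤ t := by positivity
  have ht1 : t ≤ 8 * ρ * n / ce := by
    rw [ht]; gcongr
  have e : (z.1 - t * c) ^ 2 + (z.2 - t * s) ^ 2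
      = (z.1 ^ 2 + z.2 ^ 2) - 2 * t * (z.1 * c + z.2 * s) + t ^ 2 := by
    linear_combination t ^ 2 * hcs
  set r : ℝ := √(z.1 ^ 2 + z.2 ^ 2) with hr
  have hr2 : r ^ 2 = z.1 ^ 2 + z.2 ^ 2 := Real.sq_sqrt (by positivity)
  have hr0 : 0 ≤ r := Real.sqrt_nonneg _
  have hcs' : z.1 * c + z.2 * s ≤ r := by
    have h1 : (z.1 * c + z.2 * s) ^ 2 ≤ r ^ 2 := by
      rw [hr2]
      nlinarith [sq_nonneg (z.1 * s - z.2 * c), hcs]
    exact abs_le_of_sq_le_sq' h1 hr0 |>.2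
  have hn0 : 0 ≤ 8 * ρ * n / ce := by positivity
  have hbig : 8 * ρ * n / ce + ρ < r := by
    have : (8 * ρ * n / ce + ρ) ^ 2 < r ^ 2 := by rw [hr2]; exact hz
    exact lt_of_pow_lt_pow_left₀ 2 hr0 this
  have h2 : (r - t) ^ 2 ≤ (z.1 - t * c) ^ 2 + (z.2 - t * s) ^ 2 := by
    rw [e, ← hr2]; nlinarith
  have h3 : ρ ^ 2 ≤ (r - t) ^ 2 := by
    apply pow_le_pow_left₀ hρ.le; linarith
  rw [le_div_iff₀ (by positivity)]
  nlinarith [sq_nonneg ρ]

theorem expo_eq_outside {ρ ce c s : ℝ} (hρ : 0 < ρ) (hce : 0 < ce) (hcs : c ^ 2 + s ^ 2 = 1)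
    {n : ℕ} (L : ℕ) (b b' : Fin n → Bool) {z : PP}
    (hz : (8 * ρ * n / ce + ρ) ^ 2 < z.1 ^ 2 + z.2 ^ 2) :
    expo ρ L ce c s b z = expo ρ L ce c s b' z := by
  unfold expo
  congr 2
  apply Finset.sum_congr rfl
  intro i _
  rw [expo_term_zero hρ hce hcs i hz]
  simp

theorem H_eventually_zero {ρ ce c s κm : ℝ} (hρ : 0 < ρ) (hce : 0 < ce)
    (hcs : c ^ 2 + s ^ 2 = 1) {n : ℕ} (L : ℕ) (b b' : Fin n → Bool) {H : PP → ℝ}
    (hH : ∀ z, H z = (Real.exp (2 * (κm * expo ρ L ce c s b z))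
        - Real.exp (2 * (κm * expo ρ L ce c s b' z))) / 2) {z : PP}
    (hz : (8 * ρ * n / ce + ρ) ^ 2 < z.1 ^ 2 + z.2 ^ 2) : H =ᶠ[𝓝 z] fun _ => 0 := by
  have ho : IsOpen {w : PP | (8 * ρ * n / ce + ρ) ^ 2 < w.1 ^ 2 + w.2 ^ 2} :=
    isOpen_lt continuous_const (by fun_prop)
  filter_upwards [ho.mem_nhds hz] with w hw
  rw [hH, expo_eq_outside hρ hce hcs L b b' hw]
  simp

/-- operator norm on `ℝ × ℝ` with the sup norm -/
theorem norm_le_of_apply (L : PP →L[ℝ] ℝ) {a b : ℝ} (h1 : |L (1, 0)| ≤ a)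
    (h2 : |L (0, 1)| ≤ b) : ‖L‖ ≤ a + b := by
  have ha : 0 ≤ a := (abs_nonneg _).trans h1
  have hb : 0 ≤ b := (abs_nonneg _).trans h2
  apply ContinuousLinearMap.opNorm_le_bound _ (by positivity)
  intro z
  have e : z = z.1 • ((1 : ℝ), (0 : ℝ)) + z.2 • ((0 : ℝ), (1 : ℝ)) := by
    ext <;> simp
  have hz1 : |z.1| ≤ ‖z‖ := by rw [← Real.norm_eq_abs]; exact norm_fst_le z
  have hz2 : |z.2| ≤ ‖z‖ := by rw [← Real.norm_eq_abs]; exact norm_snd_le z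
  calc ‖L z‖ = ‖z.1 * L (1, 0) + z.2 * L (0, 1)‖ := by
        conv_lhs => rw [e]
        rw [map_add, map_smul, map_smul]; simp
    _ ≤ |z.1| * |L (1, 0)| + |z.2| * |L (0, 1)| := by
        rw [Real.norm_eq_abs, ← abs_mul, ← abs_mul]; exact abs_add_le _ _
    _ ≤ ‖z‖ * a + ‖z‖ * b := by gcongr
    _ = (a + b) * ‖z‖ := by ring

theorem Chart.lip_p {δ : ℝ} {p Y : PP → ℝ} (h : Chart δ p Y) (z w : PP) :
    |p z - p w| ≤ (1 + 2 * δ) * ‖z - w‖ := by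
  have := Convex.norm_image_sub_le_of_norm_fderiv_le (f := p) (s := univ) (C := 1 + 2 * δ)
    (𝕜 := ℝ) (fun x _ => (h.smp.differentiable (by simp)) x) (fun x _ => ?_) convex_univ
    (mem_univ w) (mem_univ z)
  · simpa using this
  · have h1 : |fderiv ℝ p x (1, 0)| ≤ 1 + δ := by
      have := abs_le.1 (h.px x)
      unfold dx at this
      rw [abs_le]
      constructor <;> linarith [this.1, this.2]
    have h2 : |fderiv ℝ p x (0, 1)| ≤ δ := h.py x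
    have := norm_le_of_apply _ h1 h2
    linarith

theorem Chart.lip_Y {δ : ℝ} {p Y : PP → ℝ} (h : Chart δ p Y) (z w : PP) :
    |Y z - Y w| ≤ (1 + 2 * δ) * ‖z - w‖ := by
  have := Convex.norm_image_sub_le_of_norm_fderiv_le (f := Y) (s := univ) (C := 1 + 2 * δ)
    (𝕜 := ℝ) (fun x _ => (h.smY.differentiable (by simp)) x) (fun x _ => ?_) convex_univ
    (mem_univ w) (mem_univ z)
  · simpa using this
  · have h1 : |fderiv ℝ Y x (0, 1)| ≤ 1 + δ := by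
      have := abs_le.1 (h.Yy x)
      unfold dy at this
      rw [abs_le]
      constructor <;> linarith [this.1, this.2]
    have h2 : |fderiv ℝ Y x (1, 0)| ≤ δ := h.Yx x
    have := norm_le_of_apply _ h2 h1
    linarith

/-- the basic stability of the regions -/
theorem om_step {C σ η R R' d d' P Q P' Q' : ℝ} (hC : 0 ≤ C)
    (hlip : ∀ y y', |om y - om y'| ≤ C * |y - y'|) (hσ : 0 ≤ σ) (hσ1 : σ ≤ 1)
    (hR : R ^ 2 ≤ 1) (hη : 0 ≤ η) (h1 : |P' - P| ≤ η) (h2 : |Q' - Q| ≤ η)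
    (hRR : R ^ 2 + 4 * η + 2 * η ^ 2 ≤ R' ^ 2) (hdd : d' + η * (1 + C) ≤ d)
    (h : P ^ 2 + Q ^ 2 < R ^ 2 ∧ d < |P| + σ * om Q) :
    P' ^ 2 + Q' ^ 2 < R' ^ 2 ∧ d' < |P'| + σ * om Q' := by
  obtain ⟨ha, hb⟩ := h
  have hP1 : |P| ≤ 1 := by
    rw [abs_le_one_iff_mul_self_le_one]; nlinarith [sq_nonneg Q]
  have hQ1 : |Q| ≤ 1 := by
    rw [abs_le_one_iff_mul_self_le_one]; nlinarith [sq_nonneg P]
  constructor
  · have e1 : P' ^ 2 ≤ P ^ 2 + 2 * η + η ^ 2 := by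
      have h3 : |P'| ≤ |P| + η := by
        have := abs_sub_abs_le_abs_sub P' P
        linarith
      calc P' ^ 2 = |P'| ^ 2 := (sq_abs _).symm
        _ ≤ (|P| + η) ^ 2 := pow_le_pow_left₀ (abs_nonneg _) h3 2
        _ = P ^ 2 + 2 * |P| * η + η ^ 2 := by rw [add_sq, sq_abs]
        _ ≤ P ^ 2 + 2 * 1 * η + η ^ 2 := by gcongr
        _ = _ := by ring
    have e2 : Q' ^ 2 ≤ Q ^ 2 + 2 * η + η ^ 2 := by
      have h3 : |Q'| ≤ |Q| + η := by
        have := abs_sub_abs_le_abs_sub Q' Q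
        linarith
      calc Q' ^ 2 = |Q'| ^ 2 := (sq_abs _).symm
        _ ≤ (|Q| + η) ^ 2 := pow_le_pow_left₀ (abs_nonneg _) h3 2
        _ = Q ^ 2 + 2 * |Q| * η + η ^ 2 := by rw [add_sq, sq_abs]
        _ ≤ Q ^ 2 + 2 * 1 * η + η ^ 2 := by gcongr
        _ = _ := by ring
    linarith
  · have e1 : |P| - η ≤ |P'| := by
      have := abs_sub_abs_le_abs_sub P P'
      rw [abs_sub_comm] at h1
      linarith
    have e2 : om Q - C * η ≤ om Q' := by
      have := hlip Q Q'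
      rw [abs_sub_comm] at h2
      have h4 : om Q - om Q' ≤ C * η :=
        (le_abs_self _).trans (this.trans (mul_le_mul_of_nonneg_left h2 hC))
      linarith
    have e3 : σ * (om Q - C * η) ≤ σ * om Q' := mul_le_mul_of_nonneg_left e2 hσ
    have e4 : σ * (C * η) ≤ 1 * (C * η) := mul_le_mul_of_nonneg_right hσ1 (by positivity)
    nlinarith

/-- the bumps are outside of the regions -/
theorem small_disc_outside {δ σ r : ℝ} {p Y : PP → ℝ} (h : Chart δ p Y) (hδ : δ ≤ 1 / 64)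
    (hσ : 0 < σ) (hσ1 : σ ≤ 1) (hp0 : |p 0| ≤ σ / 64) (hr0 : 0 ≤ r) (hr : r ≤ σ / 64) {z : PP}
    (hz : z.1 ^ 2 + z.2 ^ 2 ≤ r ^ 2) : |p z| + σ * om (Y z) ≤ σ / 16 := by
  have hδ0 : 0 ≤ δ := (abs_nonneg _).trans (h.py 0)
  have hz1 : |z.1| ≤ r := abs_le_of_sq_le_sq (by nlinarith [sq_nonneg z.2]) hr0
  have hz2 : |z.2| ≤ r := abs_le_of_sq_le_sq (by nlinarith [sq_nonneg z.1]) hr0
  have hn : ‖z‖ ≤ r := by
    rw [Prod.norm_def]
    exact max_le hz1 hz2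
  have h1 : |p z - p 0| ≤ 2 * r := by
    have := h.lip_p z 0
    rw [sub_zero] at this
    refine this.trans ?_
    have : (1 + 2 * δ) ≤ 2 := by linarith
    nlinarith [norm_nonneg z]
  have h2 : |p z| ≤ 3 * σ / 64 := by
    have : |p z| ≤ |p z - p 0| + |p 0| := by
      have := abs_add_le (p z - p 0) (p 0)
      simpa using this
    linarith
  have h3 : om (Y z) = 0 := by
    apply core_om_zero
    have h4 : |Y z| ≤ 1 / 32 := by
      have h5 := h.Y0 z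
      have : |Y z| ≤ |Y z - z.2| + |z.2| := by
        have := abs_add_le (Y z - z.2) z.2
        simpa using this
      linarith
    rw [← sq_abs]
    nlinarith [abs_nonneg (Y z)]
  rw [h3]
  linarith

end Crest.Agent.Iso341
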