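import Crest.Agent.Iso341.Calc

/-! S0341, part CLOSE, `expo_close`: estimates of the conformal exponent `expo`. -/

set_option autoImplicit false

open MeasureTheory Set
open scoped ContDiff

namespace Crest.Agent.Iso341

namespace Expo

theorem Cl_mono {A : Set PP} {c c' : ℝ} (hc : c ≤ c') : ∀ (n : ℕ) {f : PP → ℝ}, Cl n f A c →
    Cl n f A c'
  | 0, _, h => fun z hz => (h z hz).trans hc
  | n + 1, _, h => ⟨fun z hz => (h.1 z hz).trans hc, Cl_mono hc n h.2.1, Cl_mono hc n h.2.2⟩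

theorem Cl_subset {A B : Set PP} {c : ℝ} (hAB : A ⊆ B) : ∀ (n : ℕ) {f : PP → ℝ}, Cl n f B c →
    Cl n f A c
  | 0, _, h => fun z hz => h z (hAB hz)
  | n + 1, _, h => ⟨fun z hz => h.1 z (hAB hz), Cl_subset hAB n h.2.1, Cl_subset hAB n h.2.2⟩

theorem Cl_congr {A : Set PP} {c : ℝ} (hA : IsOpen A) : ∀ (n : ℕ) {f g : PP → ℝ},
    (∀ z ∈ A, f z = g z) → Cl n f A c → Cl n g A c
  | 0, _, _, e, h => fun z hz => by rw [← e z hz]; exact h z hz
  | n + 1, _, _, e, h => ⟨fun z hz => by rw [← e z hz]; exact h.1 z hz,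
      Cl_congr hA n (dx_congr_on hA e) h.2.1, Cl_congr hA n (dy_congr_on hA e) h.2.2⟩

theorem Cl_add {A : Set PP} : ∀ (n : ℕ) {f g : PP → ℝ} {c c' : ℝ}, ContDiff ℝ ∞ f →
    ContDiff ℝ ∞ g → Cl n f A c → Cl n g A c' → Cl n (fun z => f z + g z) A (c + c')
  | 0, _, _, _, _, _, _, h, h' => fun z hz => (abs_add_le _ _).trans (add_le_add (h z hz) (h' z hz))
  | n + 1, f, g, c, c', hf, hg, h, h' => by
      refine ⟨fun z hz => (abs_add_le _ _).trans (add_le_add (h.1 z hz) (h'.1 z hz)), ?_, ?_⟩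
      · rw [dx_add' hf hg]
        exact Cl_add n (contDiff_dx hf) (contDiff_dx hg) h.2.1 h'.2.1
      · rw [dy_add' hf hg]
        exact Cl_add n (contDiff_dy hf) (contDiff_dy hg) h.2.2 h'.2.2

theorem Cl_const_mul {A : Set PP} (a : ℝ) : ∀ (n : ℕ) {f : PP → ℝ} {c : ℝ}, ContDiff ℝ ∞ f →
    Cl n f A c → Cl n (fun z => a * f z) A (|a| * c)
  | 0, _, _, _, h => fun z hz => by
      rw [abs_mul]; exact mul_le_mul_of_nonneg_left (h z hz) (abs_nonneg a)
  | n + 1, f, c, hf, h => by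
      refine ⟨fun z hz => by
        rw [abs_mul]; exact mul_le_mul_of_nonneg_left (h.1 z hz) (abs_nonneg a), ?_, ?_⟩
      · have e : dx (fun z => a * f z) = fun z => a * dx f z := funext (dx_const_mul a hf)
        rw [e]; exact Cl_const_mul a n (contDiff_dx hf) h.2.1
      · have e : dy (fun z => a * f z) = fun z => a * dy f z := funext (dy_const_mul a hf)
        rw [e]; exact Cl_const_mul a n (contDiff_dy hf) h.2.2

theorem Cl_zero {A : Set PP} {c : ℝ} (hc : 0 ≤ c) : ∀ n : ℕ, Cl n (fun _ => (0 : ℝ)) A c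
  | 0 => fun z _ => by simpa using hc
  | n + 1 => by
      refine ⟨fun z _ => by simpa using hc, ?_, ?_⟩
      · rw [dx_const']; exact Cl_zero hc n
      · rw [dy_const']; exact Cl_zero hc n

theorem Cl_sum {A : Set PP} {ι : Type*} (n : ℕ) {F : ι → PP → ℝ} {c : ℝ} (s : Finset ι)
    (hF : ∀ i, ContDiff ℝ ∞ (F i)) (hc : ∀ i, Cl n (F i) A c) :
    Cl n (fun z => ∑ i ∈ s, F i z) A (s.card * c) := by
  classical
  induction s using Finset.induction_on with
  | empty => simpa using Cl_zero le_rfl n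
  | insert i s hi ih =>
    have e : (fun z => ∑ j ∈ insert i s, F j z) = fun z => F i z + ∑ j ∈ s, F j z := by
      funext z; exact Finset.sum_insert hi
    rw [e, Finset.card_insert_of_notMem hi]
    have h := Cl_add n (hF i) (ContDiff.sum fun j _ => hF j) (hc i) ih
    refine Cl_mono (le_of_eq ?_) n h
    push_cast; ring

/-- the rescaled function -/
noncomputable def resc (g : PP → ℝ) (a : PP) (ρ : ℝ) (z : PP) : ℝ := g ((z.1 - a.1) / ρ, (z.2 - a.2) / ρ)

theorem contDiff_resc {g : PP → ℝ} (hg : ContDiff ℝ ∞ g) (a : PP) (ρ : ℝ) :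
    ContDiff ℝ ∞ (resc g a ρ) := by
  unfold resc
  refine hg.comp ?_
  exact (((contDiff_fst.sub contDiff_const).div_const ρ).prodMk
    ((contDiff_snd.sub contDiff_const).div_const ρ))

theorem hasFDerivAt_resc {g : PP → ℝ} (hg : ContDiff ℝ ∞ g) (a : PP) (ρ : ℝ) (z : PP) :
    HasFDerivAt (resc g a ρ) ((fderiv ℝ g ((z.1 - a.1) / ρ, (z.2 - a.2) / ρ)).comp
      ((ρ⁻¹ • ContinuousLinearMap.fst ℝ ℝ ℝ).prod (ρ⁻¹ • ContinuousLinearMap.snd ℝ ℝ ℝ))) z := by
  have h1 : HasFDerivAt (fun w : PP => ((w.1 - a.1) / ρ, (w.2 - a.2) / ρ))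
      ((ρ⁻¹ • ContinuousLinearMap.fst ℝ ℝ ℝ).prod (ρ⁻¹ • ContinuousLinearMap.snd ℝ ℝ ℝ)) z := by
    have f1 : HasFDerivAt (fun w : PP => (w.1 - a.1) / ρ) (ρ⁻¹ • ContinuousLinearMap.fst ℝ ℝ ℝ) z := by
      have := ((hasFDerivAt_fst (𝕜 := ℝ) (p := z)).sub_const a.1).const_mul ρ⁻¹
      refine this.congr_of_eventuallyEq (Filter.Eventually.of_forall fun w => ?_)
      simp only; rw [div_eq_inv_mul]
    have f2 : HasFDerivAt (fun w : PP => (w.2 - a.2) / ρ) (ρ⁻¹ • ContinuousLinearMap.snd ℝ ℝ ℝ) z := by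
      have := ((hasFDerivAt_snd (𝕜 := ℝ) (p := z)).sub_const a.2).const_mul ρ⁻¹
      refine this.congr_of_eventuallyEq (Filter.Eventually.of_forall fun w => ?_)
      simp only; rw [div_eq_inv_mul]
    exact f1.prodMk f2
  exact (diffAt hg _).hasFDerivAt.comp z h1

theorem dx_resc {g : PP → ℝ} (hg : ContDiff ℝ ∞ g) (a : PP) (ρ : ℝ) :
    dx (resc g a ρ) = fun z => ρ⁻¹ * resc (dx g) a ρ z := by
  funext z
  rw [dx_of (hasFDerivAt_resc hg a ρ z)]
  have : ((ρ⁻¹ • ContinuousLinearMap.fst ℝ ℝ ℝ).prod (ρ⁻¹ • ContinuousLinearMap.snd ℝ ℝ ℝ))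
      ((1, 0) : PP) = ρ⁻¹ • ((1, 0) : PP) := by
    ext <;> simp
  rw [ContinuousLinearMap.comp_apply, this, map_smul]
  rfl

theorem dy_resc {g : PP → ℝ} (hg : ContDiff ℝ ∞ g) (a : PP) (ρ : ℝ) :
    dy (resc g a ρ) = fun z => ρ⁻¹ * resc (dy g) a ρ z := by
  funext z
  rw [dy_of (hasFDerivAt_resc hg a ρ z)]
  have : ((ρ⁻¹ • ContinuousLinearMap.fst ℝ ℝ ℝ).prod (ρ⁻¹ • ContinuousLinearMap.snd ℝ ℝ ℝ))
      ((0, 1) : PP) = ρ⁻¹ • ((0, 1) : PP) := by
    ext <;> simp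
  rw [ContinuousLinearMap.comp_apply, this, map_smul]
  rfl

theorem Cl_resc {ρ : ℝ} (hρ : 0 < ρ) (hρ1 : ρ ≤ 1) (a : PP) : ∀ (n : ℕ) {g : PP → ℝ} {c : ℝ},
    0 ≤ c → ContDiff ℝ ∞ g → Cl n g univ c → Cl n (resc g a ρ) univ (c / ρ ^ n)
  | 0, g, c, _, _, h => fun z _ => by simpa [resc] using h _ (mem_univ _)
  | n + 1, g, c, hc, hg, h => by
      have hp : 0 < ρ ^ (n + 1) := pow_pos hρ _
      refine ⟨fun z _ => ?_, ?_, ?_⟩
      · refine (h.1 _ (mem_univ _)).trans ?_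
        rw [le_div_iff₀ hp]
        exact mul_le_of_le_one_right hc (pow_le_one₀ hρ.le hρ1)
      · rw [dx_resc hg]
        have := Cl_const_mul ρ⁻¹ n (contDiff_resc (contDiff_dx hg) a ρ)
          (Cl_resc hρ hρ1 a n hc (contDiff_dx hg) h.2.1)
        refine Cl_mono (le_of_eq ?_) n this
        rw [abs_of_pos (inv_pos.2 hρ)]; field_simp; ring
      · rw [dy_resc hg]
        have := Cl_const_mul ρ⁻¹ n (contDiff_resc (contDiff_dy hg) a ρ)
          (Cl_resc hρ hρ1 a n hc (contDiff_dy hg) h.2.2)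
        refine Cl_mono (le_of_eq ?_) n this
        rw [abs_of_pos (inv_pos.2 hρ)]; field_simp; ring

theorem exists_Cl : ∀ (n : ℕ) {g : PP → ℝ}, ContDiff ℝ ∞ g → HasCompactSupport g →
    ∃ C : ℝ, 0 ≤ C ∧ Cl n g univ C
  | 0, g, hg, hs => by
      obtain ⟨C, hC⟩ := hs.exists_bound_of_continuous hg.continuous
      exact ⟨C, (norm_nonneg _).trans (hC 0), fun z _ => hC z⟩
  | n + 1, g, hg, hs => by
      obtain ⟨C, hC⟩ := hs.exists_bound_of_continuous hg.continuous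
      obtain ⟨C1, h1, h1'⟩ := exists_Cl n (contDiff_dx hg) (hcs_dx hs)
      obtain ⟨C2, h2, h2'⟩ := exists_Cl n (contDiff_dy hg) (hcs_dy hs)
      have hC0 : 0 ≤ C := (norm_nonneg _).trans (hC 0)
      refine ⟨C + C1 + C2, by linarith, fun z _ => (hC z).trans (by linarith), ?_, ?_⟩
      · exact Cl_mono (by linarith) n h1'
      · exact Cl_mono (by linarith) n h2'

/-! ### monomials -/

noncomputable def mo (i j : ℕ) (z : PP) : ℝ := z.1 ^ i * z.2 ^ j

theorem contDiff_mo (i j : ℕ) : ContDiff ℝ ∞ (mo i j) :=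
  (contDiff_fst.pow i).mul (contDiff_snd.pow j)

theorem dx_mo (i j : ℕ) : dx (mo i j) = fun z => (i : ℝ) * mo (i - 1) j z := by
  funext z
  have e : mo i j = fun w => w.1 ^ i * w.2 ^ j := rfl
  rw [e, dx_mul (contDiff_fst.pow i) (contDiff_snd.pow j), dx_pow i contDiff_fst,
    dx_pow j contDiff_snd, dx_fst, dx_snd, mo]
  ring

theorem dy_mo (i j : ℕ) : dy (mo i j) = fun z => (j : ℝ) * mo i (j - 1) z := by
  funext z
  have e : mo i j = fun w => w.1 ^ i * w.2 ^ j := rfl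
  rw [e, dy_mul (contDiff_fst.pow i) (contDiff_snd.pow j), dy_pow i contDiff_fst,
    dy_pow j contDiff_snd, dy_fst, dy_snd, mo]
  ring

theorem mo_bound {A : Set PP} (hA : ∀ z ∈ A, |z.1| ≤ 3 / 2 ∧ |z.2| ≤ 3 / 2) (i j : ℕ) :
    ∀ z ∈ A, |mo i j z| ≤ (3 / 2) ^ (i + j) := by
  intro z hz
  rw [mo, abs_mul, abs_pow, abs_pow, pow_add]
  exact mul_le_mul (pow_le_pow_left₀ (abs_nonneg _) (hA z hz).1 i)
    (pow_le_pow_left₀ (abs_nonneg _) (hA z hz).2 j) (by positivity) (by positivity)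

theorem Cl_mo {A : Set PP} (hA : ∀ z ∈ A, |z.1| ≤ 3 / 2 ∧ |z.2| ≤ 3 / 2) : ∀ n i j : ℕ,
    Cl n (mo i j) A ((i + j).factorial * (3 / 2) ^ (i + j))
  | 0, i, j => fun z hz => (mo_bound hA i j z hz).trans (by
      have : (1 : ℝ) ≤ (i + j).factorial := by exact_mod_cast (i + j).factorial_pos
      nlinarith [pow_pos (show (0 : ℝ) < 3 / 2 by norm_num) (i + j)])
  | n + 1, i, j => by
      refine ⟨fun z hz => (mo_bound hA i j z hz).trans (by
        have : (1 : ℝ) ≤ (i + j).factorial := by exact_mod_cast (i + j).factorial_pos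
        nlinarith [pow_pos (show (0 : ℝ) < 3 / 2 by norm_num) (i + j)]), ?_, ?_⟩
      · rw [dx_mo]
        rcases Nat.eq_zero_or_pos i with rfl | hi
        · simpa using Cl_zero (A := A) (c := ((0 + j).factorial * (3 / 2) ^ (0 + j))) (by positivity) n
        · have h := Cl_const_mul (i : ℝ) n (contDiff_mo (i - 1) j) (Cl_mo hA n (i - 1) j)
          refine Cl_mono ?_ n h
          obtain ⟨k, rfl⟩ : ∃ k, i = k + 1 := ⟨i - 1, by omega⟩
          have e : k + 1 + j = (k + j) + 1 := by ring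
          rw [e, Nat.factorial_succ, Nat.add_sub_cancel, Nat.abs_cast, pow_succ]
          push_cast
          have h1 : (0 : ℝ) < ((k + j).factorial : ℝ) := by exact_mod_cast (k + j).factorial_pos
          have h2 := pow_pos (show (0 : ℝ) < 3 / 2 by norm_num) (k + j)
          have h3 : (0 : ℝ) ≤ j := Nat.cast_nonneg j
          have h4 : (0 : ℝ) ≤ k := Nat.cast_nonneg k
          have h5 := mul_pos h1 h2
          nlinarith [mul_nonneg h3 h5.le, mul_nonneg h4 h5.le]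
      · rw [dy_mo]
        rcases Nat.eq_zero_or_pos j with rfl | hj
        · simpa using Cl_zero (A := A) (c := ((i + 0).factorial * (3 / 2) ^ (i + 0))) (by positivity) n
        · have h := Cl_const_mul (j : ℝ) n (contDiff_mo i (j - 1)) (Cl_mo hA n i (j - 1))
          refine Cl_mono ?_ n h
          obtain ⟨k, rfl⟩ : ∃ k, j = k + 1 := ⟨j - 1, by omega⟩
          have e : i + (k + 1) = (i + k) + 1 := by ring
          rw [e, Nat.factorial_succ, Nat.add_sub_cancel, Nat.abs_cast, pow_succ]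
          push_cast
          have h1 : (0 : ℝ) < ((i + k).factorial : ℝ) := by exact_mod_cast (i + k).factorial_pos
          have h2 := pow_pos (show (0 : ℝ) < 3 / 2 by norm_num) (i + k)
          have h3 : (0 : ℝ) ≤ i := Nat.cast_nonneg i
          have h4 : (0 : ℝ) ≤ k := Nat.cast_nonneg k
          have h5 := mul_pos h1 h2
          nlinarith [mul_nonneg h3 h5.le, mul_nonneg h4 h5.le]

/-! ### the main part -/

/-- `(|z|² - |z|⁴)/16` -/
noncomputable def qq (z : PP) : ℝ := 1 / 16 * (mo 2 0 z + (mo 0 2 z + (-1 * mo 4 0 z + (-2 * mo 2 2 z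
  + -1 * mo 0 4 z))))

theorem contDiff_qq : ContDiff ℝ ∞ qq := by
  have h20 := contDiff_mo 2 0
  have h02 := contDiff_mo 0 2
  have h40 := contDiff_mo 4 0
  have h22 := contDiff_mo 2 2
  have h04 := contDiff_mo 0 4
  exact contDiff_const.mul (h20.add (h02.add ((contDiff_const.mul h40).add
    ((contDiff_const.mul h22).add (contDiff_const.mul h04)))))

theorem qq_eq (z : PP) : qq z = (z.1 ^ 2 + z.2 ^ 2 - (z.1 ^ 2 + z.2 ^ 2) ^ 2) / 16 := by
  simp only [qq, mo]; ring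

theorem Cl_qq {A : Set PP} (hA : ∀ z ∈ A, |z.1| ≤ 3 / 2 ∧ |z.2| ≤ 3 / 2) (n : ℕ) :
    Cl n qq A 31 := by
  have h20 := contDiff_mo 2 0
  have h02 := contDiff_mo 0 2
  have h40 := contDiff_mo 4 0
  have h22 := contDiff_mo 2 2
  have h04 := contDiff_mo 0 4
  have c40 := Cl_const_mul (-1) n h40 (Cl_mo hA n 4 0)
  have c22 := Cl_const_mul (-2) n h22 (Cl_mo hA n 2 2)
  have c04 := Cl_const_mul (-1) n h04 (Cl_mo hA n 0 4)
  have k40 : ContDiff ℝ ∞ fun z => -1 * mo 4 0 z := contDiff_const.mul h40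
  have k22 : ContDiff ℝ ∞ fun z => -2 * mo 2 2 z := contDiff_const.mul h22
  have k04 : ContDiff ℝ ∞ fun z => -1 * mo 0 4 z := contDiff_const.mul h04
  have s1 := Cl_add n k22 k04 c22 c04
  have s2 := Cl_add n k40 (k22.add k04) c40 s1
  have s3 := Cl_add n h02 (k40.add (k22.add k04)) (Cl_mo hA n 0 2) s2
  have s4 := Cl_add n h20 (h02.add (k40.add (k22.add k04))) (Cl_mo hA n 2 0) s3
  have s5 := Cl_const_mul (1 / 16) n (h20.add (h02.add (k40.add (k22.add k04)))) s4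
  refine Cl_mono ?_ n s5
  have f4 : Nat.factorial 4 = 24 := rfl
  have f2 : Nat.factorial 2 = 2 := rfl
  norm_num [f4, f2, abs_of_pos, Nat.factorial]

theorem lap_qq (z : PP) : dx (dx qq) z + dy (dy qq) z = -(z.1 ^ 2 + z.2 ^ 2 - 1 / 4) := by
  have X := contDiff_fst (𝕜 := ℝ) (E := ℝ) (F := ℝ) (n := ∞)
  have Y := contDiff_snd (𝕜 := ℝ) (E := ℝ) (F := ℝ) (n := ∞)
  have h20 := contDiff_mo 2 0
  have h02 := contDiff_mo 0 2
  have h40 := contDiff_mo 4 0
  have h22 := contDiff_mo 2 2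
  have h04 := contDiff_mo 0 4
  have k40 : ContDiff ℝ ∞ fun z => -1 * mo 4 0 z := contDiff_const.mul h40
  have k22 : ContDiff ℝ ∞ fun z => -2 * mo 2 2 z := contDiff_const.mul h22
  have k04 : ContDiff ℝ ∞ fun z => -1 * mo 0 4 z := contDiff_const.mul h04
  have ex : dx qq = fun z => 1 / 8 * mo 1 0 z + (-(1 / 4) * mo 3 0 z + -(1 / 4) * mo 1 2 z) := by
    funext w
    change dx (fun z => 1 / 16 * (mo 2 0 z + (mo 0 2 z + (-1 * mo 4 0 z + (-2 * mo 2 2 z
      + -1 * mo 0 4 z))))) w = _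
    rw [dx_const_mul _ (h20.add (h02.add (k40.add (k22.add k04)))),
      dx_add h20 (h02.add (k40.add (k22.add k04))), dx_add h02 (k40.add (k22.add k04)),
      dx_add k40 (k22.add k04), dx_add k22 k04, dx_const_mul _ h40, dx_const_mul _ h22,
      dx_const_mul _ h04]
    simp only [dx_mo]
    push_cast
    ring
  have ey : dy qq = fun z => 1 / 8 * mo 0 1 z + (-(1 / 4) * mo 0 3 z + -(1 / 4) * mo 2 1 z) := by
    funext w
    change dy (fun z => 1 / 16 * (mo 2 0 z + (mo 0 2 z + (-1 * mo 4 0 z + (-2 * mo 2 2 z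
      + -1 * mo 0 4 z))))) w = _
    rw [dy_const_mul _ (h20.add (h02.add (k40.add (k22.add k04)))),
      dy_add h20 (h02.add (k40.add (k22.add k04))), dy_add h02 (k40.add (k22.add k04)),
      dy_add k40 (k22.add k04), dy_add k22 k04, dy_const_mul _ h40, dy_const_mul _ h22,
      dy_const_mul _ h04]
    simp only [dy_mo]
    push_cast
    ring
  have m10 : ContDiff ℝ ∞ fun z => 1 / 8 * mo 1 0 z := contDiff_const.mul (contDiff_mo 1 0)
  have m30 : ContDiff ℝ ∞ fun z => -(1 / 4) * mo 3 0 z := contDiff_const.mul (contDiff_mo 3 0)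
  have m12 : ContDiff ℝ ∞ fun z => -(1 / 4) * mo 1 2 z := contDiff_const.mul (contDiff_mo 1 2)
  have m01 : ContDiff ℝ ∞ fun z => 1 / 8 * mo 0 1 z := contDiff_const.mul (contDiff_mo 0 1)
  have m03 : ContDiff ℝ ∞ fun z => -(1 / 4) * mo 0 3 z := contDiff_const.mul (contDiff_mo 0 3)
  have m21 : ContDiff ℝ ∞ fun z => -(1 / 4) * mo 2 1 z := contDiff_const.mul (contDiff_mo 2 1)
  rw [ex, ey, dx_add m10 (m30.add m12), dx_add m30 m12, dy_add m01 (m03.add m21), dy_add m03 m21,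
    dx_const_mul _ (contDiff_mo 1 0), dx_const_mul _ (contDiff_mo 3 0),
    dx_const_mul _ (contDiff_mo 1 2), dy_const_mul _ (contDiff_mo 0 1),
    dy_const_mul _ (contDiff_mo 0 3), dy_const_mul _ (contDiff_mo 2 1)]
  simp only [dx_mo, dy_mo, mo]
  push_cast
  ring

/-! ### the bumps -/

noncomputable def bb (z : PP) : ℝ := bump (z.1 ^ 2 + z.2 ^ 2)

theorem contDiff_bump : ContDiff ℝ ∞ bump := by
  unfold bump
  exact Real.smoothTransition.contDiff.comp
    ((contDiff_const.sub (contDiff_const.mul contDiff_id)).div_const 3)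

theorem contDiff_prof : ContDiff ℝ ∞ prof := by
  unfold prof
  exact (Real.smoothTransition.contDiff.comp (contDiff_const.sub (contDiff_const.mul contDiff_id))).mul
    ((contDiff_id.sub (contDiff_id.pow 2)).div_const 16)

theorem contDiff_bb : ContDiff ℝ ∞ bb :=
  contDiff_bump.comp ((contDiff_fst.pow 2).add (contDiff_snd.pow 2))

theorem hcs_bb : HasCompactSupport bb := by
  refine HasCompactSupport.intro (isCompact_closedBall (0 : PP) 1) fun z hz => ?_
  have h1 : 1 < ‖z‖ := by simpa using hz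
  have h2 : 1 < z.1 ^ 2 + z.2 ^ 2 := by
    rw [Prod.norm_def, lt_max_iff] at h1
    rcases h1 with h | h
    · have : 1 < z.1 ^ 2 := by
        rw [← sq_abs]; simp only [Real.norm_eq_abs] at h; nlinarith
      nlinarith [sq_nonneg z.2]
    · have : 1 < z.2 ^ 2 := by
        rw [← sq_abs]; simp only [Real.norm_eq_abs] at h; nlinarith
      nlinarith [sq_nonneg z.1]
  exact Real.smoothTransition.zero_of_nonpos (by linarith)

theorem bump_resc (a : PP) {ρ : ℝ} (z : PP) :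
    bump (((z.1 - a.1) ^ 2 + (z.2 - a.2) ^ 2) / ρ ^ 2) = resc bb a ρ z := by
  simp only [resc, bb]
  congr 1
  rw [div_pow, div_pow]; ring

end Expo

open Expo

theorem contDiff_expo {n : ℕ} (ρ : ℝ) (L : ℕ) (ce c s : ℝ) (b : Fin n → Bool) :
    ContDiff ℝ ∞ (expo ρ L ce c s b) := by
  unfold expo
  refine (contDiff_prof.comp ((contDiff_fst.pow 2).add (contDiff_snd.pow 2))).add
    (contDiff_const.mul (ContDiff.sum fun i _ => contDiff_const.mul ?_))
  exact contDiff_bump.comp (((((contDiff_fst.sub contDiff_const).pow 2).add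
    ((contDiff_snd.sub contDiff_const).pow 2)).div_const _))

/-- the exponent `expo` satisfies the hypotheses on `v₀` -/
theorem expo_close (ce : ℝ) (hce : 0 < ce) (hce1 : ce ≤ 1) (L : ℕ) (hL : 8 ≤ L) (δ : ℝ)
    (hδ : 0 < δ) : ∃ ρ₁ : ℝ, 0 < ρ₁ ∧ ∀ ρ : ℝ, 0 < ρ → ρ ≤ ρ₁ → ∀ n : ℕ,
    8 * ρ * n / ce ≤ 1 / 64 → ∀ c s : ℝ, c ^ 2 + s ^ 2 = 1 → ce ≤ |c| → ∀ b : Fin n → Bool,
    ContDiff ℝ ∞ (expo ρ L ce c s b) ∧
    Cl 4 (expo ρ L ce c s b) {z : PP | z.1 ^ 2 + z.2 ^ 2 < 9 / 4} 100 ∧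
    Cl 2 (fun z => -(dx (dx (expo ρ L ce c s b)) z + dy (dy (expo ρ L ce c s b)) z)
      - (z.1 ^ 2 + z.2 ^ 2 - 1 / 4)) {z : PP | z.1 ^ 2 + z.2 ^ 2 < 9 / 4} δ := by
  obtain ⟨C, hC0, hC⟩ := exists_Cl 4 contDiff_bb hcs_bb
  refine ⟨min 1 (min δ 1 / (2 * (C + 1))), by positivity, ?_⟩
  intro ρ hρ hρ1 n hn c s hcs hc b
  have hρ1' : ρ ≤ 1 := hρ1.trans (min_le_left _ _)
  have hρ2 : ρ ≤ min δ 1 / (2 * (C + 1)) := hρ1.trans (min_le_right _ _)
  have hsm := contDiff_expo ρ L ce c s b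
  set A : Set PP := {z : PP | z.1 ^ 2 + z.2 ^ 2 < 9 / 4} with hAdef
  have hAo : IsOpen A := isOpen_lt (by fun_prop) continuous_const
  have hA : ∀ z ∈ A, |z.1| ≤ 3 / 2 ∧ |z.2| ≤ 3 / 2 := by
    intro z hz
    have hz' : z.1 ^ 2 + z.2 ^ 2 < 9 / 4 := hz
    constructor
    · exact abs_le_of_sq_le_sq (by nlinarith [sq_nonneg z.2]) (by norm_num)
    · exact abs_le_of_sq_le_sq (by nlinarith [sq_nonneg z.1]) (by norm_num)
  -- the bump part
  set a : Fin n → PP := fun i => (8 * ρ * (i + 1) / ce * c, 8 * ρ * (i + 1) / ce * s) with ha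
  set W : PP → ℝ := fun z => ρ ^ L * ∑ i : Fin n, (if b i then 1 else 0) * resc bb (a i) ρ z
    with hW
  have hWi : ∀ i : Fin n, ContDiff ℝ ∞ fun z => (if b i then (1 : ℝ) else 0) * resc bb (a i) ρ z :=
    fun i => contDiff_const.mul (contDiff_resc contDiff_bb _ _)
  have hWs : ContDiff ℝ ∞ W := contDiff_const.mul (ContDiff.sum fun i _ => hWi i)
  have hWe : ∀ z, expo ρ L ce c s b z = prof (z.1 ^ 2 + z.2 ^ 2) + W z := by
    intro z
    simp only [expo, hW]
    congr 2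
    refine Finset.sum_congr rfl fun i _ => ?_
    rw [← bump_resc]
  have hclW : Cl 4 W univ (C * ρ) := by
    have h1 : ∀ i : Fin n, Cl 4 (fun z => (if b i then (1 : ℝ) else 0) * resc bb (a i) ρ z) univ
        (C / ρ ^ 4) := by
      intro i
      have h := Cl_const_mul (if b i then (1 : ℝ) else 0) 4 (contDiff_resc contDiff_bb (a i) ρ)
        (Cl_resc hρ hρ1' (a i) 4 hC0 contDiff_bb hC)
      refine Cl_mono ?_ 4 h
      have : 0 ≤ C / ρ ^ 4 := by positivity
      split_ifs <;> simp [this]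
    have h2 := Cl_const_mul (ρ ^ L) 4 (ContDiff.sum fun i _ => hWi i)
      (Cl_sum 4 Finset.univ hWi h1)
    refine Cl_mono ?_ 4 h2
    rw [Finset.card_univ, Fintype.card_fin, abs_of_pos (pow_pos hρ L)]
    have hn' : (n : ℝ) * ρ ≤ 1 := by
      rw [div_le_iff₀ hce] at hn
      nlinarith
    obtain ⟨k, rfl⟩ : ∃ k, L = k + 6 := ⟨L - 6, by omega⟩
    have e : ρ ^ (k + 6) * (n * (C / ρ ^ 4)) = ρ ^ k * (n * ρ) * (C * ρ) := by
      field_simp
      ring
    rw [e]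
    have h3 : ρ ^ k * (n * ρ) ≤ 1 :=
      mul_le_one₀ (pow_le_one₀ hρ.le hρ1') (by positivity) hn'
    exact mul_le_of_le_one_left (by positivity) h3
  have hCρ : C * ρ ≤ min δ 1 / 2 := by
    have h1 : C * ρ ≤ C * (min δ 1 / (2 * (C + 1))) := mul_le_mul_of_nonneg_left hρ2 hC0
    have h2 : C * (min δ 1 / (2 * (C + 1))) ≤ min δ 1 / 2 := by
      have h3 : 0 < min δ 1 := lt_min hδ one_pos
      rw [mul_div_assoc', div_le_div_iff₀ (by positivity) (by norm_num)]
      nlinarith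
    linarith
  have hCδ : C * ρ ≤ δ / 2 := hCρ.trans (by linarith [min_le_left δ 1])
  have hC1 : C * ρ ≤ 1 / 2 := hCρ.trans (by linarith [min_le_right δ 1])
  -- on the disc the main part is the polynomial
  have hq : ∀ z ∈ A, (fun w => qq w + W w) z = expo ρ L ce c s b z := by
    intro z hz
    have hz' : z.1 ^ 2 + z.2 ^ 2 < 9 / 4 := hz
    simp only [hWe, prof]
    rw [Real.smoothTransition.one_of_one_le (by linarith), qq_eq]
    ring
  refine ⟨hsm, ?_, ?_⟩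
  · refine Cl_congr hAo 4 hq ?_
    refine Cl_mono ?_ 4 (Cl_add 4 contDiff_qq hWs (Cl_qq hA 4) (Cl_subset (subset_univ A) 4 hclW))
    linarith
  · have e : ∀ z ∈ A, (fun w => -1 * (dx (dx W) w + dy (dy W) w)) z
        = -(dx (dx (expo ρ L ce c s b)) z + dy (dy (expo ρ L ce c s b)) z)
          - (z.1 ^ 2 + z.2 ^ 2 - 1 / 4) := by
      intro z hz
      have h1 := dx_congr_on hAo (dx_congr_on hAo hq) z hz
      have h2 := dy_congr_on hAo (dy_congr_on hAo hq) z hz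
      rw [← h1, ← h2, dx_add' contDiff_qq hWs, dy_add' contDiff_qq hWs,
        dx_add (contDiff_dx contDiff_qq) (contDiff_dx hWs),
        dy_add (contDiff_dy contDiff_qq) (contDiff_dy hWs)]
      have h3 := lap_qq z
      simp only
      linarith
    refine Cl_congr hAo 2 e ?_
    have h2 : Cl 2 (fun w => dx (dx W) w + dy (dy W) w) A (C * ρ + C * ρ) :=
      Cl_add 2 (contDiff_dx (contDiff_dx hWs)) (contDiff_dy (contDiff_dy hWs))
        (Cl_subset (subset_univ A) 2 hclW.2.1.2.1) (Cl_subset (subset_univ A) 2 hclW.2.2.2.2)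
    have h3 := Cl_const_mul (-1) 2 ((contDiff_dx (contDiff_dx hWs)).add
      (contDiff_dy (contDiff_dy hWs))) h2
    refine Cl_mono ?_ 2 h3
    rw [abs_neg, abs_one]
    linarith

end Crest.Agent.Iso341
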