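import Crest.Agent.Iso341.CoreC
import Crest.Agent.Iso341.CoreD
import Crest.Agent.Iso341.Expo
import Crest.Agent.Iso341.Close

/-! S0341, core part E: all the facts about a pair of immersions of the family. -/

set_option autoImplicit false

open MeasureTheory Set Filter Topology
open scoped ContDiff

namespace Crest.Agent.Iso341

theorem Cl.of_succ {A : Set PP} {c : ℝ} (n : ℕ) : ∀ {f : PP → ℝ}, Cl (n + 1) f A c →
    Cl n f A c := by
  induction n with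
  | zero => intro f h; exact h.1
  | succ n ih => intro f h; exact ⟨h.1, ih h.2.1, ih h.2.2⟩

theorem Cl.of_le {A : Set PP} {c : ℝ} {n k : ℕ} (hk : k ≤ n) {f : PP → ℝ} (h : Cl n f A c) :
    Cl k f A c := by
  induction n with
  | zero => obtain rfl : k = 0 := by omega
            exact h
  | succ n ih =>
    rcases Nat.lt_or_ge k (n + 1) with h1 | h1
    · exact ih (by omega) (Cl.of_succ n h)
    · obtain rfl : k = n + 1 := by omega
      exact h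

theorem smooth_SS {m : ℝ} {X Y f H : PP → ℝ} (hX : ContDiff ℝ ∞ X) (hY : ContDiff ℝ ∞ Y)
    (hf : ContDiff ℝ ∞ f) (hH : ContDiff ℝ ∞ H) (hJ : ∀ z, br X Y z ≠ 0)
    (hJ' : ∀ z, br (slp X Y f) Y z ≠ 0) : ContDiff ℝ ∞ (SS m X Y f H) := by
  have h0 : ContDiff ℝ ∞ (br X Y) := contDiff_br hX hY
  have hp : ContDiff ℝ ∞ (slp X Y f) := (contDiff_br hf hY).div h0 hJ
  have hJp : ContDiff ℝ ∞ (br (slp X Y f) Y) := contDiff_br hp hY
  have h1 : ContDiff ℝ ∞ (r1 X Y H) :=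
    ((contDiff_dx ((hH.div h0 hJ).mul (contDiff_dx hY))).add
      (contDiff_dy ((hH.div h0 hJ).mul (contDiff_dy hY)))).neg
  have h2 : ContDiff ℝ ∞ (r2 X Y H) :=
    (contDiff_dx ((hH.div h0 hJ).mul (contDiff_dx hX))).add
      (contDiff_dy ((hH.div h0 hJ).mul (contDiff_dy hX)))
  have h3 := contDiff_Dy hp hY hJ' (h1.div hJp hJ')
  have h4 := contDiff_Dp hp hY hJ'
    ((((contDiff_br hp hX).div hJp hJ').mul h1 |>.add h2).div h0 hJ)
  exact contDiff_const.mul (h3.sub h4)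

/-- everything we need about a pair -/
structure PairOK (δ η κ m : ℝ) (X Y f p₀ Y₀ ζ H : PP → ℝ) : Prop where
  near : Near δ X Y f
  J0 : ∀ z, br X Y z ≠ 0
  J : ∀ z, br (slp X Y f) Y z ≠ 0
  chart : Chart δ (slp X Y f) Y
  clp : Cl 2 (fun z => slp X Y f z - z.1) univ δ
  clY : Cl 2 (fun z => Y z - z.2) univ δ
  pocket : Pocket δ (slp X Y f) Y (fun z => KK X Y f z / κ)
  hp₀ : ∀ z, |slp X Y f z - p₀ z| ≤ η
  hY₀ : ∀ z, |Y z - Y₀ z| ≤ η
  p0 : |slp X Y f 0| ≤ η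
  smζ : ContDiff ℝ ∞ ζ
  smH : ContDiff ℝ ∞ H
  eq : ∀ z : PP, z.1 ^ 2 + z.2 ^ 2 < 9 / 4 →
    LL κ (slp X Y f) Y (fun w => KK X Y f w / κ) ζ z = SS m X Y f H z

theorem Near.mono {δ δ' : ℝ} {X Y f : PP → ℝ} (h : Near δ X Y f) (hδ : δ ≤ δ') :
    Near δ' X Y f where
  smX := h.smX
  smY := h.smY
  smf := h.smf
  out := h.out
  clX := Cl.mono_const hδ _ h.clX
  clY := Cl.mono_const hδ _ h.clY
  clf := Cl.mono_const hδ _ h.clf

set_option maxHeartbeats 1000000 in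
theorem pair_facts : ∃ Cc : ℝ, 1 ≤ Cc ∧ ∀ ce : ℝ, 0 < ce → ce ≤ 1 → ∀ δ : ℝ, 0 < δ →
    Cc * δ ≤ 1 / 64 → ∀ κ m : ℝ, 0 < κ → κ ≤ 1 → 0 < m → m ≤ 1 → κ * m ≤ δ → ∀ L : ℕ, 8 ≤ L →
    ∃ ρ₁ : ℝ, 0 < ρ₁ ∧ ∀ ρ : ℝ, 0 < ρ → ρ ≤ ρ₁ → ∀ n : ℕ, 8 * ρ * n / ce ≤ 1 / 64 →
    ∀ c s : ℝ, c ^ 2 + s ^ 2 = 1 → ce ≤ |c| → ∀ δ₁ : ℝ, 0 < δ₁ → δ₁ ≤ κ * δ →
    ∀ (X Y f X' Y' f' X₀ Y₀ f₀ : PP → ℝ) (b b' : Fin n → Bool),
    Near δ X Y f → Near δ X' Y' f' → Near δ X₀ Y₀ f₀ →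
    Cl 4 (fun z => X z - X' z) univ δ₁ → Cl 4 (fun z => Y z - Y' z) univ δ₁ →
    Cl 4 (fun z => f z - f' z) univ δ₁ →
    Cl 4 (fun z => X z - X₀ z) univ δ₁ → Cl 4 (fun z => Y z - Y₀ z) univ δ₁ →
    Cl 4 (fun z => f z - f₀ z) univ δ₁ →
    Cl 4 (fun z => X' z - X₀ z) univ δ₁ → Cl 4 (fun z => Y' z - Y₀ z) univ δ₁ →
    Cl 4 (fun z => f' z - f₀ z) univ δ₁ →
    |dx f 0| ≤ δ₁ → |dy f 0| ≤ δ₁ → |dx f' 0| ≤ δ₁ → |dy f' 0| ≤ δ₁ →
    MetRel m X Y f (fun z => κ * m * expo ρ L ce c s b z) →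
    MetRel m X' Y' f' (fun z => κ * m * expo ρ L ce c s b' z) →
    PairOK (Cc * δ) (Cc * δ₁) κ m (avg X X') (avg Y Y') (avg f f') (slp X₀ Y₀ f₀) Y₀
      (fun z => f z - f' z)
      (fun z => (Real.exp (2 * (κ * m * expo ρ L ce c s b z))
        - Real.exp (2 * (κ * m * expo ρ L ce c s b' z))) / 2) := by
  obtain ⟨C1, hC1, h1⟩ := chart_of_near
  obtain ⟨C2, hC2, h2⟩ := near_diff
  obtain ⟨C3, hC3, h3⟩ := pocket_of_near
  refine ⟨C1 + C2 + C3 + 64, by linarith, ?_⟩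
  intro ce hce hce1 δ hδ hCδ κ m hκ hκ1 hm hm1 hκm L hL
  obtain ⟨ρ₁, hρ₁, hexp⟩ := expo_close ce hce hce1 L hL δ hδ
  refine ⟨ρ₁, hρ₁, ?_⟩
  intro ρ hρ hρ1 n hn c s hcs hc δ₁ hδ₁ hδ₁κ X Y f X' Y' f' X₀ Y₀ f₀ b b' hN hN' hN₀
    hXX' hYY' hff' hX0 hY0 hf0 hX0' hY0' hf0' hfx hfy hfx' hfy' hM hM'
  have hδ1C : δ ≤ 1 / C1 := by rw [le_div_iff₀ (by linarith)]; nlinarith
  have hδ2C : δ ≤ 1 / C2 := by rw [le_div_iff₀ (by linarith)]; nlinarith
  have hδ3C : δ ≤ 1 / C3 := by rw [le_div_iff₀ (by linarith)]; nlinarith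
  have hδsmall : δ ≤ 1 / 64 := by nlinarith
  have hδ₁1 : δ₁ ≤ 1 := by nlinarith
  have hNa : Near δ (avg X X') (avg Y Y') (avg f f') := hN.avg hN'
  obtain ⟨hJ0, hch, hsmq, hsmK, hclp, hclq, hclJ0, hclJ⟩ := h1 δ hδ hδ1C _ _ _ hNa
  obtain ⟨hsme, hcl4, hcl2⟩ := hexp ρ hρ hρ1 n hn c s hcs hc b'
  obtain ⟨hsmeb, -, -⟩ := hexp ρ hρ hρ1 n hn c s hcs hc b
  have hCδle : C1 * δ ≤ 1 / 64 := by nlinarith
  have hJ : ∀ z, br (slp (avg X X') (avg Y Y') (avg f f')) (avg Y Y') z ≠ 0 := fun z => by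
    have := (hch.J_bounds (by linarith) z).1
    intro h0; rw [h0] at this; linarith
  have hpk := h3 δ δ₁ κ m hδ hδ3C hδ₁ hδ₁κ hκ hκ1 hm hm1 hκm (avg X X') (avg Y Y') (avg f f')
    X' Y' f' (expo ρ L ce c s b') hNa hN' (Cl.avg_right hN.smX hN'.smX hXX' hδ₁.le)
    (Cl.avg_right hN.smY hN'.smY hYY' hδ₁.le) (Cl.avg_right hN.smf hN'.smf hff' hδ₁.le) hsme
    hcl4 hcl2 (fun z hz => (hM' z hz).1) (fun z hz => (hM' z hz).2.1)
    (fun z hz => (hM' z hz).2.2)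
  obtain ⟨hdp, -⟩ := h2 δ δ₁ hδ hδ2C hδ₁ hδ₁1 (avg X X') (avg Y Y') (avg f f') X₀ Y₀ f₀ hNa hN₀
    (Cl.avg_sub hN.smX hN'.smX hN₀.smX hX0 hX0') (Cl.avg_sub hN.smY hN'.smY hN₀.smY hY0 hY0')
    (Cl.avg_sub hN.smf hN'.smf hN₀.smf hf0 hf0')
  have hsmH : ContDiff ℝ ∞ (fun z => (Real.exp (2 * (κ * m * expo ρ L ce c s b z))
        - Real.exp (2 * (κ * m * expo ρ L ce c s b' z))) / 2) := by
    have e1 : ContDiff ℝ ∞ (fun z => Real.exp (2 * (κ * m * expo ρ L ce c s b z))) :=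
      Real.contDiff_exp.comp (contDiff_const.mul (contDiff_const.mul hsmeb))
    have e2 : ContDiff ℝ ∞ (fun z => Real.exp (2 * (κ * m * expo ρ L ce c s b' z))) :=
      Real.contDiff_exp.comp (contDiff_const.mul (contDiff_const.mul hsme))
    exact (e1.sub e2).div_const _
  have hsmp : ContDiff ℝ ∞ (slp (avg X X') (avg Y Y') (avg f f')) := hch.smp
  have l1 : C1 * δ ≤ (C1 + C2 + C3 + 64) * δ :=
    mul_le_mul_of_nonneg_right (by linarith) hδ.le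
  have l2 : δ ≤ (C1 + C2 + C3 + 64) * δ := by
    have := mul_le_mul_of_nonneg_right (show 1 ≤ C1 + C2 + C3 + 64 by linarith) hδ.le
    linarith
  have l3 : C3 * δ ≤ (C1 + C2 + C3 + 64) * δ :=
    mul_le_mul_of_nonneg_right (by linarith) hδ.le
  have l4 : C2 * δ₁ ≤ (C1 + C2 + C3 + 64) * δ₁ :=
    mul_le_mul_of_nonneg_right (by linarith) hδ₁.le
  have l5 : δ₁ ≤ (C1 + C2 + C3 + 64) * δ₁ := by
    have := mul_le_mul_of_nonneg_right (show 1 ≤ C1 + C2 + C3 + 64 by linarith) hδ₁.le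
    linarith
  exact
    { near := hNa.mono l2
      J0 := hJ0
      J := hJ
      chart :=
        { smp := hch.smp
          smY := hch.smY
          p0 := fun z => (hch.p0 z).trans l1
          Y0 := fun z => (hch.Y0 z).trans l1
          px := fun z => (hch.px z).trans l1
          py := fun z => (hch.py z).trans l1
          Yx := fun z => (hch.Yx z).trans l1
          Yy := fun z => (hch.Yy z).trans l1 }
      clp := Cl.mono_const l1 _ (Cl.of_le (by norm_num) hclp)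
      clY := Cl.mono_const l2 _ (Cl.of_le (n := 4) (by norm_num) hNa.clY)
      pocket :=
        { smk := hpk.smk
          k0 := fun z hz => (hpk.k0 z hz).trans l3
          kp := fun z hz => (hpk.kp z hz).trans l3
          ky := fun z hz => (hpk.ky z hz).trans l3
          kpp := hpk.kpp
          kyy := hpk.kyy }
      hp₀ := fun z => (hdp.bound z (mem_univ z)).trans l4
      hY₀ := fun z => ((Cl.avg_sub hN.smY hN'.smY hN₀.smY hY0 hY0').bound z (mem_univ z)).trans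
        l5
      p0 := by
        have a1 : |dx (avg f f') 0| ≤ δ₁ := by
          rw [dx_avg hN.smf hN'.smf, abs_div, abs_two, div_le_iff₀ (by norm_num)]
          exact (abs_add_le _ _).trans (by linarith)
        have a2 : |dy (avg f f') 0| ≤ δ₁ := by
          rw [dy_avg hN.smf hN'.smf, abs_div, abs_two, div_le_iff₀ (by norm_num)]
          exact (abs_add_le _ _).trans (by linarith)
        have a3 : |dy (avg Y Y') 0| ≤ 2 := by
          have := abs_le.1 (hch.Yy 0)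
          rw [abs_le]; constructor <;> linarith [this.1, this.2]
        have a4 : |dx (avg Y Y') 0| ≤ 2 := (hch.Yx 0).trans (by linarith)
        have a5 : 1 / 2 ≤ br (avg X X') (avg Y Y') 0 := by
          have := abs_le.1 (hclJ0.bound 0 (mem_univ _))
          linarith [this.1]
        unfold slp
        rw [abs_div, abs_of_pos (by linarith : (0:ℝ) < br (avg X X') (avg Y Y') 0),
          div_le_iff₀ (by linarith)]
        have a6 : |br (avg f f') (avg Y Y') 0| ≤ 4 * δ₁ := by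
          unfold br
          calc |dx (avg f f') 0 * dy (avg Y Y') 0 - dy (avg f f') 0 * dx (avg Y Y') 0|
              ≤ |dx (avg f f') 0 * dy (avg Y Y') 0| + |dy (avg f f') 0 * dx (avg Y Y') 0| :=
                abs_sub _ _
            _ = |dx (avg f f') 0| * |dy (avg Y Y') 0|
                + |dy (avg f f') 0| * |dx (avg Y Y') 0| := by rw [abs_mul, abs_mul]
            _ ≤ δ₁ * 2 + δ₁ * 2 := by gcongr
            _ = 4 * δ₁ := by ring
        have a7 : 4 * δ₁ ≤ (C1 + C2 + C3 + 64) * δ₁ * (1 / 2) := by nlinarith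
        refine a6.trans (a7.trans ?_)
        exact mul_le_mul_of_nonneg_left a5 (by positivity)
      smζ := hN.smf.sub hN'.smf
      smH := hsmH
      eq := pair_LL hκ hm hN.smX hN.smY hN.smf hN'.smX hN'.smY hN'.smf hsmH (fun z => rfl) hJ0 hJ
        hsmp hsmK hM hM' }

end Crest.Agent.Iso341
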