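import Crest.Agent.Iso341.CoreE

/-! S0341, core part F: the final inequality for a pair. -/

set_option autoImplicit false

open MeasureTheory Set Filter Topology
open scoped ContDiff

namespace Crest.Agent.Iso341

theorem integrable_of_bdd_cont {v : PP → ℝ} (hv : Continuous v) {D : Set PP}
    (hD : D ⊆ Metric.closedBall 0 2) : IntegrableOn v D :=
  (hv.continuousOn.integrableOn_compact (isCompact_closedBall (0 : PP) 2)).mono_set hD

theorem int_mul_le {u v : PP → ℝ} {D : Set PP}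
    (hD : D ⊆ Metric.closedBall 0 2) (hu : Continuous u) (hv : Continuous v)
    (hsu : ∀ z, u z ≠ 0 → z ∈ D) {t : ℝ} (ht : 0 < t) :
    |∫ z, u z * v z| ≤ t / 2 * (∫ z, u z ^ 2) + 1 / (2 * t) * ∫ z in D, v z ^ 2 := by
  have e1 : ∫ z, u z * v z = ∫ z in D, u z * v z := by
    symm
    apply setIntegral_eq_integral_of_forall_compl_eq_zero
    intro z hz
    have : u z = 0 := by by_contra h; exact hz (hsu z h)
    rw [this, zero_mul]
  have e2 : ∫ z, u z ^ 2 = ∫ z in D, u z ^ 2 := by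
    symm
    apply setIntegral_eq_integral_of_forall_compl_eq_zero
    intro z hz
    have : u z = 0 := by by_contra h; exact hz (hsu z h)
    rw [this]; ring
  rw [e1, e2]
  have i1 : IntegrableOn (fun z => u z ^ 2) D := integrable_of_bdd_cont (hu.pow 2) hD
  have i2 : IntegrableOn (fun z => v z ^ 2) D := integrable_of_bdd_cont (hv.pow 2) hD
  calc |∫ z in D, u z * v z| ≤ ∫ z in D, |u z * v z| := abs_integral_le_integral_abs
    _ ≤ ∫ z in D, (t / 2 * u z ^ 2 + 1 / (2 * t) * v z ^ 2) := by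
        apply integral_mono_of_nonneg
        · exact Eventually.of_forall fun z => abs_nonneg _
        · exact (i1.const_mul _).add (i2.const_mul _)
        · refine Eventually.of_forall fun z => ?_
          show |u z * v z| ≤ t / 2 * u z ^ 2 + 1 / (2 * t) * v z ^ 2
          rw [abs_mul, ← sq_abs (u z), ← sq_abs (v z)]
          have : 0 ≤ (t * |u z| - |v z|) ^ 2 / (2 * t) := by positivity
          have e : (t * |u z| - |v z|) ^ 2 / (2 * t)
              = t / 2 * |u z| ^ 2 + 1 / (2 * t) * |v z| ^ 2 - |u z| * |v z| := by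
            field_simp; ring
          linarith
    _ = _ := by
        rw [integral_add (i1.const_mul _) (i2.const_mul _), integral_const_mul,
          integral_const_mul]

theorem Chart.disc_sub {δ : ℝ} {p Y : PP → ℝ} (h : Chart δ p Y) (hδ : δ ≤ 1 / 2) {z : PP}
    (hz : p z ^ 2 + Y z ^ 2 ≤ 1) : z ∈ Metric.closedBall (0 : PP) 2 := by
  rw [Metric.mem_closedBall, dist_zero_right, Prod.norm_def]
  have h1 : |p z| ≤ 1 := abs_le_of_sq_le_sq (by nlinarith [sq_nonneg (Y z)]) one_pos.le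
  have h2 : |Y z| ≤ 1 := abs_le_of_sq_le_sq (by nlinarith [sq_nonneg (p z)]) one_pos.le
  have h3 := abs_le.1 (h.p0 z)
  have h4 := abs_le.1 (h.Y0 z)
  have h5 := abs_le.1 h1
  have h6 := abs_le.1 h2
  apply max_le
  · rw [Real.norm_eq_abs, abs_le]; constructor <;> linarith [h3.1, h3.2, h5.1, h5.2]
  · rw [Real.norm_eq_abs, abs_le]; constructor <;> linarith [h4.1, h4.2, h6.1, h6.2]

set_option maxHeartbeats 2000000 in
theorem final_ineq {κ C₄ C₅ C₆ c₆ ρ ε δ A N : ℝ} (hκ : 0 < κ) (hC₄ : 0 < C₄) (hC₅ : 0 < C₅)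
    (hC₆ : 0 < C₆) (hρ : 0 < ρ) (hε : 0 < ε) (hA : 0 < A)
    (hδ : δ ≤ 1 / 10) {p Y k S V ζ₂ E : PP → ℝ} {c s : ℝ}
    (hch : Chart δ p Y) (hk : ContDiff ℝ ∞ k) (hS : ContDiff ℝ ∞ S) (hV : ContDiff ℝ ∞ V)
    (hζ₂ : ContDiff ℝ ∞ ζ₂) (hE : ContDiff ℝ ∞ E) (hcs : HasCompactSupport ζ₂)
    (hSs : ∀ z, S z ≠ 0 → p z ^ 2 + Y z ^ 2 < 25 / 256 ∧ |-s * z.1 + c * z.2| ≤ ρ)
    (hζs : ∀ z, ζ₂ z ≠ 0 → p z ^ 2 + Y z ^ 2 < 9 / 64 ∧ |-s * z.1 + c * z.2| ≤ 3 * ρ)
    (hEs : ∀ z, E z ≠ 0 → p z ^ 2 + Y z ^ 2 ≤ 9 / 64)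
    (hLL : ∀ z, LL κ p Y k ζ₂ z = S z + E z)
    (hE2 : ∫ z, E z ^ 2 ≤ (C₅ * ε / ρ ^ 3) ^ 2)
    (hζ2 : ∫ z, ζ₂ z ^ 2 ≤ (C₄ * ρ ^ 2) ^ 2 * (∫ z, (S z + E z) ^ 2))
    (hS2 : ∫ z, S z ^ 2 ≤ (C₆ * A / ρ) ^ 2 * N)
    (hVy : ∀ z, Dy p Y V z = 0) (hVb : ∀ z, |V z| ≤ C₆ * ρ ^ 2)
    (hlow : c₆ * A * ρ ^ 2 * N ≤ ∫ z, V z * S z * br p Y z)
    (hup : ∫ z in {z : PP | p z ^ 2 + Y z ^ 2 < 9 / 64 ∧ |-s * z.1 + c * z.2| ≤ 3 * ρ},
            (Dp p Y (fun w => k w * Dp p Y V w) z) ^ 2 ≤ (C₆ * ρ) ^ 2 * N) :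
    c₆ * A * ρ ^ 2 * N ≤ 3 * κ * C₄ * C₆ ^ 2 * A * ρ ^ 2 * N
      + 2 * κ * C₄ * C₅ ^ 2 * ε ^ 2 / (A * ρ ^ 2) + 5 * C₆ * C₅ * ε / ρ := by
  have hJb := fun z => hch.J_bounds hδ z
  have hJ : ∀ z, br p Y z ≠ 0 := fun z h0 => by
    have := (hJb z).1; rw [h0] at this; linarith
  have hJs : ContDiff ℝ ∞ (br p Y) := contDiff_br hch.smp hch.smY
  set g : PP → ℝ := Dp p Y (fun w => k w * Dp p Y V w) with hg
  have hgs : ContDiff ℝ ∞ g := contDiff_Dp hch.smp hch.smY hJ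
    (hk.mul (contDiff_Dp hch.smp hch.smY hJ hV))
  set D : Set PP := {z : PP | p z ^ 2 + Y z ^ 2 < 9 / 64 ∧ |-s * z.1 + c * z.2| ≤ 3 * ρ} with hD
  have hpc : Continuous p := hch.smp.continuous
  have hYc : Continuous Y := hch.smY.continuous
  have c1 : Continuous fun z : PP => p z ^ 2 + Y z ^ 2 := by fun_prop
  have c2 : Continuous fun z : PP => |-s * z.1 + c * z.2| := by fun_prop
  have hDm : MeasurableSet D :=
    (isOpen_lt c1 continuous_const).measurableSet.inter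
      (isClosed_le c2 continuous_const).measurableSet
  have hDsub : D ⊆ Metric.closedBall 0 2 := fun z hz =>
    hch.disc_sub (by linarith) (by linarith [hz.1])
  set D' : Set PP := {z : PP | p z ^ 2 + Y z ^ 2 ≤ 9 / 64} with hD'
  have hD'm : MeasurableSet D' := (isClosed_le c1 continuous_const).measurableSet
  have hD'sub : D' ⊆ Metric.closedBall 0 2 := fun z hz =>
    hch.disc_sub (by linarith) (by
      have : p z ^ 2 + Y z ^ 2 ≤ 9 / 64 := hz
      linarith)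
  -- LL V
  have hLV : ∀ z, LL κ p Y k V z = κ * g z := by
    intro z
    unfold LL
    have : Dy p Y V = fun _ => 0 := funext hVy
    rw [this]
    have h0 : Dy p Y (fun _ => (0 : ℝ)) z = 0 := by
      unfold Dy; rw [br_zero_right (by rfl), zero_div]
    rw [h0, zero_add]
  have hsymm := integral_LL_symm (κ := κ) (k := k) (φ := ζ₂) (V := V) hch.smp hch.smY hJ hk hζ₂
    hV hcs
  -- compact supports
  have hcpt : ∀ {u : PP → ℝ}, (∀ z, u z ≠ 0 → z ∈ Metric.closedBall (0 : PP) 2) →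
      HasCompactSupport u := fun {u} hu => HasCompactSupport.intro (isCompact_closedBall 0 2)
        (fun z hz => by by_contra h; exact hz (hu z h))
  have hScs : HasCompactSupport S := hcpt fun z hz =>
    hch.disc_sub (by linarith) (by linarith [(hSs z hz).1])
  have hEcs : HasCompactSupport E := hcpt fun z hz => hD'sub (hEs z hz)
  have i1 : Integrable fun z => V z * S z * br p Y z := by
    apply Continuous.integrable_of_hasCompactSupport
    · exact (hV.continuous.mul hS.continuous).mul hJs.continuous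
    · exact (hScs.mul_left).mul_right
  have i2 : Integrable fun z => V z * E z * br p Y z := by
    apply Continuous.integrable_of_hasCompactSupport
    · exact (hV.continuous.mul hE.continuous).mul hJs.continuous
    · exact (hEcs.mul_left).mul_right
  have e1 : ∫ z, V z * LL κ p Y k ζ₂ z * br p Y z
      = (∫ z, V z * S z * br p Y z) + ∫ z, V z * E z * br p Y z := by
    rw [← integral_add i1 i2]
    congr 1; funext z; rw [hLL]; ring
  have e2 : ∫ z, ζ₂ z * LL κ p Y k V z * br p Y z = κ * ∫ z, ζ₂ z * (g z * br p Y z) := by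
    rw [← integral_const_mul]
    congr 1; funext z; rw [hLV]; ring
  have key : ∫ z, V z * S z * br p Y z
      = κ * (∫ z, ζ₂ z * (g z * br p Y z)) - ∫ z, V z * E z * br p Y z := by
    rw [← e2, ← hsymm, e1]; ring
  -- first bound
  set t : ℝ := 1 / (C₄ * A) with ht
  have ht0 : 0 < t := by positivity
  have b1 := int_mul_le (u := ζ₂) (v := fun z => g z * br p Y z) hDsub hζ₂.continuous
    (hgs.continuous.mul hJs.continuous) (fun z hz => hζs z hz) ht0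
  have b2 : ∫ z in D, (g z * br p Y z) ^ 2 ≤ 4 * ((C₆ * ρ) ^ 2 * N) := by
    calc ∫ z in D, (g z * br p Y z) ^ 2 ≤ ∫ z in D, 4 * g z ^ 2 := by
          apply setIntegral_mono_on
          · exact integrable_of_bdd_cont ((hgs.continuous.mul hJs.continuous).pow 2) hDsub
          · exact integrable_of_bdd_cont (continuous_const.mul (hgs.continuous.pow 2)) hDsub
          · exact hDm
          · intro z _
            have hb : (br p Y z) ^ 2 ≤ 4 := by nlinarith [(hJb z).1, (hJb z).2]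
            rw [mul_pow]
            nlinarith [sq_nonneg (g z)]
      _ = 4 * ∫ z in D, g z ^ 2 := by rw [integral_const_mul]
      _ ≤ _ := mul_le_mul_of_nonneg_left hup (by norm_num)
  have hS2i : Integrable fun z => S z ^ 2 := (hS.continuous.pow 2).integrable_of_hasCompactSupport
    (by simpa [pow_two] using hScs.mul_left (f := S))
  have hE2i : Integrable fun z => E z ^ 2 := (hE.continuous.pow 2).integrable_of_hasCompactSupport
    (by simpa [pow_two] using hEcs.mul_left (f := E))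
  have b3 : ∫ z, (S z + E z) ^ 2 ≤ 2 * ((C₆ * A / ρ) ^ 2 * N) + 2 * (C₅ * ε / ρ ^ 3) ^ 2 := by
    calc ∫ z, (S z + E z) ^ 2 ≤ ∫ z, (2 * S z ^ 2 + 2 * E z ^ 2) := by
          apply integral_mono_of_nonneg (Eventually.of_forall fun z => sq_nonneg _)
            ((hS2i.const_mul 2).add (hE2i.const_mul 2))
          refine Eventually.of_forall fun z => ?_
          show (S z + E z) ^ 2 ≤ 2 * S z ^ 2 + 2 * E z ^ 2
          nlinarith [sq_nonneg (S z - E z)]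
      _ = 2 * (∫ z, S z ^ 2) + 2 * ∫ z, E z ^ 2 := by
          rw [integral_add (hS2i.const_mul 2) (hE2i.const_mul 2), integral_const_mul,
            integral_const_mul]
      _ ≤ _ := by linarith
  have b4 : ∫ z, ζ₂ z ^ 2 ≤ (C₄ * ρ ^ 2) ^ 2
      * (2 * ((C₆ * A / ρ) ^ 2 * N) + 2 * (C₅ * ε / ρ ^ 3) ^ 2) :=
    hζ2.trans (mul_le_mul_of_nonneg_left b3 (sq_nonneg _))
  have b5 : |∫ z, ζ₂ z * (g z * br p Y z)| ≤
      t / 2 * ((C₄ * ρ ^ 2) ^ 2 * (2 * ((C₆ * A / ρ) ^ 2 * N) + 2 * (C₅ * ε / ρ ^ 3) ^ 2))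
      + 1 / (2 * t) * (4 * ((C₆ * ρ) ^ 2 * N)) := by
    refine b1.trans (add_le_add ?_ ?_)
    · exact mul_le_mul_of_nonneg_left b4 (by positivity)
    · exact mul_le_mul_of_nonneg_left b2 (by positivity)
  have b6 : t / 2 * ((C₄ * ρ ^ 2) ^ 2 * (2 * ((C₆ * A / ρ) ^ 2 * N) + 2 * (C₅ * ε / ρ ^ 3) ^ 2))
      + 1 / (2 * t) * (4 * ((C₆ * ρ) ^ 2 * N))
      = 3 * C₄ * C₆ ^ 2 * A * ρ ^ 2 * N + C₄ * C₅ ^ 2 * ε ^ 2 / (A * ρ ^ 2) := by
    rw [ht]
    field_simp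
    ring
  -- second bound
  set τ : ℝ := C₅ * ε / ρ ^ 3 with hτ
  have hτ0 : 0 < τ := by positivity
  have b7 := int_mul_le (u := E) (v := fun z => V z * br p Y z) hD'sub hE.continuous
    (hV.continuous.mul hJs.continuous) (fun z hz => hEs z hz) (t := C₆ * ρ ^ 2 / τ)
    (by positivity)
  have b8 : ∫ z in D', (V z * br p Y z) ^ 2 ≤ (4 * (C₆ * ρ ^ 2) ^ 2) * 1 := by
    have hvol : volume.real D' ≤ 1 := by
      have hsub : D' ⊆ Icc (-(1 / 2 : ℝ)) (1 / 2) ×ˢ Icc (-(1 / 2 : ℝ)) (1 / 2) := by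
        intro z hz
        have hz' : p z ^ 2 + Y z ^ 2 ≤ 9 / 64 := hz
        have h1 : |p z| ≤ 3 / 8 := abs_le_of_sq_le_sq (by nlinarith [sq_nonneg (Y z)])
          (by norm_num)
        have h2 : |Y z| ≤ 3 / 8 := abs_le_of_sq_le_sq (by nlinarith [sq_nonneg (p z)])
          (by norm_num)
        have h3 := abs_le.1 (hch.p0 z)
        have h4 := abs_le.1 (hch.Y0 z)
        have h5 := abs_le.1 h1
        have h6 := abs_le.1 h2
        refine ⟨⟨?_, ?_⟩, ⟨?_, ?_⟩⟩ <;>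
          linarith [h3.1, h3.2, h4.1, h4.2, h5.1, h5.2, h6.1, h6.2]
      have hfin : volume (Icc (-(1 / 2 : ℝ)) (1 / 2) ×ˢ Icc (-(1 / 2 : ℝ)) (1 / 2)) ≠ ⊤ :=
        (isCompact_Icc.prod isCompact_Icc).measure_lt_top.ne
      calc volume.real D' ≤ volume.real (Icc (-(1 / 2 : ℝ)) (1 / 2) ×ˢ Icc (-(1 / 2 : ℝ)) (1 / 2)) :=
            measureReal_mono hsub hfin
        _ = 1 := by
            rw [Measure.volume_eq_prod, measureReal_prod_prod]
            simp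
            norm_num
    have hfin : volume D' ≠ ⊤ :=
      ((isCompact_closedBall (0 : PP) 2).measure_lt_top.trans_le' (measure_mono hD'sub)).ne
    calc ∫ z in D', (V z * br p Y z) ^ 2 ≤ ∫ z in D', 4 * (C₆ * ρ ^ 2) ^ 2 := by
          apply setIntegral_mono_on
          · exact integrable_of_bdd_cont ((hV.continuous.mul hJs.continuous).pow 2) hD'sub
          · exact integrableOn_const hfin
          · exact hD'm
          · intro z _
            have hb : (br p Y z) ^ 2 ≤ 4 := by nlinarith [(hJb z).1, (hJb z).2]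
            have hv2 : V z ^ 2 ≤ (C₆ * ρ ^ 2) ^ 2 := by
              rw [← sq_abs]; exact pow_le_pow_left₀ (abs_nonneg _) (hVb z) 2
            rw [mul_pow]
            nlinarith [sq_nonneg (V z), sq_nonneg (br p Y z)]
      _ = volume.real D' * (4 * (C₆ * ρ ^ 2) ^ 2) := by
          rw [setIntegral_const, smul_eq_mul]
      _ ≤ 1 * (4 * (C₆ * ρ ^ 2) ^ 2) := mul_le_mul_of_nonneg_right hvol (by positivity)
      _ = _ := by ring
  have b9 : |∫ z, E z * (V z * br p Y z)| ≤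
      C₆ * ρ ^ 2 / τ / 2 * τ ^ 2 + 1 / (2 * (C₆ * ρ ^ 2 / τ)) * ((4 * (C₆ * ρ ^ 2) ^ 2) * 1) := by
    refine b7.trans (add_le_add ?_ ?_)
    · exact mul_le_mul_of_nonneg_left hE2 (by positivity)
    · exact mul_le_mul_of_nonneg_left b8 (by positivity)
  have b10 : C₆ * ρ ^ 2 / τ / 2 * τ ^ 2 + 1 / (2 * (C₆ * ρ ^ 2 / τ)) * ((4 * (C₆ * ρ ^ 2) ^ 2) * 1)
      ≤ 5 * C₆ * C₅ * ε / ρ := by
    have : C₆ * ρ ^ 2 / τ / 2 * τ ^ 2
        + 1 / (2 * (C₆ * ρ ^ 2 / τ)) * ((4 * (C₆ * ρ ^ 2) ^ 2) * 1)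
        = 5 / 2 * (C₆ * ρ ^ 2 * τ) := by
      field_simp; ring
    rw [this, hτ]
    have e : 5 / 2 * (C₆ * ρ ^ 2 * (C₅ * ε / ρ ^ 3)) = 5 / 2 * (C₆ * C₅ * ε / ρ) := by
      field_simp
    rw [e]
    have : 0 < C₆ * C₅ * ε / ρ := by positivity
    have e' : 5 * C₆ * C₅ * ε / ρ = 5 * (C₆ * C₅ * ε / ρ) := by ring
    rw [e']; linarith
  have e3 : ∫ z, E z * (V z * br p Y z) = ∫ z, V z * E z * br p Y z := by
    congr 1; funext z; ring
  rw [e3] at b9
  have f1 := abs_le.1 (b9.trans b10)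
  have f2 := abs_le.1 (b5.trans_eq b6)
  have f3 : κ * (∫ z, ζ₂ z * (g z * br p Y z))
      ≤ κ * (3 * C₄ * C₆ ^ 2 * A * ρ ^ 2 * N + C₄ * C₅ ^ 2 * ε ^ 2 / (A * ρ ^ 2)) :=
    mul_le_mul_of_nonneg_left f2.2 hκ.le
  have f4 : κ * (3 * C₄ * C₆ ^ 2 * A * ρ ^ 2 * N + C₄ * C₅ ^ 2 * ε ^ 2 / (A * ρ ^ 2))
      = 3 * κ * C₄ * C₆ ^ 2 * A * ρ ^ 2 * N + κ * C₄ * C₅ ^ 2 * ε ^ 2 / (A * ρ ^ 2) := by ring
  have f5 : 0 ≤ κ * C₄ * C₅ ^ 2 * ε ^ 2 / (A * ρ ^ 2) := by positivity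
  have f6 : 2 * κ * C₄ * C₅ ^ 2 * ε ^ 2 / (A * ρ ^ 2)
      = 2 * (κ * C₄ * C₅ ^ 2 * ε ^ 2 / (A * ρ ^ 2)) := by ring
  rw [key] at hlow
  rw [f6]
  linarith [f1.1]

end Crest.Agent.Iso341
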