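import Crest.Agent.Iso341.CoreF

/-! S0341, core part G: elementary choices of parameters, the nested regions. -/

set_option autoImplicit false

open MeasureTheory Set Filter Topology
open scoped ContDiff

namespace Crest.Agent.Iso341

theorem card_choice (c' : ℝ) (hc' : 0 < c') (N J : ℕ) : ∃ h₀ : ℝ, 0 < h₀ ∧ h₀ ≤ 1 ∧
    ∀ h : ℝ, 0 < h → h ≤ h₀ → ∀ n : ℕ, c' ≤ (n + 1) * h ^ 4 → ∀ t : ℕ, 2 ^ n ≤ N * t →
    Real.exp (J * (1000 / h ^ 3)) < t := by
  have hl2 : 0 < Real.log 2 := Real.log_pos (by norm_num)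
  have hl2' : Real.log 2 ≤ 1 := by
    have := Real.log_two_lt_d9; linarith
  set B : ℝ := 1000 * J + Real.log (N + 1) + 1 with hB
  have hlN : 0 ≤ Real.log ((N : ℝ) + 1) := Real.log_nonneg (by
    have : (0 : ℝ) ≤ N := Nat.cast_nonneg _
    linarith)
  have hB1 : 1 ≤ B := by
    have : (0 : ℝ) ≤ J := Nat.cast_nonneg _
    rw [hB]; nlinarith
  refine ⟨min 1 (c' * Real.log 2 / (2 * B)), lt_min one_pos (by positivity), min_le_left _ _, ?_⟩
  intro h hh hh0 n hn t ht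
  have hh1 : h ≤ 1 := hh0.trans (min_le_left _ _)
  have hh2 : h ≤ c' * Real.log 2 / (2 * B) := hh0.trans (min_le_right _ _)
  have hh3 : h * B < c' * Real.log 2 := by
    rw [le_div_iff₀ (by positivity)] at hh2
    nlinarith [mul_pos hc' hl2, mul_pos hh (by linarith : (0:ℝ) < B)]
  have hN0 : 0 < N := by
    rcases Nat.eq_zero_or_pos N with h0 | h0
    · rw [h0, zero_mul] at ht
      have : 0 < 2 ^ n := by positivity
      omega
    · exact h0
  have ht0 : 0 < t := by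
    rcases Nat.eq_zero_or_pos t with h0 | h0
    · rw [h0, mul_zero] at ht
      have : 0 < 2 ^ n := by positivity
      omega
    · exact h0
  have ht0' : (0 : ℝ) < t := by exact_mod_cast ht0
  have hN0' : (0 : ℝ) < N := by exact_mod_cast hN0
  have hlog : n * Real.log 2 ≤ Real.log N + Real.log t := by
    have h1 : ((2 : ℝ) ^ n) ≤ N * t := by exact_mod_cast ht
    have h2 := Real.log_le_log (by positivity) h1
    rwa [Real.log_pow, Real.log_mul hN0'.ne' ht0'.ne'] at h2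
  have hlN' : Real.log N ≤ Real.log (N + 1) := Real.log_le_log hN0' (by linarith)
  rw [← Real.lt_log_iff_exp_lt ht0']
  have hn' : c' / h ^ 4 ≤ n + 1 := by
    rw [div_le_iff₀ (by positivity)]; exact hn
  have e1 : (c' / h ^ 4 - 1) * Real.log 2 ≤ n * Real.log 2 :=
    mul_le_mul_of_nonneg_right (by linarith) hl2.le
  have e2 : J * (1000 / h ^ 3) + Real.log (N + 1) + Real.log 2 < c' / h ^ 4 * Real.log 2 := by
    have e3 : J * (1000 / h ^ 3) + Real.log (N + 1) + Real.log 2 ≤ B / h ^ 3 := by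
      rw [le_div_iff₀ (by positivity)]
      have e4 : (J * (1000 / h ^ 3) + Real.log (N + 1) + Real.log 2) * h ^ 3
          = 1000 * J + (Real.log (N + 1) + Real.log 2) * h ^ 3 := by
        have h3 : h ^ 3 ≠ 0 := by positivity
        field_simp
        ring
      rw [e4]
      have : h ^ 3 ≤ 1 := pow_le_one₀ hh.le hh1
      rw [hB]
      nlinarith [pow_pos hh 3]
    refine e3.trans_lt ?_
    rw [show c' / h ^ 4 * Real.log 2 = c' * Real.log 2 / h ^ 4 by ring,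
      div_lt_div_iff₀ (by positivity) (by positivity)]
    have : B * h ^ 4 = (h * B) * h ^ 3 := by ring
    rw [this]
    exact mul_lt_mul_of_pos_right hh3 (by positivity)
  linarith

theorem isOpen_Om {σ : ℝ} {p Y : PP → ℝ} (hp : Continuous p) (hY : Continuous Y) (R d : ℝ) :
    IsOpen (Om σ p Y R d) := by
  have hω : Continuous om := core_contDiff_om.continuous
  have c1 : Continuous fun z => p z ^ 2 + Y z ^ 2 := (hp.pow 2).add (hY.pow 2)
  have c2 : Continuous fun z => |p z| + σ * om (Y z) :=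
    hp.abs.add (continuous_const.mul (hω.comp hY))
  exact (isOpen_lt c1 continuous_const).inter (isOpen_lt continuous_const c2)

theorem Chart.mono {δ δ' : ℝ} {p Y : PP → ℝ} (h : Chart δ p Y) (hδ : δ ≤ δ') :
    Chart δ' p Y where
  smp := h.smp
  smY := h.smY
  p0 z := (h.p0 z).trans hδ
  Y0 z := (h.Y0 z).trans hδ
  px z := (h.px z).trans hδ
  py z := (h.py z).trans hδ
  Yx z := (h.Yx z).trans hδ
  Yy z := (h.Yy z).trans hδ

theorem Pocket.mono {δ δ' : ℝ} {p Y k : PP → ℝ} (h : Pocket δ p Y k) (hδ : δ ≤ δ') :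
    Pocket δ' p Y k where
  smk := h.smk
  k0 z hz := (h.k0 z hz).trans hδ
  kp z hz := (h.kp z hz).trans hδ
  ky z hz := (h.ky z hz).trans hδ
  kpp := h.kpp
  kyy := h.kyy

theorem avg_self (f : PP → ℝ) : avg f f = f := by
  funext z; unfold avg; ring

/-- if `p² + Y² < 1` then `z` is in the disc of radius `3/2` -/
theorem Chart.in_disc {δ : ℝ} {p Y : PP → ℝ} (h : Chart δ p Y) (hδ : δ ≤ 1 / 64) {z : PP}
    (hz : p z ^ 2 + Y z ^ 2 < 1) : z.1 ^ 2 + z.2 ^ 2 < 9 / 4 := by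
  have hδ0 : 0 ≤ δ := (abs_nonneg _).trans (h.py 0)
  have h1 : |p z| ≤ 1 := abs_le_of_sq_le_sq (by nlinarith [sq_nonneg (Y z)]) one_pos.le
  have h2 : |Y z| ≤ 1 := abs_le_of_sq_le_sq (by nlinarith [sq_nonneg (p z)]) one_pos.le
  have h3 := abs_le.1 (h.p0 z)
  have h4 := abs_le.1 (h.Y0 z)
  have h5 := abs_le.1 h1
  have h6 := abs_le.1 h2
  have e1 : z.1 ^ 2 ≤ p z ^ 2 + 3 / 64 := by nlinarith
  have e2 : z.2 ^ 2 ≤ Y z ^ 2 + 3 / 64 := by nlinarith
  linarith

/-- monotonicity of the energy inequality in the sets -/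
theorem energy_mono {ζ : PP → ℝ} (hζ : ContDiff ℝ ∞ ζ) {A B A' B' : Set PP} {C C' : ℝ}
    (hC : 0 ≤ C) (hCC : C ≤ C') (hA : A ⊆ A') (hB : B' ⊆ B)
    (hA' : A' ⊆ Metric.closedBall 0 2) (hBb : B ⊆ Metric.closedBall 0 2)
    (h : ∫ z in A', (dx ζ z ^ 2 + dy ζ z ^ 2) ≤ C * ∫ z in B', ζ z ^ 2) :
    ∫ z in A, (dx ζ z ^ 2 + dy ζ z ^ 2) ≤ C' * ∫ z in B, ζ z ^ 2 := by
  have c1 : Continuous fun z => dx ζ z ^ 2 + dy ζ z ^ 2 :=
    ((core_smooth_dx hζ).continuous.pow 2).add ((core_smooth_dy hζ).continuous.pow 2)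
  have c2 : Continuous fun z => ζ z ^ 2 := hζ.continuous.pow 2
  have e1 : ∫ z in A, (dx ζ z ^ 2 + dy ζ z ^ 2) ≤ ∫ z in A', (dx ζ z ^ 2 + dy ζ z ^ 2) :=
    setIntegral_mono_set (integrable_of_bdd_cont c1 hA')
      (Eventually.of_forall fun z => by positivity) hA.eventuallyLE
  have e2 : ∫ z in B', ζ z ^ 2 ≤ ∫ z in B, ζ z ^ 2 :=
    setIntegral_mono_set (integrable_of_bdd_cont c2 hBb)
      (Eventually.of_forall fun z => by positivity) hB.eventuallyLE
  have e3 : 0 ≤ ∫ z in B, ζ z ^ 2 := integral_nonneg fun z => by positivity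
  calc _ ≤ C * ∫ z in B', ζ z ^ 2 := e1.trans h
    _ ≤ C * ∫ z in B, ζ z ^ 2 := mul_le_mul_of_nonneg_left e2 hC
    _ ≤ _ := mul_le_mul_of_nonneg_right hCC e3

/-- the equation is homogeneous in the regions -/
theorem PairOK.eq_zero {δ η κ m σ ρ ce c s : ℝ} {X Y f p₀ Y₀ ζ : PP → ℝ} {L n : ℕ}
    {b b' : Fin n → Bool}
    (h : PairOK δ η κ m X Y f p₀ Y₀ ζ (fun z => (Real.exp (2 * (κ * m * expo ρ L ce c s b z))
        - Real.exp (2 * (κ * m * expo ρ L ce c s b' z))) / 2))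
    (hδ : δ ≤ 1 / 64) (hη : η ≤ σ / 64) (hσ : 0 < σ) (hσ1 : σ ≤ 1) (hρ : 0 < ρ) (hce : 0 < ce)
    (hcs : c ^ 2 + s ^ 2 = 1) (hr : 8 * ρ * n / ce + ρ ≤ σ / 64) {R d : ℝ} (hR : R ^ 2 ≤ 1)
    (hd : σ / 16 ≤ d) :
    ∀ z ∈ Om σ (slp X Y f) Y R d, LL κ (slp X Y f) Y (fun w => KK X Y f w / κ) ζ z = 0 := by
  intro z hz
  rw [h.eq z (h.chart.in_disc hδ (hz.1.trans_le hR))]
  apply SS_zero
  apply H_eventually_zero (κm := κ * m) hρ hce hcs L b b' (fun _ => rfl)
  by_contra hcon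
  push Not at hcon
  have := small_disc_outside h.chart hδ hσ hσ1 (h.p0.trans hη) (by positivity) hr hcon
  have h2 := hz.2
  linarith

end Crest.Agent.Iso341
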