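import Crest.Agent.Iso341.CoreG

/-! S0341, core part H: the pigeonhole argument for the family. -/

set_option autoImplicit false

open MeasureTheory Set Filter Topology
open scoped ContDiff

namespace Crest.Agent.Iso341

/-- radii of the nested regions -/
noncomputable def Rj (M : ℕ) (j : ℕ) : ℝ := 19 / 20 - 3 / 20 * (j / M)

/-- sizes of the removed diamonds -/
noncomputable def dj (σ : ℝ) (M : ℕ) (j : ℕ) : ℝ := σ / 8 + σ / 4 * (j / M)

theorem Rj_succ {M : ℕ} (j : ℕ) : Rj M (j + 1) = Rj M j - 3 / 20 * (1 / M) := by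
  unfold Rj; push_cast; ring

theorem dj_succ {σ : ℝ} {M : ℕ} (j : ℕ) : dj σ M (j + 1) = dj σ M j + σ / 4 * (1 / M) := by
  unfold dj; push_cast; ring

theorem frac_le {M j : ℕ} (h : j ≤ M) : (j : ℝ) / M ≤ 1 := by
  apply div_le_one_of_le₀
  · exact_mod_cast h
  · positivity

theorem Rj_bounds {M j : ℕ} (h : j ≤ M) : 4 / 5 ≤ Rj M j ∧ Rj M j ≤ 19 / 20 := by
  have h1 := frac_le h
  have h2 : (0 : ℝ) ≤ (j : ℝ) / M := by positivity
  unfold Rj
  constructor <;> linarith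

theorem dj_bounds {σ : ℝ} (hσ : 0 < σ) {M j : ℕ} (h : j ≤ M) :
    σ / 8 ≤ dj σ M j ∧ dj σ M j ≤ 3 * σ / 8 := by
  have h1 := frac_le h
  have h2 : (0 : ℝ) ≤ (j : ℝ) / M := by positivity
  unfold dj
  constructor <;> nlinarith

/-- sup of finitely many positive constants -/
theorem exists_uniform {n : ℕ} {P : ℕ → ℝ → Prop} (h : ∀ j < n, ∃ C : ℝ, 0 < C ∧ P j C)
    (hmono : ∀ j, ∀ C C' : ℝ, 0 < C → C ≤ C' → P j C → P j C') :
    ∃ C : ℝ, 0 < C ∧ ∀ j < n, P j C := by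
  induction n with
  | zero => exact ⟨1, one_pos, fun j hj => absurd hj (by omega)⟩
  | succ n ih =>
    obtain ⟨C, hC, h1⟩ := ih fun j hj => h j (by omega)
    obtain ⟨C', hC', h2⟩ := h n (by omega)
    refine ⟨max C C', lt_max_of_lt_left hC, fun j hj => ?_⟩
    rcases Nat.lt_or_ge j n with h3 | h3
    · exact hmono j _ _ hC (le_max_left _ _) (h1 j h3)
    · obtain rfl : j = n := by omega
      exact hmono j _ _ hC' (le_max_right _ _) h2

set_option maxHeartbeats 2000000 in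
/-- the energy inequality on the regions of the base chart, uniform in the step -/
theorem energy_steps {κ σ δ₀ Cω : ℝ} (hσ : 0 < σ) (hσ1 : σ ≤ 1)
    (hδ₀ : δ₀ ≤ 1 / 2) (hCω : 0 < Cω) (hlip : ∀ y y', |om y - om y'| ≤ Cω * |y - y'|)
    (hen : ∀ R R' d d' : ℝ, 4 / 5 ≤ R' → R' < R → R ≤ 19 / 20 →
      σ / 16 ≤ d → d < d' → d' ≤ σ / 2 →
      ∃ C : ℝ, 0 < C ∧ ∀ p Y k φ : PP → ℝ, Chart δ₀ p Y → Pocket δ₀ p Y k →
        ContDiff ℝ ∞ φ → (∀ z ∈ Om σ p Y R d, LL κ p Y k φ z = 0) →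
        ∫ z in Om σ p Y R' d', (dx φ z ^ 2 + dy φ z ^ 2)
          ≤ C * ∫ z in Om σ p Y R d, φ z ^ 2) {M : ℕ} (hM : 0 < M) {η : ℝ} (hη : 0 < η)
    (hη1 : η ≤ 1 / (200 * M)) (hη2 : η * (1 + Cω) ≤ σ / (16 * M)) :
    ∃ C : ℝ, 0 < C ∧ ∀ j < M, ∀ p₀ Y₀ p Y k φ : PP → ℝ, Chart δ₀ p Y → Pocket δ₀ p Y k →
      Chart (1 / 64) p₀ Y₀ →
      (∀ z, |p z - p₀ z| ≤ η) → (∀ z, |Y z - Y₀ z| ≤ η) → ContDiff ℝ ∞ φ →
      (∀ R d : ℝ, R ^ 2 ≤ 1 → σ / 16 ≤ d → ∀ z ∈ Om σ p Y R d, LL κ p Y k φ z = 0) →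
      ∫ z in Om σ p₀ Y₀ (Rj M (j + 1)) (dj σ M (j + 1)), (dx φ z ^ 2 + dy φ z ^ 2)
        ≤ C * ∫ z in Om σ p₀ Y₀ (Rj M j) (dj σ M j), φ z ^ 2 := by
  have hM' : (0 : ℝ) < M := by exact_mod_cast hM
  have hM1 : (1 : ℝ) ≤ M := by exact_mod_cast hM
  set u : ℝ := 1 / M with hu
  have hu0 : 0 < u := by positivity
  have hu1 : u ≤ 1 := by rw [hu]; exact div_le_one_of_le₀ hM1 hM'.le
  have hη1' : η ≤ u / 200 := by
    refine hη1.trans (le_of_eq ?_); rw [hu]; field_simp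
  have hη2' : η * (1 + Cω) ≤ σ / 4 * u / 4 := by
    refine hη2.trans (le_of_eq ?_); rw [hu]; field_simp; norm_num
  apply exists_uniform
  · intro j hj
    obtain ⟨a1, a2⟩ := Rj_bounds (M := M) (j := j) (by omega)
    obtain ⟨a3, a4⟩ := Rj_bounds (M := M) (j := j + 1) (by omega)
    obtain ⟨b1, b2⟩ := dj_bounds hσ (M := M) (j := j) (by omega)
    obtain ⟨b3, b4⟩ := dj_bounds hσ (M := M) (j := j + 1) (by omega)
    have hRs := Rj_succ (M := M) j
    have hds := dj_succ (σ := σ) (M := M) j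
    rw [← hu] at hRs hds
    have hσu : 0 < σ * u := by positivity
    obtain ⟨C, hC, hE⟩ := hen (Rj M j - 3 / 20 * u / 4) (Rj M (j + 1) + 3 / 20 * u / 4)
      (dj σ M j + σ / 4 * u / 4) (dj σ M (j + 1) - σ / 4 * u / 4) (by linarith) (by linarith)
      (by linarith) (by nlinarith) (by nlinarith) (by nlinarith)
    refine ⟨C, hC, ?_⟩
    intro p₀ Y₀ p Y k φ hch hpk hch₀ hp hY hφ hLL
    have hinc1 : Om σ p₀ Y₀ (Rj M (j + 1)) (dj σ M (j + 1)) ⊆
        Om σ p Y (Rj M (j + 1) + 3 / 20 * u / 4) (dj σ M (j + 1) - σ / 4 * u / 4) := by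
      intro z hz
      refine om_step hCω.le hlip hσ.le hσ1 (R := Rj M (j + 1)) (by nlinarith) hη.le (hp z)
        (hY z) ?_ ?_ hz
      · nlinarith
      · linarith
    have hinc2 : Om σ p Y (Rj M j - 3 / 20 * u / 4) (dj σ M j + σ / 4 * u / 4) ⊆
        Om σ p₀ Y₀ (Rj M j) (dj σ M j) := by
      intro z hz
      refine om_step hCω.le hlip hσ.le hσ1 (R := Rj M j - 3 / 20 * u / 4) (by nlinarith) hη.le
        (by rw [abs_sub_comm]; exact hp z) (by rw [abs_sub_comm]; exact hY z) ?_ ?_ hz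
      · nlinarith
      · linarith
    refine energy_mono hφ hC.le le_rfl hinc1 hinc2 ?_ ?_
      (hE p Y k φ hch hpk hφ (hLL _ _ (by nlinarith) (by nlinarith)))
    · intro z hz
      refine hch.disc_sub hδ₀ ?_
      have := hz.1
      have h2 : (Rj M (j + 1) + 3 / 20 * u / 4) ^ 2 ≤ 1 := by nlinarith
      linarith
    · intro z hz
      refine hch₀.disc_sub (by norm_num) ?_
      have := hz.1
      have h2 : (Rj M j) ^ 2 ≤ 1 := by nlinarith
      linarith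
  · intro j C C' hC hCC h p₀ Y₀ p Y k φ hch hpk hch₀ hp hY hφ hLL
    refine (h p₀ Y₀ p Y k φ hch hpk hch₀ hp hY hφ hLL).trans ?_
    exact mul_le_mul_of_nonneg_right hCC (integral_nonneg fun z => sq_nonneg _)

end Crest.Agent.Iso341
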