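import Crest.Agent.Iso341.Calc

/-! S0341, part PIGEON: pigeonhole on cell averages and Poincare on cells. -/

set_option autoImplicit false

open MeasureTheory Set
open scoped ContDiff

namespace Crest.Agent.Iso341
namespace Pig

theorem sq_sub_le {g G : ℝ → ℝ} (hG : ∀ t, HasDerivAt G (g t) t) (hg : Continuous g)
    {a h u v : ℝ} (hh : 0 < h) (hu : u ∈ Icc a (a + h)) (hv : v ∈ Icc a (a + h)) :
    (G v - G u) ^ 2 ≤ h * ∫ t in a..(a + h), g t ^ 2 := by
  wlog huv : u ≤ v generalizing u v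
  · have := this hv hu (le_of_not_ge huv)
    nlinarith
  have hftc : ∫ t in u..v, g t = G v - G u :=
    intervalIntegral.integral_eq_sub_of_hasDerivAt (fun t _ => hG t) (hg.intervalIntegrable _ _)
  set Δ := G v - G u with hΔ
  set S := ∫ t in a..(a + h), g t ^ 2 with hS
  have hi2 : ∀ x y : ℝ, IntervalIntegrable (fun t => g t ^ 2) volume x y :=
    fun x y => (hg.pow 2).intervalIntegrable _ _
  have h1 : 0 ≤ ∫ t in u..v, (g t - Δ / h) ^ 2 :=
    intervalIntegral.integral_nonneg huv (fun t _ => sq_nonneg _)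
  have h2 : ∫ t in u..v, (g t - Δ / h) ^ 2
      = (∫ t in u..v, g t ^ 2) - 2 * (Δ / h) * Δ + (Δ / h) ^ 2 * (v - u) := by
    have e : ∀ t, (g t - Δ / h) ^ 2 = g t ^ 2 - (2 * (Δ / h)) * g t + (Δ / h) ^ 2 := by
      intro t; ring
    simp_rw [e]
    rw [intervalIntegral.integral_add, intervalIntegral.integral_sub,
      intervalIntegral.integral_const_mul, hftc, intervalIntegral.integral_const]
    · simp only [smul_eq_mul]; ring
    · exact hi2 _ _
    · exact (continuous_const.mul hg).intervalIntegrable _ _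
    · exact ((hg.pow 2).sub (continuous_const.mul hg)).intervalIntegrable _ _
    · exact continuous_const.intervalIntegrable _ _
  have h3 : ∫ t in u..v, g t ^ 2 ≤ S :=
    intervalIntegral.integral_mono_interval hu.1 huv hv.2
      (Filter.Eventually.of_forall fun t => sq_nonneg _) (hi2 _ _)
  have h4 : v - u ≤ h := by linarith [hu.1, hv.2]
  have h5 : (Δ / h) ^ 2 * (v - u) ≤ (Δ / h) ^ 2 * h := by gcongr
  have h6 : (Δ / h) ^ 2 * h = Δ ^ 2 / h := by field_simp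
  have h7 : 2 * (Δ / h) * Δ = 2 * (Δ ^ 2 / h) := by ring
  have h8 : Δ ^ 2 / h ≤ S := by linarith
  rw [div_le_iff₀ hh] at h8
  linarith

/-- continuous functions are integrable on bounded rectangles -/
theorem intOn_rect {g : PP → ℝ} (hg : Continuous g) (a b c d : ℝ) :
    IntegrableOn g (Ioc a b ×ˢ Ioc c d) :=
  (hg.continuousOn.integrableOn_compact (isCompact_Icc.prod isCompact_Icc)).mono_set
    (prod_mono Ioc_subset_Icc_self Ioc_subset_Icc_self)

theorem int_fst {a b h : ℝ} (hh : 0 < h) (g : ℝ → ℝ) :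
    ∫ z in Ioc a (a + h) ×ˢ Ioc b (b + h), g z.1 = h * ∫ t in Ioc a (a + h), g t := by
  have := setIntegral_prod_mul (μ := (volume : Measure ℝ)) (ν := (volume : Measure ℝ)) g
    (fun _ => (1 : ℝ)) (Ioc a (a + h)) (Ioc b (b + h))
  rw [← Measure.volume_eq_prod] at this
  simp only [mul_one] at this
  rw [this]
  simp [hh.le, mul_comm]

theorem int_snd {a b h : ℝ} (hh : 0 < h) (g : ℝ → ℝ) :
    ∫ z in Ioc a (a + h) ×ˢ Ioc b (b + h), g z.2 = h * ∫ t in Ioc b (b + h), g t := by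
  have := setIntegral_prod_mul (μ := (volume : Measure ℝ)) (ν := (volume : Measure ℝ))
    (fun _ => (1 : ℝ)) g (Ioc a (a + h)) (Ioc b (b + h))
  rw [← Measure.volume_eq_prod] at this
  simp only [one_mul] at this
  rw [this]
  simp [hh.le]

theorem int_iter {a b h : ℝ} (hh : 0 < h) {g : PP → ℝ} (hg : Continuous g) :
    ∫ z in Ioc a (a + h) ×ˢ Ioc b (b + h), g z
      = ∫ x in Ioc a (a + h), ∫ y in b..(b + h), g (x, y) := by
  have := setIntegral_prod (μ := (volume : Measure ℝ)) (ν := (volume : Measure ℝ)) g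
    (s := Ioc a (a + h)) (t := Ioc b (b + h)) (by
      rw [← Measure.volume_eq_prod]; exact intOn_rect hg _ _ _ _)
  rw [← Measure.volume_eq_prod] at this
  rw [this]
  refine integral_congr_ae (Filter.Eventually.of_forall fun x => ?_)
  simp only
  rw [intervalIntegral.integral_of_le (by linarith)]

theorem int_iter' {a b h : ℝ} (hh : 0 < h) {g : PP → ℝ} (hg : Continuous g) :
    ∫ z in Ioc a (a + h) ×ˢ Ioc b (b + h), g z
      = ∫ y in Ioc b (b + h), ∫ x in a..(a + h), g (x, y) := by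
  have h1 := setIntegral_prod_swap (μ := (volume : Measure ℝ)) (ν := (volume : Measure ℝ))
    (Ioc a (a + h)) (Ioc b (b + h)) g
  rw [← Measure.volume_eq_prod] at h1
  rw [← h1]
  have hg' : Continuous (fun z : PP => g z.swap) := hg.comp continuous_swap
  exact int_iter hh hg'

theorem dx_hasDerivAt {f : PP → ℝ} (hf : ContDiff ℝ ∞ f) (y t : ℝ) :
    HasDerivAt (fun s => f (s, y)) (dx f (t, y)) t := by
  have h1 : HasFDerivAt f (fderiv ℝ f (t, y)) (t, y) := (diffAt hf (t, y)).hasFDerivAt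
  have h2 : HasDerivAt (fun s : ℝ => ((s, y) : PP)) ((1 : ℝ), (0 : ℝ)) t :=
    (hasDerivAt_id t).prodMk (hasDerivAt_const t y)
  exact h1.comp_hasDerivAt t h2

theorem dy_hasDerivAt {f : PP → ℝ} (hf : ContDiff ℝ ∞ f) (x t : ℝ) :
    HasDerivAt (fun s => f (x, s)) (dy f (x, t)) t := by
  have h1 : HasFDerivAt f (fderiv ℝ f (x, t)) (x, t) := (diffAt hf (x, t)).hasFDerivAt
  have h2 : HasDerivAt (fun s : ℝ => ((x, s) : PP)) ((0 : ℝ), (1 : ℝ)) t :=
    (hasDerivAt_const t x).prodMk (hasDerivAt_id t)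
  exact h1.comp_hasDerivAt t h2

/-- Poincare inequality on a square -/
theorem poincare (a b : ℝ) {h : ℝ} (hh : 0 < h) {f : PP → ℝ} (hf : ContDiff ℝ ∞ f) :
    ∫ z in Ioc a (a + h) ×ˢ Ioc b (b + h), f z ^ 2
      ≤ h ^ 2 * (∫ z in Ioc a (a + h) ×ˢ Ioc b (b + h), (dx f z ^ 2 + dy f z ^ 2))
        + 1 / h ^ 2 * (∫ z in Ioc a (a + h) ×ˢ Ioc b (b + h), f z) ^ 2 := by
  have hcf : Continuous f := hf.continuous
  have hcx : Continuous (dx f) := (contDiff_dx hf).continuous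
  have hcy : Continuous (dy f) := (contDiff_dy hf).continuous
  set Q : Set PP := Ioc a (a + h) ×ˢ Ioc b (b + h) with hQ
  have hvol : ∀ c : ℝ, ∫ _z in Q, c = h ^ 2 * c := by
    intro c
    have := int_fst (a := a) (b := b) hh (fun _ => c)
    rw [← hQ] at this
    rw [this]
    simp [hh.le]; ring
  set I := ∫ z in Q, f z with hI
  set I2 := ∫ z in Q, f z ^ 2 with hI2
  set D1 := ∫ z in Q, dx f z ^ 2 with hD1
  set D2 := ∫ z in Q, dy f z ^ 2 with hD2
  let A : ℝ → ℝ := fun y => ∫ t in a..(a + h), dx f (t, y) ^ 2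
  let B : ℝ → ℝ := fun x => ∫ t in b..(b + h), dy f (x, t) ^ 2
  have hA : Continuous A :=
    intervalIntegral.continuous_parametric_intervalIntegral_of_continuous'
      (f := fun y t => dx f (t, y) ^ 2) (by
        exact (hcx.comp continuous_swap).pow 2) _ _
  have hB : Continuous B :=
    intervalIntegral.continuous_parametric_intervalIntegral_of_continuous'
      (f := fun x t => dy f (x, t) ^ 2) (by
        exact hcy.pow 2) _ _
  have hAint : ∫ z in Q, A z.2 = h * D1 := by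
    rw [hQ, int_snd hh, hD1, hQ, int_iter' (g := fun z => dx f z ^ 2) hh (hcx.pow 2)]
  have hBint : ∫ z in Q, B z.1 = h * D2 := by
    rw [hQ, int_fst hh, hD2, hQ, int_iter (g := fun z => dy f z ^ 2) hh (hcy.pow 2)]
  have key : ∀ x ∈ Q, ∀ y ∈ Q, (f x - f y) ^ 2 ≤ 2 * (h * A x.2) + 2 * (h * B y.1) := by
    intro x hx y hy
    have e1 := sq_sub_le (G := fun s => f (s, x.2)) (g := fun s => dx f (s, x.2))
      (fun t => dx_hasDerivAt hf x.2 t) (hcx.comp (by fun_prop)) hh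
      (Ioc_subset_Icc_self hy.1) (Ioc_subset_Icc_self hx.1)
    have e2 := sq_sub_le (G := fun s => f (y.1, s)) (g := fun s => dy f (y.1, s))
      (fun t => dy_hasDerivAt hf y.1 t) (hcy.comp (by fun_prop)) hh
      (Ioc_subset_Icc_self hy.2) (Ioc_subset_Icc_self hx.2)
    have e3 : f x - f y = (f (x.1, x.2) - f (y.1, x.2)) + (f (y.1, x.2) - f (y.1, y.2)) := by
      simp
    rw [e3]
    change (f (x.1, x.2) - f (y.1, x.2)) ^ 2 ≤ h * A x.2 at e1
    change (f (y.1, x.2) - f (y.1, y.2)) ^ 2 ≤ h * B y.1 at e2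
    nlinarith [sq_nonneg ((f (x.1, x.2) - f (y.1, x.2)) - (f (y.1, x.2) - f (y.1, y.2)))]
  have hmQ : MeasurableSet Q := measurableSet_Ioc.prod measurableSet_Ioc
  have hi : ∀ {g : PP → ℝ}, Continuous g → IntegrableOn g Q := fun hg => intOn_rect hg _ _ _ _
  -- integrate over y
  have step1 : ∀ x ∈ Q, h ^ 2 * f x ^ 2 - 2 * f x * I + I2
      ≤ h ^ 2 * (2 * (h * A x.2)) + 2 * (h * (h * D2)) := by
    intro x hx
    have e1 : ∫ y in Q, (f x - f y) ^ 2 = h ^ 2 * f x ^ 2 - 2 * f x * I + I2 := by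
      have e : ∀ y, (f x - f y) ^ 2 = (f x ^ 2 - (2 * f x) * f y) + f y ^ 2 := by
        intro y; ring
      simp_rw [e]
      rw [integral_add, integral_sub, integral_const_mul, hvol]
      · exact hi (by fun_prop)
      · exact hi (by fun_prop)
      · exact hi (by fun_prop)
      · exact hi (by fun_prop)
    have e2 : ∫ y in Q, (2 * (h * A x.2) + 2 * (h * B y.1))
        = h ^ 2 * (2 * (h * A x.2)) + 2 * (h * (h * D2)) := by
      rw [integral_add, hvol, integral_const_mul, integral_const_mul, hBint]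
      · exact hi (by fun_prop)
      · exact hi (by fun_prop)
    rw [← e1, ← e2]
    exact setIntegral_mono_on (hi (by fun_prop)) (hi (by fun_prop)) hmQ (fun y hy => key x hx y hy)
  -- integrate over x
  have step2 : h ^ 2 * I2 - 2 * I * I + h ^ 2 * I2
      ≤ h ^ 2 * (2 * (h * (h * D1))) + h ^ 2 * (2 * (h * (h * D2))) := by
    have e1 : ∫ x in Q, (h ^ 2 * f x ^ 2 - 2 * f x * I + I2) = h ^ 2 * I2 - 2 * I * I + h ^ 2 * I2 := by
      have e : ∀ x, h ^ 2 * f x ^ 2 - 2 * f x * I + I2 = (h ^ 2 * f x ^ 2 - (2 * I) * f x) + I2 := by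
        intro y; ring
      simp_rw [e]
      rw [integral_add, integral_sub, integral_const_mul, integral_const_mul, hvol]
      · exact hi (by fun_prop)
      · exact hi (by fun_prop)
      · exact hi (by fun_prop)
      · exact hi (by fun_prop)
    have e2 : ∫ x in Q, (h ^ 2 * (2 * (h * A x.2)) + 2 * (h * (h * D2)))
        = h ^ 2 * (2 * (h * (h * D1))) + h ^ 2 * (2 * (h * (h * D2))) := by
      rw [integral_add, hvol, integral_const_mul, integral_const_mul, integral_const_mul, hAint]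
      · exact hi (by fun_prop)
      · exact hi (by fun_prop)
    rw [← e1, ← e2]
    exact setIntegral_mono_on (hi (by fun_prop)) (hi (by fun_prop)) hmQ (fun y hy => step1 y hy)
  have hD : ∫ z in Q, (dx f z ^ 2 + dy f z ^ 2) = D1 + D2 :=
    integral_add (hi (by fun_prop)) (hi (by fun_prop))
  rw [hD]
  have hh2 : 0 < h ^ 2 := by positivity
  have e4 : h ^ 2 * I2 ≤ h ^ 2 * (h ^ 2 * (D1 + D2)) + I ^ 2 := by nlinarith
  have e5 : h ^ 2 * (h ^ 2 * (D1 + D2) + 1 / h ^ 2 * I ^ 2)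
      = h ^ 2 * (h ^ 2 * (D1 + D2)) + I ^ 2 := by field_simp
  rw [← e5] at e4
  exact le_of_mul_le_mul_left e4 hh2

/-- cell of the grid -/
def cell (h : ℝ) (q : ℤ × ℤ) : Set PP :=
  Ioc (q.1 * h) (q.1 * h + h) ×ˢ Ioc (q.2 * h) (q.2 * h + h)

theorem mem_Ioc_cell {h : ℝ} (hh : 0 < h) (x : ℝ) (i : ℤ) :
    x ∈ Ioc (i * h) (i * h + h) ↔ ⌈x / h⌉ - 1 = i := by
  have h1 : x ∈ Ioc (i * h) (i * h + h) ↔ ⌈x / h⌉ = i + 1 := by
    rw [Int.ceil_eq_iff, mem_Ioc, lt_div_iff₀ hh, div_le_iff₀ hh]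
    push_cast
    constructor
    · rintro ⟨a, b⟩; constructor <;> nlinarith
    · rintro ⟨a, b⟩; constructor <;> nlinarith
  rw [h1]
  omega

/-- index of the cell containing `z` -/
noncomputable def idx (h : ℝ) (z : PP) : ℤ × ℤ := (⌈z.1 / h⌉ - 1, ⌈z.2 / h⌉ - 1)

theorem mem_cell_iff {h : ℝ} (hh : 0 < h) (z : PP) (q : ℤ × ℤ) :
    z ∈ cell h q ↔ idx h z = q := by
  unfold cell idx
  rw [mem_prod, mem_Ioc_cell hh, mem_Ioc_cell hh, Prod.ext_iff]

theorem measurableSet_cell (h : ℝ) (q : ℤ × ℤ) : MeasurableSet (cell h q) :=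
  measurableSet_Ioc.prod measurableSet_Ioc

theorem cell_disjoint {h : ℝ} (hh : 0 < h) (K : Finset (ℤ × ℤ)) :
    Set.Pairwise (↑K) (Function.onFun Disjoint (cell h)) := by
  intro q _ q' _ hne
  refine Set.disjoint_left.2 fun z hz hz' => hne ?_
  rw [mem_cell_iff hh] at hz hz'
  rw [← hz, ← hz']

theorem dist_cell {h : ℝ} {q : ℤ × ℤ} {z z' : PP} (hz : z ∈ cell h q) (hz' : z' ∈ cell h q) :
    dist z z' < h := by
  rw [cell, mem_prod] at hz hz'
  rw [Prod.dist_eq, max_lt_iff, Real.dist_eq, Real.dist_eq, abs_lt, abs_lt]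
  obtain ⟨⟨a1, a2⟩, b1, b2⟩ := hz
  obtain ⟨⟨c1, c2⟩, d1, d2⟩ := hz'
  refine ⟨⟨?_, ?_⟩, ?_, ?_⟩ <;> linarith

/-- the cells meeting the ball of radius 2 -/
noncomputable def idxSet (h : ℝ) : Finset (ℤ × ℤ) :=
  (Finset.Icc (⌈-2 / h⌉ - 1) (⌈2 / h⌉ - 1)) ×ˢ (Finset.Icc (⌈-2 / h⌉ - 1) (⌈2 / h⌉ - 1))

theorem idx_mem {h : ℝ} (hh : 0 < h) {z : PP} (hz : z ∈ Metric.closedBall (0 : PP) 2) :
    idx h z ∈ idxSet h := by
  have h1 : |z.1| ≤ 2 ∧ |z.2| ≤ 2 := by
    rw [mem_closedBall_zero_iff, Prod.norm_def, max_le_iff] at hz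
    exact hz
  obtain ⟨⟨a1, a2⟩, b1, b2⟩ := And.intro (abs_le.1 h1.1) (abs_le.1 h1.2)
  simp only [idx, idxSet, Finset.mem_product, Finset.mem_Icc]
  have e : ∀ x : ℝ, -2 ≤ x → x ≤ 2 → ⌈-2 / h⌉ - 1 ≤ ⌈x / h⌉ - 1 ∧ ⌈x / h⌉ - 1 ≤ ⌈2 / h⌉ - 1 := by
    intro x hx1 hx2
    have u1 : ⌈-2 / h⌉ ≤ ⌈x / h⌉ := Int.ceil_mono (by gcongr)
    have u2 : ⌈x / h⌉ ≤ ⌈2 / h⌉ := Int.ceil_mono (by gcongr)
    constructor <;> omega
  exact ⟨e _ a1 a2, e _ b1 b2⟩

theorem card_idxSet {h : ℝ} (hh : 0 < h) (h1 : h ≤ 1) : ((idxSet h).card : ℝ) ≤ 36 / h ^ 2 := by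
  have key : ((Finset.Icc (⌈-2 / h⌉ - 1) (⌈2 / h⌉ - 1)).card : ℝ) ≤ 6 / h := by
    rw [Int.card_Icc]
    have u1 := Int.ceil_lt_add_one (2 / h)
    have u2 := Int.le_ceil (-2 / h)
    have u3 : (0 : ℝ) < 2 / h := by positivity
    have u4 : -2 / h = -(2 / h) := by ring
    have u5 : 0 ≤ ⌈2 / h⌉ - 1 + 1 - (⌈-2 / h⌉ - 1) := by
      have : ⌈-2 / h⌉ ≤ ⌈2 / h⌉ := Int.ceil_mono (by rw [u4]; linarith)
      omega
    have u6 : (((⌈2 / h⌉ - 1 + 1 - (⌈-2 / h⌉ - 1)).toNat : ℕ) : ℝ)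
        = (((⌈2 / h⌉ - 1 + 1 - (⌈-2 / h⌉ - 1)) : ℤ) : ℝ) := by
      exact_mod_cast congrArg (Int.cast : ℤ → ℝ) (Int.toNat_of_nonneg u5)
    rw [u6]
    push_cast
    have u7 : (1 : ℝ) ≤ 1 / h := by rw [le_div_iff₀ hh]; linarith
    have u8 : 6 / h = 2 / h + 2 / h + 2 * (1 / h) := by ring
    rw [u8]
    rw [u4] at u2 ⊢
    linarith
  rw [idxSet, Finset.card_product]
  push_cast
  have : (36 : ℝ) / h ^ 2 = (6 / h) * (6 / h) := by ring
  rw [this]
  exact mul_le_mul key key (Nat.cast_nonneg _) (by positivity)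

theorem volume_cell {h : ℝ} (hh : 0 < h) (q : ℤ × ℤ) (c : ℝ) :
    ∫ _z in cell h q, c = h ^ 2 * c := by
  have := int_fst (a := q.1 * h) (b := q.2 * h) hh (fun _ => c)
  rw [cell, this]
  simp [hh.le]; ring

theorem intOn_cell {g : PP → ℝ} (hg : Continuous g) (h : ℝ) (q : ℤ × ℤ) :
    IntegrableOn g (cell h q) := intOn_rect hg _ _ _ _

theorem cs_cell {h : ℝ} (hh : 0 < h) (q : ℤ × ℤ) {g : PP → ℝ} (hg : Continuous g) :
    (∫ z in cell h q, g z) ^ 2 ≤ h ^ 2 * ∫ z in cell h q, g z ^ 2 := by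
  set I := ∫ z in cell h q, g z with hI
  have h0 : 0 ≤ ∫ z in cell h q, (g z - I / h ^ 2) ^ 2 :=
    setIntegral_nonneg (measurableSet_cell h q) (fun _ _ => sq_nonneg _)
  have h1 : ∫ z in cell h q, (g z - I / h ^ 2) ^ 2
      = (∫ z in cell h q, g z ^ 2) - 2 * (I / h ^ 2) * I + h ^ 2 * (I / h ^ 2) ^ 2 := by
    have e : ∀ z, (g z - I / h ^ 2) ^ 2 = (g z ^ 2 - (2 * (I / h ^ 2)) * g z) + (I / h ^ 2) ^ 2 := by
      intro z; ring
    simp_rw [e]
    rw [integral_add, integral_sub, integral_const_mul, volume_cell hh]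
    · exact intOn_cell (by fun_prop) _ _
    · exact intOn_cell (by fun_prop) _ _
    · exact intOn_cell (by fun_prop) _ _
    · exact intOn_cell (by fun_prop) _ _
  have h2 : h ^ 2 * (I / h ^ 2) ^ 2 = I ^ 2 / h ^ 2 := by field_simp
  have h3 : 2 * (I / h ^ 2) * I = 2 * (I ^ 2 / h ^ 2) := by ring
  have h4 : I ^ 2 / h ^ 2 ≤ ∫ z in cell h q, g z ^ 2 := by linarith
  rw [div_le_iff₀ (by positivity)] at h4
  linarith

theorem intOn_sub {g : PP → ℝ} (hg : Continuous g) {Ω : Set PP}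
    (hΩ : Ω ⊆ Metric.closedBall 0 2) : IntegrableOn g Ω :=
  (hg.continuousOn.integrableOn_compact (isCompact_closedBall (0 : PP) 2)).mono_set hΩ

theorem bins_bound {h : ℝ} (hh : 0 < h) (h1 : h ≤ 1) :
    ((Finset.Icc ⌊-(1 / h ^ 2)⌋ ⌊1 / h ^ 2⌋).card : ℝ) ≤ Real.exp (3 / h) := by
  have u0 : (1 : ℝ) ≤ 1 / h ^ 2 := by
    rw [le_div_iff₀ (by positivity)]; nlinarith
  have u1 := Int.floor_le (1 / h ^ 2)
  have u2 := Int.lt_floor_add_one (-(1 / h ^ 2))
  have u5 : 0 ≤ ⌊1 / h ^ 2⌋ + 1 - ⌊-(1 / h ^ 2)⌋ := by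
    have : ⌊-(1 / h ^ 2)⌋ ≤ ⌊1 / h ^ 2⌋ := Int.floor_mono (by linarith)
    omega
  have u6 : (((⌊1 / h ^ 2⌋ + 1 - ⌊-(1 / h ^ 2)⌋).toNat : ℕ) : ℝ)
      = (((⌊1 / h ^ 2⌋ + 1 - ⌊-(1 / h ^ 2)⌋) : ℤ) : ℝ) := by
    exact_mod_cast congrArg (Int.cast : ℤ → ℝ) (Int.toNat_of_nonneg u5)
  rw [Int.card_Icc, u6]
  push_cast
  have u7 : (⌊1 / h ^ 2⌋ : ℝ) + 1 - ⌊-(1 / h ^ 2)⌋ ≤ 4 * (1 / h ^ 2) := by linarith
  have u8 := Real.quadratic_le_exp_of_nonneg (x := 3 / h) (by positivity)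
  have u9 : (3 / h) ^ 2 / 2 = 9 / 2 * (1 / h ^ 2) := by ring
  have u10 : 0 ≤ 3 / h := by positivity
  rw [u9] at u8
  linarith

theorem step {ι : Type} {C h w : ℝ} (hC : 0 < C) (hh : 0 < h) (h1 : h ≤ 1) (hw : 4 * h ≤ w)
    {Ω₀ Ω₁ Ω₂ : Set PP} (hB : Ω₀ ⊆ Metric.closedBall 0 2) (h01 : Ω₁ ⊆ Ω₀)
    (h12 : ∀ z ∈ Ω₂, Metric.ball z w ⊆ Ω₁)
    (T : Finset ι) (φ : ι → PP → ℝ) (hφ : ∀ s ∈ T, ContDiff ℝ ∞ (φ s)) {E : ℝ} (hE0 : 0 < E)
    (hL : ∀ s ∈ T, ∀ s' ∈ T, ∫ z in Ω₀, (φ s z - φ s' z) ^ 2 ≤ E)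
    (hE : ∀ s ∈ T, ∀ s' ∈ T, ∫ z in Ω₁,
      (dx (fun w => φ s w - φ s' w) z ^ 2 + dy (fun w => φ s w - φ s' w) z ^ 2) ≤ C * E)
    {b : ℝ} (hb : 0 ≤ b) (hcard : Real.exp (1000 / h ^ 3) * b < T.card) :
    ∃ T' ⊆ T, b < T'.card ∧ ∀ s ∈ T', ∀ s' ∈ T',
      ∫ z in Ω₂, (φ s z - φ s' z) ^ 2 ≤ ((C + 36) * h ^ 2) * E := by
  classical
  have hTne : T.Nonempty := by
    rw [← Finset.card_pos]
    have : (0 : ℝ) < T.card := lt_of_le_of_lt (by positivity) hcard
    exact_mod_cast this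
  obtain ⟨s₁, hs₁⟩ := hTne
  set K : Finset (ℤ × ℤ) := (idxSet h).filter (fun q => (cell h q ∩ Ω₂).Nonempty) with hK
  have hKcard : (K.card : ℝ) ≤ 36 / h ^ 2 :=
    le_trans (by exact_mod_cast Finset.card_filter_le _ _) (card_idxSet hh h1)
  have hwh : h < w := by linarith
  have hcell1 : ∀ q ∈ K, cell h q ⊆ Ω₁ := by
    intro q hq z hz
    obtain ⟨z', hz', hz2⟩ := (Finset.mem_filter.1 hq).2
    refine h12 z' hz2 ?_
    rw [Metric.mem_ball]
    exact (dist_cell hz hz').trans hwh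
  have h21 : Ω₂ ⊆ Ω₁ := fun z hz => h12 z hz (Metric.mem_ball_self (by linarith))
  have hcov : Ω₂ ⊆ ⋃ q ∈ K, cell h q := by
    intro z hz
    have hzB : z ∈ Metric.closedBall (0 : PP) 2 := hB (h01 (h21 hz))
    have hzc : z ∈ cell h (idx h z) := (mem_cell_iff hh z _).2 rfl
    refine mem_iUnion₂.2 ⟨idx h z, ?_, hzc⟩
    exact Finset.mem_filter.2 ⟨idx_mem hh hzB, ⟨z, hzc, hz⟩⟩
  -- bound of the cell integrals
  set R := √E with hR
  have hRpos : 0 < R := Real.sqrt_pos.2 hE0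
  have hR2 : R ^ 2 = E := Real.sq_sqrt hE0.le
  let v : ι → (ℤ × ℤ) → ℝ := fun s q => ∫ z in cell h q, (φ s z - φ s₁ z)
  have hv : ∀ s ∈ T, ∀ q ∈ K, |v s q| ≤ h * R := by
    intro s hs q hq
    have hc : Continuous (fun z => φ s z - φ s₁ z) := ((hφ s hs).sub (hφ s₁ hs₁)).continuous
    have e1 := cs_cell hh q hc
    have e2 : ∫ z in cell h q, (φ s z - φ s₁ z) ^ 2 ≤ E :=
      le_trans (setIntegral_mono_set (intOn_sub (by fun_prop) hB)
        (Filter.Eventually.of_forall fun z => sq_nonneg _)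
        ((hcell1 q hq).trans h01).eventuallyLE) (hL s hs s₁ hs₁)
    refine abs_le_of_sq_le_sq ?_ (by positivity)
    calc v s q ^ 2 ≤ h ^ 2 * ∫ z in cell h q, (φ s z - φ s₁ z) ^ 2 := e1
      _ ≤ h ^ 2 * E := by gcongr
      _ = (h * R) ^ 2 := by rw [mul_pow, hR2]
  have hw0 : 0 < h ^ 3 * R := by positivity
  let bin : ι → (K → ℤ) := fun s q => ⌊v s q / (h ^ 3 * R)⌋
  let t : Finset (K → ℤ) := Fintype.piFinset (fun _ : K => Finset.Icc ⌊-(1 / h ^ 2)⌋ ⌊1 / h ^ 2⌋)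
  have hmaps : ∀ s ∈ T, bin s ∈ t := by
    intro s hs
    refine Fintype.mem_piFinset.2 fun q => Finset.mem_Icc.2 ?_
    have e1 := abs_le.1 (hv s hs q.1 q.2)
    have e2 : h * R / (h ^ 3 * R) = 1 / h ^ 2 := by field_simp
    constructor
    · refine Int.floor_mono ?_
      rw [← e2, ← neg_div]
      gcongr
      exact e1.1
    · refine Int.floor_mono ?_
      rw [← e2]
      gcongr
      exact e1.2
  have htcard : (t.card : ℝ) ≤ Real.exp (1000 / h ^ 3) := by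
    have e1 : t.card = (Finset.Icc ⌊-(1 / h ^ 2)⌋ ⌊1 / h ^ 2⌋).card ^ K.card := by
      simp only [t, Fintype.card_piFinset, Finset.prod_const, Finset.card_univ, Fintype.card_coe]
    rw [e1]
    push_cast
    calc ((Finset.Icc ⌊-(1 / h ^ 2)⌋ ⌊1 / h ^ 2⌋).card : ℝ) ^ K.card
        ≤ Real.exp (3 / h) ^ K.card := by
          gcongr
          exact bins_bound hh h1
      _ = Real.exp (K.card * (3 / h)) := by rw [← Real.exp_nat_mul]
      _ ≤ Real.exp (1000 / h ^ 3) := by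
          apply Real.exp_le_exp.2
          calc (K.card : ℝ) * (3 / h) ≤ 36 / h ^ 2 * (3 / h) := by gcongr
            _ = 108 / h ^ 3 := by field_simp; norm_num
            _ ≤ 1000 / h ^ 3 := by gcongr; norm_num
  have hpig : t.card • b < (T.card : ℝ) := by
    rw [nsmul_eq_mul]
    exact lt_of_le_of_lt (by gcongr) hcard
  obtain ⟨y, -, hy⟩ := Finset.exists_lt_card_fiber_of_nsmul_lt_card_of_maps_to hmaps hpig
  refine ⟨T.filter (fun s => bin s = y), Finset.filter_subset _ _, hy, ?_⟩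
  intro s hs s' hs'
  obtain ⟨hsT, hsy⟩ := Finset.mem_filter.1 hs
  obtain ⟨hsT', hsy'⟩ := Finset.mem_filter.1 hs'
  have hf : ContDiff ℝ ∞ (fun z => φ s z - φ s' z) := (hφ s hsT).sub (hφ s' hsT')
  have hcf := hf.continuous
  have hcx := (contDiff_dx hf).continuous
  have hcy := (contDiff_dy hf).continuous
  have hdiff : ∀ q ∈ K, (∫ z in cell h q, (φ s z - φ s' z)) ^ 2 ≤ (h ^ 3 * R) ^ 2 := by
    intro q hq
    have e1 : ⌊v s q / (h ^ 3 * R)⌋ = ⌊v s' q / (h ^ 3 * R)⌋ := by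
      have := congrFun (hsy.trans hsy'.symm) ⟨q, hq⟩
      exact this
    have e2 := Int.abs_sub_lt_one_of_floor_eq_floor e1
    have e3 : v s q - v s' q = ∫ z in cell h q, (φ s z - φ s' z) := by
      have c1 : Continuous (φ s) := (hφ s hsT).continuous
      have c2 : Continuous (φ s') := (hφ s' hsT').continuous
      have c3 : Continuous (φ s₁) := (hφ s₁ hs₁).continuous
      simp only [v]
      rw [← integral_sub (intOn_cell (by fun_prop) _ _) (intOn_cell (by fun_prop) _ _)]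
      congr 1
      ext z
      ring
    rw [← sub_div, e3, abs_div, abs_of_pos hw0, div_lt_one hw0] at e2
    exact sq_le_sq' (by linarith [neg_abs_le (∫ z in cell h q, (φ s z - φ s' z))])
      (by linarith [le_abs_self (∫ z in cell h q, (φ s z - φ s' z))])
  have hU : ∀ {g : PP → ℝ}, Continuous g →
      ∫ z in ⋃ q ∈ K, cell h q, g z = ∑ q ∈ K, ∫ z in cell h q, g z := fun hg =>
    integral_biUnion_finset K (fun q _ => measurableSet_cell h q) (cell_disjoint hh K)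
      (fun q _ => intOn_cell hg h q)
  have hUsub : (⋃ q ∈ K, cell h q) ⊆ Ω₁ := iUnion₂_subset hcell1
  have hB1 : Ω₁ ⊆ Metric.closedBall 0 2 := h01.trans hB
  calc ∫ z in Ω₂, (φ s z - φ s' z) ^ 2
      ≤ ∫ z in ⋃ q ∈ K, cell h q, (φ s z - φ s' z) ^ 2 :=
        setIntegral_mono_set (intOn_sub (by fun_prop) (hUsub.trans hB1))
          (Filter.Eventually.of_forall fun z => sq_nonneg _) hcov.eventuallyLE
    _ = ∑ q ∈ K, ∫ z in cell h q, (φ s z - φ s' z) ^ 2 := hU (by fun_prop)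
    _ ≤ ∑ q ∈ K, (h ^ 2 * (∫ z in cell h q, (dx (fun w => φ s w - φ s' w) z ^ 2
          + dy (fun w => φ s w - φ s' w) z ^ 2)) + 1 / h ^ 2 * (h ^ 3 * R) ^ 2) := by
        refine Finset.sum_le_sum fun q hq => ?_
        refine (poincare (q.1 * h) (q.2 * h) hh hf).trans ?_
        have := hdiff q hq
        have hpos : 0 ≤ 1 / h ^ 2 := by positivity
        have := mul_le_mul_of_nonneg_left this hpos
        unfold cell at this ⊢
        linarith
    _ = h ^ 2 * (∫ z in ⋃ q ∈ K, cell h q, (dx (fun w => φ s w - φ s' w) z ^ 2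
          + dy (fun w => φ s w - φ s' w) z ^ 2)) + K.card * (1 / h ^ 2 * (h ^ 3 * R) ^ 2) := by
        rw [hU (by fun_prop), Finset.sum_add_distrib, Finset.mul_sum, Finset.sum_const,
          nsmul_eq_mul]
    _ ≤ h ^ 2 * (C * E) + 36 / h ^ 2 * (1 / h ^ 2 * (h ^ 3 * R) ^ 2) := by
        have e1 : ∫ z in ⋃ q ∈ K, cell h q, (dx (fun w => φ s w - φ s' w) z ^ 2
          + dy (fun w => φ s w - φ s' w) z ^ 2) ≤ C * E :=
          le_trans (setIntegral_mono_set (intOn_sub (by fun_prop) hB1)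
            (Filter.Eventually.of_forall fun z => add_nonneg (sq_nonneg _) (sq_nonneg _))
            hUsub.eventuallyLE) (hE s hsT s' hsT')
        gcongr
    _ = ((C + 36) * h ^ 2) * E := by
        have : (h ^ 3 * R) ^ 2 = h ^ 6 * E := by rw [mul_pow, hR2]; ring
        rw [this]
        field_simp

end Pig

/-- pigeonhole + Poincare: among many functions with mutual energy estimates two are very close -/
theorem pigeon (J : ℕ) (hJ : 0 < J) (w C : ℝ) (hw : 0 < w) (hC : 0 < C) : ∃ C3 : ℝ, 0 < C3 ∧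
    ∀ h : ℝ, 0 < h → h ≤ 1 → 4 * h ≤ w →
    ∀ Ω : ℕ → Set PP, (∀ j, IsOpen (Ω j)) → (∀ j, Ω j ⊆ Metric.closedBall 0 2) →
    (∀ j, ∀ z ∈ Ω (j + 1), Metric.ball z w ⊆ Ω j) →
    ∀ (ι : Type) (T : Finset ι) (φ : ι → PP → ℝ), (∀ s ∈ T, ContDiff ℝ ∞ (φ s)) →
    (∀ s ∈ T, ∀ s' ∈ T, ∀ z ∈ Ω 0, |φ s z - φ s' z| ≤ 1) →
    (∀ s ∈ T, ∀ s' ∈ T, ∀ j < 2 * J,
      ∫ z in Ω (j + 1), (dx (fun w => φ s w - φ s' w) z ^ 2 + dy (fun w => φ s w - φ s' w) z ^ 2)
        ≤ C * ∫ z in Ω j, (φ s z - φ s' z) ^ 2) →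
    Real.exp (J * (1000 / h ^ 3)) < T.card →
    ∃ s ∈ T, ∃ s' ∈ T, s ≠ s' ∧
      ∫ z in Ω (2 * J), (φ s z - φ s' z) ^ 2 ≤ (C3 * h) ^ (2 * J) := by
  refine ⟨√(16 * (C + 36)), Real.sqrt_pos.2 (by positivity), ?_⟩
  intro h hh h1 hwh Ω hΩo hΩb hΩn ι T φ hφ hbd hen hcard
  have hsub : ∀ j, Ω (j + 1) ⊆ Ω j := fun j z hz => hΩn j z hz (Metric.mem_ball_self hw)
  have main : ∀ j ≤ J, ∃ T' ⊆ T, Real.exp ((J - j : ℝ) * (1000 / h ^ 3)) < T'.card ∧
      ∀ s ∈ T', ∀ s' ∈ T', ∫ z in Ω (2 * j), (φ s z - φ s' z) ^ 2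
        ≤ 16 * ((C + 36) * h ^ 2) ^ j := by
    intro j
    induction j with
    | zero =>
      intro _
      refine ⟨T, subset_rfl, by simpa using hcard, ?_⟩
      intro s hs s' hs'
      have hc : Continuous (fun z => (φ s z - φ s' z) ^ 2) := by
        have c1 : Continuous (φ s) := (hφ s hs).continuous
        have c2 : Continuous (φ s') := (hφ s' hs').continuous
        fun_prop
      calc ∫ z in Ω (2 * 0), (φ s z - φ s' z) ^ 2
          ≤ ∫ _z in Ω (2 * 0), (1 : ℝ) := by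
            refine setIntegral_mono_on (Pig.intOn_sub hc (hΩb _))
              (Pig.intOn_sub continuous_const (hΩb _)) (hΩo _).measurableSet ?_
            intro z hz
            have := hbd s hs s' hs' z hz
            rw [← sq_abs]
            have h0 := abs_nonneg (φ s z - φ s' z)
            nlinarith
        _ ≤ ∫ _z in Metric.closedBall (0 : PP) 2, (1 : ℝ) :=
            setIntegral_mono_set (Pig.intOn_sub continuous_const subset_rfl)
              (Filter.Eventually.of_forall fun z => zero_le_one) (hΩb _).eventuallyLE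
        _ = 16 * ((C + 36) * h ^ 2) ^ 0 := by
            rw [pow_zero, mul_one, integral_const, smul_eq_mul, mul_one, measureReal_restrict_apply_univ]
            have : Metric.closedBall (0 : PP) 2
                = Metric.closedBall (0 : ℝ) 2 ×ˢ Metric.closedBall (0 : ℝ) 2 := by
              rw [closedBall_prod_same]; rfl
            rw [this, Measure.real, Measure.volume_eq_prod, Measure.prod_prod,
              Real.volume_closedBall, ENNReal.toReal_mul, ENNReal.toReal_ofReal (by norm_num)]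
            norm_num
    | succ j ih =>
      intro hj
      obtain ⟨T', hT', hc', hL'⟩ := ih (by omega)
      have hE0 : 0 < 16 * ((C + 36) * h ^ 2) ^ j := by positivity
      have hcard' : Real.exp (1000 / h ^ 3) * Real.exp ((J - (j + 1 : ℕ) : ℝ) * (1000 / h ^ 3))
          < T'.card := by
        rw [← Real.exp_add]
        refine lt_of_eq_of_lt ?_ hc'
        congr 1
        push_cast
        ring
      obtain ⟨T'', hT'', hc'', hL''⟩ := Pig.step hC hh h1 hwh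
        (hΩb (2 * j)) (hsub (2 * j)) (hΩn (2 * j + 1)) T' φ (fun s hs => hφ s (hT' hs)) hE0 hL'
        (fun s hs s' hs' => (hen s (hT' hs) s' (hT' hs') (2 * j) (by omega)).trans
          (mul_le_mul_of_nonneg_left (hL' s hs s' hs') hC.le))
        (Real.exp_pos _).le hcard'
      refine ⟨T'', hT''.trans hT', hc'', ?_⟩
      intro s hs s' hs'
      have e1 : 2 * (j + 1) = 2 * j + 1 + 1 := by ring
      rw [e1]
      refine (hL'' s hs s' hs').trans (le_of_eq ?_)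
      ring
  obtain ⟨T', hT', hc', hL'⟩ := main J le_rfl
  have h2 : 1 < T'.card := by
    have : (1 : ℝ) < T'.card := by simpa using hc'
    exact_mod_cast this
  obtain ⟨s, hs, s', hs', hne⟩ := Finset.one_lt_card.1 h2
  refine ⟨s, hT' hs, s', hT' hs', hne, (hL' s hs s' hs').trans ?_⟩
  have e0 : (√(16 * (C + 36)) * h) ^ (2 * J) = 16 ^ J * ((C + 36) * h ^ 2) ^ J := by
    rw [pow_mul, mul_pow √(16 * (C + 36)) h 2, Real.sq_sqrt (by positivity), ← mul_pow]
    congr 1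
    ring
  rw [e0]
  have e3 : (16 : ℝ) ≤ 16 ^ J := by
    calc (16 : ℝ) = 16 ^ 1 := by norm_num
      _ ≤ 16 ^ J := pow_le_pow_right₀ (by norm_num) hJ
  gcongr

end Crest.Agent.Iso341
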