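import Crest.Agent.Iso341.CoreH
import Crest.Agent.Iso341.Pigeon

/-! S0341, core part I: the pigeonhole argument for the family. -/

set_option autoImplicit false

open MeasureTheory Set Filter Topology
open scoped ContDiff

namespace Crest.Agent.Iso341

/-- the nested regions of the base chart -/
noncomputable def Oj (σ : ℝ) (p₀ Y₀ : PP → ℝ) (J : ℕ) (j : ℕ) : Set PP :=
  if j ≤ 2 * J + 1 then Om σ p₀ Y₀ (Rj (2 * J + 2) j) (dj σ (2 * J + 2) j) else ∅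

theorem Oj_of_le {σ : ℝ} {p₀ Y₀ : PP → ℝ} {J j : ℕ} (h : j ≤ 2 * J + 1) :
    Oj σ p₀ Y₀ J j = Om σ p₀ Y₀ (Rj (2 * J + 2) j) (dj σ (2 * J + 2) j) := if_pos h

theorem Oj_open {σ : ℝ} {p₀ Y₀ : PP → ℝ} (hp : Continuous p₀) (hY : Continuous Y₀) (J j : ℕ) :
    IsOpen (Oj σ p₀ Y₀ J j) := by
  unfold Oj
  split_ifs
  · exact isOpen_Om hp hY _ _
  · exact isOpen_empty

theorem Oj_bdd {σ : ℝ} {p₀ Y₀ : PP → ℝ} (hch : Chart (1 / 64) p₀ Y₀) (J j : ℕ) :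
    Oj σ p₀ Y₀ J j ⊆ Metric.closedBall 0 2 := by
  intro z hz
  unfold Oj at hz
  split_ifs at hz with h
  · refine hch.disc_sub (by norm_num) ?_
    obtain ⟨a1, a2⟩ := Rj_bounds (M := 2 * J + 2) (j := j) (by omega)
    have := hz.1
    nlinarith
  · exact absurd hz (notMem_empty z)

theorem Oj_ball {σ Cω η : ℝ} (hσ : 0 < σ) (hσ1 : σ ≤ 1) (hCω : 0 < Cω)
    (hlip : ∀ y y', |om y - om y'| ≤ Cω * |y - y'|) {J : ℕ} (hη : 0 < η)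
    (hη1 : η ≤ 1 / (200 * (2 * J + 2 : ℕ))) (hη2 : η * (1 + Cω) ≤ σ / (16 * (2 * J + 2 : ℕ)))
    {p₀ Y₀ : PP → ℝ} (hch : Chart (1 / 64) p₀ Y₀) (j : ℕ) :
    ∀ z ∈ Oj σ p₀ Y₀ J (j + 1), Metric.ball z (η / 2) ⊆ Oj σ p₀ Y₀ J j := by
  intro z hz w hw
  unfold Oj at hz
  split_ifs at hz with h
  swap
  · exact absurd hz (notMem_empty z)
  rw [Oj_of_le (by omega)]
  set M : ℕ := 2 * J + 2 with hMdef
  have hM : 0 < M := by omega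
  have hM' : (0 : ℝ) < M := by exact_mod_cast hM
  have hM1 : (1 : ℝ) ≤ M := by exact_mod_cast hM
  set u : ℝ := 1 / M with hu
  have hu0 : 0 < u := by positivity
  have hu1 : u ≤ 1 := by rw [hu]; exact div_le_one_of_le₀ hM1 hM'.le
  have hη1' : η ≤ u / 200 := by
    refine hη1.trans (le_of_eq ?_); rw [hu]; field_simp
  have hη2' : η * (1 + Cω) ≤ σ / 4 * u / 4 := by
    refine hη2.trans (le_of_eq ?_); rw [hu]; field_simp; norm_num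
  obtain ⟨a1, a2⟩ := Rj_bounds (M := M) (j := j) (by omega)
  obtain ⟨a3, a4⟩ := Rj_bounds (M := M) (j := j + 1) (by omega)
  have hRs := Rj_succ (M := M) j
  have hds := dj_succ (σ := σ) (M := M) j
  rw [← hu] at hRs hds
  have hσu : 0 < σ * u := by positivity
  have hnorm : ‖w - z‖ ≤ η / 2 := by
    rw [← dist_eq_norm]; exact (Metric.mem_ball.1 hw).le
  have d1 : |p₀ w - p₀ z| ≤ η := by
    have := hch.lip_p w z
    nlinarith [norm_nonneg (w - z)]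
  have d2 : |Y₀ w - Y₀ z| ≤ η := by
    have := hch.lip_Y w z
    nlinarith [norm_nonneg (w - z)]
  refine om_step hCω.le hlip hσ.le hσ1 (R := Rj M (j + 1)) (by nlinarith) hη.le d1 d2 ?_ ?_ hz
  · have e : Rj M j = Rj M (j + 1) + 3 / 20 * u := by linarith
    rw [e]
    nlinarith
  · have : η * (1 + Cω) ≤ σ / 4 * u := by nlinarith
    linarith

set_option maxHeartbeats 1000000 in
theorem family_small {κ σ δ₀ : ℝ} (hσ : 0 < σ) (hσ1 : σ ≤ 1) (hδ₀ : δ₀ ≤ 1 / 2)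
    (hen : ∀ R R' d d' : ℝ, 4 / 5 ≤ R' → R' < R → R ≤ 19 / 20 →
      σ / 16 ≤ d → d < d' → d' ≤ σ / 2 →
      ∃ C : ℝ, 0 < C ∧ ∀ p Y k φ : PP → ℝ, Chart δ₀ p Y → Pocket δ₀ p Y k →
        ContDiff ℝ ∞ φ → (∀ z ∈ Om σ p Y R d, LL κ p Y k φ z = 0) →
        ∫ z in Om σ p Y R' d', (dx φ z ^ 2 + dy φ z ^ 2)
          ≤ C * ∫ z in Om σ p Y R d, φ z ^ 2) (L : ℕ) :
    ∃ η K : ℝ, 0 < η ∧ η ≤ σ / 64 ∧ 0 < K ∧ ∀ c' : ℝ, 0 < c' → ∀ N : ℕ, ∃ ρ₀ : ℝ, 0 < ρ₀ ∧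
      ∀ ρ : ℝ, 0 < ρ → ρ ≤ ρ₀ → ∀ n : ℕ, c' ≤ (n + 1) * ρ →
      ∀ T : Finset (Fin n → Bool), 2 ^ n ≤ N * T.card →
      ∀ (p₀ Y₀ : PP → ℝ) (f : (Fin n → Bool) → PP → ℝ), Chart (1 / 64) p₀ Y₀ →
      (∀ b ∈ T, ContDiff ℝ ∞ (f b)) → (∀ b ∈ T, ∀ b' ∈ T, ∀ z, |f b z - f b' z| ≤ 1) →
      (∀ b ∈ T, ∀ b' ∈ T, ∃ p Y k : PP → ℝ, Chart δ₀ p Y ∧ Pocket δ₀ p Y k ∧
        (∀ z, |p z - p₀ z| ≤ η) ∧ (∀ z, |Y z - Y₀ z| ≤ η) ∧
        ∀ R d : ℝ, R ^ 2 ≤ 1 → σ / 16 ≤ d → ∀ z ∈ Om σ p Y R d,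
          LL κ p Y k (fun w => f b w - f b' w) z = 0) →
      ∃ b ∈ T, ∃ b' ∈ T, b ≠ b' ∧
        ∫ z in Om σ p₀ Y₀ (4 / 5) (3 * σ / 8), ((f b z - f b' z) ^ 2
          + dx (fun w => f b w - f b' w) z ^ 2 + dy (fun w => f b w - f b' w) z ^ 2)
          ≤ (K * ρ ^ (L + 20)) ^ 2 := by
  obtain ⟨Cω, hCω, hlip⟩ := core_om_lip
  set J : ℕ := 4 * (L + 20) with hJ
  have hJ0 : 0 < J := by omega
  have hM0 : (0 : ℝ) < ((2 * J + 2 : ℕ) : ℝ) := by positivity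
  set η : ℝ := min (1 / (200 * ((2 * J + 2 : ℕ) : ℝ)))
    (min (σ / (16 * ((2 * J + 2 : ℕ) : ℝ)) / (1 + Cω)) (σ / 64)) with hηdef
  have hη : 0 < η := lt_min (by positivity) (lt_min (by positivity) (by positivity))
  have hη1 : η ≤ 1 / (200 * ((2 * J + 2 : ℕ) : ℝ)) := min_le_left _ _
  have hη2 : η * (1 + Cω) ≤ σ / (16 * ((2 * J + 2 : ℕ) : ℝ)) := by
    have : η ≤ σ / (16 * ((2 * J + 2 : ℕ) : ℝ)) / (1 + Cω) :=
      (min_le_right _ _).trans (min_le_left _ _)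
    rwa [le_div_iff₀ (by positivity)] at this
  have hη3 : η ≤ σ / 64 := (min_le_right _ _).trans (min_le_right _ _)
  obtain ⟨C, hC, hE⟩ := energy_steps (κ := κ) hσ hσ1 hδ₀ hCω hlip hen (M := 2 * J + 2) (by omega)
    hη hη1 hη2
  obtain ⟨C3, hC3, hP⟩ := pigeon J hJ0 (η / 2) C (by positivity) hC
  refine ⟨η, (1 + C) * C3 ^ J, hη, hη3, by positivity, ?_⟩
  intro c' hc' N
  obtain ⟨h₀, hh₀, hh₀1, hcard⟩ := card_choice c' hc' N J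
  set h₁ : ℝ := min h₀ (η / 8) with hh₁
  have hh₁0 : 0 < h₁ := lt_min hh₀ (by positivity)
  refine ⟨h₁ ^ 4, by positivity, ?_⟩
  intro ρ hρ hρ0 n hn T hT p₀ Y₀ f hch₀ hf hfb hpair
  set h : ℝ := √√ρ with hh
  have hh0 : 0 < h := Real.sqrt_pos.2 (Real.sqrt_pos.2 hρ)
  have h4 : h ^ 4 = ρ := by
    rw [show h ^ 4 = (h ^ 2) ^ 2 by ring, hh, Real.sq_sqrt (Real.sqrt_nonneg _),
      Real.sq_sqrt hρ.le]
  have hhh : h ≤ h₁ := by
    refine le_of_pow_le_pow_left₀ (n := 4) (by norm_num) hh₁0.le ?_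
    rw [h4]; exact hρ0
  have hhh0 : h ≤ h₀ := hhh.trans (min_le_left _ _)
  have hhη : h ≤ η / 8 := hhh.trans (min_le_right _ _)
  have hh1 : h ≤ 1 := hhh0.trans hh₀1
  have hTc : Real.exp (J * (1000 / h ^ 3)) < T.card :=
    hcard h hh0 hhh0 n (by rw [h4]; exact hn) T.card hT
  have hEE : ∀ b ∈ T, ∀ b' ∈ T, ∀ j < 2 * J,
      ∫ z in Oj σ p₀ Y₀ J (j + 1), (dx (fun w => f b w - f b' w) z ^ 2
        + dy (fun w => f b w - f b' w) z ^ 2)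
        ≤ C * ∫ z in Oj σ p₀ Y₀ J j, (f b z - f b' z) ^ 2 := by
    intro b hb b' hb' j hj
    obtain ⟨p, Y, k, h1, h2, h3, h4, h5⟩ := hpair b hb b' hb'
    rw [Oj_of_le (by omega), Oj_of_le (by omega)]
    exact hE j (by omega) p₀ Y₀ p Y k _ h1 h2 hch₀ h3 h4 ((hf b hb).sub (hf b' hb')) h5
  obtain ⟨b, hb, b', hb', hbb, hI⟩ := hP h hh0 hh1 (by linarith) (Oj σ p₀ Y₀ J)
    (Oj_open hch₀.smp.continuous hch₀.smY.continuous J) (Oj_bdd hch₀ J)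
    (Oj_ball hσ hσ1 hCω hlip hη hη1 hη2 hch₀) (Fin n → Bool) T f hf
    (fun b hb b' hb' z _ => hfb b hb b' hb' z) hEE hTc
  refine ⟨b, hb, b', hb', hbb, ?_⟩
  have hζ : ContDiff ℝ ∞ (fun w => f b w - f b' w) := (hf b hb).sub (hf b' hb')
  have hG : ∫ z in Oj σ p₀ Y₀ J (2 * J + 1),
      (dx (fun w => f b w - f b' w) z ^ 2 + dy (fun w => f b w - f b' w) z ^ 2)
      ≤ C * ∫ z in Oj σ p₀ Y₀ J (2 * J), (f b z - f b' z) ^ 2 := by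
    obtain ⟨p, Y, k, h1, h2, h3, h4, h5⟩ := hpair b hb b' hb'
    rw [Oj_of_le (by omega), Oj_of_le (by omega)]
    exact hE (2 * J) (by omega) p₀ Y₀ p Y k _ h1 h2 hch₀ h3 h4 hζ h5
  -- inclusion of the final region
  have hsub : Om σ p₀ Y₀ (4 / 5) (3 * σ / 8) ⊆ Oj σ p₀ Y₀ J (2 * J + 1) := by
    rw [Oj_of_le le_rfl]
    obtain ⟨a1, a2⟩ := Rj_bounds (M := 2 * J + 2) (j := 2 * J + 1) (by omega)
    obtain ⟨b1, b2⟩ := dj_bounds hσ (M := 2 * J + 2) (j := 2 * J + 1) (by omega)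
    intro z hz
    refine ⟨hz.1.trans_le ?_, b2.trans_lt hz.2⟩
    nlinarith
  have hsub2 : Oj σ p₀ Y₀ J (2 * J + 1) ⊆ Oj σ p₀ Y₀ J (2 * J) := fun z hz =>
    Oj_ball hσ hσ1 hCω hlip hη hη1 hη2 hch₀ (2 * J) z hz (Metric.mem_ball_self (by positivity))
  have c1 : Continuous fun z => (f b z - f b' z) ^ 2 := hζ.continuous.pow 2
  have c2 : Continuous fun z => dx (fun w => f b w - f b' w) z ^ 2
      + dy (fun w => f b w - f b' w) z ^ 2 :=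
    ((core_smooth_dx hζ).continuous.pow 2).add ((core_smooth_dy hζ).continuous.pow 2)
  have i1 : ∫ z in Oj σ p₀ Y₀ J (2 * J + 1), (f b z - f b' z) ^ 2
      ≤ ∫ z in Oj σ p₀ Y₀ J (2 * J), (f b z - f b' z) ^ 2 :=
    setIntegral_mono_set (integrable_of_bdd_cont c1 (Oj_bdd hch₀ J _))
      (Eventually.of_forall fun z => by positivity) hsub2.eventuallyLE
  have i2 : ∫ z in Om σ p₀ Y₀ (4 / 5) (3 * σ / 8), ((f b z - f b' z) ^ 2
          + dx (fun w => f b w - f b' w) z ^ 2 + dy (fun w => f b w - f b' w) z ^ 2)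
      ≤ ∫ z in Oj σ p₀ Y₀ J (2 * J + 1), ((f b z - f b' z) ^ 2
          + dx (fun w => f b w - f b' w) z ^ 2 + dy (fun w => f b w - f b' w) z ^ 2) := by
    apply setIntegral_mono_set _ (Eventually.of_forall fun z => by positivity)
      hsub.eventuallyLE
    have : Continuous fun z => (f b z - f b' z) ^ 2 + (dx (fun w => f b w - f b' w) z ^ 2
      + dy (fun w => f b w - f b' w) z ^ 2) := c1.add c2
    simp only [← add_assoc] at this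
    exact integrable_of_bdd_cont this (Oj_bdd hch₀ J _)
  have i3 : ∫ z in Oj σ p₀ Y₀ J (2 * J + 1), ((f b z - f b' z) ^ 2
          + dx (fun w => f b w - f b' w) z ^ 2 + dy (fun w => f b w - f b' w) z ^ 2)
      = (∫ z in Oj σ p₀ Y₀ J (2 * J + 1), (f b z - f b' z) ^ 2)
        + ∫ z in Oj σ p₀ Y₀ J (2 * J + 1), (dx (fun w => f b w - f b' w) z ^ 2
          + dy (fun w => f b w - f b' w) z ^ 2) := by
    rw [← integral_add (integrable_of_bdd_cont c1 (Oj_bdd hch₀ J _))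
      (integrable_of_bdd_cont c2 (Oj_bdd hch₀ J _))]
    congr 1; funext z; ring
  rw [i3] at i2
  have e1 : (C3 * h) ^ (2 * J) = (C3 ^ J * ρ ^ (L + 20)) ^ 2 := by
    have : h ^ (2 * J) = (ρ ^ (L + 20)) ^ 2 := by
      rw [← h4, ← pow_mul, ← pow_mul, hJ]
      congr 1; ring
    rw [mul_pow, mul_pow, this, pow_mul C3 2 J]
    ring
  have e2 : (((1 + C) * C3 ^ J) * ρ ^ (L + 20)) ^ 2
      = (1 + C) ^ 2 * (C3 ^ J * ρ ^ (L + 20)) ^ 2 := by ring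
  rw [e2]
  rw [e1] at hI
  have e3 : 0 ≤ (C3 ^ J * ρ ^ (L + 20)) ^ 2 := sq_nonneg _
  calc _ ≤ (∫ z in Oj σ p₀ Y₀ J (2 * J), (f b z - f b' z) ^ 2)
        + C * ∫ z in Oj σ p₀ Y₀ J (2 * J), (f b z - f b' z) ^ 2 := by linarith
    _ = (1 + C) * ∫ z in Oj σ p₀ Y₀ J (2 * J), (f b z - f b' z) ^ 2 := by ring
    _ ≤ (1 + C) * (C3 ^ J * ρ ^ (L + 20)) ^ 2 := mul_le_mul_of_nonneg_left hI (by positivity)
    _ ≤ (1 + C) ^ 2 * (C3 ^ J * ρ ^ (L + 20)) ^ 2 := by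
      apply mul_le_mul_of_nonneg_right _ e3
      nlinarith

end Crest.Agent.Iso341
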