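import Mathlib

/-! S0341 (a smooth metric without local smooth isometric immersion): shared definitions.
All the analysis is done for globally smooth functions on the plane `PP = ℝ × ℝ`. -/

set_option autoImplicit false

open MeasureTheory Set
open scoped ContDiff

namespace Crest.Agent.Iso341

/-- the plane -/
abbrev PP : Type := ℝ × ℝ

/-- the partial derivative in the first variable -/
noncomputable def dx (f : PP → ℝ) (z : PP) : ℝ := fderiv ℝ f z (1, 0)

/-- the partial derivative in the second variable -/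
noncomputable def dy (f : PP → ℝ) (z : PP) : ℝ := fderiv ℝ f z (0, 1)

/-- the Poisson bracket `{f, g} = f_x g_y - f_y g_x` -/
noncomputable def br (f g : PP → ℝ) (z : PP) : ℝ := dx f z * dy g z - dy f z * dx g z

/-- derivative along the coordinate `p` in the chart `(p, Y)` -/
noncomputable def Dp (p Y f : PP → ℝ) (z : PP) : ℝ := br f Y z / br p Y z

/-- derivative along the coordinate `Y` in the chart `(p, Y)` -/
noncomputable def Dy (p Y f : PP → ℝ) (z : PP) : ℝ := br p f z / br p Y z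

/-- `Cl n f A c`: all partial derivatives of `f` of order at most `n` are at most `c` on `A` -/
def Cl : ℕ → (PP → ℝ) → Set PP → ℝ → Prop
  | 0, f, A, c => ∀ z ∈ A, |f z| ≤ c
  | n + 1, f, A, c => (∀ z ∈ A, |f z| ≤ c) ∧ Cl n (dx f) A c ∧ Cl n (dy f) A c

/-- `(p, Y)` is a chart of the whole plane `δ`-close (in `C¹`) to the identity -/
structure Chart (δ : ℝ) (p Y : PP → ℝ) : Prop where
  smp : ContDiff ℝ ∞ p
  smY : ContDiff ℝ ∞ Y
  p0 : ∀ z, |p z - z.1| ≤ δ
  Y0 : ∀ z, |Y z - z.2| ≤ δ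
  px : ∀ z, |dx p z - 1| ≤ δ
  py : ∀ z, |dy p z| ≤ δ
  Yx : ∀ z, |dx Y z| ≤ δ
  Yy : ∀ z, |dy Y z - 1| ≤ δ

/-- the coefficient `k` is close to `p² + Y² - 1/4` (negative in the round pocket of radius
`1/2`, positive around it) -/
structure Pocket (δ : ℝ) (p Y k : PP → ℝ) : Prop where
  smk : ContDiff ℝ ∞ k
  k0 : ∀ z, p z ^ 2 + Y z ^ 2 < 1 → |k z - (p z ^ 2 + Y z ^ 2 - 1 / 4)| ≤ δ
  kp : ∀ z, p z ^ 2 + Y z ^ 2 < 1 → |Dp p Y k z - 2 * p z| ≤ δ
  ky : ∀ z, p z ^ 2 + Y z ^ 2 < 1 → |Dy p Y k z - 2 * Y z| ≤ δ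
  kpp : ∀ z, p z ^ 2 + Y z ^ 2 < 1 → |Dp p Y (Dp p Y k) z| ≤ 3
  kyy : ∀ z, p z ^ 2 + Y z ^ 2 < 1 → |Dy p Y (Dy p Y k) z| ≤ 3

/-- smooth step in `|y|`: `0` for `|y| ≤ 1/16`, `1` for `|y| ≥ 1/4` -/
noncomputable def om (y : ℝ) : ℝ := Real.smoothTransition ((256 * y ^ 2 - 1) / 15)

/-- the region `p² + Y² < R²` outside the diamond `|p| + σ ω(Y) ≤ d` -/
def Om (σ : ℝ) (p Y : PP → ℝ) (R d : ℝ) : Set PP :=
  {z | p z ^ 2 + Y z ^ 2 < R ^ 2 ∧ d < |p z| + σ * om (Y z)}

/-- the second order operator `φ ↦ φ_YY + κ (k φ_p)_p` in the chart `(p, Y)` -/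
noncomputable def LL (κ : ℝ) (p Y k φ : PP → ℝ) (z : PP) : ℝ :=
  Dy p Y (Dy p Y φ) z + κ * Dp p Y (fun w => k w * Dp p Y φ w) z

/-- `(X, Y, f)` is a `C⁴` small perturbation of `(x, y, x²/2)`, equal to it outside the
disc of radius `2` -/
structure Near (δ : ℝ) (X Y f : PP → ℝ) : Prop where
  smX : ContDiff ℝ ∞ X
  smY : ContDiff ℝ ∞ Y
  smf : ContDiff ℝ ∞ f
  out : ∀ z : PP, 4 ≤ z.1 ^ 2 + z.2 ^ 2 → X z = z.1 ∧ Y z = z.2 ∧ f z = z.1 ^ 2 / 2
  clX : Cl 4 (fun z => X z - z.1) univ δ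
  clY : Cl 4 (fun z => Y z - z.2) univ δ
  clf : Cl 4 (fun z => f z - z.1 ^ 2 / 2) univ δ

/-- the slope `p = f_X` (derivative of `f` in the chart `(X, Y)`) -/
noncomputable def slp (X Y f : PP → ℝ) (z : PP) : ℝ := br f Y z / br X Y z

/-- the slope `q = f_Y` (derivative of `f` in the chart `(X, Y)`) -/
noncomputable def slq (X Y f : PP → ℝ) (z : PP) : ℝ := br X f z / br X Y z

/-- `det D²f` in the chart `(X, Y)` -/
noncomputable def KK (X Y f : PP → ℝ) (z : PP) : ℝ :=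
  br (slp X Y f) (slq X Y f) z / br X Y z

/-- source density, first component: `- div (G ∇Y)`, `G = H / {X, Y}` -/
noncomputable def r1 (X Y H : PP → ℝ) (z : PP) : ℝ :=
  - (dx (fun w => H w / br X Y w * dx Y w) z + dy (fun w => H w / br X Y w * dy Y w) z)

/-- source density, second component: `div (G ∇X)`, `G = H / {X, Y}` -/
noncomputable def r2 (X Y H : PP → ℝ) (z : PP) : ℝ :=
  dx (fun w => H w / br X Y w * dx X w) z + dy (fun w => H w / br X Y w * dy X w) z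

/-- the source term of the equation of the vertical component -/
noncomputable def SS (m : ℝ) (X Y f H : PP → ℝ) (z : PP) : ℝ :=
  1 / m * (Dy (slp X Y f) Y (fun w => r1 X Y H w / br (slp X Y f) Y w) z
    - Dp (slp X Y f) Y (fun w => (br (slp X Y f) X w / br (slp X Y f) Y w * r1 X Y H w
        + r2 X Y H w) / br X Y w) z)

/-- profile (function of `|z|²`) of the main part of the conformal exponent; the minus
Laplacian of `z ↦ prof |z|²` is `|z|² - 1/4` for `|z|² < 9/4` -/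
noncomputable def prof (t : ℝ) : ℝ := Real.smoothTransition (10 - 4 * t) * ((t - t ^ 2) / 16)

/-- bump profile (function of `|z|²`): equal to `1` for `t ≤ 1/16`, to `0` for `t ≥ 1/4` -/
noncomputable def bump (t : ℝ) : ℝ := Real.smoothTransition ((4 - 16 * t) / 3)

/-- the normalised conformal exponent with tiny bumps at the points `8 ρ (i+1)/ce • (c, s)` -/
noncomputable def expo {n : ℕ} (ρ : ℝ) (L : ℕ) (ce c s : ℝ) (b : Fin n → Bool) (z : PP) : ℝ :=
  prof (z.1 ^ 2 + z.2 ^ 2) + ρ ^ L * ∑ i : Fin n, (if b i then 1 else 0) *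
    bump (((z.1 - 8 * ρ * (i + 1) / ce * c) ^ 2 + (z.2 - 8 * ρ * (i + 1) / ce * s) ^ 2) / ρ ^ 2)

end Crest.Agent.Iso341
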