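import Crest.Agent.Iso341.Defs

set_option autoImplicit false

open MeasureTheory Set
open scoped ContDiff

namespace Crest.Agent.Iso341

/-! ENERGY, first part: the one dimensional smooth steps `om`, `th` and the pointwise positivity
of the one sided quadratic form. -/

theorem contDiff_om : ContDiff ℝ ∞ om := by
  unfold om
  refine Real.smoothTransition.contDiff.comp ?_
  fun_prop

theorem om_nonneg (y : ℝ) : 0 ≤ om y := Real.smoothTransition.nonneg _

theorem om_le_one (y : ℝ) : om y ≤ 1 := Real.smoothTransition.le_one _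

theorem om_eq_one {y : ℝ} (hy : 1 / 4 ≤ |y|) : om y = 1 := by
  unfold om
  apply Real.smoothTransition.one_of_one_le
  have h1 : (1 / 4 : ℝ) ^ 2 ≤ |y| ^ 2 := by gcongr
  rw [sq_abs] at h1
  linarith

theorem deriv_om_eq_zero {y : ℝ} (hy : 1 / 4 < |y|) : deriv om y = 0 := by
  have hopen : IsOpen {y : ℝ | 1 / 4 < |y|} := isOpen_lt continuous_const continuous_abs
  have h1 : om =ᶠ[nhds y] fun _ => (1 : ℝ) := by
    filter_upwards [hopen.mem_nhds hy] with x hx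
    exact om_eq_one (le_of_lt hx)
  rw [h1.deriv_eq]
  simp

theorem exists_deriv_om_bound : ∃ Com : ℝ, 1 ≤ Com ∧ ∀ y, |deriv om y| ≤ Com := by
  have hcont : Continuous (deriv om) := contDiff_om.continuous_deriv (by simp)
  obtain ⟨C, hC⟩ := (isCompact_Icc (a := (-(1 / 4) : ℝ)) (b := 1 / 4)).exists_bound_of_continuousOn
    hcont.continuousOn
  refine ⟨max C 1, le_max_right _ _, fun y => ?_⟩
  by_cases hy : |y| ≤ 1 / 4
  · have := hC y (abs_le.1 hy)
    rw [Real.norm_eq_abs] at this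
    exact this.trans (le_max_left _ _)
  · rw [deriv_om_eq_zero (not_le.1 hy)]
    simp

/-- the one sided step -/
noncomputable def th (d d' s : ℝ) : ℝ := Real.smoothTransition ((s - d) / (d' - d))

theorem contDiff_th (d d' : ℝ) : ContDiff ℝ ∞ (th d d') := by
  unfold th
  refine Real.smoothTransition.contDiff.comp ?_
  fun_prop

theorem th_nonneg (d d' s : ℝ) : 0 ≤ th d d' s := Real.smoothTransition.nonneg _

theorem th_le_one (d d' s : ℝ) : th d d' s ≤ 1 := Real.smoothTransition.le_one _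

theorem th_monotone {d d' : ℝ} (h : d < d') : Monotone (th d d') := by
  intro a b hab
  unfold th
  apply Real.smoothTransition.monotone
  have : 0 < d' - d := by linarith
  gcongr

theorem deriv_th_nonneg {d d' : ℝ} (h : d < d') (s : ℝ) : 0 ≤ deriv (th d d') s :=
  (th_monotone h).deriv_nonneg

theorem th_eq_zero {d d' s : ℝ} (h : d < d') (hs : s ≤ d) : th d d' s = 0 := by
  unfold th
  apply Real.smoothTransition.zero_of_nonpos
  apply div_nonpos_of_nonpos_of_nonneg <;> linarith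

theorem th_eq_one {d d' s : ℝ} (h : d < d') (hs : d' ≤ s) : th d d' s = 1 := by
  unfold th
  apply Real.smoothTransition.one_of_one_le
  rw [le_div_iff₀ (by linarith)]
  linarith

/-- the derivative of a smooth function constant on a half line vanishes on that half line -/
theorem deriv_eq_zero_of_const_Iic {f : ℝ → ℝ} (hf : Differentiable ℝ f) {c d s : ℝ}
    (h : ∀ x ≤ d, f x = c) (hs : s ≤ d) : deriv f s = 0 := by
  have h1 : derivWithin f (Iic s) s = deriv f s :=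
    (hf s).derivWithin (uniqueDiffWithinAt_Iic s)
  rw [← h1]
  have h2 : derivWithin f (Iic s) s = derivWithin (fun _ => c) (Iic s) s := by
    apply derivWithin_congr
    · intro x hx
      exact h x (le_trans hx hs)
    · exact h s hs
  rw [h2]
  simp

theorem deriv_eq_zero_of_const_Ici {f : ℝ → ℝ} (hf : Differentiable ℝ f) {c d s : ℝ}
    (h : ∀ x, d ≤ x → f x = c) (hs : d ≤ s) : deriv f s = 0 := by
  have h1 : derivWithin f (Ici s) s = deriv f s :=
    (hf s).derivWithin (uniqueDiffWithinAt_Ici s)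
  rw [← h1]
  have h2 : derivWithin f (Ici s) s = derivWithin (fun _ => c) (Ici s) s := by
    apply derivWithin_congr
    · intro x hx
      exact h x (le_trans hs hx)
    · exact h s hs
  rw [h2]
  simp

theorem deriv_th_eq_zero {d d' s : ℝ} (h : d < d') (hs : s ≤ d ∨ d' ≤ s) :
    deriv (th d d') s = 0 := by
  have hd : Differentiable ℝ (th d d') := (contDiff_th d d').differentiable (by simp)
  rcases hs with hs | hs
  · exact deriv_eq_zero_of_const_Iic hd (fun x hx => th_eq_zero h hx) hs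
  · exact deriv_eq_zero_of_const_Ici hd (fun x hx => th_eq_one h hx) hs

theorem deriv2_th_eq_zero {d d' s : ℝ} (h : d < d') (hs : s ≤ d ∨ d' ≤ s) :
    deriv (deriv (th d d')) s = 0 := by
  have hd : Differentiable ℝ (deriv (th d d')) := by
    have h1 : ContDiff ℝ 2 (th d d') := contDiff_infty.1 (contDiff_th d d') 2
    have h2 : ContDiff ℝ (1 + 1) (th d d') := by
      convert h1 using 1
      norm_num
    exact ((contDiff_succ_iff_deriv.1 h2).2.2).differentiable (by simp)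
  rcases hs with hs | hs
  · exact deriv_eq_zero_of_const_Iic hd (fun x hx => deriv_th_eq_zero h (Or.inl hx)) hs
  · exact deriv_eq_zero_of_const_Ici hd (fun x hx => deriv_th_eq_zero h (Or.inr hx)) hs

theorem quad_pos {A B C u v : ℝ} (hA : 0 < A) (h : C ^ 2 ≤ 4 * A * B) :
    0 ≤ A * u ^ 2 + B * v ^ 2 - C * (u * v) := by
  have h1 : 0 ≤ A * (A * u ^ 2 + B * v ^ 2 - C * (u * v)) := by
    have h2 : A * (A * u ^ 2 + B * v ^ 2 - C * (u * v))
        = (A * u - C * v / 2) ^ 2 + (4 * A * B - C ^ 2) / 4 * v ^ 2 := by ring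
    rw [h2]
    have h3 : 0 ≤ (4 * A * B - C ^ 2) / 4 := by linarith
    positivity
  exact nonneg_of_mul_nonneg_right h1 hA

/-- lower bound of the coefficient of `φ_p ^ 2` in the `th` part -/
theorem form_pos_aux {δ σ Y k ky q a g : ℝ} (hσ2 : σ ≤ 1 / 1000000)
    (hδ : 0 ≤ δ) (hδ0 : δ ≤ 1 / 5000) (hpY : q ^ 2 + Y ^ 2 < 1)
    (hk : |k - (q ^ 2 + Y ^ 2 - 1 / 4)| ≤ δ) (hg : |g - 2 * q| ≤ δ) (hky : |ky - 2 * Y| ≤ δ)
    (ha1 : 1 ≤ a) (ha2 : a ≤ 6) (hq : -σ ≤ q) :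
    3 / 50 ≤ (a * g + Y * ky) / 2 + k ^ 2 := by
  have hq2 : 0 ≤ q ^ 2 := sq_nonneg q
  have hY2 : 0 ≤ Y ^ 2 := sq_nonneg Y
  have hY1 : |Y| ≤ 1 := by
    rw [← abs_one, ← sq_le_sq]
    linarith
  have hq1 : q ≤ 1 := by
    have : |q| ≤ |(1 : ℝ)| := by
      rw [← sq_le_sq]
      linarith
    rw [abs_one] at this
    exact (abs_le.1 this).2
  obtain ⟨hg1, hg2⟩ := abs_le.1 hg
  have hYk : Y ^ 2 - δ / 2 ≤ Y * ky / 2 := by
    have h1 : |Y * (ky - 2 * Y)| ≤ 1 * δ := by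
      rw [abs_mul]
      exact mul_le_mul hY1 hky (abs_nonneg _) (by norm_num)
    have h2 := (abs_le.1 h1).1
    have h3 : Y * (ky - 2 * Y) = Y * ky - 2 * Y ^ 2 := by ring
    linarith
  obtain ⟨x, hx⟩ : ∃ x, x = q ^ 2 + Y ^ 2 - 1 / 4 := ⟨_, rfl⟩
  rw [← hx] at hk
  have hkk : x ^ 2 - 2 * δ ≤ k ^ 2 := by
    have h1 : |x * (k - x)| ≤ 1 * δ := by
      rw [abs_mul]
      refine mul_le_mul ?_ hk (abs_nonneg _) (by norm_num)
      rw [abs_le]
      constructor <;> linarith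
    have h2 := (abs_le.1 h1).1
    have h3 : k ^ 2 = x ^ 2 + 2 * (x * (k - x)) + (k - x) ^ 2 := by ring
    have h4 := sq_nonneg (k - x)
    linarith
  have hρ : 1 / 16 ≤ (x + 1 / 4) + x ^ 2 := by
    have h1 : (x + 1 / 4) + x ^ 2 = (x + 1 / 4) ^ 2 + (x + 1 / 4) / 2 + 1 / 16 := by ring
    have h2 := sq_nonneg (x + 1 / 4)
    linarith
  have hag : a * (2 * q - δ) ≤ a * g := by
    apply mul_le_mul_of_nonneg_left _ (by linarith)
    linarith
  have hadel : a * δ ≤ 6 * δ := mul_le_mul_of_nonneg_right ha2 hδ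
  have hag' : a * (2 * q - δ) = 2 * (a * q) - a * δ := by ring
  rcases le_or_gt 0 q with hq0 | hq0
  · have h1 : 1 * q ≤ a * q := mul_le_mul_of_nonneg_right ha1 hq0
    have h2 : q * q ≤ 1 * q := mul_le_mul_of_nonneg_right hq1 hq0
    rw [← sq] at h2
    linarith
  · have h2 : 6 * q ≤ a * q := mul_le_mul_of_nonpos_right ha2 hq0.le
    have h3 : q ^ 2 ≤ 1 / 1000000 := by
      have h4 : (-q) ^ 2 ≤ (1 / 1000000) ^ 2 := by
        have : 0 ≤ -q := by linarith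
        gcongr
        linarith
      have h5 : (-q) ^ 2 = q ^ 2 := by ring
      linarith [show ((1 : ℝ) / 1000000) ^ 2 ≤ 1 / 1000000 by norm_num]
    linarith

/-- the bound of the mixed coefficient in the `th'` part -/
theorem form_pos_aux2 {κ σ δ r Y k w W a q : ℝ}
    (hr0 : 0 < r) (hrκ : r ^ 2 = κ) (hr1 : r ≤ 1 / 1000) (hσ2 : σ ≤ 1 / 1000000)
    (hW : W = σ * w) (hW1 : |W| ≤ r / 1000) (hδ0 : δ ≤ 1 / 5000)
    (hk : |k - (q ^ 2 + Y ^ 2 - 1 / 4)| ≤ δ) (hY1 : |Y| ≤ 1)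
    (hw : w ≠ 0 → |Y| ≤ 1 / 4) (ha1 : 1 ≤ a) (ha2 : a ≤ 11 / 10) (hq : |q| ≤ σ) :
    |a * W + Y * (κ * k)| ≤ r * |k| := by
  have hκ : 0 < κ := by rw [← hrκ]; positivity
  have hrk : 0 ≤ r * |k| := by positivity
  have h1 : |Y * (κ * k)| ≤ r * |k| / 1000 := by
    rw [abs_mul, abs_mul, abs_of_pos hκ, ← hrκ]
    have h2 : |Y| * (r ^ 2 * |k|) ≤ 1 * (r ^ 2 * |k|) := by gcongr
    have h3 : r ^ 2 * |k| = r * (r * |k|) := by ring
    have h4 : r * (r * |k|) ≤ 1 / 1000 * (r * |k|) := by gcongr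
    linarith
  have h2 : |a * W| ≤ r * |k| / 100 := by
    by_cases hw0 : w = 0
    · rw [hW, hw0]
      simp only [mul_zero, abs_zero]
      positivity
    · have hY4 := hw hw0
      have hYsq : Y ^ 2 ≤ 1 / 16 := by
        rw [← sq_abs]
        calc |Y| ^ 2 ≤ (1 / 4) ^ 2 := by gcongr
          _ = 1 / 16 := by norm_num
      have hqs : q ^ 2 ≤ 1 / 1000000 := by
        rw [← sq_abs]
        calc |q| ^ 2 ≤ (1 / 1000000) ^ 2 := by
              gcongr
              linarith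
          _ ≤ 1 / 1000000 := by norm_num
      have hk2 := (abs_le.1 hk).2
      have hkup : k ≤ -(18 / 100) := by linarith
      have hkabs : 18 / 100 ≤ |k| := by
        rw [abs_of_neg (by linarith)]
        linarith
      rw [abs_mul, abs_of_pos (by linarith)]
      have h7 : a * |W| ≤ 11 / 10 * (r / 1000) := by gcongr
      have h8 : r * (18 / 100) ≤ r * |k| := by gcongr
      linarith
  have h3 := abs_add_le (a * W) (Y * (κ * k))
  linarith

/-- pointwise positivity of the one sided quadratic form (`t0 = th s`, `t1 = th' s`, `w = om' Y`,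
`o = om Y`, `u = φ_y`, `v = φ_p`, `e = ±1`) -/
theorem form_pos {κ σ δ d d' p Y k kp ky w o s t0 t1 u v e : ℝ} (hκ : 0 < κ)
    (hκ0 : κ ≤ 1 / 1000000) (hσ : 0 ≤ σ) (hσ1 : σ ≤ √κ / 1000) (hσw : σ * |w| ≤ √κ / 1000)
    (hδ : 0 ≤ δ) (hδ0 : δ ≤ 1 / 5000) (hd : 0 < d) (hd' : d' ≤ σ / 2)
    (he : e = 1 ∨ e = -1) (hpY : p ^ 2 + Y ^ 2 < 1) (ho : 0 ≤ o) (ho1 : o ≤ 1)
    (hk : |k - (p ^ 2 + Y ^ 2 - 1 / 4)| ≤ δ) (hkp : |kp - 2 * p| ≤ δ) (hky : |ky - 2 * Y| ≤ δ)
    (hw : w ≠ 0 → |Y| ≤ 1 / 4) (hs : s = e * p + σ * o) (ht0 : 0 ≤ t0) (ht1 : 0 ≤ t1)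
    (hs0 : s ≤ d → t0 = 0) (hs1 : s ≤ d ∨ d' ≤ s → t1 = 0) :
    2 * t0 * u ^ 2 + κ / 200 * t0 * v ^ 2 ≤
      (t1 * (1 + 4 * (s - d) - Y * σ * w + k) + t0 * (3 + k)) * u ^ 2
      + κ * ((e * (t0 * (1 + 4 * (s - d))) * kp + Y * t0 * ky) / 2 + (t0 + t1) * k ^ 2) * v ^ 2
      - (e * (t1 * (1 + 4 * (s - d)) + 4 * t0) * (σ * w) + e * Y * t1 * (κ * k)) * (u * v) := by
  -- `r = √κ`
  obtain ⟨r, hr⟩ : ∃ r, r = √κ := ⟨_, rfl⟩
  rw [← hr] at hσ1 hσw
  have hr0 : 0 < r := by rw [hr]; exact Real.sqrt_pos.2 hκ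
  have hrκ : r ^ 2 = κ := by rw [hr]; exact Real.sq_sqrt hκ.le
  have hr1 : r ≤ 1 / 1000 := by
    rw [hr]
    apply Real.sqrt_le_iff.2
    constructor
    · norm_num
    · linarith [show (1 / 1000 : ℝ) ^ 2 = 1 / 1000000 by norm_num]
  have hσ2 : σ ≤ 1 / 1000000 := by linarith
  -- `W = σ w`
  obtain ⟨W, hW⟩ : ∃ W, W = σ * w := ⟨_, rfl⟩
  have hW1 : |W| ≤ r / 1000 := by
    rw [hW, abs_mul, abs_of_nonneg hσ]
    exact hσw
  have hW2 : |W| ≤ 1 / 1000000 := by linarith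
  have hWsq : W ^ 2 ≤ κ / 1000000 := by
    rw [← sq_abs, ← hrκ]
    have : |W| ^ 2 ≤ (r / 1000) ^ 2 := by gcongr
    linarith [show (r / 1000) ^ 2 = r ^ 2 / 1000000 by ring]
  have he2 : e ^ 2 = 1 := by rcases he with h | h <;> rw [h] <;> norm_num
  -- `q = e p`
  obtain ⟨q, hq⟩ : ∃ q, q = e * p := ⟨_, rfl⟩
  have hqp : p ^ 2 = q ^ 2 := by rw [hq, mul_pow, he2, one_mul]
  obtain ⟨g, hg⟩ : ∃ g, g = e * kp := ⟨_, rfl⟩
  have hgq : |g - 2 * q| ≤ δ := by
    have h1 : g - 2 * q = e * (kp - 2 * p) := by rw [hg, hq]; ring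
    rw [h1, abs_mul]
    have h2 : |e| = 1 := by rcases he with h | h <;> rw [h] <;> norm_num
    rw [h2, one_mul]
    exact hkp
  rw [← hq] at hs
  rw [hqp] at hpY hk
  have hq2 : 0 ≤ q ^ 2 := sq_nonneg q
  have hY2 : 0 ≤ Y ^ 2 := sq_nonneg Y
  have hq1 : q ≤ 1 := by
    have : |q| ≤ |(1 : ℝ)| := by
      rw [← sq_le_sq]
      linarith
    rw [abs_one] at this
    exact (abs_le.1 this).2
  have hY1 : |Y| ≤ 1 := by
    rw [← abs_one, ← sq_le_sq]
    linarith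
  have hσo : σ * o ≤ σ := by
    calc σ * o ≤ σ * 1 := by gcongr
      _ = σ := mul_one σ
  have hσo0 : 0 ≤ σ * o := mul_nonneg hσ ho
  have hk1 := (abs_le.1 hk).1
  have hklow : -1 / 4 - δ ≤ k := by linarith
  -- the `t0` part
  have P0 : d < s → 0 ≤ (1 + k) * u ^ 2 + (κ * (((1 + 4 * (s - d)) * g + Y * ky) / 2 + k ^ 2
      - 1 / 200)) * v ^ 2 - (4 * e * W) * (u * v) := by
    intro hsd
    apply quad_pos
    · linarith
    · have hB : 3 / 50 ≤ ((1 + 4 * (s - d)) * g + Y * ky) / 2 + k ^ 2 :=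
        form_pos_aux hσ2 hδ hδ0 hpY hk hgq hky (by linarith) (by linarith) (by linarith)
      have h1 : (4 * e * W) ^ 2 = 16 * W ^ 2 := by
        rw [mul_pow, mul_pow, he2]; ring
      rw [h1]
      have h2 : (11 : ℝ) / 200 ≤ ((1 + 4 * (s - d)) * g + Y * ky) / 2 + k ^ 2 - 1 / 200 := by
        linarith
      have h3 : (7 / 10 : ℝ) ≤ 1 + k := by linarith
      have h4 : 4 * (7 / 10) * (κ * (11 / 200)) ≤ 4 * (1 + k) * (κ * (((1 + 4 * (s - d)) * g
          + Y * ky) / 2 + k ^ 2 - 1 / 200)) := by gcongr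
      linarith
  -- the `t1` part
  have P1 : d < s → s < d' → 0 ≤ (1 + 4 * (s - d) - Y * W + k) * u ^ 2 + (κ * k ^ 2) * v ^ 2
      - (e * ((1 + 4 * (s - d)) * W + Y * (κ * k))) * (u * v) := by
    intro hsd hsd'
    have hYW : |Y * W| ≤ 1 / 1000000 := by
      rw [abs_mul]
      calc |Y| * |W| ≤ 1 * (1 / 1000000) := by gcongr
        _ = 1 / 1000000 := by norm_num
    obtain ⟨hYW1, hYW2⟩ := abs_le.1 hYW
    have hA : 7 / 10 ≤ 1 + 4 * (s - d) - Y * W + k := by linarith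
    apply quad_pos
    · linarith
    · have hC : |(1 + 4 * (s - d)) * W + Y * (κ * k)| ≤ r * |k| :=
        form_pos_aux2 hr0 hrκ hr1 hσ2 hW hW1 hδ0 hk hY1 hw (by linarith)
          (by linarith) (abs_le.2 ⟨by linarith, by linarith⟩)
      have hC2 : (e * ((1 + 4 * (s - d)) * W + Y * (κ * k))) ^ 2 ≤ κ * k ^ 2 := by
        rw [mul_pow, he2, one_mul, ← sq_abs]
        calc |(1 + 4 * (s - d)) * W + Y * (κ * k)| ^ 2 ≤ (r * |k|) ^ 2 := by gcongr
          _ = κ * k ^ 2 := by rw [mul_pow, hrκ, sq_abs]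
      have h5 : 0 ≤ κ * k ^ 2 := by positivity
      have h6 : 4 * (7 / 10) * (κ * k ^ 2) ≤ 4 * (1 + 4 * (s - d) - Y * W + k) * (κ * k ^ 2) := by
        gcongr
      linarith
  -- conclusion
  have hP0 : 0 ≤ t0 * ((1 + k) * u ^ 2 + (κ * (((1 + 4 * (s - d)) * g + Y * ky) / 2 + k ^ 2
      - 1 / 200)) * v ^ 2 - (4 * e * W) * (u * v)) := by
    rcases le_or_gt s d with h | h
    · rw [hs0 h, zero_mul]
    · exact mul_nonneg ht0 (P0 h)
  have hP1 : 0 ≤ t1 * ((1 + 4 * (s - d) - Y * W + k) * u ^ 2 + (κ * k ^ 2) * v ^ 2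
      - (e * ((1 + 4 * (s - d)) * W + Y * (κ * k))) * (u * v)) := by
    rcases le_or_gt s d with h | h
    · rw [hs1 (Or.inl h), zero_mul]
    · rcases lt_or_ge s d' with h' | h'
      · exact mul_nonneg ht1 (P1 h h')
      · rw [hs1 (Or.inr h'), zero_mul]
  have key : (t1 * (1 + 4 * (s - d) - Y * σ * w + k) + t0 * (3 + k)) * u ^ 2
      + κ * ((e * (t0 * (1 + 4 * (s - d))) * kp + Y * t0 * ky) / 2 + (t0 + t1) * k ^ 2) * v ^ 2
      - (e * (t1 * (1 + 4 * (s - d)) + 4 * t0) * (σ * w) + e * Y * t1 * (κ * k)) * (u * v)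
      - (2 * t0 * u ^ 2 + κ / 200 * t0 * v ^ 2)
      = t0 * ((1 + k) * u ^ 2 + (κ * (((1 + 4 * (s - d)) * g + Y * ky) / 2 + k ^ 2
      - 1 / 200)) * v ^ 2 - (4 * e * W) * (u * v))
      + t1 * ((1 + 4 * (s - d) - Y * W + k) * u ^ 2 + (κ * k ^ 2) * v ^ 2
      - (e * ((1 + 4 * (s - d)) * W + Y * (κ * k))) * (u * v)) := by
    rw [hg, hW]
    ring
  linarith

end Crest.Agent.Iso341
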