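import Crest.Agent.Iso341.EnMult
import Crest.Agent.Iso341.EnPos

/-! S0341, ENERGY part 3: the multipliers and their derivatives. -/

set_option autoImplicit false

open MeasureTheory Set
open scoped ContDiff

namespace Crest.Agent.Iso341.En

/-- smooth cutoff: `1` for `t ≤ r1`, `0` for `t ≥ r2` -/
noncomputable def cut (r1 r2 t : ℝ) : ℝ := Real.smoothTransition ((r2 - t) / (r2 - r1))

theorem contDiff_cut (r1 r2 : ℝ) : ContDiff ℝ ∞ (cut r1 r2) := by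
  have : ContDiff ℝ ∞ Real.smoothTransition := Real.smoothTransition.contDiff
  exact this.comp (by fun_prop : ContDiff ℝ ∞ fun t : ℝ => (r2 - t) / (r2 - r1))

theorem cut_nonneg (r1 r2 t : ℝ) : 0 ≤ cut r1 r2 t := Real.smoothTransition.nonneg _
theorem cut_le_one (r1 r2 t : ℝ) : cut r1 r2 t ≤ 1 := Real.smoothTransition.le_one _

theorem cut_eq_one {r1 r2 t : ℝ} (h : r1 < r2) (ht : t ≤ r1) : cut r1 r2 t = 1 :=
  Real.smoothTransition.one_of_one_le (by rw [le_div_iff₀ (by linarith)]; linarith)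

theorem cut_eq_zero {r1 r2 t : ℝ} (h : r1 < r2) (ht : r2 ≤ t) : cut r1 r2 t = 0 :=
  Real.smoothTransition.zero_of_nonpos
    (div_nonpos_of_nonpos_of_nonneg (by linarith) (by linarith))

theorem deriv_cut_eq_zero_left {r1 r2 t : ℝ} (h : r1 < r2) (ht : t < r1) :
    deriv (cut r1 r2) t = 0 := by
  have : cut r1 r2 =ᶠ[nhds t] fun _ => 1 := by
    filter_upwards [Iio_mem_nhds ht] with w hw using cut_eq_one h (le_of_lt hw)
  rw [this.deriv_eq]; simp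

theorem deriv_cut_eq_zero_right {r1 r2 t : ℝ} (h : r1 < r2) (ht : r2 < t) :
    deriv (cut r1 r2) t = 0 := by
  have : cut r1 r2 =ᶠ[nhds t] fun _ => 0 := by
    filter_upwards [Ioi_mem_nhds ht] with w hw using cut_eq_zero h (le_of_lt hw)
  rw [this.deriv_eq]; simp

section multipliers

/-- `s = e p + σ ω(Y)` -/
noncomputable def sF (e σ : ℝ) (p Y : PP → ℝ) (z : PP) : ℝ := e * p z + σ * om (Y z)

/-- `t = p² + Y²` -/
noncomputable def tF (p Y : PP → ℝ) (z : PP) : ℝ := p z * p z + Y z * Y z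

noncomputable def aF (e σ d d' : ℝ) (p Y : PP → ℝ) (z : PP) : ℝ :=
  e * (th d d' (sF e σ p Y z) * (1 + 4 * (sF e σ p Y z - d)))

noncomputable def bF (e σ d d' : ℝ) (p Y : PP → ℝ) (z : PP) : ℝ :=
  Y z * th d d' (sF e σ p Y z)

noncomputable def lF (e σ d d' : ℝ) (p Y k : PP → ℝ) (z : PP) : ℝ :=
  -((th d d' (sF e σ p Y z) + deriv (th d d') (sF e σ p Y z)) * k z)
    - 1 / 2 * (deriv (th d d') (sF e σ p Y z)
      * (1 + 4 * (sF e σ p Y z - d) - Y z * (σ * deriv om (Y z)))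
      + 3 * th d d' (sF e σ p Y z))

noncomputable def XF (r1 r2 : ℝ) (p Y : PP → ℝ) (z : PP) : ℝ := cut r1 r2 (tF p Y z)

noncomputable def PF (r2 r3 : ℝ) (p Y : PP → ℝ) (z : PP) : ℝ :=
  (1 - cut (3 / 5) (31 / 50) (tF p Y z)) * cut r2 r3 (tF p Y z)

noncomputable def AM (e σ d d' r1 r2 : ℝ) (p Y : PP → ℝ) (z : PP) : ℝ :=
  XF r1 r2 p Y z * aF e σ d d' p Y z

noncomputable def BM (e σ d d' r1 r2 : ℝ) (p Y : PP → ℝ) (z : PP) : ℝ :=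
  XF r1 r2 p Y z * bF e σ d d' p Y z

noncomputable def LM (e σ d d' r1 r2 r3 N : ℝ) (p Y k : PP → ℝ) (z : PP) : ℝ :=
  XF r1 r2 p Y z * lF e σ d d' p Y k z - N * PF r2 r3 p Y z

variable {δ : ℝ}

theorem contDiff_deriv' {g : ℝ → ℝ} (hg : ContDiff ℝ ∞ g) : ContDiff ℝ ∞ (deriv g) :=
  (contDiff_infty_iff_deriv.1 hg).2

theorem UB_sF (hδ : δ ≤ 1 / 10) (e σ : ℝ) : UB δ (fun p Y _ => sF e σ p Y) :=
  ((UB.p hδ).const_mul hδ e).add hδ (((UB.Y hδ).comp hδ contDiff_om).const_mul hδ σ)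

theorem UB_tF (hδ : δ ≤ 1 / 10) : UB δ (fun p Y _ => tF p Y) :=
  ((UB.p hδ).mul hδ (UB.p hδ)).add hδ ((UB.Y hδ).mul hδ (UB.Y hδ))

theorem UB_aF (hδ : δ ≤ 1 / 10) (e σ d d' : ℝ) : UB δ (fun p Y _ => aF e σ d d' p Y) :=
  (((UB_sF hδ e σ).comp hδ (contDiff_th d d')).mul hδ
    ((UB.const 1).add hδ (((UB_sF hδ e σ).sub hδ (UB.const d)).const_mul hδ 4))).const_mul hδ e

theorem UB_bF (hδ : δ ≤ 1 / 10) (e σ d d' : ℝ) : UB δ (fun p Y _ => bF e σ d d' p Y) :=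
  (UB.Y hδ).mul hδ ((UB_sF hδ e σ).comp hδ (contDiff_th d d'))

theorem UB_lF (hδ : δ ≤ 1 / 10) (e σ d d' : ℝ) : UB δ (fun p Y k => lF e σ d d' p Y k) := by
  have h0 := (UB_sF hδ e σ).comp hδ (contDiff_th d d')
  have h1 := (UB_sF hδ e σ).comp hδ (contDiff_deriv' (contDiff_th d d'))
  have h2 := ((UB.Y hδ).comp hδ (contDiff_deriv' contDiff_om)).const_mul hδ σ
  have h3 := (UB.const (δ := δ) 1).add hδ (((UB_sF hδ e σ).sub hδ (UB.const d)).const_mul hδ 4)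
  exact (((h0.add hδ h1).mul hδ (UB.k hδ)).neg hδ).sub hδ
    (((h1.mul hδ (h3.sub hδ ((UB.Y hδ).mul hδ h2))).add hδ (h0.const_mul hδ 3)).const_mul hδ
      (1 / 2))

theorem UB_XF (hδ : δ ≤ 1 / 10) (r1 r2 : ℝ) : UB δ (fun p Y _ => XF r1 r2 p Y) :=
  (UB_tF hδ).comp hδ (contDiff_cut r1 r2)

theorem UB_PF (hδ : δ ≤ 1 / 10) (r2 r3 : ℝ) : UB δ (fun p Y _ => PF r2 r3 p Y) :=
  ((UB.const 1).sub hδ ((UB_tF hδ).comp hδ (contDiff_cut (3 / 5) (31 / 50)))).mul hδ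
    ((UB_tF hδ).comp hδ (contDiff_cut r2 r3))

theorem UB_AM (hδ : δ ≤ 1 / 10) (e σ d d' r1 r2 : ℝ) :
    UB δ (fun p Y _ => AM e σ d d' r1 r2 p Y) :=
  (UB_XF hδ r1 r2).mul hδ (UB_aF hδ e σ d d')

theorem UB_BM (hδ : δ ≤ 1 / 10) (e σ d d' r1 r2 : ℝ) :
    UB δ (fun p Y _ => BM e σ d d' r1 r2 p Y) :=
  (UB_XF hδ r1 r2).mul hδ (UB_bF hδ e σ d d')

theorem UB_LM (hδ : δ ≤ 1 / 10) (e σ d d' r1 r2 r3 N : ℝ) :
    UB δ (fun p Y k => LM e σ d d' r1 r2 r3 N p Y k) :=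
  ((UB_XF hδ r1 r2).mul hδ (UB_lF hδ e σ d d')).sub hδ ((UB_PF hδ r2 r3).const_mul hδ N)

end multipliers

section derivatives

variable {p Y k : PP → ℝ}

theorem contDiff_sF (hp : ContDiff ℝ ∞ p) (hY : ContDiff ℝ ∞ Y) (e σ : ℝ) :
    ContDiff ℝ ∞ (sF e σ p Y) := by
  have := contDiff_om.comp hY
  unfold sF
  exact (contDiff_const.mul hp).add (contDiff_const.mul this)

theorem contDiff_tF (hp : ContDiff ℝ ∞ p) (hY : ContDiff ℝ ∞ Y) : ContDiff ℝ ∞ (tF p Y) :=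
  (hp.mul hp).add (hY.mul hY)

theorem Dp_sF (hp : ContDiff ℝ ∞ p) (hY : ContDiff ℝ ∞ Y) (hJ : ∀ z, br p Y z ≠ 0) (e σ : ℝ)
    (z : PP) : Dp p Y (sF e σ p Y) z = e := by
  have h1 : ContDiff ℝ ∞ (fun w => om (Y w)) := contDiff_om.comp hY
  unfold sF
  rw [Dp_add (contDiff_const.mul hp) (contDiff_const.mul h1), Dp_const_mul _ hp,
    Dp_const_mul _ h1, Dp_comp contDiff_om hY, Dp_p hJ, Dp_Y]
  ring

theorem Dy_sF (hp : ContDiff ℝ ∞ p) (hY : ContDiff ℝ ∞ Y) (hJ : ∀ z, br p Y z ≠ 0) (e σ : ℝ)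
    (z : PP) : Dy p Y (sF e σ p Y) z = σ * deriv om (Y z) := by
  have h1 : ContDiff ℝ ∞ (fun w => om (Y w)) := contDiff_om.comp hY
  unfold sF
  rw [Dy_add (contDiff_const.mul hp) (contDiff_const.mul h1), Dy_const_mul _ hp,
    Dy_const_mul _ h1, Dy_comp contDiff_om hY, Dy_p, Dy_Y hJ]
  ring

theorem Dp_tF (hp : ContDiff ℝ ∞ p) (hY : ContDiff ℝ ∞ Y) (hJ : ∀ z, br p Y z ≠ 0) (z : PP) :
    Dp p Y (tF p Y) z = 2 * p z := by
  unfold tF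
  rw [Dp_add (hp.mul hp) (hY.mul hY), Dp_mul hp hp, Dp_mul hY hY, Dp_p hJ, Dp_Y]
  ring

theorem Dy_tF (hp : ContDiff ℝ ∞ p) (hY : ContDiff ℝ ∞ Y) (hJ : ∀ z, br p Y z ≠ 0) (z : PP) :
    Dy p Y (tF p Y) z = 2 * Y z := by
  unfold tF
  rw [Dy_add (hp.mul hp) (hY.mul hY), Dy_mul hp hp, Dy_mul hY hY, Dy_p, Dy_Y hJ]
  ring

theorem contDiff_aF (hp : ContDiff ℝ ∞ p) (hY : ContDiff ℝ ∞ Y) (e σ d d' : ℝ) :
    ContDiff ℝ ∞ (aF e σ d d' p Y) := by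
  have h0 := contDiff_sF hp hY e σ
  have h1 : ContDiff ℝ ∞ (fun w => th d d' (sF e σ p Y w)) := (contDiff_th d d').comp h0
  unfold aF
  fun_prop

theorem contDiff_bF (hp : ContDiff ℝ ∞ p) (hY : ContDiff ℝ ∞ Y) (e σ d d' : ℝ) :
    ContDiff ℝ ∞ (bF e σ d d' p Y) := by
  have h0 := contDiff_sF hp hY e σ
  have h1 : ContDiff ℝ ∞ (fun w => th d d' (sF e σ p Y w)) := (contDiff_th d d').comp h0
  unfold bF
  fun_prop

theorem contDiff_XF (hp : ContDiff ℝ ∞ p) (hY : ContDiff ℝ ∞ Y) (r1 r2 : ℝ) :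
    ContDiff ℝ ∞ (XF r1 r2 p Y) := (contDiff_cut r1 r2).comp (contDiff_tF hp hY)

theorem Dp_aF (hp : ContDiff ℝ ∞ p) (hY : ContDiff ℝ ∞ Y) (hJ : ∀ z, br p Y z ≠ 0)
    {e : ℝ} (he : e * e = 1) (σ d d' : ℝ) (z : PP) :
    Dp p Y (aF e σ d d' p Y) z = deriv (th d d') (sF e σ p Y z) * (1 + 4 * (sF e σ p Y z - d))
      + 4 * th d d' (sF e σ p Y z) := by
  have h0 := contDiff_sF hp hY e σ
  have h1 : ContDiff ℝ ∞ (fun w => th d d' (sF e σ p Y w)) := (contDiff_th d d').comp h0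
  have h2 : ContDiff ℝ ∞ (fun w => 1 + 4 * (sF e σ p Y w - d)) := by fun_prop
  unfold aF
  rw [Dp_const_mul _ (h1.mul h2), Dp_mul h1 h2, Dp_comp (contDiff_th d d') h0,
    Dp_add contDiff_const (by fun_prop), Dp_const, Dp_const_mul _ (by fun_prop),
    Dp_sub h0 contDiff_const, Dp_const, Dp_sF hp hY hJ]
  linear_combination (deriv (th d d') (sF e σ p Y z) * (1 + 4 * (sF e σ p Y z - d))
      + 4 * th d d' (sF e σ p Y z)) * he

theorem Dy_aF (hp : ContDiff ℝ ∞ p) (hY : ContDiff ℝ ∞ Y) (hJ : ∀ z, br p Y z ≠ 0)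
    (e σ d d' : ℝ) (z : PP) :
    Dy p Y (aF e σ d d' p Y) z = e * (deriv (th d d') (sF e σ p Y z)
      * (1 + 4 * (sF e σ p Y z - d)) + 4 * th d d' (sF e σ p Y z)) * (σ * deriv om (Y z)) := by
  have h0 := contDiff_sF hp hY e σ
  have h1 : ContDiff ℝ ∞ (fun w => th d d' (sF e σ p Y w)) := (contDiff_th d d').comp h0
  have h2 : ContDiff ℝ ∞ (fun w => 1 + 4 * (sF e σ p Y w - d)) := by fun_prop
  unfold aF
  rw [Dy_const_mul _ (h1.mul h2), Dy_mul h1 h2, Dy_comp (contDiff_th d d') h0,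
    Dy_add contDiff_const (by fun_prop), Dy_const, Dy_const_mul _ (by fun_prop),
    Dy_sub h0 contDiff_const, Dy_const, Dy_sF hp hY hJ]
  ring

theorem Dp_bF (hp : ContDiff ℝ ∞ p) (hY : ContDiff ℝ ∞ Y) (hJ : ∀ z, br p Y z ≠ 0)
    (e σ d d' : ℝ) (z : PP) :
    Dp p Y (bF e σ d d' p Y) z = e * Y z * deriv (th d d') (sF e σ p Y z) := by
  have h0 := contDiff_sF hp hY e σ
  have h1 : ContDiff ℝ ∞ (fun w => th d d' (sF e σ p Y w)) := (contDiff_th d d').comp h0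
  unfold bF
  rw [Dp_mul hY h1, Dp_comp (contDiff_th d d') h0, Dp_Y, Dp_sF hp hY hJ]
  ring

theorem Dy_bF (hp : ContDiff ℝ ∞ p) (hY : ContDiff ℝ ∞ Y) (hJ : ∀ z, br p Y z ≠ 0)
    (e σ d d' : ℝ) (z : PP) :
    Dy p Y (bF e σ d d' p Y) z = th d d' (sF e σ p Y z)
      + Y z * (deriv (th d d') (sF e σ p Y z) * (σ * deriv om (Y z))) := by
  have h0 := contDiff_sF hp hY e σ
  have h1 : ContDiff ℝ ∞ (fun w => th d d' (sF e σ p Y w)) := (contDiff_th d d').comp h0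
  unfold bF
  rw [Dy_mul hY h1, Dy_comp (contDiff_th d d') h0, Dy_Y hJ, Dy_sF hp hY hJ]
  ring

theorem Dp_XF (hp : ContDiff ℝ ∞ p) (hY : ContDiff ℝ ∞ Y) (hJ : ∀ z, br p Y z ≠ 0)
    (r1 r2 : ℝ) (z : PP) :
    Dp p Y (XF r1 r2 p Y) z = deriv (cut r1 r2) (tF p Y z) * (2 * p z) := by
  unfold XF
  rw [Dp_comp (contDiff_cut r1 r2) (contDiff_tF hp hY), Dp_tF hp hY hJ]

theorem Dy_XF (hp : ContDiff ℝ ∞ p) (hY : ContDiff ℝ ∞ Y) (hJ : ∀ z, br p Y z ≠ 0)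
    (r1 r2 : ℝ) (z : PP) :
    Dy p Y (XF r1 r2 p Y) z = deriv (cut r1 r2) (tF p Y z) * (2 * Y z) := by
  unfold XF
  rw [Dy_comp (contDiff_cut r1 r2) (contDiff_tF hp hY), Dy_tF hp hY hJ]

end derivatives

/-- absorption of the terms with derivatives of the cutoff -/
theorem extra_bound {M κ k Xp Xy a b u v N : ℝ} (hM : 1 ≤ M) (hκ : 0 < κ) (hκ1 : κ ≤ 1)
    (hk : 3 / 10 ≤ k) (hkM : |k| ≤ M) (h1 : |Xp| ≤ M) (h2 : |Xy| ≤ M) (ha : |a| ≤ M)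
    (hb : |b| ≤ M) (hN : N = 2 * M ^ 3 / (κ * (3 / 10))) :
    0 ≤ ((Xp * a - Xy * b) / 2 * u ^ 2 + κ * ((-(Xp * a * k) + Xy * b * k) / 2) * v ^ 2
      - (Xy * a + κ * (Xp * b * k)) * (v * u)) + N * (u ^ 2 + κ * k * v ^ 2) := by
  have hM3 : 0 < M ^ 3 := by positivity
  have hM23 : M * M ≤ M ^ 3 := by nlinarith [mul_pos (by linarith : 0 < M) (by linarith : 0 < M)]
  have e1 : |Xp * a| ≤ M * M := abs_mul_bound h1 ha
  have e2 : |Xy * b| ≤ M * M := abs_mul_bound h2 hb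
  have e3 : |Xp * a * k| ≤ M * M * M := abs_mul_bound e1 hkM
  have e4 : |Xy * b * k| ≤ M * M * M := abs_mul_bound e2 hkM
  have e5 : |Xy * a| ≤ M * M := abs_mul_bound h2 ha
  have e6 : |Xp * b * k| ≤ M * M * M := abs_mul_bound (abs_mul_bound h1 hb) hkM
  have hM3' : M * M * M = M ^ 3 := by ring
  rw [hM3'] at e3 e4 e6
  -- coefficient bounds
  have c1 : -(M ^ 3) ≤ (Xp * a - Xy * b) / 2 := by
    have := (abs_le.1 e1).1; have := (abs_le.1 e2).2; linarith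
  have c2 : -(M ^ 3) ≤ κ * ((-(Xp * a * k) + Xy * b * k) / 2) := by
    have t1 := (abs_le.1 e3).2
    have t2 := (abs_le.1 e4).1
    have : -(M ^ 3) ≤ (-(Xp * a * k) + Xy * b * k) / 2 := by linarith
    nlinarith
  have c3 : |Xy * a + κ * (Xp * b * k)| ≤ 2 * M ^ 3 := by
    have t1 : |κ * (Xp * b * k)| ≤ 1 * M ^ 3 :=
      abs_mul_bound (by rw [abs_of_pos hκ]; exact hκ1) e6
    calc |Xy * a + κ * (Xp * b * k)| ≤ |Xy * a| + |κ * (Xp * b * k)| := abs_add_le _ _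
      _ ≤ M ^ 3 + 1 * M ^ 3 := add_le_add (e5.trans hM23) t1
      _ = 2 * M ^ 3 := by ring
  have c4 : (Xy * a + κ * (Xp * b * k)) * (v * u) ≤ M ^ 3 * (u ^ 2 + v ^ 2) := by
    have t1 : (Xy * a + κ * (Xp * b * k)) * (v * u)
        ≤ 2 * M ^ 3 * |v * u| := by
      calc (Xy * a + κ * (Xp * b * k)) * (v * u)
          ≤ |(Xy * a + κ * (Xp * b * k)) * (v * u)| := le_abs_self _
        _ = |Xy * a + κ * (Xp * b * k)| * |v * u| := abs_mul _ _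
        _ ≤ 2 * M ^ 3 * |v * u| := mul_le_mul_of_nonneg_right c3 (abs_nonneg _)
    have t2 : 2 * |v * u| ≤ u ^ 2 + v ^ 2 := by
      rw [abs_mul]
      nlinarith [sq_nonneg (|v| - |u|), sq_abs v, sq_abs u]
    nlinarith
  have hNκ : N * (κ * (3 / 10)) = 2 * M ^ 3 := by
    rw [hN]; field_simp
  have hN0 : 0 < N := by rw [hN]; positivity
  have hN1 : 2 * M ^ 3 ≤ N := by nlinarith
  have hN2 : 2 * M ^ 3 ≤ N * (κ * k) := by
    rw [← hNκ]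
    have : κ * (3 / 10) ≤ κ * k := mul_le_mul_of_nonneg_left hk hκ.le
    exact mul_le_mul_of_nonneg_left this hN0.le
  have g1 := mul_nonneg (by linarith : 0 ≤ N - 2 * M ^ 3) (sq_nonneg u)
  have g2 := mul_nonneg (by linarith : 0 ≤ N * (κ * k) - 2 * M ^ 3) (sq_nonneg v)
  have g3 := mul_nonneg (by linarith : 0 ≤ (Xp * a - Xy * b) / 2 + M ^ 3) (sq_nonneg u)
  have g4 := mul_nonneg (by linarith : 0 ≤ κ * ((-(Xp * a * k) + Xy * b * k) / 2) + M ^ 3)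
    (sq_nonneg v)
  nlinarith

end Crest.Agent.Iso341.En
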