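import Crest.Agent.Iso341.Calc

/-! S0341, ENERGY part 1: the integrated multiplier identity. -/

set_option autoImplicit false

open MeasureTheory Set
open scoped ContDiff

namespace Crest.Agent.Iso341.En

section local_support

variable {p Y : PP → ℝ}

/-- `Dp` is local -/
theorem Dp_congr_nhds {f g : PP → ℝ} {z : PP} (h : f =ᶠ[nhds z] g) :
    Dp p Y f z = Dp p Y g z := by
  simp only [Dp, br, dx, dy, h.fderiv_eq]

/-- `Dy` is local -/
theorem Dy_congr_nhds {f g : PP → ℝ} {z : PP} (h : f =ᶠ[nhds z] g) :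
    Dy p Y f z = Dy p Y g z := by
  simp only [Dy, br, dx, dy, h.fderiv_eq]

theorem Dp_eventually {f g : PP → ℝ} {z : PP} (h : f =ᶠ[nhds z] g) :
    Dp p Y f =ᶠ[nhds z] Dp p Y g := by
  filter_upwards [h.eventuallyEq_nhds] with w hw using Dp_congr_nhds hw

theorem Dy_eventually {f g : PP → ℝ} {z : PP} (h : f =ᶠ[nhds z] g) :
    Dy p Y f =ᶠ[nhds z] Dy p Y g := by
  filter_upwards [h.eventuallyEq_nhds] with w hw using Dy_congr_nhds hw

theorem Dp_zero_fun (z : PP) : Dp p Y (fun _ => (0 : ℝ)) z = 0 := by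
  simp [Dp, br, dx, dy]

theorem Dy_zero_fun (z : PP) : Dy p Y (fun _ => (0 : ℝ)) z = 0 := by
  simp [Dy, br, dx, dy]

theorem Dp_eventually_zero {f : PP → ℝ} {z : PP} (h : f =ᶠ[nhds z] fun _ => 0) :
    Dp p Y f =ᶠ[nhds z] fun _ => 0 := by
  filter_upwards [Dp_eventually (p := p) (Y := Y) h] with w hw
  rw [hw, Dp_zero_fun]

theorem Dy_eventually_zero {f : PP → ℝ} {z : PP} (h : f =ᶠ[nhds z] fun _ => 0) :
    Dy p Y f =ᶠ[nhds z] fun _ => 0 := by
  filter_upwards [Dy_eventually (p := p) (Y := Y) h] with w hw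
  rw [hw, Dy_zero_fun]

theorem hasCompactSupport_Dp {f : PP → ℝ} (hf : HasCompactSupport f) :
    HasCompactSupport (Dp p Y f) := by
  refine HasCompactSupport.intro hf fun z hz => ?_
  exact (Dp_eventually_zero (notMem_tsupport_iff_eventuallyEq.1 hz)).eq_of_nhds

theorem hasCompactSupport_Dy {f : PP → ℝ} (hf : HasCompactSupport f) :
    HasCompactSupport (Dy p Y f) := by
  refine HasCompactSupport.intro hf fun z hz => ?_
  exact (Dy_eventually_zero (notMem_tsupport_iff_eventuallyEq.1 hz)).eq_of_nhds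

end local_support

/-- the quadratic form of the multiplier `(a, b, l)` -/
noncomputable def QF (κ : ℝ) (p Y k φ a b l : PP → ℝ) (z : PP) : ℝ :=
  ((Dp p Y a z - Dy p Y b z) / 2 - l z) * Dy p Y φ z ^ 2
  + κ * ((a z * Dp p Y k z - Dp p Y a z * k z + Dy p Y b z * k z + b z * Dy p Y k z) / 2
      - l z * k z) * Dp p Y φ z ^ 2
  - (Dy p Y a z + κ * (Dp p Y b z * k z)) * (Dp p Y φ z * Dy p Y φ z)
  + 1 / 2 * (Dy p Y (Dy p Y l) z + κ * (Dp p Y k z * Dp p Y l z + k z * Dp p Y (Dp p Y l) z))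
      * φ z ^ 2

section identity

variable {κ : ℝ} {p Y k φ a b l : PP → ℝ}

/-- flux in the direction `Y` -/
noncomputable def FB (κ : ℝ) (p Y k φ a b l : PP → ℝ) (z : PP) : ℝ :=
  a z * (Dp p Y φ z * Dy p Y φ z) + b z * (1 / 2 * (Dy p Y φ z * Dy p Y φ z))
    - b z * (k z * (κ / 2 * (Dp p Y φ z * Dp p Y φ z)))
    + l z * (φ z * Dy p Y φ z) - Dy p Y l z * (1 / 2 * (φ z * φ z))

/-- flux in the direction `p` -/
noncomputable def FA (κ : ℝ) (p Y k φ a b l : PP → ℝ) (z : PP) : ℝ :=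
  a z * (k z * (κ / 2 * (Dp p Y φ z * Dp p Y φ z))) - a z * (1 / 2 * (Dy p Y φ z * Dy p Y φ z))
    + b z * (k z * (κ * (Dp p Y φ z * Dy p Y φ z)))
    + l z * (k z * (κ * (φ z * Dp p Y φ z)))
    - Dp p Y l z * (k z * (κ / 2 * (φ z * φ z)))

theorem pointwise_identity (hp : ContDiff ℝ ∞ p) (hY : ContDiff ℝ ∞ Y)
    (hJ : ∀ z, br p Y z ≠ 0) (hk : ContDiff ℝ ∞ k) (hφ : ContDiff ℝ ∞ φ)
    (ha : ContDiff ℝ ∞ a) (hb : ContDiff ℝ ∞ b) (hl : ContDiff ℝ ∞ l) (z : PP) :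
    (a z * Dp p Y φ z + b z * Dy p Y φ z + l z * φ z) * LL κ p Y k φ z
      = QF κ p Y k φ a b l z + Dp p Y (FA κ p Y k φ a b l) z + Dy p Y (FB κ p Y k φ a b l) z := by
  have hφp : ContDiff ℝ ∞ (Dp p Y φ) := contDiff_Dp hp hY hJ hφ
  have hφy : ContDiff ℝ ∞ (Dy p Y φ) := contDiff_Dy hp hY hJ hφ
  have hlp : ContDiff ℝ ∞ (Dp p Y l) := contDiff_Dp hp hY hJ hl
  have hly : ContDiff ℝ ∞ (Dy p Y l) := contDiff_Dy hp hY hJ hl
  have hpp := hφp.mul hφp
  have hyy := hφy.mul hφy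
  have hpy := hφp.mul hφy
  have h0y := hφ.mul hφy
  have h0p := hφ.mul hφp
  have h00 := hφ.mul hφ
  have hc : ∀ c : ℝ, ContDiff ℝ ∞ (fun _ : PP => c) := fun c => contDiff_const
  have hcomm := Dp_Dy hp hY hJ hφ z
  -- derivative of FB
  have hB : Dy p Y (FB κ p Y k φ a b l) z =
      (Dy p Y a z * (Dp p Y φ z * Dy p Y φ z) + a z * (Dy p Y (Dp p Y φ) z * Dy p Y φ z
        + Dp p Y φ z * Dy p Y (Dy p Y φ) z))
      + (Dy p Y b z * (1 / 2 * (Dy p Y φ z * Dy p Y φ z)) + b z * (1 / 2 *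
        (Dy p Y (Dy p Y φ) z * Dy p Y φ z + Dy p Y φ z * Dy p Y (Dy p Y φ) z)))
      - (Dy p Y b z * (k z * (κ / 2 * (Dp p Y φ z * Dp p Y φ z))) + b z *
        (Dy p Y k z * (κ / 2 * (Dp p Y φ z * Dp p Y φ z)) + k z * (κ / 2 *
          (Dy p Y (Dp p Y φ) z * Dp p Y φ z + Dp p Y φ z * Dy p Y (Dp p Y φ) z))))
      + (Dy p Y l z * (φ z * Dy p Y φ z) + l z * (Dy p Y φ z * Dy p Y φ z
        + φ z * Dy p Y (Dy p Y φ) z))
      - (Dy p Y (Dy p Y l) z * (1 / 2 * (φ z * φ z)) + Dy p Y l z * (1 / 2 *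
        (Dy p Y φ z * φ z + φ z * Dy p Y φ z))) := by
    unfold FB
    rw [Dy_sub (by fun_prop) (by fun_prop), Dy_add (by fun_prop) (by fun_prop),
      Dy_sub (by fun_prop) (by fun_prop), Dy_add (by fun_prop) (by fun_prop),
      Dy_mul ha hpy, Dy_mul hφp hφy, Dy_mul hb (by fun_prop), Dy_const_mul _ hyy,
      Dy_mul hφy hφy, Dy_mul hb (by fun_prop), Dy_mul hk (by fun_prop), Dy_const_mul _ hpp,
      Dy_mul hφp hφp, Dy_mul hl h0y, Dy_mul hφ hφy, Dy_mul hly (by fun_prop),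
      Dy_const_mul _ h00, Dy_mul hφ hφ]
  have hA : Dp p Y (FA κ p Y k φ a b l) z =
      (Dp p Y a z * (k z * (κ / 2 * (Dp p Y φ z * Dp p Y φ z))) + a z *
        (Dp p Y k z * (κ / 2 * (Dp p Y φ z * Dp p Y φ z)) + k z * (κ / 2 *
          (Dp p Y (Dp p Y φ) z * Dp p Y φ z + Dp p Y φ z * Dp p Y (Dp p Y φ) z))))
      - (Dp p Y a z * (1 / 2 * (Dy p Y φ z * Dy p Y φ z)) + a z * (1 / 2 *
        (Dp p Y (Dy p Y φ) z * Dy p Y φ z + Dy p Y φ z * Dp p Y (Dy p Y φ) z)))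
      + (Dp p Y b z * (k z * (κ * (Dp p Y φ z * Dy p Y φ z))) + b z *
        (Dp p Y k z * (κ * (Dp p Y φ z * Dy p Y φ z)) + k z * (κ *
          (Dp p Y (Dp p Y φ) z * Dy p Y φ z + Dp p Y φ z * Dp p Y (Dy p Y φ) z))))
      + (Dp p Y l z * (k z * (κ * (φ z * Dp p Y φ z))) + l z *
        (Dp p Y k z * (κ * (φ z * Dp p Y φ z)) + k z * (κ *
          (Dp p Y φ z * Dp p Y φ z + φ z * Dp p Y (Dp p Y φ) z))))
      - (Dp p Y (Dp p Y l) z * (k z * (κ / 2 * (φ z * φ z))) + Dp p Y l z *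
        (Dp p Y k z * (κ / 2 * (φ z * φ z)) + k z * (κ / 2 *
          (Dp p Y φ z * φ z + φ z * Dp p Y φ z)))) := by
    unfold FA
    rw [Dp_sub (by fun_prop) (by fun_prop), Dp_add (by fun_prop) (by fun_prop),
      Dp_add (by fun_prop) (by fun_prop), Dp_sub (by fun_prop) (by fun_prop),
      Dp_mul ha (by fun_prop), Dp_mul hk (by fun_prop), Dp_const_mul _ hpp,
      Dp_mul hφp hφp, Dp_mul ha (by fun_prop), Dp_const_mul _ hyy, Dp_mul hφy hφy,
      Dp_mul hb (by fun_prop), Dp_mul hk (by fun_prop), Dp_const_mul _ hpy, Dp_mul hφp hφy,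
      Dp_mul hl (by fun_prop), Dp_mul hk (by fun_prop), Dp_const_mul _ h0p, Dp_mul hφ hφp,
      Dp_mul hlp (by fun_prop), Dp_mul hk (by fun_prop), Dp_const_mul _ h00, Dp_mul hφ hφ]
  have hL : LL κ p Y k φ z = Dy p Y (Dy p Y φ) z + κ * (Dp p Y k z * Dp p Y φ z
      + k z * Dp p Y (Dp p Y φ) z) := by
    unfold LL
    rw [Dp_mul hk hφp]
  rw [hA, hB, hL, QF, hcomm]
  ring

theorem continuous_QF (hp : ContDiff ℝ ∞ p) (hY : ContDiff ℝ ∞ Y)
    (hJ : ∀ z, br p Y z ≠ 0) (hk : ContDiff ℝ ∞ k) (hφ : ContDiff ℝ ∞ φ)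
    (ha : ContDiff ℝ ∞ a) (hb : ContDiff ℝ ∞ b) (hl : ContDiff ℝ ∞ l) :
    Continuous (QF κ p Y k φ a b l) := by
  have hφp : Continuous (Dp p Y φ) := (contDiff_Dp hp hY hJ hφ).continuous
  have hφy : Continuous (Dy p Y φ) := (contDiff_Dy hp hY hJ hφ).continuous
  have hkp : Continuous (Dp p Y k) := (contDiff_Dp hp hY hJ hk).continuous
  have hky : Continuous (Dy p Y k) := (contDiff_Dy hp hY hJ hk).continuous
  have hap : Continuous (Dp p Y a) := (contDiff_Dp hp hY hJ ha).continuous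
  have hay : Continuous (Dy p Y a) := (contDiff_Dy hp hY hJ ha).continuous
  have hbp : Continuous (Dp p Y b) := (contDiff_Dp hp hY hJ hb).continuous
  have hby : Continuous (Dy p Y b) := (contDiff_Dy hp hY hJ hb).continuous
  have hlp : Continuous (Dp p Y l) := (contDiff_Dp hp hY hJ hl).continuous
  have hlpp : Continuous (Dp p Y (Dp p Y l)) :=
    (contDiff_Dp hp hY hJ (contDiff_Dp hp hY hJ hl)).continuous
  have hlyy : Continuous (Dy p Y (Dy p Y l)) :=
    (contDiff_Dy hp hY hJ (contDiff_Dy hp hY hJ hl)).continuous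
  have hk' := hk.continuous
  have hφ' := hφ.continuous
  have ha' := ha.continuous
  have hb' := hb.continuous
  have hl' := hl.continuous
  unfold QF
  fun_prop

theorem contDiff_FA (hp : ContDiff ℝ ∞ p) (hY : ContDiff ℝ ∞ Y)
    (hJ : ∀ z, br p Y z ≠ 0) (hk : ContDiff ℝ ∞ k) (hφ : ContDiff ℝ ∞ φ)
    (ha : ContDiff ℝ ∞ a) (hb : ContDiff ℝ ∞ b) (hl : ContDiff ℝ ∞ l) :
    ContDiff ℝ ∞ (FA κ p Y k φ a b l) := by
  have hφp : ContDiff ℝ ∞ (Dp p Y φ) := (contDiff_Dp hp hY hJ hφ)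
  have hφy : ContDiff ℝ ∞ (Dy p Y φ) := (contDiff_Dy hp hY hJ hφ)
  have hlp : ContDiff ℝ ∞ (Dp p Y l) := (contDiff_Dp hp hY hJ hl)
  unfold FA
  fun_prop

theorem contDiff_FB (hp : ContDiff ℝ ∞ p) (hY : ContDiff ℝ ∞ Y)
    (hJ : ∀ z, br p Y z ≠ 0) (hk : ContDiff ℝ ∞ k) (hφ : ContDiff ℝ ∞ φ)
    (ha : ContDiff ℝ ∞ a) (hb : ContDiff ℝ ∞ b) (hl : ContDiff ℝ ∞ l) :
    ContDiff ℝ ∞ (FB κ p Y k φ a b l) := by
  have hφp : ContDiff ℝ ∞ (Dp p Y φ) := (contDiff_Dp hp hY hJ hφ)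
  have hφy : ContDiff ℝ ∞ (Dy p Y φ) := (contDiff_Dy hp hY hJ hφ)
  have hly : ContDiff ℝ ∞ (Dy p Y l) := (contDiff_Dy hp hY hJ hl)
  unfold FB
  fun_prop

/-- if `a, b, l` vanish near `z`, then `QF` vanishes at `z` -/
theorem QF_eq_zero {z : PP} (ha : a =ᶠ[nhds z] fun _ => 0) (hb : b =ᶠ[nhds z] fun _ => 0)
    (hl : l =ᶠ[nhds z] fun _ => 0) : QF κ p Y k φ a b l z = 0 := by
  have e1 := ha.eq_of_nhds
  have e2 := hb.eq_of_nhds
  have e3 := hl.eq_of_nhds
  have e4 := (Dp_eventually_zero (p := p) (Y := Y) ha).eq_of_nhds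
  have e5 := (Dy_eventually_zero (p := p) (Y := Y) ha).eq_of_nhds
  have e6 := (Dp_eventually_zero (p := p) (Y := Y) hb).eq_of_nhds
  have e7 := (Dy_eventually_zero (p := p) (Y := Y) hb).eq_of_nhds
  have e8 := (Dp_eventually_zero (p := p) (Y := Y) hl).eq_of_nhds
  have e9 := (Dp_eventually_zero (p := p) (Y := Y)
    (Dp_eventually_zero (p := p) (Y := Y) hl)).eq_of_nhds
  have e10 := (Dy_eventually_zero (p := p) (Y := Y)
    (Dy_eventually_zero (p := p) (Y := Y) hl)).eq_of_nhds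
  simp [QF, e1, e2, e3, e4, e5, e6, e7, e8, e9, e10]

theorem hasCompactSupport_QF (sa : HasCompactSupport a) (sb : HasCompactSupport b)
    (sl : HasCompactSupport l) : HasCompactSupport (QF κ p Y k φ a b l) := by
  refine HasCompactSupport.intro ((sa.union sb).union sl) fun z hz => ?_
  simp only [mem_union, not_or] at hz
  exact QF_eq_zero (notMem_tsupport_iff_eventuallyEq.1 hz.1.1)
    (notMem_tsupport_iff_eventuallyEq.1 hz.1.2) (notMem_tsupport_iff_eventuallyEq.1 hz.2)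

theorem hasCompactSupport_FA (sa : HasCompactSupport a) (sb : HasCompactSupport b)
    (sl : HasCompactSupport l) : HasCompactSupport (FA κ p Y k φ a b l) := by
  refine HasCompactSupport.intro ((sa.union sb).union sl) fun z hz => ?_
  simp only [mem_union, not_or] at hz
  have e1 := (notMem_tsupport_iff_eventuallyEq.1 hz.1.1).eq_of_nhds
  have e2 := (notMem_tsupport_iff_eventuallyEq.1 hz.1.2).eq_of_nhds
  have e3 := (notMem_tsupport_iff_eventuallyEq.1 hz.2).eq_of_nhds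
  have e8 := (Dp_eventually_zero (p := p) (Y := Y)
    (notMem_tsupport_iff_eventuallyEq.1 hz.2)).eq_of_nhds
  simp only [Pi.zero_apply] at e1 e2 e3 e8
  simp [FA, e1, e2, e3, e8]

theorem hasCompactSupport_FB (sa : HasCompactSupport a) (sb : HasCompactSupport b)
    (sl : HasCompactSupport l) : HasCompactSupport (FB κ p Y k φ a b l) := by
  refine HasCompactSupport.intro ((sa.union sb).union sl) fun z hz => ?_
  simp only [mem_union, not_or] at hz
  have e1 := (notMem_tsupport_iff_eventuallyEq.1 hz.1.1).eq_of_nhds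
  have e2 := (notMem_tsupport_iff_eventuallyEq.1 hz.1.2).eq_of_nhds
  have e3 := (notMem_tsupport_iff_eventuallyEq.1 hz.2).eq_of_nhds
  have e8 := (Dy_eventually_zero (p := p) (Y := Y)
    (notMem_tsupport_iff_eventuallyEq.1 hz.2)).eq_of_nhds
  simp only [Pi.zero_apply] at e1 e2 e3 e8
  simp [FB, e1, e2, e3, e8]

/-- the integrated multiplier identity -/
theorem energy_identity (hp : ContDiff ℝ ∞ p) (hY : ContDiff ℝ ∞ Y)
    (hJ : ∀ z, br p Y z ≠ 0) (hk : ContDiff ℝ ∞ k) (hφ : ContDiff ℝ ∞ φ)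
    (ha : ContDiff ℝ ∞ a) (hb : ContDiff ℝ ∞ b) (hl : ContDiff ℝ ∞ l)
    (sa : HasCompactSupport a) (sb : HasCompactSupport b) (sl : HasCompactSupport l) :
    ∫ z, (a z * Dp p Y φ z + b z * Dy p Y φ z + l z * φ z) * LL κ p Y k φ z * br p Y z
      = ∫ z, QF κ p Y k φ a b l z * br p Y z := by
  have hFA := contDiff_FA (κ := κ) hp hY hJ hk hφ ha hb hl
  have hFB := contDiff_FB (κ := κ) hp hY hJ hk hφ ha hb hl
  have sFA := hasCompactSupport_FA (κ := κ) (p := p) (Y := Y) (k := k) (φ := φ) sa sb sl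
  have sFB := hasCompactSupport_FB (κ := κ) (p := p) (Y := Y) (k := k) (φ := φ) sa sb sl
  have cJ : Continuous (br p Y) := (contDiff_br hp hY).continuous
  have i1 : Integrable (fun z => QF κ p Y k φ a b l z * br p Y z) := by
    refine Continuous.integrable_of_hasCompactSupport
      ((continuous_QF hp hY hJ hk hφ ha hb hl).mul cJ) ?_
    exact (hasCompactSupport_QF sa sb sl).mul_right
  have i2 : Integrable (fun z => Dp p Y (FA κ p Y k φ a b l) z * br p Y z) := by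
    refine Continuous.integrable_of_hasCompactSupport
      ((contDiff_Dp hp hY hJ hFA).continuous.mul cJ) ?_
    exact (hasCompactSupport_Dp sFA).mul_right
  have i3 : Integrable (fun z => Dy p Y (FB κ p Y k φ a b l) z * br p Y z) := by
    refine Continuous.integrable_of_hasCompactSupport
      ((contDiff_Dy hp hY hJ hFB).continuous.mul cJ) ?_
    exact (hasCompactSupport_Dy sFB).mul_right
  have e : (fun z => (a z * Dp p Y φ z + b z * Dy p Y φ z + l z * φ z) * LL κ p Y k φ z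
      * br p Y z) = fun z => (QF κ p Y k φ a b l z * br p Y z
        + Dp p Y (FA κ p Y k φ a b l) z * br p Y z)
        + Dy p Y (FB κ p Y k φ a b l) z * br p Y z := by
    funext z
    rw [pointwise_identity hp hY hJ hk hφ ha hb hl]
    ring
  have i12 : Integrable (fun z => QF κ p Y k φ a b l z * br p Y z
      + Dp p Y (FA κ p Y k φ a b l) z * br p Y z) := i1.add i2
  rw [e, integral_add i12 i3, integral_add i1 i2, integral_Dp hp hY hJ hFA sFA,
    integral_Dy hp hY hJ hFB sFB]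
  ring

end identity

end Crest.Agent.Iso341.En
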