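import Crest.Agent.Iso341.EnForm

/-! S0341, ENERGY part 4: the one sided Morawetz estimate. -/

set_option autoImplicit false

open MeasureTheory Set
open scoped ContDiff

namespace Crest.Agent.Iso341.En

/-- decomposition of the quadratic form of the cut off multipliers -/
theorem QF_decomp {κ : ℝ} {p Y k φ : PP → ℝ} {e σ d d' r1 r2 r3 N : ℝ} (hp : ContDiff ℝ ∞ p)
    (hY : ContDiff ℝ ∞ Y) (hJ : ∀ z, br p Y z ≠ 0) (he : e * e = 1) (z : PP) :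
    QF κ p Y k φ (AM e σ d d' r1 r2 p Y) (BM e σ d d' r1 r2 p Y) (LM e σ d d' r1 r2 r3 N p Y k) z
    = XF r1 r2 p Y z * (
      (deriv (th d d') (sF e σ p Y z) * (1 + 4 * (sF e σ p Y z - d) - Y z * σ * deriv om (Y z)
          + k z) + th d d' (sF e σ p Y z) * (3 + k z)) * Dy p Y φ z ^ 2
      + κ * ((e * (th d d' (sF e σ p Y z) * (1 + 4 * (sF e σ p Y z - d))) * Dp p Y k z
          + Y z * th d d' (sF e σ p Y z) * Dy p Y k z) / 2
          + (th d d' (sF e σ p Y z) + deriv (th d d') (sF e σ p Y z)) * k z ^ 2) * Dp p Y φ z ^ 2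
      - (e * (deriv (th d d') (sF e σ p Y z) * (1 + 4 * (sF e σ p Y z - d))
          + 4 * th d d' (sF e σ p Y z)) * (σ * deriv om (Y z))
          + e * Y z * deriv (th d d') (sF e σ p Y z) * (κ * k z)) * (Dy p Y φ z * Dp p Y φ z))
    + ((Dp p Y (XF r1 r2 p Y) z * aF e σ d d' p Y z - Dy p Y (XF r1 r2 p Y) z
          * bF e σ d d' p Y z) / 2 * Dy p Y φ z ^ 2
      + κ * ((-(Dp p Y (XF r1 r2 p Y) z * aF e σ d d' p Y z * k z)
          + Dy p Y (XF r1 r2 p Y) z * bF e σ d d' p Y z * k z) / 2) * Dp p Y φ z ^ 2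
      - (Dy p Y (XF r1 r2 p Y) z * aF e σ d d' p Y z
          + κ * (Dp p Y (XF r1 r2 p Y) z * bF e σ d d' p Y z * k z))
          * (Dp p Y φ z * Dy p Y φ z))
    + N * PF r2 r3 p Y z * (Dy p Y φ z ^ 2 + κ * k z * Dp p Y φ z ^ 2)
    + 1 / 2 * (Dy p Y (Dy p Y (LM e σ d d' r1 r2 r3 N p Y k)) z
        + κ * (Dp p Y k z * Dp p Y (LM e σ d d' r1 r2 r3 N p Y k) z
          + k z * Dp p Y (Dp p Y (LM e σ d d' r1 r2 r3 N p Y k)) z)) * φ z ^ 2 := by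
  have cX := contDiff_XF hp hY r1 r2
  have cA := contDiff_aF hp hY e σ d d'
  have cB := contDiff_bF hp hY e σ d d'
  have a1 : Dp p Y (AM e σ d d' r1 r2 p Y) z = Dp p Y (XF r1 r2 p Y) z * aF e σ d d' p Y z
      + XF r1 r2 p Y z * Dp p Y (aF e σ d d' p Y) z := Dp_mul cX cA z
  have a2 : Dy p Y (AM e σ d d' r1 r2 p Y) z = Dy p Y (XF r1 r2 p Y) z * aF e σ d d' p Y z
      + XF r1 r2 p Y z * Dy p Y (aF e σ d d' p Y) z := Dy_mul cX cA z
  have b1 : Dp p Y (BM e σ d d' r1 r2 p Y) z = Dp p Y (XF r1 r2 p Y) z * bF e σ d d' p Y z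
      + XF r1 r2 p Y z * Dp p Y (bF e σ d d' p Y) z := Dp_mul cX cB z
  have b2 : Dy p Y (BM e σ d d' r1 r2 p Y) z = Dy p Y (XF r1 r2 p Y) z * bF e σ d d' p Y z
      + XF r1 r2 p Y z * Dy p Y (bF e σ d d' p Y) z := Dy_mul cX cB z
  unfold QF
  rw [a1, a2, b1, b2, Dp_aF hp hY hJ he, Dy_aF hp hY hJ, Dp_bF hp hY hJ, Dy_bF hp hY hJ]
  have eA : AM e σ d d' r1 r2 p Y z = XF r1 r2 p Y z * aF e σ d d' p Y z := rfl
  have eB : BM e σ d d' r1 r2 p Y z = XF r1 r2 p Y z * bF e σ d d' p Y z := rfl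
  have eL : LM e σ d d' r1 r2 r3 N p Y k z
      = XF r1 r2 p Y z * lF e σ d d' p Y k z - N * PF r2 r3 p Y z := rfl
  have ea : aF e σ d d' p Y z
    = e * (th d d' (sF e σ p Y z) * (1 + 4 * (sF e σ p Y z - d))) := rfl
  have eb : bF e σ d d' p Y z = Y z * th d d' (sF e σ p Y z) := rfl
  have el : lF e σ d d' p Y k z = -((th d d' (sF e σ p Y z)
    + deriv (th d d') (sF e σ p Y z)) * k z)
    - 1 / 2 * (deriv (th d d') (sF e σ p Y z)
      * (1 + 4 * (sF e σ p Y z - d) - Y z * (σ * deriv om (Y z)))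
      + 3 * th d d' (sF e σ p Y z)) := rfl
  rw [eA, eB, eL, ea, eb, el]
  ring

theorem PF_nonneg (r2 r3 : ℝ) (p Y : PP → ℝ) (z : PP) : 0 ≤ PF r2 r3 p Y z :=
  mul_nonneg (by linarith [cut_le_one (3 / 5) (31 / 50) (tF p Y z)]) (cut_nonneg _ _ _)

theorem PF_eq_zero {r2 r3 : ℝ} {p Y : PP → ℝ} {z : PP} (h : tF p Y z ≤ 3 / 5) :
    PF r2 r3 p Y z = 0 := by
  unfold PF
  rw [cut_eq_one (by norm_num) h]; ring

theorem PF_eq_one {r2 r3 : ℝ} (h23 : r2 < r3) {p Y : PP → ℝ} {z : PP} (h : 31 / 50 ≤ tF p Y z)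
    (h' : tF p Y z ≤ r2) : PF r2 r3 p Y z = 1 := by
  unfold PF
  rw [cut_eq_zero (by norm_num) h, cut_eq_one h23 h']; ring

theorem QF_lower {κ σ δ d d' r1 r2 r3 N M C e : ℝ} {p Y k φ : PP → ℝ} {z : PP}
    (hc : Chart δ p Y) (hP : Pocket δ p Y k) (hκ : 0 < κ)
    (hκ0 : κ ≤ 1 / 1000000) (hσ : 0 ≤ σ) (hσ1 : σ ≤ √κ / 1000)
    (hσw : ∀ y, σ * |deriv om y| ≤ √κ / 1000) (hδ : 0 ≤ δ) (hδ0 : δ ≤ 1 / 5000) (hd : 0 < d)
    (hdd' : d < d') (hd' : d' ≤ σ / 2) (he : e = 1 ∨ e = -1) (hr1 : 16 / 25 ≤ r1)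
    (hr12 : r1 < r2) (hr23 : r2 < r3) (hz : p z ^ 2 + Y z ^ 2 < 1) (hM : 1 ≤ M)
    (hkM : |k z| ≤ M) (h1 : |Dp p Y (XF r1 r2 p Y) z| ≤ M) (h2 : |Dy p Y (XF r1 r2 p Y) z| ≤ M)
    (ha : |aF e σ d d' p Y z| ≤ M) (hb : |bF e σ d d' p Y z| ≤ M)
    (hN : N = 2 * M ^ 3 / (κ * (3 / 10)))
    (hC : |1 / 2 * (Dy p Y (Dy p Y (LM e σ d d' r1 r2 r3 N p Y k)) z
        + κ * (Dp p Y k z * Dp p Y (LM e σ d d' r1 r2 r3 N p Y k) z
          + k z * Dp p Y (Dp p Y (LM e σ d d' r1 r2 r3 N p Y k)) z))| ≤ C) :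
    XF r1 r2 p Y z * (2 * th d d' (sF e σ p Y z) * Dy p Y φ z ^ 2
      + κ / 200 * th d d' (sF e σ p Y z) * Dp p Y φ z ^ 2) - C * φ z ^ 2
    ≤ QF κ p Y k φ (AM e σ d d' r1 r2 p Y) (BM e σ d d' r1 r2 p Y)
        (LM e σ d d' r1 r2 r3 N p Y k) z := by
  have hJ := hc.J_ne (by linarith : δ ≤ 1 / 10)
  have hee : e * e = 1 := by rcases he with h | h <;> rw [h] <;> norm_num
  have hX0 : 0 ≤ XF r1 r2 p Y z := cut_nonneg _ _ _
  have ht : tF p Y z = p z ^ 2 + Y z ^ 2 := by unfold tF; ring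
  have hk0 := hP.k0 z hz
  rw [QF_decomp hc.smp hc.smY hJ hee]
  -- main form
  have main := form_pos (κ := κ) (σ := σ) (δ := δ) (d := d) (d' := d') (p := p z) (Y := Y z)
    (k := k z) (kp := Dp p Y k z) (ky := Dy p Y k z) (w := deriv om (Y z)) (o := om (Y z))
    (s := sF e σ p Y z) (t0 := th d d' (sF e σ p Y z)) (t1 := deriv (th d d') (sF e σ p Y z))
    (u := Dy p Y φ z) (v := Dp p Y φ z) (e := e) hκ hκ0 hσ hσ1 (hσw _) hδ hδ0 hd hd' he hz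
    (om_nonneg _) (om_le_one _) hk0 (hP.kp z hz) (hP.ky z hz)
    (fun hw => by
      by_contra hcon
      exact hw (deriv_om_eq_zero (not_le.1 hcon)))
    rfl (th_nonneg _ _ _) (deriv_th_nonneg hdd' _) (fun h => th_eq_zero hdd' h)
    (fun h => deriv_th_eq_zero hdd' h)
  have main' := mul_le_mul_of_nonneg_left main hX0
  -- extra terms
  have hkt : 3 / 5 < tF p Y z → 3 / 10 ≤ k z := by
    intro h
    rw [ht] at h
    have := (abs_le.1 hk0).1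
    linarith
  have extra : 0 ≤ ((Dp p Y (XF r1 r2 p Y) z * aF e σ d d' p Y z - Dy p Y (XF r1 r2 p Y) z
          * bF e σ d d' p Y z) / 2 * Dy p Y φ z ^ 2
      + κ * ((-(Dp p Y (XF r1 r2 p Y) z * aF e σ d d' p Y z * k z)
          + Dy p Y (XF r1 r2 p Y) z * bF e σ d d' p Y z * k z) / 2) * Dp p Y φ z ^ 2
      - (Dy p Y (XF r1 r2 p Y) z * aF e σ d d' p Y z
          + κ * (Dp p Y (XF r1 r2 p Y) z * bF e σ d d' p Y z * k z))
          * (Dp p Y φ z * Dy p Y φ z))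
    + N * PF r2 r3 p Y z * (Dy p Y φ z ^ 2 + κ * k z * Dp p Y φ z ^ 2) := by
    have hN0 : 0 < N := by rw [hN]; positivity
    by_cases hcut : deriv (cut r1 r2) (tF p Y z) = 0
    · have x1 : Dp p Y (XF r1 r2 p Y) z = 0 := by
        rw [Dp_XF hc.smp hc.smY hJ, hcut]; ring
      have x2 : Dy p Y (XF r1 r2 p Y) z = 0 := by
        rw [Dy_XF hc.smp hc.smY hJ, hcut]; ring
      rw [x1, x2]
      have : 0 ≤ N * PF r2 r3 p Y z * (Dy p Y φ z ^ 2 + κ * k z * Dp p Y φ z ^ 2) := by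
        by_cases h35 : tF p Y z ≤ 3 / 5
        · rw [PF_eq_zero h35]; simp
        · have hk3 := hkt (not_le.1 h35)
          have := PF_nonneg r2 r3 p Y z
          have hk0' : 0 ≤ k z := by linarith
          positivity
      simpa using this
    · have ht1 : r1 ≤ tF p Y z := by
        by_contra hcon
        exact hcut (deriv_cut_eq_zero_left hr12 (not_le.1 hcon))
      have ht2 : tF p Y z ≤ r2 := by
        by_contra hcon
        exact hcut (deriv_cut_eq_zero_right hr12 (not_le.1 hcon))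
      rw [PF_eq_one hr23 (by linarith) ht2, mul_one]
      exact extra_bound hM hκ (by linarith) (hkt (by linarith)) hkM h1 h2 ha hb hN
  have hC' := (abs_le.1 hC).1
  have hφ2 := mul_le_mul_of_nonneg_right hC' (sq_nonneg (φ z))
  linarith

end Crest.Agent.Iso341.En
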