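import Crest.Agent.Iso341.EnIdent

/-! S0341, ENERGY part 2: multipliers with uniformly bounded derivatives. -/

set_option autoImplicit false

open MeasureTheory Set
open scoped ContDiff

namespace Crest.Agent.Iso341.En

/-- a family of smooth functions whose derivatives up to order two (no mixed ones) are bounded on
`p² + Y² < 1`, uniformly over all charts and pockets -/
def UB (δ : ℝ) (G : (PP → ℝ) → (PP → ℝ) → (PP → ℝ) → PP → ℝ) : Prop :=
  (∀ p Y k, Chart δ p Y → Pocket δ p Y k → ContDiff ℝ ∞ (G p Y k)) ∧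
  ∃ C : ℝ, 0 ≤ C ∧ ∀ p Y k, Chart δ p Y → Pocket δ p Y k → ∀ z, p z ^ 2 + Y z ^ 2 < 1 →
    |G p Y k z| ≤ C ∧ |Dp p Y (G p Y k) z| ≤ C ∧ |Dy p Y (G p Y k) z| ≤ C ∧
    |Dp p Y (Dp p Y (G p Y k)) z| ≤ C ∧ |Dy p Y (Dy p Y (G p Y k)) z| ≤ C

section UB

variable {δ : ℝ}

theorem UB.const (c : ℝ) : UB δ (fun _ _ _ _ => c) := by
  refine ⟨fun p Y k _ _ => contDiff_const, |c|, abs_nonneg c, fun p Y k _ _ z _ => ?_⟩
  have h1 : Dp p Y (fun _ => c) = fun _ => 0 := by funext w; exact Dp_const c w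
  have h2 : Dy p Y (fun _ => c) = fun _ => 0 := by funext w; exact Dy_const c w
  rw [h1, h2, Dp_const, Dy_const]
  simp

theorem UB.p (hδ : δ ≤ 1 / 10) : UB δ (fun p _ _ => p) := by
  refine ⟨fun p Y k h _ => h.smp, 1, zero_le_one, fun p Y k h _ z hz => ?_⟩
  have hJ := h.J_ne hδ
  have h1 : Dp p Y p = fun _ => 1 := by funext w; exact Dp_p hJ w
  have h2 : Dy p Y p = fun _ => 0 := by funext w; exact Dy_p p Y w
  rw [h1, h2, Dp_const, Dy_const]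
  have : |p z| ≤ 1 := by
    rw [abs_le]; constructor <;> nlinarith [sq_nonneg (Y z)]
  simp [this]

theorem UB.Y (hδ : δ ≤ 1 / 10) : UB δ (fun _ Y _ => Y) := by
  refine ⟨fun p Y k h _ => h.smY, 1, zero_le_one, fun p Y k h _ z hz => ?_⟩
  have hJ := h.J_ne hδ
  have h1 : Dp p Y Y = fun _ => 0 := by funext w; exact Dp_Y p Y w
  have h2 : Dy p Y Y = fun _ => 1 := by funext w; exact Dy_Y hJ w
  rw [h1, h2, Dp_const, Dy_const]
  have : |Y z| ≤ 1 := by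
    rw [abs_le]; constructor <;> nlinarith [sq_nonneg (p z)]
  simp [this]

theorem UB.k (hδ : δ ≤ 1 / 10) : UB δ (fun _ _ k => k) := by
  refine ⟨fun p Y k _ h => h.smk, 3, by norm_num, fun p Y k _ h z hz => ?_⟩
  have h0 := abs_le.1 (h.k0 z hz)
  have h1 := abs_le.1 (h.kp z hz)
  have h2 := abs_le.1 (h.ky z hz)
  have hp : |p z| ≤ 1 := by
    rw [abs_le]; constructor <;> nlinarith [sq_nonneg (Y z)]
  have hY : |Y z| ≤ 1 := by
    rw [abs_le]; constructor <;> nlinarith [sq_nonneg (p z)]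
  have hp' := abs_le.1 hp
  have hY' := abs_le.1 hY
  refine ⟨?_, ?_, ?_, h.kpp z hz, h.kyy z hz⟩
  · rw [abs_le]; constructor <;> nlinarith [sq_nonneg (p z), sq_nonneg (Y z)]
  · rw [abs_le]; constructor <;> linarith
  · rw [abs_le]; constructor <;> linarith

theorem UB.add {F G : (PP → ℝ) → (PP → ℝ) → (PP → ℝ) → PP → ℝ} (hδ : δ ≤ 1 / 10)
    (hF : UB δ F) (hG : UB δ G) : UB δ (fun p Y k z => F p Y k z + G p Y k z) := by
  obtain ⟨hFs, C, hC, hF⟩ := hF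
  obtain ⟨hGs, C', hC', hG⟩ := hG
  refine ⟨fun p Y k h h' => (hFs p Y k h h').add (hGs p Y k h h'), C + C', by positivity,
    fun p Y k h h' z hz => ?_⟩
  have hJ := h.J_ne hδ
  have cF := hFs p Y k h h'
  have cG := hGs p Y k h h'
  have e1 : Dp p Y (fun z => F p Y k z + G p Y k z)
      = fun z => Dp p Y (F p Y k) z + Dp p Y (G p Y k) z := by
    funext w; exact Dp_add cF cG w
  have e2 : Dy p Y (fun z => F p Y k z + G p Y k z)
      = fun z => Dy p Y (F p Y k) z + Dy p Y (G p Y k) z := by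
    funext w; exact Dy_add cF cG w
  rw [e1, e2, Dp_add (contDiff_Dp h.smp h.smY hJ cF) (contDiff_Dp h.smp h.smY hJ cG),
    Dy_add (contDiff_Dy h.smp h.smY hJ cF) (contDiff_Dy h.smp h.smY hJ cG)]
  obtain ⟨f0, f1, f2, f3, f4⟩ := hF p Y k h h' z hz
  obtain ⟨g0, g1, g2, g3, g4⟩ := hG p Y k h h' z hz
  refine ⟨(abs_add_le _ _).trans (add_le_add f0 g0), (abs_add_le _ _).trans (add_le_add f1 g1),
    (abs_add_le _ _).trans (add_le_add f2 g2), (abs_add_le _ _).trans (add_le_add f3 g3),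
    (abs_add_le _ _).trans (add_le_add f4 g4)⟩

theorem abs_mul_bound {a b A B : ℝ} (ha : |a| ≤ A) (hb : |b| ≤ B) : |a * b| ≤ A * B := by
  rw [abs_mul]
  exact mul_le_mul ha hb (abs_nonneg _) ((abs_nonneg _).trans ha)

theorem UB.mul {F G : (PP → ℝ) → (PP → ℝ) → (PP → ℝ) → PP → ℝ} (hδ : δ ≤ 1 / 10)
    (hF : UB δ F) (hG : UB δ G) : UB δ (fun p Y k z => F p Y k z * G p Y k z) := by
  obtain ⟨hFs, C, hC, hF⟩ := hF
  obtain ⟨hGs, C', hC', hG⟩ := hG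
  refine ⟨fun p Y k h h' => (hFs p Y k h h').mul (hGs p Y k h h'), 4 * (C * C'), by positivity,
    fun p Y k h h' z hz => ?_⟩
  have hJ := h.J_ne hδ
  have cF := hFs p Y k h h'
  have cG := hGs p Y k h h'
  have cFp := contDiff_Dp h.smp h.smY hJ cF
  have cGp := contDiff_Dp h.smp h.smY hJ cG
  have cFy := contDiff_Dy h.smp h.smY hJ cF
  have cGy := contDiff_Dy h.smp h.smY hJ cG
  have e1 : Dp p Y (fun z => F p Y k z * G p Y k z)
      = fun z => Dp p Y (F p Y k) z * G p Y k z + F p Y k z * Dp p Y (G p Y k) z := by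
    funext w; exact Dp_mul cF cG w
  have e2 : Dy p Y (fun z => F p Y k z * G p Y k z)
      = fun z => Dy p Y (F p Y k) z * G p Y k z + F p Y k z * Dy p Y (G p Y k) z := by
    funext w; exact Dy_mul cF cG w
  rw [e1, e2, Dp_add (cFp.mul cG) (cF.mul cGp), Dy_add (cFy.mul cG) (cF.mul cGy),
    Dp_mul cFp cG, Dp_mul cF cGp, Dy_mul cFy cG, Dy_mul cF cGy]
  obtain ⟨f0, f1, f2, f3, f4⟩ := hF p Y k h h' z hz
  obtain ⟨g0, g1, g2, g3, g4⟩ := hG p Y k h h' z hz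
  have P : 0 ≤ C * C' := by positivity
  have b00 := abs_mul_bound f0 g0
  have b10 := abs_mul_bound f1 g0
  have b01 := abs_mul_bound f0 g1
  have b20 := abs_mul_bound f2 g0
  have b02 := abs_mul_bound f0 g2
  have b30 := abs_mul_bound f3 g0
  have b03 := abs_mul_bound f0 g3
  have b40 := abs_mul_bound f4 g0
  have b04 := abs_mul_bound f0 g4
  have b11 := abs_mul_bound f1 g1
  have b22 := abs_mul_bound f2 g2
  simp only [abs_le] at b00 b10 b01 b20 b02 b30 b03 b40 b04 b11 b22 ⊢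
  refine ⟨⟨?_, ?_⟩, ⟨?_, ?_⟩, ⟨?_, ?_⟩, ⟨?_, ?_⟩, ⟨?_, ?_⟩⟩ <;> linarith [b00.1, b00.2, b10.1,
    b10.2, b01.1, b01.2, b20.1, b20.2, b02.1, b02.2, b30.1, b30.2, b03.1, b03.2, b40.1, b40.2,
    b04.1, b04.2, b11.1, b11.2, b22.1, b22.2]

theorem UB.comp {F : (PP → ℝ) → (PP → ℝ) → (PP → ℝ) → PP → ℝ} (hδ : δ ≤ 1 / 10)
    (hF : UB δ F) {g : ℝ → ℝ} (hg : ContDiff ℝ ∞ g) : UB δ (fun p Y k z => g (F p Y k z)) := by
  obtain ⟨hFs, C, hC, hF⟩ := hF
  have hg1 : ContDiff ℝ ∞ (deriv g) := (contDiff_infty_iff_deriv.1 hg).2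
  have hg2 : ContDiff ℝ ∞ (deriv (deriv g)) := (contDiff_infty_iff_deriv.1 hg1).2
  obtain ⟨M0, hM0⟩ := (isCompact_Icc (a := -C) (b := C)).exists_bound_of_continuousOn
    hg.continuous.continuousOn
  obtain ⟨M1, hM1⟩ := (isCompact_Icc (a := -C) (b := C)).exists_bound_of_continuousOn
    hg1.continuous.continuousOn
  obtain ⟨M2, hM2⟩ := (isCompact_Icc (a := -C) (b := C)).exists_bound_of_continuousOn
    hg2.continuous.continuousOn
  have zC : (0 : ℝ) ∈ Icc (-C) C := ⟨by linarith, hC⟩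
  have M0' : 0 ≤ M0 := (norm_nonneg _).trans (hM0 0 zC)
  have M1' : 0 ≤ M1 := (norm_nonneg _).trans (hM1 0 zC)
  have M2' : 0 ≤ M2 := (norm_nonneg _).trans (hM2 0 zC)
  refine ⟨fun p Y k h h' => hg.comp (hFs p Y k h h'), M0 + M1 * C + M2 * C * C, by positivity,
    fun p Y k h h' z hz => ?_⟩
  have hJ := h.J_ne hδ
  have cF := hFs p Y k h h'
  have cFp := contDiff_Dp h.smp h.smY hJ cF
  have cFy := contDiff_Dy h.smp h.smY hJ cF
  have c1 : ContDiff ℝ ∞ (fun z => deriv g (F p Y k z)) := hg1.comp cF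
  have e1 : Dp p Y (fun z => g (F p Y k z))
      = fun z => deriv g (F p Y k z) * Dp p Y (F p Y k) z := by
    funext w; exact Dp_comp hg cF w
  have e2 : Dy p Y (fun z => g (F p Y k z))
      = fun z => deriv g (F p Y k z) * Dy p Y (F p Y k) z := by
    funext w; exact Dy_comp hg cF w
  rw [e1, e2, Dp_mul c1 cFp, Dy_mul c1 cFy, Dp_comp hg1 cF, Dy_comp hg1 cF]
  obtain ⟨f0, f1, f2, f3, f4⟩ := hF p Y k h h' z hz
  have m0 := hM0 _ (abs_le.1 f0)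
  have m1 := hM1 _ (abs_le.1 f0)
  have m2 := hM2 _ (abs_le.1 f0)
  rw [Real.norm_eq_abs] at m0 m1 m2
  have P1 : 0 ≤ M1 * C := by positivity
  have P2 : 0 ≤ M2 * C * C := by positivity
  have b1 := abs_mul_bound m1 f1
  have b2 := abs_mul_bound m1 f2
  have b3 := abs_mul_bound m1 f3
  have b4 := abs_mul_bound m1 f4
  have b5 := abs_mul_bound (abs_mul_bound m2 f1) f1
  have b6 := abs_mul_bound (abs_mul_bound m2 f2) f2
  simp only [abs_le] at m0 b1 b2 b3 b4 b5 b6 ⊢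
  refine ⟨⟨?_, ?_⟩, ⟨?_, ?_⟩, ⟨?_, ?_⟩, ⟨?_, ?_⟩, ⟨?_, ?_⟩⟩ <;> linarith [m0.1, m0.2, b1.1, b1.2,
    b2.1, b2.2, b3.1, b3.2, b4.1, b4.2, b5.1, b5.2, b6.1, b6.2]

theorem UB.const_mul {F : (PP → ℝ) → (PP → ℝ) → (PP → ℝ) → PP → ℝ} (hδ : δ ≤ 1 / 10) (c : ℝ)
    (hF : UB δ F) : UB δ (fun p Y k z => c * F p Y k z) := (UB.const c).mul hδ hF

theorem UB.neg {F : (PP → ℝ) → (PP → ℝ) → (PP → ℝ) → PP → ℝ} (hδ : δ ≤ 1 / 10)
    (hF : UB δ F) : UB δ (fun p Y k z => - F p Y k z) := by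
  have := hF.const_mul hδ (-1)
  simpa only [neg_mul, one_mul] using this

theorem UB.sub {F G : (PP → ℝ) → (PP → ℝ) → (PP → ℝ) → PP → ℝ} (hδ : δ ≤ 1 / 10)
    (hF : UB δ F) (hG : UB δ G) : UB δ (fun p Y k z => F p Y k z - G p Y k z) := by
  have := hF.add hδ (hG.neg hδ)
  simpa only [sub_eq_add_neg] using this

/-- the coefficient of `φ²` in the quadratic form is uniformly bounded -/
theorem UB.coef {L : (PP → ℝ) → (PP → ℝ) → (PP → ℝ) → PP → ℝ} (hδ : δ ≤ 1 / 10)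
    (hL : UB δ L) (κ : ℝ) : ∃ C : ℝ, 0 ≤ C ∧ ∀ p Y k, Chart δ p Y → Pocket δ p Y k →
    ∀ z, p z ^ 2 + Y z ^ 2 < 1 → |1 / 2 * (Dy p Y (Dy p Y (L p Y k)) z
      + κ * (Dp p Y k z * Dp p Y (L p Y k) z + k z * Dp p Y (Dp p Y (L p Y k)) z))| ≤ C := by
  obtain ⟨-, C, hC, hL⟩ := hL
  obtain ⟨-, D, hD, hk⟩ := UB.k (δ := δ) hδ
  refine ⟨1 / 2 * (C + |κ| * (D * C + D * C)), by positivity, fun p Y k h h' z hz => ?_⟩
  obtain ⟨f0, f1, f2, f3, f4⟩ := hL p Y k h h' z hz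
  obtain ⟨g0, g1, g2, g3, g4⟩ := hk p Y k h h' z hz
  have b1 := abs_mul_bound g1 f1
  have b2 := abs_mul_bound g0 f3
  have b3 : |Dp p Y k z * Dp p Y (L p Y k) z + k z * Dp p Y (Dp p Y (L p Y k)) z|
      ≤ D * C + D * C := (abs_add_le _ _).trans (add_le_add b1 b2)
  have b4 := abs_mul_bound (le_refl |κ|) b3
  have b5 := (abs_add_le (Dy p Y (Dy p Y (L p Y k)) z) _).trans (add_le_add f4 b4)
  refine abs_mul_bound ?_ b5
  norm_num

end UB

end Crest.Agent.Iso341.En
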