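import Crest.Agent.Iso341.Stmt

/-! S0341, part OUTER: from single pockets to the metric without local immersions. -/

set_option autoImplicit false

open MeasureTheory Set Filter Topology
open scoped ContDiff

namespace Crest.Agent.Iso341

namespace Outer

/-! ### a net with pairwise distinct points, three colours -/

theorem exists_net (K : Set E2) (hK : IsCompact K) (h : ℝ) (hh : 0 < h) :
    ∃ (ι : Type) (_ : Fintype ι) (z : ι → E2) (d : ι → Fin 3), Function.Injective z ∧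
      (∀ x ∈ K, ∀ j : Fin 3, ∃ i, d i = j ∧ ‖x - z i‖ ≤ h) ∧
      (∀ i, ∃ x ∈ K, ‖z i - x‖ ≤ h) := by
  classical
  obtain ⟨t, htK, htf, hcov⟩ := hK.finite_cover_balls (e := h / 2) (by positivity)
  let T := htf.toFinset
  obtain ⟨e, he⟩ : ∃ e : E2, ‖e‖ = 1 := ⟨EuclideanSpace.single 0 1, by simp⟩
  have he0 : e ≠ 0 := by
    intro h0; rw [h0] at he; simp at he
  have key : ∀ᶠ s : ℝ in 𝓝[>] (0 : ℝ), ∀ p : (T × Fin 3) × (T × Fin 3), p.1 ≠ p.2 →
      (p.1.1 : E2) + (s * ((p.1.2 : ℕ) : ℝ)) • e ≠ (p.2.1 : E2) + (s * ((p.2.2 : ℕ) : ℝ)) • e := by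
    rw [Filter.eventually_all]
    rintro ⟨⟨x, i⟩, ⟨y, j⟩⟩
    by_cases hxy : (x : E2) = y
    · have hpos : ∀ᶠ s in 𝓝[>] (0 : ℝ), 0 < s := eventually_mem_nhdsWithin
      filter_upwards [hpos] with s hs hne heq
      have hxy' : x = y := Subtype.ext hxy
      have hij : i ≠ j := by
        intro hij; apply hne; simp [hxy', hij]
      simp only [hxy, add_right_inj] at heq
      have h2 : s * ((i : ℕ) : ℝ) = s * ((j : ℕ) : ℝ) := smul_left_injective ℝ he0 heq
      have h3 : ((i : ℕ) : ℝ) = ((j : ℕ) : ℝ) := mul_left_cancel₀ hs.ne' h2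
      exact hij (Fin.ext (by exact_mod_cast h3))
    · have hc : Tendsto (fun s : ℝ => ((x : E2) + (s * ((i : ℕ) : ℝ)) • e) - ((y : E2) + (s * ((j : ℕ) : ℝ)) • e))
          (𝓝[>] 0) (𝓝 ((x : E2) - y)) := by
        have : ContinuousAt (fun s : ℝ => ((x : E2) + (s * ((i : ℕ) : ℝ)) • e) -
            ((y : E2) + (s * ((j : ℕ) : ℝ)) • e)) 0 := by fun_prop
        have h0 := this.tendsto
        simp only [zero_mul, zero_smul, add_zero] at h0
        exact h0.mono_left nhdsWithin_le_nhds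
      have hne : (x : E2) - y ≠ 0 := sub_ne_zero.2 hxy
      filter_upwards [hc.eventually_ne hne] with s hs _ heq
      exact hs (sub_eq_zero.2 heq)
  have hsm : ∀ᶠ s in 𝓝[>] (0 : ℝ), s < h / 4 :=
    (eventually_lt_nhds (by positivity : (0 : ℝ) < h / 4)).filter_mono nhdsWithin_le_nhds
  have hpos : ∀ᶠ s in 𝓝[>] (0 : ℝ), 0 < s := eventually_mem_nhdsWithin
  obtain ⟨s, hs, hs4, hs0⟩ := (key.and (hsm.and hpos)).exists
  have hshift : ∀ i : Fin 3, ‖(s * ((i : ℕ) : ℝ)) • e‖ ≤ h / 2 := by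
    intro i
    rw [norm_smul, he, mul_one, Real.norm_eq_abs, abs_of_nonneg (by positivity)]
    have : ((i : ℕ) : ℝ) ≤ 2 := by exact_mod_cast Nat.le_of_lt_succ i.2
    nlinarith
  refine ⟨T × Fin 3, inferInstance, fun p => (p.1 : E2) + (s * ((p.2 : ℕ) : ℝ)) • e, fun p => p.2,
    ?_, ?_, ?_⟩
  · intro p q hpq
    by_contra hne
    exact hs (p, q) hne hpq
  · intro x hx j
    obtain ⟨y, hy, hxy⟩ := Set.mem_iUnion₂.1 (hcov hx)
    refine ⟨(⟨y, htf.mem_toFinset.2 hy⟩, j), rfl, ?_⟩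
    have h1 : ‖x - y‖ < h / 2 := by
      rw [Metric.mem_ball, dist_eq_norm] at hxy
      exact hxy
    have h2 := hshift j
    calc ‖x - (y + (s * ((j : ℕ) : ℝ)) • e)‖ = ‖(x - y) - (s * ((j : ℕ) : ℝ)) • e‖ := by
          congr 1; abel
      _ ≤ ‖x - y‖ + ‖(s * ((j : ℕ) : ℝ)) • e‖ := norm_sub_le _ _
      _ ≤ h := by linarith
  · rintro ⟨x, i⟩
    refine ⟨x, htK (htf.mem_toFinset.1 x.2), ?_⟩
    have h2 := hshift i
    simp only [add_sub_cancel_left]
    linarith

/-- finitely many distinct points are separated -/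
theorem exists_sep {ι : Type} [Fintype ι] (z : ι → E2) (hz : Function.Injective z) (a : ℝ)
    (ha : 0 < a) : ∃ ρ : ℝ, 0 < ρ ∧ ρ ≤ a ∧ ∀ i j, i ≠ j → 2 * ρ ≤ ‖z i - z j‖ := by
  classical
  have key : ∀ᶠ s in 𝓝[>] (0 : ℝ), ∀ p : ι × ι, p.1 ≠ p.2 → 2 * s ≤ ‖z p.1 - z p.2‖ := by
    rw [Filter.eventually_all]
    rintro ⟨i, j⟩
    by_cases hij : i = j
    · exact Eventually.of_forall fun s h => absurd hij h
    · have h0 : 0 < ‖z i - z j‖ := norm_pos_iff.2 (sub_ne_zero.2 fun h => hij (hz h))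
      have : ∀ᶠ s in 𝓝[>] (0 : ℝ), s < ‖z i - z j‖ / 2 :=
        (eventually_lt_nhds (by positivity : (0 : ℝ) < ‖z i - z j‖ / 2)).filter_mono
          nhdsWithin_le_nhds
      filter_upwards [this] with s hs _
      show 2 * s ≤ ‖z i - z j‖
      linarith
  have hsm : ∀ᶠ s in 𝓝[>] (0 : ℝ), s < a :=
    (eventually_lt_nhds ha).filter_mono nhdsWithin_le_nhds
  have hpos : ∀ᶠ s in 𝓝[>] (0 : ℝ), 0 < s := eventually_mem_nhdsWithin
  obtain ⟨s, hs, hs4, hs0⟩ := (key.and (hsm.and hpos)).exists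
  exact ⟨s, hs0, hs4.le, fun i j hij => hs (i, j) hij⟩

/-! ### the three directions -/

/-- the three directions `e₁, e₂, (e₁ + e₂)/√2` -/
noncomputable def dir (j : Fin 3) : E2 :=
  if j = 0 then EuclideanSpace.single 0 1
  else if j = 1 then EuclideanSpace.single 1 1
  else (√2)⁻¹ • (EuclideanSpace.single 0 1 + EuclideanSpace.single 1 1)

theorem dir_zero : dir 0 = EuclideanSpace.single 0 1 := by simp [dir]
theorem dir_one : dir 1 = EuclideanSpace.single 1 1 := by simp [dir]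
theorem dir_two : dir 2 = (√2)⁻¹ • (dir 0 + dir 1) := by simp [dir]

theorem sqrt_two_inv_sq : (√2)⁻¹ * (√2)⁻¹ = (1 / 2 : ℝ) := by
  rw [← mul_inv, Real.mul_self_sqrt (by norm_num)]
  norm_num

theorem norm_dir (j : Fin 3) : ‖dir j‖ = 1 := by
  fin_cases j
  · show ‖dir 0‖ = 1
    rw [dir_zero]; simp
  · show ‖dir 1‖ = 1
    rw [dir_one]; simp
  · show ‖dir 2‖ = 1
    have h2 : ‖dir 2‖ ^ 2 = 1 := by
      rw [dir_two, dir_zero, dir_one, EuclideanSpace.norm_sq_eq, Fin.sum_univ_two]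
      simp
      norm_num
    have h0 : 0 ≤ ‖dir 2‖ := norm_nonneg _
    nlinarith

theorem decomp (a : E2) : a = a 0 • dir 0 + a 1 • dir 1 := by
  rw [dir_zero, dir_one]
  ext i
  fin_cases i <;> simp

theorem abs_coord_le (a : E2) (i : Fin 2) : |a i| ≤ ‖a‖ := by
  have := EuclideanSpace.norm_sq_eq a
  rw [Fin.sum_univ_two] at this
  have h1 : |a i| ^ 2 ≤ ‖a‖ ^ 2 := by
    rw [this]
    fin_cases i
    · simp only [Real.norm_eq_abs]
      show |a 0| ^ 2 ≤ _
      nlinarith [sq_nonneg |a 1|]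
    · simp only [Real.norm_eq_abs]
      show |a 1| ^ 2 ≤ _
      nlinarith [sq_nonneg |a 0|]
  exact abs_le_of_sq_le_sq' (by simpa using h1) (norm_nonneg _) |> fun h => abs_le.2 h

theorem hess_le (B : E2 →L[ℝ] E2 →L[ℝ] E3) (hB : ∀ a b, B a b = B b a) (τ : ℝ) (hτ : 0 ≤ τ)
    (h : ∀ j, ‖B (dir j) (dir j)‖ ≤ τ) : ‖B‖ ≤ 6 * τ := by
  have h00 := h 0
  have h11 := h 1
  have h22 := h 2
  have e22 : B (dir 2) (dir 2) = (1 / 2 : ℝ) • (B (dir 0) (dir 0) + B (dir 1) (dir 1)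
      + (2 : ℝ) • B (dir 0) (dir 1)) := by
    rw [dir_two]
    simp only [map_smul, map_add, FunLike.coe_add, FunLike.coe_smul, Pi.add_apply,
      Pi.smul_apply, smul_smul, smul_add]
    rw [sqrt_two_inv_sq, hB (dir 1) (dir 0)]
    module
  have e01 : B (dir 0) (dir 1) = B (dir 2) (dir 2) - (1 / 2 : ℝ) • B (dir 0) (dir 0)
      - (1 / 2 : ℝ) • B (dir 1) (dir 1) := by
    rw [e22]; module
  have h01 : ‖B (dir 0) (dir 1)‖ ≤ 2 * τ := by
    rw [e01]
    calc _ ≤ ‖B (dir 2) (dir 2)‖ + ‖(1 / 2 : ℝ) • B (dir 0) (dir 0)‖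
          + ‖(1 / 2 : ℝ) • B (dir 1) (dir 1)‖ := by
          refine (norm_sub_le _ _).trans ?_
          gcongr
          exact norm_sub_le _ _
      _ ≤ τ + 1 / 2 * τ + 1 / 2 * τ := by
          rw [norm_smul, norm_smul]
          norm_num
          gcongr
      _ = 2 * τ := by ring
  refine ContinuousLinearMap.opNorm_le_bound₂ _ (by positivity) fun a b => ?_
  have ha0 := abs_coord_le a 0
  have ha1 := abs_coord_le a 1
  have hb0 := abs_coord_le b 0
  have hb1 := abs_coord_le b 1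
  have expand : B a b = (a 0 * b 0) • B (dir 0) (dir 0) + (a 0 * b 1) • B (dir 0) (dir 1)
      + (a 1 * b 0) • B (dir 0) (dir 1) + (a 1 * b 1) • B (dir 1) (dir 1) := by
    conv_lhs => rw [decomp a, decomp b]
    simp only [map_smul, map_add, FunLike.coe_add, FunLike.coe_smul, Pi.add_apply,
      Pi.smul_apply, smul_smul, smul_add]
    rw [hB (dir 1) (dir 0)]
    module
  rw [expand]
  have n1 : ‖(a 0 * b 0) • B (dir 0) (dir 0)‖ ≤ (‖a‖ * ‖b‖) * τ := by
    rw [norm_smul, norm_mul, Real.norm_eq_abs, Real.norm_eq_abs]; gcongr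
  have n2 : ‖(a 0 * b 1) • B (dir 0) (dir 1)‖ ≤ (‖a‖ * ‖b‖) * (2 * τ) := by
    rw [norm_smul, norm_mul, Real.norm_eq_abs, Real.norm_eq_abs]; gcongr
  have n3 : ‖(a 1 * b 0) • B (dir 0) (dir 1)‖ ≤ (‖a‖ * ‖b‖) * (2 * τ) := by
    rw [norm_smul, norm_mul, Real.norm_eq_abs, Real.norm_eq_abs]; gcongr
  have n4 : ‖(a 1 * b 1) • B (dir 1) (dir 1)‖ ≤ (‖a‖ * ‖b‖) * τ := by
    rw [norm_smul, norm_mul, Real.norm_eq_abs, Real.norm_eq_abs]; gcongr
  calc _ ≤ ‖(a 0 * b 0) • B (dir 0) (dir 0)‖ + ‖(a 0 * b 1) • B (dir 0) (dir 1)‖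
        + ‖(a 1 * b 0) • B (dir 0) (dir 1)‖ + ‖(a 1 * b 1) • B (dir 1) (dir 1)‖ :=
        norm_add₄_le
    _ ≤ 6 * τ * ‖a‖ * ‖b‖ := by nlinarith

/-! ### second derivative along the path -/

theorem hess_bound (F : E2 → E3) (c : E2) (r M : ℝ)
    (hF : ContDiffOn ℝ ∞ F (Metric.ball c r))
    (hM : ∀ x ∈ Metric.ball c r, ‖iteratedFDeriv ℝ 3 F x‖ ≤ M) (x : E2)
    (hx : x ∈ Metric.ball c r) (θ h : ℝ) (hθ : 0 ≤ θ) (hh : 0 ≤ h)
    (hnet : ∀ j : Fin 3, ∃ z ∈ Metric.ball c r, ‖x - z‖ ≤ h ∧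
      ‖fderiv ℝ (fderiv ℝ F) z (dir j) (dir j)‖ ≤ θ) :
    ‖fderiv ℝ (fderiv ℝ F) x‖ ≤ 6 * (θ + M * h) := by
  have hM0 : 0 ≤ M := (norm_nonneg _).trans (hM x hx)
  have hat : ∀ y ∈ Metric.ball c r, ContDiffAt ℝ ∞ F y := fun y hy =>
    hF.contDiffAt (Metric.isOpen_ball.mem_nhds hy)
  refine hess_le _ ?_ _ (by positivity) fun j => ?_
  · have := (hat x hx).isSymmSndFDerivAt (by simp only [minSmoothness_of_isRCLikeNormedField]; exact WithTop.coe_le_coe.2 le_top)
    exact this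
  · obtain ⟨z, hz, hxz, hzθ⟩ := hnet j
    have hdiff : ∀ y ∈ Metric.ball c r, DifferentiableAt ℝ (iteratedFDeriv ℝ 2 F) y := fun y hy =>
      (hat y hy).differentiableAt_iteratedFDeriv (WithTop.coe_lt_coe.2 (ENat.natCast_lt_top 2))
    have hlip := (convex_ball c r).norm_image_sub_le_of_norm_fderiv_le (𝕜 := ℝ) hdiff
      (fun y hy => by rw [norm_fderiv_iteratedFDeriv]; exact hM y hy) hz hx
    have e1 : fderiv ℝ (fderiv ℝ F) x (dir j) (dir j) =
        fderiv ℝ (fderiv ℝ F) z (dir j) (dir j) +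
          (iteratedFDeriv ℝ 2 F x - iteratedFDeriv ℝ 2 F z) (fun _ => dir j) := by
      have h1 := iteratedFDeriv_two_apply F x (𝕜 := ℝ) (fun _ => dir j)
      have h2 := iteratedFDeriv_two_apply F z (𝕜 := ℝ) (fun _ => dir j)
      rw [← h1, ← h2]
      simp
    rw [e1]
    refine (norm_add_le _ _).trans (add_le_add hzθ ?_)
    refine (ContinuousMultilinearMap.le_opNorm _ _).trans ?_
    simp only [norm_dir, Finset.prod_const_one, mul_one]
    exact hlip.trans (by gcongr)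

/-! ### the path around the bump -/

/-- mean value inequality along a segment -/
theorem seg_bound {V : Type*} [NormedAddCommGroup V] [NormedSpace ℝ V] (f : E2 → V) (p q : E2)
    (C : ℝ) (hd : ∀ x ∈ segment ℝ p q, DifferentiableAt ℝ f x)
    (hC : ∀ x ∈ segment ℝ p q, ‖fderiv ℝ f x‖ ≤ C) (x : E2) (hx : x ∈ segment ℝ p q) :
    ‖f x - f p‖ ≤ C * ‖q - p‖ := by
  have hC0 : 0 ≤ C := (norm_nonneg _).trans (hC x hx)
  have h1 := (convex_segment p q).norm_image_sub_le_of_norm_fderiv_le (𝕜 := ℝ) hd hC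
    (left_mem_segment ℝ p q) hx
  refine h1.trans (mul_le_mul_of_nonneg_left ?_ hC0)
  obtain ⟨a, b, ha, hb, hab, rfl⟩ := hx
  have : a • p + b • q - p = b • (q - p) := by
    have : a = 1 - b := by linarith
    subst this; module
  rw [this, norm_smul, Real.norm_eq_abs, abs_of_nonneg hb]
  have hb1 : b ≤ 1 := by linarith
  calc b * ‖q - p‖ ≤ 1 * ‖q - p‖ := by gcongr
    _ = _ := one_mul _

theorem norm_comb (u w : ℝ) : ‖u • dir 0 + w • dir 1‖ ^ 2 = u ^ 2 + w ^ 2 := by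
  rw [dir_zero, dir_one, EuclideanSpace.norm_sq_eq, Fin.sum_univ_two]
  simp

/-- the four corners of the path -/
noncomputable def pA (c : E2) (r : ℝ) : E2 := c - (r / 2) • dir 0
noncomputable def pA' (c : E2) (r : ℝ) : E2 := c - (r / 2) • dir 0 + (r / 2) • dir 1
noncomputable def pB' (c : E2) (r : ℝ) : E2 := c + (r / 2) • dir 0 + (r / 2) • dir 1
noncomputable def pB (c : E2) (r : ℝ) : E2 := c + (r / 2) • dir 0

/-- the path -/
def pK (c : E2) (r : ℝ) : Set E2 :=
  segment ℝ (pA c r) (pA' c r) ∪ segment ℝ (pA' c r) (pB' c r) ∪ segment ℝ (pB' c r) (pB c r)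

theorem norm_of_comb (x : E2) (r u w : ℝ) (hr : 0 < r) (hx : x = u • dir 0 + w • dir 1)
    (hu : |u| ≤ r / 2) (hw : |w| ≤ r / 2) (h : r / 2 ≤ |u| ∨ r / 2 ≤ |w|) :
    r / 2 ≤ ‖x‖ ∧ ‖x‖ ≤ 3 / 4 * r := by
  have h2 : ‖x‖ ^ 2 = |u| ^ 2 + |w| ^ 2 := by rw [hx, norm_comb, sq_abs, sq_abs]
  have hx0 := norm_nonneg x
  have hu0 := abs_nonneg u
  have hw0 := abs_nonneg w
  constructor
  · apply le_of_sq_le_sq _ hx0
    rw [h2]
    rcases h with h | h
    · nlinarith
    · nlinarith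
  · apply le_of_sq_le_sq _ (by positivity)
    rw [h2]
    nlinarith

theorem pK_norm (c : E2) (r : ℝ) (hr : 0 < r) (x : E2) (hx : x ∈ pK c r) :
    r / 2 ≤ ‖x - c‖ ∧ ‖x - c‖ ≤ 3 / 4 * r := by
  have hr2 : |r / 2| = r / 2 := abs_of_pos (by positivity)
  rcases hx with (⟨a, b, ha, hb, hab, rfl⟩ | ⟨a, b, ha, hb, hab, rfl⟩) | ⟨a, b, ha, hb, hab, rfl⟩
  · refine norm_of_comb _ r (-(r / 2)) (b * (r / 2)) hr ?_ ?_ ?_ ?_
    · have : a = 1 - b := by linarith
      subst this; simp only [pA, pA']; module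
    · rw [abs_neg, hr2]
    · rw [abs_mul, hr2, abs_of_nonneg hb]; nlinarith
    · left; rw [abs_neg, hr2]
  · refine norm_of_comb _ r ((b - a) * (r / 2)) (r / 2) hr ?_ ?_ ?_ ?_
    · have : a = 1 - b := by linarith
      subst this; simp only [pA', pB']; module
    · rw [abs_mul, hr2]
      have : |b - a| ≤ 1 := abs_le.2 ⟨by linarith, by linarith⟩
      nlinarith
    · rw [hr2]
    · right; rw [hr2]
  · refine norm_of_comb _ r (r / 2) (a * (r / 2)) hr ?_ ?_ ?_ ?_
    · have : a = 1 - b := by linarith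
      subst this; simp only [pB', pB]; module
    · rw [hr2]
    · rw [abs_mul, hr2, abs_of_nonneg ha]; nlinarith
    · left; rw [hr2]

theorem pK_compact (c : E2) (r : ℝ) : IsCompact (pK c r) := by
  have hs : ∀ p q : E2, IsCompact (segment ℝ p q) := fun p q => by
    rw [segment_eq_image_lineMap]
    exact isCompact_Icc.image (AffineMap.lineMap_continuous)
  exact ((hs _ _).union (hs _ _)).union (hs _ _)

theorem path_est (F : E2 → E3) (c : E2) (r : ℝ) (hr : 0 < r)
    (hF : ContDiffOn ℝ ∞ F (Metric.ball c r)) (C : ℝ)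
    (hC : ∀ x ∈ pK c r, ‖fderiv ℝ (fderiv ℝ F) x‖ ≤ C) :
    ‖F (pB c r) - F (pA c r) - fderiv ℝ F (pA c r) (pB c r - pA c r)‖ ≤ 4 * C * r ^ 2 := by
  have hKb : ∀ x ∈ pK c r, x ∈ Metric.ball c r := fun x hx => by
    rw [Metric.mem_ball, dist_eq_norm]
    have := (pK_norm c r hr x hx).2
    linarith
  have hat : ∀ x ∈ pK c r, ContDiffAt ℝ ∞ F x := fun x hx =>
    hF.contDiffAt (Metric.isOpen_ball.mem_nhds (hKb x hx))
  have hd1 : ∀ x ∈ pK c r, DifferentiableAt ℝ F x := fun x hx =>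
    (hat x hx).differentiableAt (by simp)
  have hd2 : ∀ x ∈ pK c r, DifferentiableAt ℝ (fderiv ℝ F) x := fun x hx =>
    ((hat x hx).fderiv_right (m := ∞) (by simp)).differentiableAt (by simp)
  have s1 : segment ℝ (pA c r) (pA' c r) ⊆ pK c r := fun x hx => Or.inl (Or.inl hx)
  have s2 : segment ℝ (pA' c r) (pB' c r) ⊆ pK c r := fun x hx => Or.inl (Or.inr hx)
  have s3 : segment ℝ (pB' c r) (pB c r) ⊆ pK c r := fun x hx => Or.inr hx
  have n1 : ‖pA' c r - pA c r‖ = r / 2 := by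
    have : pA' c r - pA c r = (r / 2) • dir 1 := by simp only [pA, pA']; module
    rw [this, norm_smul, norm_dir, Real.norm_eq_abs, abs_of_pos (by positivity), mul_one]
  have n2 : ‖pB' c r - pA' c r‖ = r := by
    have : pB' c r - pA' c r = r • dir 0 := by simp only [pB', pA']; module
    rw [this, norm_smul, norm_dir, Real.norm_eq_abs, abs_of_pos hr, mul_one]
  have n3 : ‖pB c r - pB' c r‖ = r / 2 := by
    have : pB c r - pB' c r = (-(r / 2)) • dir 1 := by simp only [pB, pB']; module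
    rw [this, norm_smul, norm_dir, Real.norm_eq_abs, abs_neg, abs_of_pos (by positivity), mul_one]
  have mA : pA c r ∈ pK c r := s1 (left_mem_segment _ _ _)
  have hC0 : 0 ≤ C := le_trans (norm_nonneg (fderiv ℝ (fderiv ℝ F) (pA c r))) (hC _ mA)
  -- first derivative is nearly constant
  have b1 : ∀ x ∈ segment ℝ (pA c r) (pA' c r), ‖fderiv ℝ F x - fderiv ℝ F (pA c r)‖ ≤ C * (r / 2) :=
    fun x hx => n1 ▸ seg_bound (fderiv ℝ F) _ _ C (fun y hy => hd2 y (s1 hy))
      (fun y hy => hC y (s1 hy)) x hx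
  have b2 : ∀ x ∈ segment ℝ (pA' c r) (pB' c r), ‖fderiv ℝ F x - fderiv ℝ F (pA' c r)‖ ≤ C * r :=
    fun x hx => by
      have := seg_bound (fderiv ℝ F) _ _ C (fun y hy => hd2 y (s2 hy))
        (fun y hy => hC y (s2 hy)) x hx
      rwa [n2] at this
  have b3 : ∀ x ∈ segment ℝ (pB' c r) (pB c r), ‖fderiv ℝ F x - fderiv ℝ F (pB' c r)‖ ≤ C * (r / 2) :=
    fun x hx => n3 ▸ seg_bound (fderiv ℝ F) _ _ C (fun y hy => hd2 y (s3 hy))
      (fun y hy => hC y (s3 hy)) x hx
  have e1 := b1 _ (right_mem_segment _ _ _)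
  have e2 := b2 _ (right_mem_segment _ _ _)
  have key : ∀ x ∈ pK c r, ‖fderiv ℝ F x - fderiv ℝ F (pA c r)‖ ≤ 2 * C * r := by
    intro x hx
    have hCr : 0 ≤ C * r := by positivity
    rcases hx with (hx | hx) | hx
    · exact (b1 x hx).trans (by nlinarith)
    · calc _ = ‖(fderiv ℝ F x - fderiv ℝ F (pA' c r)) + (fderiv ℝ F (pA' c r)
            - fderiv ℝ F (pA c r))‖ := by congr 1; abel
        _ ≤ C * r + C * (r / 2) := (norm_add_le _ _).trans (add_le_add (b2 x hx) e1)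
        _ ≤ _ := by nlinarith
    · calc _ = ‖(fderiv ℝ F x - fderiv ℝ F (pB' c r)) + (fderiv ℝ F (pB' c r)
            - fderiv ℝ F (pA' c r)) + (fderiv ℝ F (pA' c r) - fderiv ℝ F (pA c r))‖ := by
            congr 1; abel
        _ ≤ C * (r / 2) + C * r + C * (r / 2) := norm_add₃_le.trans
            (add_le_add (add_le_add (b3 x hx) e2) e1)
        _ ≤ _ := by nlinarith
  -- the function itself
  set L := fderiv ℝ F (pA c r) with hL
  have gd : ∀ x ∈ pK c r, DifferentiableAt ℝ (fun y => F y - L y) x := fun x hx =>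
    (hd1 x hx).sub L.differentiableAt
  have gf : ∀ x ∈ pK c r, ‖fderiv ℝ (fun y => F y - L y) x‖ ≤ 2 * C * r := fun x hx => by
    rw [fderiv_fun_sub (hd1 x hx) L.differentiableAt, L.fderiv]
    exact key x hx
  have g1 := seg_bound (fun y => F y - L y) _ _ _ (fun y hy => gd y (s1 hy))
    (fun y hy => gf y (s1 hy)) _ (right_mem_segment _ _ _)
  have g2 := seg_bound (fun y => F y - L y) _ _ _ (fun y hy => gd y (s2 hy))
    (fun y hy => gf y (s2 hy)) _ (right_mem_segment _ _ _)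
  have g3 := seg_bound (fun y => F y - L y) _ _ _ (fun y hy => gd y (s3 hy))
    (fun y hy => gf y (s3 hy)) _ (right_mem_segment _ _ _)
  rw [n1] at g1; rw [n2] at g2; rw [n3] at g3
  calc ‖F (pB c r) - F (pA c r) - L (pB c r - pA c r)‖
      = ‖((F (pB c r) - L (pB c r)) - (F (pB' c r) - L (pB' c r)))
        + ((F (pB' c r) - L (pB' c r)) - (F (pA' c r) - L (pA' c r)))
        + ((F (pA' c r) - L (pA' c r)) - (F (pA c r) - L (pA c r)))‖ := by
        congr 1; rw [map_sub]; abel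
    _ ≤ 2 * C * r * (r / 2) + 2 * C * r * r + 2 * C * r * (r / 2) :=
        norm_add₃_le.trans (add_le_add (add_le_add g3 g2) g1)
    _ = 4 * C * r ^ 2 := by ring

/-! ### conformal maps and the chord -/

theorem norm_of_conf (L : E2 →L[ℝ] E3) (t : ℝ)
    (h : ∀ a b, inner ℝ (L a) (L b) = Real.exp (2 * t) * inner ℝ a b) (a : E2) :
    ‖L a‖ = Real.exp t * ‖a‖ := by
  have h1 := h a a
  rw [real_inner_self_eq_norm_sq, real_inner_self_eq_norm_sq, two_mul, Real.exp_add] at h1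
  have h2 : ‖L a‖ ^ 2 = (Real.exp t * ‖a‖) ^ 2 := by rw [h1]; ring
  exact (sq_eq_sq₀ (norm_nonneg _) (by positivity)).1 h2

theorem chord_est (F : E2 → E3) (v : E2 → ℝ) (c : E2) (r a ep : ℝ) (hr : 0 < r)
    (hF : ContDiffOn ℝ ∞ F (Metric.ball c r))
    (hm : ∀ x ∈ Metric.ball c r, ∀ a b, inner ℝ (fderiv ℝ F x a) (fderiv ℝ F x b)
      = Real.exp (2 * v x) * inner ℝ a b)
    (hv : ∀ x, v x ≤ ep) (hv' : ∀ x ∈ Metric.closedBall c (r / 8), v x ≤ -a + ep) :
    ‖F (pB c r) - F (pA c r)‖ ≤ Real.exp ep * (r * (Real.exp (-a) / 4 + 3 / 4)) := by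
  have hat : ∀ x ∈ Metric.ball c r, DifferentiableAt ℝ F x := fun x hx =>
    (hF.contDiffAt (Metric.isOpen_ball.mem_nhds hx)).differentiableAt (by simp)
  have hn : ∀ x ∈ Metric.ball c r, ‖fderiv ℝ F x‖ ≤ Real.exp (v x) := fun x hx =>
    ContinuousLinearMap.opNorm_le_bound _ (by positivity) fun w =>
      (norm_of_conf _ _ (hm x hx) w).le
  let P : E2 := c - (r / 8) • dir 0
  let Q : E2 := c + (r / 8) • dir 0
  have memA : pA c r ∈ Metric.ball c r := by
    rw [Metric.mem_ball, dist_eq_norm]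
    have : pA c r - c = (-(r / 2)) • dir 0 := by simp only [pA]; module
    rw [this, norm_smul, norm_dir, Real.norm_eq_abs, abs_neg, abs_of_pos (by positivity)]
    linarith
  have memB : pB c r ∈ Metric.ball c r := by
    rw [Metric.mem_ball, dist_eq_norm]
    have : pB c r - c = (r / 2) • dir 0 := by simp only [pB]; module
    rw [this, norm_smul, norm_dir, Real.norm_eq_abs, abs_of_pos (by positivity)]
    linarith
  have memP : P ∈ Metric.closedBall c (r / 8) := by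
    rw [Metric.mem_closedBall, dist_eq_norm]
    have : P - c = (-(r / 8)) • dir 0 := by simp only [P]; module
    rw [this, norm_smul, norm_dir, Real.norm_eq_abs, abs_neg, abs_of_pos (by positivity)]
    linarith
  have memQ : Q ∈ Metric.closedBall c (r / 8) := by
    rw [Metric.mem_closedBall, dist_eq_norm]
    have : Q - c = (r / 8) • dir 0 := by simp only [Q]; module
    rw [this, norm_smul, norm_dir, Real.norm_eq_abs, abs_of_pos (by positivity)]
    linarith
  have hsub : Metric.closedBall c (r / 8) ⊆ Metric.ball c r :=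
    Metric.closedBall_subset_ball (by linarith)
  have s1 : segment ℝ (pA c r) P ⊆ Metric.ball c r :=
    (convex_ball c r).segment_subset memA (hsub memP)
  have s2 : segment ℝ P Q ⊆ Metric.closedBall c (r / 8) :=
    (convex_closedBall c _).segment_subset memP memQ
  have s3 : segment ℝ Q (pB c r) ⊆ Metric.ball c r :=
    (convex_ball c r).segment_subset (hsub memQ) memB
  have n1 : ‖P - pA c r‖ = 3 / 8 * r := by
    have : P - pA c r = (3 / 8 * r) • dir 0 := by simp only [pA, P]; module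
    rw [this, norm_smul, norm_dir, Real.norm_eq_abs, abs_of_pos (by positivity), mul_one]
  have n2 : ‖Q - P‖ = r / 4 := by
    have : Q - P = (r / 4) • dir 0 := by simp only [Q, P]; module
    rw [this, norm_smul, norm_dir, Real.norm_eq_abs, abs_of_pos (by positivity), mul_one]
  have n3 : ‖pB c r - Q‖ = 3 / 8 * r := by
    have : pB c r - Q = (3 / 8 * r) • dir 0 := by simp only [pB, Q]; module
    rw [this, norm_smul, norm_dir, Real.norm_eq_abs, abs_of_pos (by positivity), mul_one]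
  have g1 := seg_bound F _ _ (Real.exp ep) (fun y hy => hat y (s1 hy))
    (fun y hy => (hn y (s1 hy)).trans (Real.exp_le_exp.2 (hv y))) _ (right_mem_segment _ _ _)
  have g2 := seg_bound F _ _ (Real.exp (-a + ep)) (fun y hy => hat y (hsub (s2 hy)))
    (fun y hy => (hn y (hsub (s2 hy))).trans (Real.exp_le_exp.2 (hv' y (s2 hy)))) _
    (right_mem_segment _ _ _)
  have g3 := seg_bound F _ _ (Real.exp ep) (fun y hy => hat y (s3 hy))
    (fun y hy => (hn y (s3 hy)).trans (Real.exp_le_exp.2 (hv y))) _ (right_mem_segment _ _ _)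
  rw [n1] at g1; rw [n2] at g2; rw [n3] at g3
  calc ‖F (pB c r) - F (pA c r)‖ = ‖(F (pB c r) - F Q) + (F Q - F P) + (F P - F (pA c r))‖ := by
        congr 1; abel
    _ ≤ Real.exp ep * (3 / 8 * r) + Real.exp (-a + ep) * (r / 4) + Real.exp ep * (3 / 8 * r) :=
        norm_add₃_le.trans (add_le_add (add_le_add g3 g2) g1)
    _ = _ := by rw [Real.exp_add]; ring

/-- compactly supported smooth functions have bounded derivatives -/
theorem exists_bound (v : E2 → ℝ) (hv : ContDiff ℝ ∞ v) (c : E2) (r : ℝ)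
    (h : ∀ x, r ≤ ‖x - c‖ → v x = 0) (N : ℕ) :
    ∃ C : ℝ, 0 ≤ C ∧ ∀ j ≤ N, ∀ x, ‖iteratedFDeriv ℝ j v x‖ ≤ C := by
  have hs : HasCompactSupport v := by
    refine HasCompactSupport.intro (isCompact_closedBall c r) fun x hx => h x ?_
    rw [Metric.mem_closedBall, dist_eq_norm, not_le] at hx
    exact hx.le
  have h1 : ∀ j : ℕ, ∃ C : ℝ, 0 ≤ C ∧ ∀ x, ‖iteratedFDeriv ℝ j v x‖ ≤ C := by
    intro j
    have hc : Continuous (iteratedFDeriv ℝ j v) :=
      hv.continuous_iteratedFDeriv (WithTop.coe_le_coe.2 le_top)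
    obtain ⟨C, hC⟩ := (hs.iteratedFDeriv (𝕜 := ℝ) j).exists_bound_of_continuous hc
    exact ⟨C, (norm_nonneg _).trans (hC 0), hC⟩
  choose C hC0 hC using h1
  refine ⟨∑ j ∈ Finset.range (N + 1), C j, Finset.sum_nonneg fun j _ => hC0 j, fun j hj x => ?_⟩
  exact (hC j x).trans (Finset.single_le_sum (f := C) (fun i _ => hC0 i)
    (Finset.mem_range.2 (Nat.lt_succ_of_le hj)))

/-- **one disc**: no immersion with `C⁵` norm at most `M` -/
theorem disc (hP : PocketStatement) (M ε r : ℝ) (N : ℕ) (c : E2) (hε : 0 < ε) (hr : 0 < r) :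
    ∃ v : E2 → ℝ, ContDiff ℝ ∞ v ∧ (∀ x, r ≤ ‖x - c‖ → v x = 0) ∧
    (∀ j ≤ N, ∀ x, ‖iteratedFDeriv ℝ j v x‖ ≤ ε) ∧
    ∀ F : E2 → E3, ContDiffOn ℝ ∞ F (Metric.ball c r) →
      (∀ x ∈ Metric.ball c r, ∀ a b, inner ℝ (fderiv ℝ F x a) (fderiv ℝ F x b)
        = Real.exp (2 * v x) * inner ℝ a b) →
      (∀ j ≤ 5, ∀ x ∈ Metric.ball c r, ‖iteratedFDeriv ℝ j F x‖ ≤ M) → False := by
  classical
  let β : ContDiffBump c := ⟨r / 8, r / 4, by positivity, by linarith⟩
  have hβs : ContDiff ℝ ∞ (β : E2 → ℝ) := β.contDiff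
  have hβ0 : ∀ x, r / 4 ≤ ‖x - c‖ → β x = 0 := fun x hx =>
    β.zero_of_le_dist (by rw [dist_eq_norm]; exact hx)
  have hβ1 : ∀ x ∈ Metric.closedBall c (r / 8), β x = 1 := fun x hx =>
    β.one_of_mem_closedBall hx
  obtain ⟨Cb, hCb0, hCb⟩ := exists_bound β hβs c (r / 4) hβ0 N
  set a : ℝ := min 1 (ε / (2 * (Cb + 1))) with ha
  have ha0 : 0 < a := lt_min one_pos (by positivity)
  have haC : a * Cb ≤ ε / 2 := by
    have h1 : a ≤ ε / (2 * (Cb + 1)) := min_le_right _ _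
    calc a * Cb ≤ ε / (2 * (Cb + 1)) * (Cb + 1) := by
          apply mul_le_mul h1 (by linarith) hCb0 (by positivity)
      _ = ε / 2 := by field_simp
  set qq : ℝ := 1 - Real.exp (-a) with hqq
  have hqq0 : 0 < qq := by
    have : Real.exp (-a) < Real.exp 0 := Real.exp_lt_exp.2 (by linarith)
    rw [Real.exp_zero] at this
    linarith
  have hqq1 : qq < 1 := by
    have := Real.exp_pos (-a)
    linarith
  set ep : ℝ := qq / 32 with hep
  have hep0 : 0 < ep := by positivity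
  set θ : ℝ := qq / (768 * r) with hθ
  have hθ0 : 0 < θ := by positivity
  set h : ℝ := min (r / 16) (qq / (768 * r * (|M| + 1))) with hh
  have hh0 : 0 < h := lt_min (by positivity) (by positivity)
  have hhr : h ≤ r / 16 := min_le_left _ _
  have hMh : (|M| + 1) * h ≤ qq / (768 * r) := by
    have h1 : h ≤ qq / (768 * r * (|M| + 1)) := min_le_right _ _
    calc (|M| + 1) * h ≤ (|M| + 1) * (qq / (768 * r * (|M| + 1))) := by gcongr
      _ = qq / (768 * r) := by field_simp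
  obtain ⟨ι, _, z, d, hz, hnet, hnear⟩ := exists_net (pK c r) (pK_compact c r) h hh0
  obtain ⟨ρ, hρ0, hρr, hsep⟩ := exists_sep z hz (r / 16) (by positivity)
  have hzc : ∀ i, 7 / 16 * r ≤ ‖z i - c‖ ∧ ‖z i - c‖ ≤ 13 / 16 * r := by
    intro i
    obtain ⟨x, hx, hxz⟩ := hnear i
    obtain ⟨l1, l2⟩ := pK_norm c r hr x hx
    constructor
    · have : ‖x - c‖ ≤ ‖z i - c‖ + ‖z i - x‖ := by
        calc ‖x - c‖ = ‖(z i - c) - (z i - x)‖ := by congr 1; abel
          _ ≤ _ := norm_sub_le _ _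
      linarith
    · have : ‖z i - c‖ ≤ ‖z i - x‖ + ‖x - c‖ := by
        calc ‖z i - c‖ = ‖(z i - x) + (x - c)‖ := by congr 1; abel
          _ ≤ _ := norm_add_le _ _
      linarith
  set n : ℝ := (Fintype.card ι : ℝ) with hn
  have hn0 : 0 ≤ n := by positivity
  set ei : ℝ := min ε ep / (2 * (n + 1)) with hei
  have hm0 : 0 < min ε ep := lt_min hε hep0
  have hei0 : 0 < ei := by positivity
  have hnei : n * ei ≤ min ε ep / 2 := by
    calc n * ei ≤ (n + 1) * (min ε ep / (2 * (n + 1))) := by gcongr; linarith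
      _ = min ε ep / 2 := by field_simp
  have hpock := fun i => hP M θ ei ρ N (z i) (dir (d i)) hθ0 hei0 hρ0 (norm_dir _)
  choose w hws hw0 hwN hwF using hpock
  -- geometry of the supports
  have hwfar : ∀ i x, r ≤ ‖x - c‖ → w i x = 0 := by
    intro i x hx
    apply hw0
    have h1 := (hzc i).2
    have : ‖x - c‖ ≤ ‖x - z i‖ + ‖z i - c‖ := by
      calc ‖x - c‖ = ‖(x - z i) + (z i - c)‖ := by congr 1; abel
        _ ≤ _ := norm_add_le _ _
    linarith
  have hwabs : ∀ i x, |w i x| ≤ ei := by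
    intro i x
    have := hwN i 0 (Nat.zero_le _) x
    rwa [norm_iteratedFDeriv_zero, Real.norm_eq_abs] at this
  have hsum : ∀ x, |∑ i, w i x| ≤ ep := by
    intro x
    calc |∑ i, w i x| ≤ ∑ i, |w i x| := Finset.abs_sum_le_sum_abs _ _
      _ ≤ ∑ _i : ι, ei := Finset.sum_le_sum fun i _ => hwabs i x
      _ = n * ei := by rw [Finset.sum_const, Finset.card_univ, nsmul_eq_mul]
      _ ≤ min ε ep / 2 := hnei
      _ ≤ ep := by
        have := min_le_right ε ep
        linarith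
  have hss : ContDiff ℝ ∞ (fun x => ∑ i, w i x) := ContDiff.sum fun i _ => hws i
  have hbs : ContDiff ℝ ∞ (fun x => (-a) * β x) := contDiff_const.mul hβs
  refine ⟨fun x => (-a) * β x + ∑ i, w i x, hbs.add hss, ?_, ?_, ?_⟩
  · intro x hx
    show (-a) * β x + ∑ i, w i x = 0
    rw [hβ0 x (by linarith), Finset.sum_eq_zero fun i _ => hwfar i x hx]
    simp
  · intro j hj x
    have hjt : (j : ℕ∞ω) ≤ ∞ := WithTop.coe_le_coe.2 le_top
    have e1 : iteratedFDeriv ℝ j (fun x => (-a) * β x + ∑ i, w i x) x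
        = (-a) • iteratedFDeriv ℝ j β x + ∑ i, iteratedFDeriv ℝ j (w i) x := by
      have h1 := iteratedFDeriv_add_apply (i := j) (x := x) (𝕜 := ℝ)
        (f := fun x => (-a) * β x) (g := fun x => ∑ i, w i x)
        ((hbs.of_le hjt).contDiffAt) ((hss.of_le hjt).contDiffAt)
      have h2 : iteratedFDeriv ℝ j (fun x => (-a) * β x) x = (-a) • iteratedFDeriv ℝ j β x := by
        have := iteratedFDeriv_const_smul_apply (𝕜 := ℝ) (i := j) (x := x) (a := -a) (f := β)
          ((hβs.of_le hjt).contDiffAt)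
        exact this
      have h3 : iteratedFDeriv ℝ j (fun x => ∑ i, w i x) x = ∑ i, iteratedFDeriv ℝ j (w i) x := by
        have := iteratedFDeriv_fun_sum_apply (𝕜 := ℝ) (n := j) (x := x) (u := Finset.univ)
          (f := w) (fun i _ => ((hws i).of_le hjt).contDiffAt)
        exact this
      rw [← h2, ← h3]
      exact h1
    show ‖iteratedFDeriv ℝ j (fun x => (-a) * β x + ∑ i, w i x) x‖ ≤ ε
    rw [e1]
    calc _ ≤ ‖(-a) • iteratedFDeriv ℝ j β x‖ + ‖∑ i, iteratedFDeriv ℝ j (w i) x‖ := norm_add_le _ _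
      _ ≤ a * Cb + ∑ i, ‖iteratedFDeriv ℝ j (w i) x‖ := by
          refine add_le_add ?_ (norm_sum_le _ _)
          rw [norm_smul, Real.norm_eq_abs, abs_neg, abs_of_pos ha0]
          exact mul_le_mul_of_nonneg_left (hCb j hj x) ha0.le
      _ ≤ ε / 2 + ∑ _i : ι, ei := add_le_add haC (Finset.sum_le_sum fun i _ => hwN i j hj x)
      _ = ε / 2 + n * ei := by rw [Finset.sum_const, Finset.card_univ, nsmul_eq_mul]
      _ ≤ ε := by
        have := min_le_left ε ep
        linarith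
  · intro F hF hm hM
    have hm' : ∀ x ∈ Metric.ball c r, ∀ a' b', inner ℝ (fderiv ℝ F x a') (fderiv ℝ F x b')
        = Real.exp (2 * ((-a) * β x + ∑ i, w i x)) * inner ℝ a' b' := hm
    -- second derivatives at the net points
    have hsubi : ∀ i, Metric.ball (z i) ρ ⊆ Metric.ball c r := by
      intro i x hx
      rw [Metric.mem_ball, dist_eq_norm] at hx ⊢
      have h1 := (hzc i).2
      have : ‖x - c‖ ≤ ‖x - z i‖ + ‖z i - c‖ := by
        calc ‖x - c‖ = ‖(x - z i) + (z i - c)‖ := by congr 1; abel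
          _ ≤ _ := norm_add_le _ _
      linarith
    have hvi : ∀ i, ∀ x ∈ Metric.ball (z i) ρ, (-a) * β x + ∑ j, w j x = w i x := by
      intro i x hx
      rw [Metric.mem_ball, dist_eq_norm] at hx
      have h1 : β x = 0 := by
        apply hβ0
        have h1 := (hzc i).1
        have : ‖z i - c‖ ≤ ‖x - c‖ + ‖x - z i‖ := by
          calc ‖z i - c‖ = ‖(x - c) - (x - z i)‖ := by congr 1; abel
            _ ≤ _ := norm_sub_le _ _
        linarith
      have h2 : ∑ j, w j x = w i x := by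
        refine Finset.sum_eq_single i (fun j _ hji => hw0 j x ?_) (fun hi => absurd (Finset.mem_univ i) hi)
        have h3 := hsep j i hji
        have : ‖z j - z i‖ ≤ ‖x - z i‖ + ‖x - z j‖ := by
          calc ‖z j - z i‖ = ‖(x - z i) - (x - z j)‖ := by congr 1; abel
            _ ≤ _ := norm_sub_le _ _
        linarith
      rw [h1, h2]; ring
    have hsec : ∀ i, ‖fderiv ℝ (fderiv ℝ F) (z i) (dir (d i)) (dir (d i))‖ ≤ θ := by
      intro i
      refine (hwF i F (hF.mono (hsubi i)) (fun x hx a' b' => ?_)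
        (fun j hj x hx => hM j hj x (hsubi i hx))).le
      rw [hm' x (hsubi i hx) a' b', hvi i x hx]
    -- second derivative on the path
    have hKb : ∀ x ∈ pK c r, x ∈ Metric.ball c r := fun x hx => by
      rw [Metric.mem_ball, dist_eq_norm]
      have := (pK_norm c r hr x hx).2
      linarith
    have hzb : ∀ i, z i ∈ Metric.ball c r := fun i => hsubi i (Metric.mem_ball_self hρ0)
    have hpath : ∀ x ∈ pK c r, ‖fderiv ℝ (fderiv ℝ F) x‖ ≤ qq / (64 * r) := by
      intro x hx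
      have h1 := hess_bound F c r M hF (fun y hy => hM 3 (by norm_num) y hy) x (hKb x hx) θ h
        hθ0.le hh0.le (fun j => by
          obtain ⟨i, hi, hxi⟩ := hnet x hx j
          exact ⟨z i, hzb i, hxi, hi ▸ hsec i⟩)
      have h2 : M * h ≤ qq / (768 * r) := by
        refine le_trans ?_ hMh
        have := le_abs_self M
        nlinarith
      calc _ ≤ 6 * (θ + M * h) := h1
        _ ≤ 6 * (qq / (768 * r) + qq / (768 * r)) := by gcongr
        _ = qq / (64 * r) := by field_simp; norm_num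
    have h1 := path_est F c r hr hF _ hpath
    have h1' : 4 * (qq / (64 * r)) * r ^ 2 = qq * r / 16 := by field_simp; norm_num
    rw [h1'] at h1
    have hv : ∀ x, (-a) * β x + ∑ i, w i x ≤ ep := by
      intro x
      have hb := β.nonneg (x := x)
      have := (abs_le.1 (hsum x)).2
      nlinarith
    have hv' : ∀ x ∈ Metric.closedBall c (r / 8), (-a) * β x + ∑ i, w i x ≤ -a + ep := by
      intro x hx
      have := (abs_le.1 (hsum x)).2
      rw [hβ1 x hx]
      linarith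
    have h2 := chord_est F (fun x => (-a) * β x + ∑ i, w i x) c r a ep hr hF hm' hv hv'
    have mA : pA c r ∈ pK c r := Or.inl (Or.inl (left_mem_segment _ _ _))
    have h3 := norm_of_conf _ _ (hm' _ (hKb _ mA)) (pB c r - pA c r)
    have h4 : pB c r - pA c r = r • dir 0 := by simp only [pB, pA]; module
    have h5 : ‖pB c r - pA c r‖ = r := by
      rw [h4, norm_smul, norm_dir, Real.norm_eq_abs, abs_of_pos hr, mul_one]
    have h6 : (-a) * β (pA c r) + ∑ i, w i (pA c r) ≥ -ep := by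
      have := (abs_le.1 (hsum (pA c r))).1
      rw [hβ0 _ (by have := (pK_norm c r hr _ mA).1; linarith)]
      linarith
    rw [h5] at h3
    have h7 : Real.exp (-ep) * r ≤ ‖fderiv ℝ F (pA c r) (pB c r - pA c r)‖ := by
      rw [h3]
      exact mul_le_mul_of_nonneg_right (Real.exp_le_exp.2 h6) hr.le
    have h8 : ‖fderiv ℝ F (pA c r) (pB c r - pA c r)‖ ≤ ‖F (pB c r) - F (pA c r)‖ + qq * r / 16 := by
      calc _ = ‖(F (pB c r) - F (pA c r)) - (F (pB c r) - F (pA c r)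
            - fderiv ℝ F (pA c r) (pB c r - pA c r))‖ := by congr 1; abel
        _ ≤ _ := (norm_sub_le _ _).trans (by gcongr)
    have h9 : 1 - ep ≤ Real.exp (-ep) := by
      have := Real.add_one_le_exp (-ep)
      linarith
    have h10 : Real.exp ep ≤ 1 + 2 * ep := by
      have hx1 : ep ≤ 1 := by rw [hep]; linarith
      have := Real.exp_bound_div_one_sub_of_interval hep0.le (by rw [hep]; linarith)
      refine this.trans ?_
      rw [div_le_iff₀ (by rw [hep]; linarith)]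
      nlinarith
    have h11 : Real.exp (-a) = 1 - qq := by rw [hqq]; ring
    rw [h11] at h2
    have h12 : Real.exp ep * (r * ((1 - qq) / 4 + 3 / 4)) ≤ (1 + 2 * ep) * (r * ((1 - qq) / 4 + 3 / 4)) := by
      apply mul_le_mul_of_nonneg_right h10
      have : 0 ≤ (1 - qq) / 4 + 3 / 4 := by linarith
      positivity
    have h13 : (1 - ep) * r ≤ Real.exp (-ep) * r := mul_le_mul_of_nonneg_right h9 hr.le
    have h14 : (1 - ep) * r ≤ (1 + 2 * ep) * (r * ((1 - qq) / 4 + 3 / 4)) + qq * r / 16 := by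
      linarith
    rw [hep] at h14
    have h15 : 0 < qq * r := by positivity
    have h16 : 0 < qq * qq * r := by positivity
    have e1 : (1 - qq / 32) * r = r - qq * r / 32 := by ring
    have e2 : (1 + 2 * (qq / 32)) * (r * ((1 - qq) / 4 + 3 / 4)) + qq * r / 16
        = r - qq * r / 8 - qq * qq * r / 64 := by ring
    rw [e1, e2] at h14
    linarith

/-! ### the sequence of discs -/

/-- distance to the origin of the centre of the `k`-th disc -/
noncomputable def sk (k : ℕ) : ℝ := (1 / 4 : ℝ) ^ (k + 1)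

theorem sk_pos (k : ℕ) : 0 < sk k := by unfold sk; positivity

theorem sk_succ (k : ℕ) : sk (k + 1) = sk k / 4 := by unfold sk; ring

theorem sk_lt {j k : ℕ} (h : j < k) : sk k ≤ sk j / 4 := by
  obtain ⟨m, rfl⟩ := Nat.exists_eq_add_of_le (Nat.succ_le_of_lt h)
  have h1 : sk (j.succ + m) = sk j / 4 * (1 / 4 : ℝ) ^ m := by
    unfold sk; rw [Nat.succ_eq_add_one]; ring
  rw [h1]
  have h2 : (1 / 4 : ℝ) ^ m ≤ 1 := pow_le_one₀ (by norm_num) (by norm_num)
  have h3 := sk_pos j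
  nlinarith

theorem sk_sep {j k : ℕ} (h : j ≠ k) : sk j / 4 + sk k / 4 ≤ |sk j - sk k| := by
  have hj := sk_pos j
  have hk := sk_pos k
  rcases lt_or_gt_of_ne h with h | h
  · have := sk_lt h
    rw [abs_of_pos (by linarith)]
    linarith
  · have := sk_lt h
    rw [abs_of_neg (by linarith)]
    linarith

theorem smul_contDiff {V : Type*} [NormedAddCommGroup V] [NormedSpace ℝ V] (f : E2 → ℝ)
    (hf : ContDiff ℝ ∞ f) (B : V) : ContDiff ℝ ∞ (fun x => f x • B) :=
  hf.smul contDiff_const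

theorem sk_tendsto : Tendsto sk atTop (𝓝 0) := by
  have h1 : Tendsto (fun n : ℕ => (1 / 4 : ℝ) ^ n) atTop (𝓝 0) :=
    tendsto_pow_atTop_nhds_zero_of_lt_one (by norm_num) (by norm_num)
  exact h1.comp (tendsto_add_atTop_nat 1)

end Outer

open Outer in
theorem outer (h : PocketStatement) :
    ∃ g : EuclideanSpace ℝ (Fin 2) →
        (EuclideanSpace ℝ (Fin 2) →L[ℝ] EuclideanSpace ℝ (Fin 2) →L[ℝ] ℝ),
      ContDiffOn ℝ ∞ g {x : EuclideanSpace ℝ (Fin 2) | ∀ i, x i ∈ Set.Ioo (-1 : ℝ) 1} ∧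
      (∀ x ∈ {x : EuclideanSpace ℝ (Fin 2) | ∀ i, x i ∈ Set.Ioo (-1 : ℝ) 1}, ∀ v w, g x v w = g x w v) ∧
      (∀ x ∈ {x : EuclideanSpace ℝ (Fin 2) | ∀ i, x i ∈ Set.Ioo (-1 : ℝ) 1}, ∀ v, v ≠ 0 → 0 < g x v v) ∧
      ∀ U : Set (EuclideanSpace ℝ (Fin 2)), IsOpen U → (0 : EuclideanSpace ℝ (Fin 2)) ∈ U →
        U ⊆ {x : EuclideanSpace ℝ (Fin 2) | ∀ i, x i ∈ Set.Ioo (-1 : ℝ) 1} →
        ¬ ∃ F : EuclideanSpace ℝ (Fin 2) → EuclideanSpace ℝ (Fin 3), ContDiffOn ℝ ∞ F U ∧
          ∀ x ∈ U, ∀ v w, @inner ℝ (EuclideanSpace ℝ (Fin 3)) _ (fderiv ℝ F x v) (fderiv ℝ F x w)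
            = g x v w := by
  have hd := fun k : ℕ => disc h k ((1 / 2 : ℝ) ^ k) (sk k / 4) k (sk k • dir 0) (by positivity)
    (by have := sk_pos k; positivity)
  choose v hvs hv0 hvN hvF using hd
  -- the exponent
  have hV : ContDiff ℝ ∞ (fun x => ∑' k, v k x) := by
    refine contDiff_tsum_of_eventually (N := ⊤) (v := fun _ k => (1 / 2 : ℝ) ^ k) hvs
      (fun _ _ => summable_geometric_of_lt_one (by norm_num) (by norm_num)) fun j _ => ?_
    rw [Nat.cofinite_eq_atTop]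
    filter_upwards [eventually_ge_atTop j] with k hk x
    exact hvN k j hk x
  have hVk : ∀ k, ∀ x ∈ Metric.ball (sk k • dir 0) (sk k / 4), ∑' j, v j x = v k x := by
    intro k x hx
    refine tsum_eq_single k fun j hj => hv0 j x ?_
    rw [Metric.mem_ball, dist_eq_norm] at hx
    have h1 := sk_sep hj
    have h2 : ‖sk j • dir 0 - sk k • dir 0‖ = |sk j - sk k| := by
      rw [← sub_smul, norm_smul, norm_dir, mul_one, Real.norm_eq_abs]
    have h3 : ‖sk j • dir 0 - sk k • dir 0‖ ≤ ‖x - sk k • dir 0‖ + ‖x - sk j • dir 0‖ := by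
      calc _ = ‖(x - sk k • dir 0) - (x - sk j • dir 0)‖ := by congr 1; abel
        _ ≤ _ := norm_sub_le _ _
    linarith
  let B : E2 →L[ℝ] E2 →L[ℝ] ℝ := (isBoundedBilinearMap_inner (𝕜 := ℝ) (E := E2)).toContinuousLinearMap
  have hB : ∀ a b, B a b = inner ℝ a b := fun a b => rfl
  refine ⟨fun x => Real.exp (2 * ∑' k, v k x) • B, ?_, ?_, ?_, ?_⟩
  · exact (smul_contDiff (fun x => Real.exp (2 * ∑' k, v k x))
      (Real.contDiff_exp.comp (contDiff_const.mul hV)) B).contDiffOn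
  · intro x _ a b
    show Real.exp _ * B a b = Real.exp _ * B b a
    rw [hB, hB, real_inner_comm]
  · intro x _ a ha
    show 0 < Real.exp _ * B a a
    rw [hB]
    exact mul_pos (Real.exp_pos _) (real_inner_self_pos.2 ha)
  · rintro U hU h0 - ⟨F, hF, hm⟩
    have hat : ContDiffAt ℝ ∞ F 0 := hF.contDiffAt (hU.mem_nhds h0)
    have hb : ∀ j : ℕ, ∀ᶠ x in 𝓝 (0 : E2),
        ‖iteratedFDeriv ℝ j F x‖ < ‖iteratedFDeriv ℝ j F 0‖ + 1 := by
      intro j
      have hc : ContinuousAt (iteratedFDeriv ℝ j F) 0 :=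
        hat.continuousAt_iteratedFDeriv (WithTop.coe_le_coe.2 le_top)
      exact hc.norm.eventually_lt_const (by linarith)
    have hb5 : ∀ᶠ x in 𝓝 (0 : E2), ∀ j ∈ Finset.range 6,
        ‖iteratedFDeriv ℝ j F x‖ < ‖iteratedFDeriv ℝ j F 0‖ + 1 :=
      (Finset.eventually_all _).2 fun j _ => hb j
    obtain ⟨δ, hδ0, hδ⟩ := Metric.eventually_nhds_iff_ball.1 (hb5.and (hU.mem_nhds h0))
    set M : ℝ := ∑ j ∈ Finset.range 6, (‖iteratedFDeriv ℝ j F 0‖ + 1) with hM
    have hMj : ∀ j ∈ Finset.range 6, ‖iteratedFDeriv ℝ j F 0‖ + 1 ≤ M := fun j hj =>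
      Finset.single_le_sum (f := fun j => ‖iteratedFDeriv ℝ j F 0‖ + 1)
        (fun i _ => by positivity) hj
    obtain ⟨k, hkM, hkδ⟩ := ((eventually_ge_atTop ⌈M⌉₊).and
      (sk_tendsto.eventually_lt_const (by positivity : (0 : ℝ) < δ / 2))).exists
    have hkM' : M ≤ k := (Nat.le_ceil M).trans (by exact_mod_cast hkM)
    have hsub : Metric.ball (sk k • dir 0) (sk k / 4) ⊆ Metric.ball 0 δ := by
      intro x hx
      rw [Metric.mem_ball, dist_eq_norm] at hx
      rw [Metric.mem_ball, dist_eq_norm, sub_zero]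
      have hs := sk_pos k
      have h1 : ‖sk k • dir 0‖ = sk k := by
        rw [norm_smul, norm_dir, mul_one, Real.norm_eq_abs, abs_of_pos hs]
      have h2 : ‖x‖ ≤ ‖x - sk k • dir 0‖ + ‖sk k • dir 0‖ := by
        calc ‖x‖ = ‖(x - sk k • dir 0) + sk k • dir 0‖ := by congr 1; abel
          _ ≤ _ := norm_add_le _ _
      linarith
    refine hvF k F (hF.mono fun x hx => (hδ x (hsub hx)).2) (fun x hx a b => ?_)
      (fun j hj x hx => ?_)
    · rw [hm x (hδ x (hsub hx)).2 a b]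
      show Real.exp (2 * ∑' j, v j x) * B a b = _
      rw [hVk k x hx, hB]
    · have hj6 : j ∈ Finset.range 6 := Finset.mem_range.2 (by omega)
      exact (((hδ x (hsub hx)).1 j hj6).le.trans (hMj j hj6)).trans hkM'

end Crest.Agent.Iso341
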