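import Crest.Agent.Iso341.Calc

/-! S0341, REDUCE: bridge between Fréchet derivatives on a normed space and the calculus
`dx`, `dy`, `Cl` on the plane `PP`. -/

set_option autoImplicit false

open MeasureTheory Set
open scoped ContDiff

namespace Crest.Agent.Iso341

namespace Red

/-! ### general calculus of `Cl` on open sets (functions smooth only there) -/

theorem cl_nonempty_nonneg {n : ℕ} {f : PP → ℝ} {A : Set PP} {c : ℝ} (h : Cl n f A c)
    (hA : A.Nonempty) : 0 ≤ c := by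
  obtain ⟨z, hz⟩ := hA
  cases n with
  | zero => exact (abs_nonneg _).trans (h z hz)
  | succ n => exact (abs_nonneg _).trans (h.1 z hz)

theorem cl_bd {n : ℕ} {f : PP → ℝ} {A : Set PP} {c : ℝ} (h : Cl n f A c) :
    ∀ z ∈ A, |f z| ≤ c := by
  cases n with
  | zero => exact h
  | succ n => exact h.1

theorem cl_mono {A B : Set PP} {c c' : ℝ} (hBA : B ⊆ A) (hc : c ≤ c') :
    ∀ (n : ℕ) {f : PP → ℝ}, Cl n f A c → Cl n f B c'
  | 0, _, h => fun z hz => (h z (hBA hz)).trans hc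
  | n + 1, _, h => ⟨fun z hz => (h.1 z (hBA hz)).trans hc, cl_mono hBA hc n h.2.1,
      cl_mono hBA hc n h.2.2⟩

theorem cl_congr {A : Set PP} {c : ℝ} (hA : IsOpen A) : ∀ (n : ℕ) {f g : PP → ℝ},
    (∀ z ∈ A, f z = g z) → Cl n f A c → Cl n g A c
  | 0, _, _, e, h => fun z hz => by rw [← e z hz]; exact h z hz
  | n + 1, _, _, e, h => ⟨fun z hz => by rw [← e z hz]; exact h.1 z hz,
      cl_congr hA n (dx_congr_on hA e) h.2.1, cl_congr hA n (dy_congr_on hA e) h.2.2⟩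

theorem cl_zero {A : Set PP} {c : ℝ} (hc : 0 ≤ c) : ∀ n : ℕ, Cl n (fun _ => (0 : ℝ)) A c
  | 0 => fun z _ => by simpa using hc
  | n + 1 => by
      refine ⟨fun z _ => by simpa using hc, ?_, ?_⟩
      · rw [dx_const']; exact cl_zero hc n
      · rw [dy_const']; exact cl_zero hc n

theorem cl_of_succ : ∀ (n : ℕ) {f : PP → ℝ} {A : Set PP} {c : ℝ}, Cl (n + 1) f A c → Cl n f A c
  | 0, _, _, _, h => h.1
  | n + 1, _, _, _, h => ⟨h.1, cl_of_succ n h.2.1, cl_of_succ n h.2.2⟩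

theorem cl_add_on {A : Set PP} (hA : IsOpen A) : ∀ (n : ℕ) {f g : PP → ℝ} {c c' : ℝ},
    ContDiffOn ℝ ∞ f A → ContDiffOn ℝ ∞ g A → Cl n f A c → Cl n g A c' →
    Cl n (fun z => f z + g z) A (c + c')
  | 0, _, _, _, _, _, _, h, h' => fun z hz => (abs_add_le _ _).trans (add_le_add (h z hz) (h' z hz))
  | n + 1, f, g, c, c', hf, hg, h, h' => by
      refine ⟨fun z hz => (abs_add_le _ _).trans (add_le_add (h.1 z hz) (h'.1 z hz)), ?_, ?_⟩
      · refine cl_congr hA n (f := fun z => dx f z + dx g z) (fun z hz => ?_)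
          (cl_add_on hA n (contDiffOn_dx hA hf) (contDiffOn_dx hA hg) h.2.1 h'.2.1)
        exact (dx_add_at (diffAt_on hA hf hz) (diffAt_on hA hg hz)).symm
      · refine cl_congr hA n (f := fun z => dy f z + dy g z) (fun z hz => ?_)
          (cl_add_on hA n (contDiffOn_dy hA hf) (contDiffOn_dy hA hg) h.2.2 h'.2.2)
        exact (dy_add_at (diffAt_on hA hf hz) (diffAt_on hA hg hz)).symm

theorem cl_const_mul_on {A : Set PP} (hA : IsOpen A) (a : ℝ) : ∀ (n : ℕ) {f : PP → ℝ} {c : ℝ},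
    ContDiffOn ℝ ∞ f A → Cl n f A c → Cl n (fun z => a * f z) A (|a| * c)
  | 0, _, _, _, h => fun z hz => by
      rw [abs_mul]; exact mul_le_mul_of_nonneg_left (h z hz) (abs_nonneg a)
  | n + 1, f, c, hf, h => by
      refine ⟨fun z hz => by
        rw [abs_mul]; exact mul_le_mul_of_nonneg_left (h.1 z hz) (abs_nonneg a), ?_, ?_⟩
      · refine cl_congr hA n (f := fun z => a * dx f z) (fun z hz => ?_)
          (cl_const_mul_on hA a n (contDiffOn_dx hA hf) h.2.1)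
        rw [dx_mul_at (differentiableAt_const a) (diffAt_on hA hf hz), dx_const]
        ring
      · refine cl_congr hA n (f := fun z => a * dy f z) (fun z hz => ?_)
          (cl_const_mul_on hA a n (contDiffOn_dy hA hf) h.2.2)
        rw [dy_mul_at (differentiableAt_const a) (diffAt_on hA hf hz), dy_const]
        ring

theorem cl_sub_on {A : Set PP} (hA : IsOpen A) (n : ℕ) {f g : PP → ℝ} {c c' : ℝ}
    (hf : ContDiffOn ℝ ∞ f A) (hg : ContDiffOn ℝ ∞ g A) (h : Cl n f A c) (h' : Cl n g A c') :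
    Cl n (fun z => f z - g z) A (c + c') := by
  have h1 := cl_const_mul_on hA (-1) n hg h'
  have h2 := cl_add_on hA n hf (contDiffOn_const.mul hg) h h1
  refine cl_congr hA n (fun z _ => ?_) (cl_mono subset_rfl (le_of_eq ?_) n h2)
  · ring
  · rw [abs_neg, abs_one, one_mul]

theorem cl_mul_on {A : Set PP} (hA : IsOpen A) : ∀ (n : ℕ) {f g : PP → ℝ} {c c' : ℝ},
    0 ≤ c → 0 ≤ c' → ContDiffOn ℝ ∞ f A → ContDiffOn ℝ ∞ g A → Cl n f A c → Cl n g A c' →
    Cl n (fun z => f z * g z) A (2 ^ n * (c * c'))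
  | 0, _, _, _, _, hc, _, _, _, h, h' => fun z hz => by
      rw [abs_mul, pow_zero, one_mul]
      exact mul_le_mul (h z hz) (h' z hz) (abs_nonneg _) hc
  | n + 1, f, g, c, c', hc, hc', hf, hg, h, h' => by
      have hcc : 0 ≤ c * c' := mul_nonneg hc hc'
      have e2 : 2 ^ n * (c * c') + 2 ^ n * (c * c') = 2 ^ (n + 1) * (c * c') := by ring
      refine ⟨fun z hz => ?_, ?_, ?_⟩
      · rw [abs_mul]
        refine (mul_le_mul (h.1 z hz) (h'.1 z hz) (abs_nonneg _) hc).trans ?_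
        exact le_mul_of_one_le_left hcc (one_le_pow₀ (by norm_num))
      · rw [← e2]
        refine cl_congr hA n (f := fun z => dx f z * g z + f z * dx g z) (fun z hz => ?_)
          (cl_add_on hA n ((contDiffOn_dx hA hf).mul hg) (hf.mul (contDiffOn_dx hA hg))
            (cl_mul_on hA n hc hc' (contDiffOn_dx hA hf) hg h.2.1 (cl_of_succ n h'))
            (cl_mul_on hA n hc hc' hf (contDiffOn_dx hA hg) (cl_of_succ n h) h'.2.1))
        exact (dx_mul_at (diffAt_on hA hf hz) (diffAt_on hA hg hz)).symm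
      · rw [← e2]
        refine cl_congr hA n (f := fun z => dy f z * g z + f z * dy g z) (fun z hz => ?_)
          (cl_add_on hA n ((contDiffOn_dy hA hf).mul hg) (hf.mul (contDiffOn_dy hA hg))
            (cl_mul_on hA n hc hc' (contDiffOn_dy hA hf) hg h.2.2 (cl_of_succ n h'))
            (cl_mul_on hA n hc hc' hf (contDiffOn_dy hA hg) (cl_of_succ n h) h'.2.2))
        exact (dy_mul_at (diffAt_on hA hf hz) (diffAt_on hA hg hz)).symm

/-! ### integration: bounds of the gradient give bounds of the function -/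

theorem fderiv_apply_eq {g : PP → ℝ} {u v : PP} :
    fderiv ℝ g u v = v.1 * dx g u + v.2 * dy g u := by
  have : v = v.1 • ((1, 0) : PP) + v.2 • ((0, 1) : PP) := by
    ext <;> simp
  conv_lhs => rw [this, map_add, map_smul, map_smul]
  rfl

theorem cl_of_grad {n : ℕ} {g : PP → ℝ} {A : Set PP} (hA : IsOpen A) (hconv : Convex ℝ A)
    (h0A : (0 : PP) ∈ A) (hbd : ∀ z ∈ A, |z.1| ≤ 2 ∧ |z.2| ≤ 2) (hg : ContDiffOn ℝ ∞ g A)
    {ε : ℝ} (h0 : |g 0| ≤ ε) (hx : Cl n (dx g) A ε) (hy : Cl n (dy g) A ε) :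
    Cl (n + 1) g A (5 * ε) := by
  have hε : 0 ≤ ε := (abs_nonneg _).trans h0
  have hbx := cl_bd hx
  have hby := cl_bd hy
  refine ⟨fun z hz => ?_, cl_mono subset_rfl (by linarith) n hx,
    cl_mono subset_rfl (by linarith) n hy⟩
  have h1 : ‖g z - g 0‖ ≤ 2 * ε * ‖z - 0‖ := by
    refine Convex.norm_image_sub_le_of_norm_fderiv_le (𝕜 := ℝ) (f := g) (s := A)
      (fun u hu => diffAt_on hA hg hu) ?_ hconv h0A hz
    intro u hu
    refine ContinuousLinearMap.opNorm_le_bound _ (by positivity) fun v => ?_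
    rw [fderiv_apply_eq]
    have ha : |v.1| ≤ ‖v‖ := norm_fst_le v
    have hb : |v.2| ≤ ‖v‖ := norm_snd_le v
    calc ‖v.1 * dx g u + v.2 * dy g u‖ ≤ ‖v.1 * dx g u‖ + ‖v.2 * dy g u‖ := norm_add_le _ _
      _ = |v.1| * |dx g u| + |v.2| * |dy g u| := by simp
      _ ≤ ‖v‖ * ε + ‖v‖ * ε := by
          gcongr
          · exact hbx u hu
          · exact hby u hu
      _ = 2 * ε * ‖v‖ := by ring
  have h2 : ‖z - 0‖ ≤ 2 := by
    rw [sub_zero, Prod.norm_def]
    exact max_le (hbd z hz).1 (hbd z hz).2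
  have h3 : |g z| ≤ |g 0| + |g z - g 0| := by
    have := abs_add_le (g 0) (g z - g 0)
    simpa using this
  have h4 : |g z - g 0| ≤ 2 * ε * 2 := by
    rw [Real.norm_eq_abs] at h1
    exact h1.trans (by gcongr)
  linarith

/-! ### functions of the form `z ↦ ℓ (H (z₀ + J z))` -/

section aff

variable {V G : Type} [NormedAddCommGroup V] [NormedSpace ℝ V]
  [NormedAddCommGroup G] [NormedSpace ℝ G]

theorem hasFDerivAt_aff {H : V → G} {z0 : V} {J : PP →L[ℝ] V} (ℓ : G →L[ℝ] ℝ) {z : PP}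
    (hH : DifferentiableAt ℝ H (z0 + J z)) :
    HasFDerivAt (fun w => ℓ (H (z0 + J w))) (ℓ ∘L (fderiv ℝ H (z0 + J z)) ∘L J) z := by
  have h1 : HasFDerivAt (fun w : PP => z0 + J w) J z := J.hasFDerivAt.const_add z0
  have h2 := hH.hasFDerivAt.comp z h1
  exact ℓ.hasFDerivAt.comp z h2

theorem dx_aff {H : V → G} {z0 : V} {J : PP →L[ℝ] V} (ℓ : G →L[ℝ] ℝ) {z : PP}
    (hH : DifferentiableAt ℝ H (z0 + J z)) :
    dx (fun w => ℓ (H (z0 + J w))) z = ℓ (fderiv ℝ H (z0 + J z) (J (1, 0))) := by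
  unfold dx
  rw [(hasFDerivAt_aff ℓ hH).fderiv]
  rfl

theorem dy_aff {H : V → G} {z0 : V} {J : PP →L[ℝ] V} (ℓ : G →L[ℝ] ℝ) {z : PP}
    (hH : DifferentiableAt ℝ H (z0 + J z)) :
    dy (fun w => ℓ (H (z0 + J w))) z = ℓ (fderiv ℝ H (z0 + J z) (J (0, 1))) := by
  unfold dy
  rw [(hasFDerivAt_aff ℓ hH).fderiv]
  rfl

theorem isOpen_aff {U : Set V} (hU : IsOpen U) (z0 : V) (J : PP →L[ℝ] V) :
    IsOpen {z : PP | z0 + J z ∈ U} :=
  hU.preimage (continuous_const.add J.continuous)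

theorem contDiffOn_aff {H : V → G} {U : Set V} (hH : ContDiffOn ℝ ∞ H U) (z0 : V)
    (J : PP →L[ℝ] V) (ℓ : G →L[ℝ] ℝ) :
    ContDiffOn ℝ ∞ (fun z => ℓ (H (z0 + J z))) {z : PP | z0 + J z ∈ U} := by
  refine ℓ.contDiff.comp_contDiffOn (hH.comp ?_ fun z hz => hz)
  exact (contDiff_const.add J.contDiff).contDiffOn

/-- evaluation of `fderiv` is again of the same form -/
theorem aff_eval {H : V → G} {z0 : V} {J : PP →L[ℝ] V} (ℓ : G →L[ℝ] ℝ) (v : V) (z : PP) :
    ℓ (fderiv ℝ H (z0 + J z) v)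
      = (ℓ ∘L (ContinuousLinearMap.apply ℝ G v)) (fderiv ℝ H (z0 + J z)) := rfl

theorem norm_eval_le (ℓ : G →L[ℝ] ℝ) (v : V) :
    ‖ℓ ∘L (ContinuousLinearMap.apply ℝ G v)‖ ≤ ‖ℓ‖ * ‖v‖ := by
  refine (ContinuousLinearMap.opNorm_comp_le _ _).trans ?_
  refine mul_le_mul_of_nonneg_left ?_ (norm_nonneg _)
  refine ContinuousLinearMap.opNorm_le_bound _ (norm_nonneg _) fun f => ?_
  rw [ContinuousLinearMap.apply_apply, mul_comm]
  exact f.le_opNorm v

end aff

/-- bounds of the iterated derivatives of `H` give `Cl` bounds of `z ↦ ℓ (H (z₀ + J z))` -/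
theorem cl_aff : ∀ (n : ℕ) {V G : Type} [NormedAddCommGroup V] [NormedSpace ℝ V]
    [NormedAddCommGroup G] [NormedSpace ℝ G] {H : V → G} {U : Set V}, IsOpen U →
    ContDiffOn ℝ ∞ H U → ∀ {M : ℝ}, 0 ≤ M →
    (∀ j ≤ n, ∀ x ∈ U, ‖iteratedFDeriv ℝ j H x‖ ≤ M) → ∀ (z0 : V) {J : PP →L[ℝ] V},
    ‖J (1, 0)‖ ≤ 1 → ‖J (0, 1)‖ ≤ 1 → ∀ ℓ : G →L[ℝ] ℝ,
    Cl n (fun z => ℓ (H (z0 + J z))) {z : PP | z0 + J z ∈ U} (‖ℓ‖ * M)
  | 0, V, G, _, _, _, _, H, U, hU, hH, M, hM0, hM, z0, J, hJ1, hJ2, ℓ => by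
      intro z hz
      have h := hM 0 le_rfl _ hz
      rw [norm_iteratedFDeriv_zero] at h
      refine (ℓ.le_opNorm _).trans ?_
      gcongr
  | n + 1, V, G, _, _, _, _, H, U, hU, hH, M, hM0, hM, z0, J, hJ1, hJ2, ℓ => by
      have hD : ContDiffOn ℝ ∞ (fderiv ℝ H) U := hH.fderiv_of_isOpen hU (by simp)
      have hDM : ∀ j ≤ n, ∀ x ∈ U, ‖iteratedFDeriv ℝ j (fderiv ℝ H) x‖ ≤ M := by
        intro j hj x hx
        rw [norm_iteratedFDeriv_fderiv]
        exact hM (j + 1) (by omega) x hx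
      have hd : ∀ x ∈ U, DifferentiableAt ℝ H x := fun x hx =>
        (hH.contDiffAt (hU.mem_nhds hx)).differentiableAt (by simp)
      have key : ∀ v : V, ‖v‖ ≤ 1 →
          Cl n (fun z => ℓ (fderiv ℝ H (z0 + J z) v)) {z : PP | z0 + J z ∈ U} (‖ℓ‖ * M) := by
        intro v hv
        have h := cl_aff n hU hD hM0 hDM z0 hJ1 hJ2 (ℓ ∘L (ContinuousLinearMap.apply ℝ G v))
        refine cl_mono subset_rfl ?_ n h
        have h1 := norm_eval_le ℓ v
        have h2 : ‖ℓ‖ * ‖v‖ ≤ ‖ℓ‖ := mul_le_of_le_one_right (norm_nonneg _) hv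
        exact mul_le_mul_of_nonneg_right (h1.trans h2) hM0
      refine ⟨?_, ?_, ?_⟩
      · intro z hz
        have h := hM 0 (Nat.zero_le _) _ hz
        rw [norm_iteratedFDeriv_zero] at h
        refine (ℓ.le_opNorm _).trans ?_
        gcongr
      · refine cl_congr (isOpen_aff hU z0 J) n (fun z hz => ?_) (key _ hJ1)
        exact (dx_aff ℓ (hd _ hz)).symm
      · refine cl_congr (isOpen_aff hU z0 J) n (fun z hz => ?_) (key _ hJ2)
        exact (dy_aff ℓ (hd _ hz)).symm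

/-! ### the cutoff -/

/-- smooth cutoff: `1` for `|z|² ≤ 9/4`, `0` for `|z|² ≥ 15/4` -/
noncomputable def cut (z : PP) : ℝ := Real.smoothTransition ((15 - 4 * (z.1 ^ 2 + z.2 ^ 2)) / 6)

/-- the open disc of radius `2` -/
def D4 : Set PP := {z : PP | z.1 ^ 2 + z.2 ^ 2 < 4}

theorem isOpen_D4 : IsOpen D4 := isOpen_lt (by fun_prop) continuous_const

theorem zero_mem_D4 : (0 : PP) ∈ D4 := by
  simp [D4]

theorem D4_bd : ∀ z ∈ D4, |z.1| ≤ 2 ∧ |z.2| ≤ 2 := by
  intro z hz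
  have hz' : z.1 ^ 2 + z.2 ^ 2 < 4 := hz
  constructor
  · exact abs_le_of_sq_le_sq (by nlinarith [sq_nonneg z.2]) (by norm_num)
  · exact abs_le_of_sq_le_sq (by nlinarith [sq_nonneg z.1]) (by norm_num)

theorem convex_D4 : Convex ℝ D4 := by
  intro x hx y hy a b ha hb hab
  have hx' : x.1 ^ 2 + x.2 ^ 2 < 4 := hx
  have hy' : y.1 ^ 2 + y.2 ^ 2 < 4 := hy
  change (a • x + b • y).1 ^ 2 + (a • x + b • y).2 ^ 2 < 4
  simp only [Prod.fst_add, Prod.snd_add, Prod.smul_fst, Prod.smul_snd, smul_eq_mul]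
  have hxy : x.1 * y.1 + x.2 * y.2 ≤ (x.1 ^ 2 + x.2 ^ 2 + (y.1 ^ 2 + y.2 ^ 2)) / 2 := by
    nlinarith [sq_nonneg (x.1 - y.1), sq_nonneg (x.2 - y.2)]
  have hb' : b = 1 - a := by linarith
  subst hb'
  rcases eq_or_lt_of_le ha with h | h
  · subst h
    simpa using hy'
  · nlinarith [mul_nonneg ha hb, mul_pos h (sub_pos.2 hx'), mul_nonneg hb (sub_nonneg.2 hy'.le)]

theorem contDiff_cut : ContDiff ℝ ∞ cut := by
  unfold cut
  exact Real.smoothTransition.contDiff.comp ((contDiff_const.sub (contDiff_const.mul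
    ((contDiff_fst.pow 2).add (contDiff_snd.pow 2)))).div_const 6)

theorem cut_eq_one {z : PP} (h : z.1 ^ 2 + z.2 ^ 2 ≤ 9 / 4) : cut z = 1 :=
  Real.smoothTransition.one_of_one_le (by linarith)

theorem cut_eq_zero {z : PP} (h : 15 / 4 ≤ z.1 ^ 2 + z.2 ^ 2) : cut z = 0 :=
  Real.smoothTransition.zero_of_nonpos (by linarith)

/-- the complement of the support of the cutoff -/
def D4c : Set PP := {z : PP | 15 / 4 < z.1 ^ 2 + z.2 ^ 2}

theorem isOpen_D4c : IsOpen D4c := isOpen_lt continuous_const (by fun_prop)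

theorem mem_or (z : PP) : z ∈ D4 ∨ z ∈ D4c := by
  by_cases h : z.1 ^ 2 + z.2 ^ 2 < 4
  · exact Or.inl h
  · refine Or.inr ?_
    change 15 / 4 < z.1 ^ 2 + z.2 ^ 2
    linarith

theorem contDiff_cut_mul {w : PP → ℝ} (hw : ContDiffOn ℝ ∞ w D4) :
    ContDiff ℝ ∞ (fun z => cut z * w z) := by
  rw [contDiff_iff_contDiffAt]
  intro z
  rcases mem_or z with hz | hz
  · exact (contDiff_cut.contDiffAt).mul (hw.contDiffAt (isOpen_D4.mem_nhds hz))
  · have : (fun z => cut z * w z) =ᶠ[nhds z] fun _ => 0 := by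
      filter_upwards [isOpen_D4c.mem_nhds hz] with u hu
      rw [cut_eq_zero (le_of_lt hu), zero_mul]
    exact contDiffAt_const.congr_of_eventuallyEq this

theorem cl_union : ∀ (n : ℕ) {f : PP → ℝ} {A B : Set PP} {c : ℝ}, Cl n f A c → Cl n f B c →
    (∀ z, z ∈ A ∨ z ∈ B) → Cl n f univ c
  | 0, _, _, _, _, h, h', hAB => fun z _ => (hAB z).elim (h z) (h' z)
  | n + 1, _, _, _, _, h, h', hAB => ⟨fun z _ => (hAB z).elim (h.1 z) (h'.1 z),
      cl_union n h.2.1 h'.2.1 hAB, cl_union n h.2.2 h'.2.2 hAB⟩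

theorem hcs_cut : HasCompactSupport cut := by
  refine HasCompactSupport.intro (isCompact_closedBall (0 : PP) 2) fun z hz => ?_
  have h1 : 2 < ‖z‖ := by simpa using hz
  apply cut_eq_zero
  rw [Prod.norm_def, lt_max_iff] at h1
  rcases h1 with h | h
  · have : 4 < z.1 ^ 2 := by
      rw [← sq_abs]; simp only [Real.norm_eq_abs] at h; nlinarith
    nlinarith [sq_nonneg z.2]
  · have : 4 < z.2 ^ 2 := by
      rw [← sq_abs]; simp only [Real.norm_eq_abs] at h; nlinarith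
    nlinarith [sq_nonneg z.1]

theorem exists_cl : ∀ (n : ℕ) {g : PP → ℝ}, ContDiff ℝ ∞ g → HasCompactSupport g →
    ∃ C : ℝ, 0 ≤ C ∧ Cl n g univ C
  | 0, g, hg, hs => by
      obtain ⟨C, hC⟩ := hs.exists_bound_of_continuous hg.continuous
      exact ⟨C, (norm_nonneg _).trans (hC 0), fun z _ => hC z⟩
  | n + 1, g, hg, hs => by
      obtain ⟨C, hC⟩ := hs.exists_bound_of_continuous hg.continuous
      obtain ⟨C1, h1, h1'⟩ := exists_cl n (contDiff_dx hg) (hcs_dx hs)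
      obtain ⟨C2, h2, h2'⟩ := exists_cl n (contDiff_dy hg) (hcs_dy hs)
      have hC0 : 0 ≤ C := (norm_nonneg _).trans (hC 0)
      refine ⟨C + C1 + C2, by linarith, fun z _ => (hC z).trans (by linarith), ?_, ?_⟩
      · exact cl_mono subset_rfl (by linarith) n h1'
      · exact cl_mono subset_rfl (by linarith) n h2'

/-- cutting off costs a constant -/
theorem cl_cut_mul (n : ℕ) : ∃ C : ℝ, 1 ≤ C ∧ ∀ (w : PP → ℝ) (c : ℝ), ContDiffOn ℝ ∞ w D4 →
    Cl n w D4 c → Cl n (fun z => cut z * w z) univ (C * c) := by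
  obtain ⟨C, hC0, hC⟩ := exists_cl n contDiff_cut hcs_cut
  refine ⟨2 ^ n * C + 1, by nlinarith [mul_nonneg (pow_pos (two_pos) n : (0:ℝ) < 2 ^ n).le hC0], ?_⟩
  intro w c hw hcl
  have hc : 0 ≤ c := cl_nonempty_nonneg hcl ⟨0, zero_mem_D4⟩
  have h1 : Cl n (fun z => cut z * w z) D4 ((2 ^ n * C + 1) * c) := by
    refine cl_mono subset_rfl ?_ n (cl_mul_on isOpen_D4 n hC0 hc contDiff_cut.contDiffOn hw
      (cl_mono (subset_univ _) le_rfl n hC) hcl)
    nlinarith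
  have h2 : Cl n (fun z => cut z * w z) D4c ((2 ^ n * C + 1) * c) := by
    refine cl_congr isOpen_D4c n (f := fun _ => 0) (fun z hz => ?_) (cl_zero (by positivity) n)
    rw [cut_eq_zero (le_of_lt hz), zero_mul]
  exact cl_union n h1 h2 mem_or

end Red

end Crest.Agent.Iso341
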