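import Crest.Agent.Iso341.Defs

/-! S0341: the statements `CoreStatement` and `PocketStatement` and the definitions used in the
reduction of the second to the first. -/

set_option autoImplicit false

open MeasureTheory Set
open scoped ContDiff

namespace Crest.Agent.Iso341

abbrev E2 := EuclideanSpace ℝ (Fin 2)
abbrev E3 := EuclideanSpace ℝ (Fin 3)

def CoreStatement : Prop := ∀ ce : ℝ, 0 < ce → ce ≤ 1 → ∃ δ κs : ℝ, 0 < δ ∧ 0 < κs ∧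
  ∀ κ m : ℝ, 0 < κ → κ ≤ κs → 0 < m → m ≤ 1 → ∀ L : ℕ, 8 ≤ L →
  ∃ δ₁ cn : ℝ, 0 < δ₁ ∧ 0 < cn ∧ ∀ c' : ℝ, 0 < c' → c' ≤ cn → ∀ N : ℕ, ∃ ρ₀ : ℝ, 0 < ρ₀ ∧
  ∀ ρ : ℝ, 0 < ρ → ρ ≤ ρ₀ → ∀ n : ℕ, n * ρ ≤ c' → c' ≤ (n + 1) * ρ →
  ∀ c s : ℝ, c ^ 2 + s ^ 2 = 1 → ce ≤ |c| → ∀ T : Finset (Fin n → Bool), 2 ^ n ≤ N * T.card →
  ∀ X Y f : (Fin n → Bool) → PP → ℝ, (∀ b ∈ T, Near δ (X b) (Y b) (f b)) →
  (∀ b ∈ T, ∀ b' ∈ T, Cl 4 (fun z => X b z - X b' z) univ δ₁ ∧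
    Cl 4 (fun z => Y b z - Y b' z) univ δ₁ ∧ Cl 4 (fun z => f b z - f b' z) univ δ₁) →
  (∀ b ∈ T, |dx (f b) 0| ≤ δ₁ ∧ |dy (f b) 0| ≤ δ₁) →
  (∀ b ∈ T, ∀ z : PP, z.1 ^ 2 + z.2 ^ 2 < 9 / 4 →
    dx (X b) z ^ 2 + dx (Y b) z ^ 2 + m * dx (f b) z ^ 2
      = Real.exp (2 * (κ * m * expo ρ L ce c s b z)) ∧
    dy (X b) z ^ 2 + dy (Y b) z ^ 2 + m * dy (f b) z ^ 2
      = Real.exp (2 * (κ * m * expo ρ L ce c s b z)) ∧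
    dx (X b) z * dy (X b) z + dx (Y b) z * dy (Y b) z + m * (dx (f b) z * dy (f b) z) = 0) →
  False

def PocketStatement : Prop := ∀ (M θ ε R : ℝ) (N : ℕ) (z e : E2), 0 < θ → 0 < ε → 0 < R →
  ‖e‖ = 1 → ∃ v : E2 → ℝ, ContDiff ℝ ∞ v ∧ (∀ x, R ≤ ‖x - z‖ → v x = 0) ∧
  (∀ j ≤ N, ∀ x, ‖iteratedFDeriv ℝ j v x‖ ≤ ε) ∧
  ∀ F : E2 → E3, ContDiffOn ℝ ∞ F (Metric.ball z R) →
    (∀ x ∈ Metric.ball z R, ∀ a b, inner ℝ (fderiv ℝ F x a) (fderiv ℝ F x b)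
      = Real.exp (2 * v x) * inner ℝ a b) →
    (∀ j ≤ 5, ∀ x ∈ Metric.ball z R, ‖iteratedFDeriv ℝ j F x‖ ≤ M) →
    ‖fderiv ℝ (fderiv ℝ F) z e e‖ < θ

/-- the point of `E2` with coordinates `w` in the frame `(a1, a2)` at `z`, scale `r` -/
noncomputable def pt (z : E2) (r : ℝ) (a1 a2 : E2) (w : PP) : E2 := z + r • (w.1 • a1 + w.2 • a2)

/-- smooth radial cutoff: `1` for `|w|² ≤ 9/4`, `0` for `|w|² ≥ 4` -/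
noncomputable def cut (w : PP) : ℝ :=
  Real.smoothTransition ((4 - (w.1 ^ 2 + w.2 ^ 2)) * (4 / 7))

/-- rescaled component of `F` in the direction `E` -/
noncomputable def uc (z : E2) (r : ℝ) (a1 a2 : E2) (F : E2 → E3) (y0 E : E3) (w : PP) : ℝ :=
  inner ℝ (F (pt z r a1 a2 w) - y0) E / r

/-- the functions to which the core statement is applied -/
noncomputable def XX (z : E2) (r : ℝ) (a1 a2 : E2) (F : E2 → E3) (y0 E : E3) (w : PP) : ℝ :=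
  w.1 + cut w * (uc z r a1 a2 F y0 E w - w.1)

noncomputable def YY (z : E2) (r : ℝ) (a1 a2 : E2) (F : E2 → E3) (y0 E : E3) (w : PP) : ℝ :=
  w.2 + cut w * (uc z r a1 a2 F y0 E w - w.2)

noncomputable def FF (z : E2) (r μ : ℝ) (a1 a2 : E2) (F : E2 → E3) (y0 E : E3) (w : PP) : ℝ :=
  w.1 ^ 2 / 2 + cut w * (uc z r a1 a2 F y0 E w / μ - w.1 ^ 2 / 2)

/-- the conformal exponent on the plane -/
noncomputable def vexp {n : ℕ} (kg r ρ : ℝ) (L : ℕ) (ce : ℝ) (z e : E2) (b : Fin n → Bool)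
    (x : E2) : ℝ :=
  kg * (prof (‖r⁻¹ • (x - z)‖ ^ 2) + ρ ^ L * ∑ i : Fin n, (if b i then 1 else 0) *
    bump (‖r⁻¹ • (x - z) - (8 * ρ * (i + 1) / ce) • e‖ ^ 2 / ρ ^ 2))

/-- adapted frame at the centre of the pocket: `(a1, a2)` orthonormal in the plane,
`(E1, E2, E3)` orthonormal in space, `DF(z) a1 = E1`, `DF(z) a2 = E2'`,
second fundamental form diagonal with entries `μ1`, `μ2` -/
structure Frame (F : E2 → E3) (z e : E2) (a1 a2 : E2) (E1 E2' E3' : E3) (μ1 μ2 : ℝ) : Prop where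
  na1 : ‖a1‖ = 1
  na2 : ‖a2‖ = 1
  a12 : inner ℝ a1 a2 = 0
  nE1 : ‖E1‖ = 1
  nE2 : ‖E2'‖ = 1
  nE3 : ‖E3'‖ = 1
  E12 : inner ℝ E1 E2' = 0
  E13 : inner ℝ E1 E3' = 0
  E23 : inner ℝ E2' E3' = 0
  d1 : fderiv ℝ F z a1 = E1
  d2 : fderiv ℝ F z a2 = E2'
  h11 : fderiv ℝ (fderiv ℝ F) z a1 a1 = μ1 • E3'
  h12 : fderiv ℝ (fderiv ℝ F) z a1 a2 = 0
  h21 : fderiv ℝ (fderiv ℝ F) z a2 a1 = 0
  h22 : fderiv ℝ (fderiv ℝ F) z a2 a2 = μ2 • E3'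
  pos : 0 < μ1
  le1 : |μ2| ≤ μ1
  ne : ‖fderiv ℝ (fderiv ℝ F) z e e‖ ≤ μ1
  nee : ‖fderiv ℝ (fderiv ℝ F) z e e‖ ≤ μ1 * inner ℝ e a1 ^ 2 + |μ2|

end Crest.Agent.Iso341
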