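import Crest.Agent.Iso341.RedDefs
import Crest.Agent.Iso341.Expo
import Crest.Agent.Iso341.RedBridge

/-! S0341, REDUCE: the conformal exponent as a function on `E2`. -/

set_option autoImplicit false

open MeasureTheory Set
open scoped ContDiff

namespace Crest.Agent.Iso341

namespace Red

/-- the conformal exponent at scale `r` around `z` with the bumps in the direction `e` -/
noncomputable def vb {n : ℕ} (kg r ρ : ℝ) (L : ℕ) (ce : ℝ) (z e : E2) (b : Fin n → Bool)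
    (x : E2) : ℝ :=
  kg * (prof (‖r⁻¹ • (x - z)‖ ^ 2) + ρ ^ L * ∑ i : Fin n, (if b i then 1 else 0) *
    bump (‖r⁻¹ • (x - z) - (8 * ρ * (i + 1) / ce) • e‖ ^ 2 / ρ ^ 2))

theorem norm_sq_comb {a1 a2 : E2} (h1 : ‖a1‖ = 1) (h2 : ‖a2‖ = 1) (h12 : inner ℝ a1 a2 = 0)
    (α β : ℝ) : ‖α • a1 + β • a2‖ ^ 2 = α ^ 2 + β ^ 2 := by
  rw [norm_add_sq_real, norm_smul, norm_smul, h1, h2, inner_smul_left, inner_smul_right, h12]
  simp

theorem vb_chart {n : ℕ} {kg r ρ : ℝ} {L : ℕ} {ce : ℝ} {z e : E2} {b : Fin n → Bool}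
    (hr : r ≠ 0) {a1 a2 : E2} (h1 : ‖a1‖ = 1) (h2 : ‖a2‖ = 1) (h12 : inner ℝ a1 a2 = 0)
    {c s : ℝ} (he : e = c • a1 + s • a2) (p : PP) :
    vb kg r ρ L ce z e b (z + r • (p.1 • a1 + p.2 • a2)) = kg * expo ρ L ce c s b p := by
  unfold vb expo
  have e1 : r⁻¹ • (z + r • (p.1 • a1 + p.2 • a2) - z) = p.1 • a1 + p.2 • a2 := by
    rw [add_sub_cancel_left, smul_smul, inv_mul_cancel₀ hr, one_smul]
  rw [e1, norm_sq_comb h1 h2 h12]
  congr 3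
  refine Finset.sum_congr rfl fun i _ => ?_
  have e2 : p.1 • a1 + p.2 • a2 - (8 * ρ * (i + 1) / ce) • e
      = (p.1 - 8 * ρ * (i + 1) / ce * c) • a1 + (p.2 - 8 * ρ * (i + 1) / ce * s) • a2 := by
    rw [he]
    module
  rw [e2, norm_sq_comb h1 h2 h12]

theorem contDiff_vb {n : ℕ} (kg r ρ : ℝ) (L : ℕ) (ce : ℝ) (z e : E2) (b : Fin n → Bool) :
    ContDiff ℝ ∞ (vb kg r ρ L ce z e b) := by
  unfold vb
  refine contDiff_const.mul ((Expo.contDiff_prof.comp ?_).add (contDiff_const.mul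
    (ContDiff.sum fun i _ => contDiff_const.mul (Expo.contDiff_bump.comp ?_))))
  · exact ((contDiff_id.sub contDiff_const).const_smul r⁻¹).norm_sq ℝ
  · exact ((((contDiff_id.sub contDiff_const).const_smul r⁻¹).sub contDiff_const).norm_sq
      ℝ).div_const _

theorem vb_support {n : ℕ} {kg r ρ : ℝ} {L : ℕ} {ce : ℝ} {z e : E2} {b : Fin n → Bool}
    (hr : 0 < r) (hρ : 0 < ρ) (hρ1 : ρ ≤ 1) (hce : 0 < ce) (he : ‖e‖ = 1)
    (hn : 8 * ρ * n / ce ≤ 1 / 64) {x : E2} (hx : 2 * r ≤ ‖x - z‖) :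
    vb kg r ρ L ce z e b x = 0 := by
  unfold vb
  have h2 : 2 ≤ ‖r⁻¹ • (x - z)‖ := by
    rw [norm_smul, Real.norm_eq_abs, abs_of_pos (inv_pos.2 hr), inv_mul_eq_div,
      le_div_iff₀ hr]
    exact hx
  have hp : prof (‖r⁻¹ • (x - z)‖ ^ 2) = 0 := by
    unfold prof
    rw [Real.smoothTransition.zero_of_nonpos (by nlinarith), zero_mul]
  have hs : ∑ i : Fin n, (if b i then (1 : ℝ) else 0) *
      bump (‖r⁻¹ • (x - z) - (8 * ρ * (i + 1) / ce) • e‖ ^ 2 / ρ ^ 2) = 0 := by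
    refine Finset.sum_eq_zero fun i _ => ?_
    have ht0 : 0 ≤ 8 * ρ * ((i : ℝ) + 1) / ce := by positivity
    have ht : 8 * ρ * ((i : ℝ) + 1) / ce ≤ 1 / 64 := by
      refine le_trans ?_ hn
      have : ((i : ℝ) + 1) ≤ n := by exact_mod_cast i.2
      gcongr
    have h3 : 1 ≤ ‖r⁻¹ • (x - z) - (8 * ρ * (i + 1) / ce) • e‖ := by
      have h4 := norm_sub_norm_le (r⁻¹ • (x - z)) ((8 * ρ * ((i : ℝ) + 1) / ce) • e)
      have h5 : ‖(8 * ρ * ((i : ℝ) + 1) / ce) • e‖ = 8 * ρ * ((i : ℝ) + 1) / ce := by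
        rw [norm_smul, he, mul_one, Real.norm_eq_abs, abs_of_nonneg ht0]
      linarith
    have h6 : 1 ≤ ‖r⁻¹ • (x - z) - (8 * ρ * (i + 1) / ce) • e‖ ^ 2 / ρ ^ 2 := by
      rw [le_div_iff₀ (by positivity)]
      have : ρ ^ 2 ≤ 1 := pow_le_one₀ hρ.le hρ1
      nlinarith
    unfold bump
    rw [Real.smoothTransition.zero_of_nonpos (by linarith), mul_zero]
  rw [hp, hs]
  ring

/-! ### bounds of the derivatives -/

theorem exists_iter_bound {φ : E2 → ℝ} (hφ : ContDiff ℝ ∞ φ) (hs : HasCompactSupport φ) (N : ℕ) :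
    ∃ C : ℝ, 0 < C ∧ ∀ j ≤ N, ∀ y, ‖iteratedFDeriv ℝ j φ y‖ ≤ C := by
  induction N with
  | zero =>
    have hc : Continuous (iteratedFDeriv ℝ 0 φ) := hφ.continuous_iteratedFDeriv (by simp)
    obtain ⟨C, hC⟩ := (hs.iteratedFDeriv (𝕜 := ℝ) 0).exists_bound_of_continuous hc
    refine ⟨|C| + 1, by positivity, fun j hj y => ?_⟩
    obtain rfl : j = 0 := by omega
    exact (hC y).trans ((le_abs_self C).trans (by linarith))
  | succ N ih =>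
    obtain ⟨C₀, hC₀, h₀⟩ := ih
    have hc : Continuous (iteratedFDeriv ℝ (N + 1) φ) :=
      hφ.continuous_iteratedFDeriv (by exact_mod_cast le_top)
    obtain ⟨C, hC⟩ := (hs.iteratedFDeriv (𝕜 := ℝ) (N + 1)).exists_bound_of_continuous hc
    refine ⟨C₀ + |C|, by positivity, fun j hj y => ?_⟩
    rcases Nat.lt_or_ge j (N + 1) with h | h
    · exact (h₀ j (by omega) y).trans (by linarith [abs_nonneg C])
    · obtain rfl : j = N + 1 := by omega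
      exact (hC y).trans ((le_abs_self C).trans (by linarith))

theorem iter_scaled {φ : E2 → ℝ} (hφ : ContDiff ℝ ∞ φ) {C : ℝ} {j : ℕ}
    (hC : ∀ y, ‖iteratedFDeriv ℝ j φ y‖ ≤ C) {l : ℝ} (hl : 0 ≤ l) (x0 x : E2) :
    ‖iteratedFDeriv ℝ j (fun x => φ (l • (x - x0))) x‖ ≤ l ^ j * C := by
  have e : iteratedFDeriv ℝ j (fun x => φ (l • (x - x0))) x
      = iteratedFDeriv ℝ j (fun y => φ (l • y)) (x - x0) :=
    iteratedFDeriv_comp_sub (f := fun y => φ (l • y)) j x0 x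
  rw [e, iteratedFDeriv_comp_const_smul l (hφ.of_le (by exact_mod_cast le_top))]
  simp only
  rw [norm_smul, norm_pow, Real.norm_eq_abs, abs_of_nonneg hl]
  exact mul_le_mul_of_nonneg_left (hC _) (by positivity)

theorem contDiff_prof2 : ContDiff ℝ ∞ (fun y : E2 => prof (‖y‖ ^ 2)) :=
  Expo.contDiff_prof.comp (contDiff_id.norm_sq ℝ)

theorem contDiff_bump2 : ContDiff ℝ ∞ (fun y : E2 => bump (‖y‖ ^ 2)) :=
  Expo.contDiff_bump.comp (contDiff_id.norm_sq ℝ)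

theorem hcs_prof2 : HasCompactSupport (fun y : E2 => prof (‖y‖ ^ 2)) := by
  refine HasCompactSupport.intro (isCompact_closedBall (0 : E2) 2) fun y hy => ?_
  have h1 : 2 < ‖y‖ := by simpa using hy
  unfold prof
  rw [Real.smoothTransition.zero_of_nonpos (by nlinarith), zero_mul]

theorem hcs_bump2 : HasCompactSupport (fun y : E2 => bump (‖y‖ ^ 2)) := by
  refine HasCompactSupport.intro (isCompact_closedBall (0 : E2) 2) fun y hy => ?_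
  have h1 : 2 < ‖y‖ := by simpa using hy
  exact Real.smoothTransition.zero_of_nonpos (by nlinarith)

theorem vb_eq {n : ℕ} {kg r ρ : ℝ} {L : ℕ} {ce : ℝ} {z e : E2} {b : Fin n → Bool}
    (hr : 0 < r) (hρ : 0 < ρ) (x : E2) : vb kg r ρ L ce z e b x
      = kg * (prof (‖r⁻¹ • (x - z)‖ ^ 2) + ρ ^ L * ∑ i : Fin n, (if b i then 1 else 0) *
        bump (‖(r * ρ)⁻¹ • (x - (z + (r * (8 * ρ * (i + 1) / ce)) • e))‖ ^ 2)) := by
  unfold vb
  congr 3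
  refine Finset.sum_congr rfl fun i _ => ?_
  congr 2
  have e1 : (r * ρ)⁻¹ • (x - (z + (r * (8 * ρ * (i + 1) / ce)) • e))
      = ρ⁻¹ • (r⁻¹ • (x - z) - (8 * ρ * (i + 1) / ce) • e) := by
    rw [smul_sub, smul_sub, smul_add, smul_sub, smul_sub, smul_smul, smul_smul, smul_smul,
      smul_smul]
    have hr' := hr.ne'
    have hρ' := hρ.ne'
    have f1 : ρ⁻¹ * r⁻¹ = (r * ρ)⁻¹ := by rw [mul_inv_rev]
    have f2 : (r * ρ)⁻¹ * (r * (8 * ρ * (i + 1) / ce)) = ρ⁻¹ * (8 * ρ * (i + 1) / ce) := by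
      field_simp
    rw [f1, f2]
    abel
  rw [e1, norm_smul, mul_pow, Real.norm_eq_abs, sq_abs, inv_pow, inv_mul_eq_div]

/-- the derivatives of the conformal exponent of order at most `N` are at most `C kg / r^N` -/
theorem vb_bound (N : ℕ) : ∃ C : ℝ, 0 < C ∧ ∀ (kg r ρ : ℝ) (L n : ℕ) (ce : ℝ) (z e : E2)
    (b : Fin n → Bool), 0 ≤ kg → 0 < r → r ≤ 1 → 0 < ρ → ρ ≤ 1 → N + 1 ≤ L → n * ρ ≤ 1 →
    ∀ j ≤ N, ∀ x, ‖iteratedFDeriv ℝ j (vb kg r ρ L ce z e b) x‖ ≤ C * (kg / r ^ N) := by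
  obtain ⟨C1, hC1, h1⟩ := exists_iter_bound contDiff_prof2 hcs_prof2 N
  obtain ⟨C2, hC2, h2⟩ := exists_iter_bound contDiff_bump2 hcs_bump2 N
  refine ⟨C1 + C2, by positivity, ?_⟩
  intro kg r ρ L n ce z e b hkg hr hr1 hρ hρ1 hL hn j hj x
  have ev : vb kg r ρ L ce z e b = fun x => kg • ((fun x => prof (‖r⁻¹ • (x - z)‖ ^ 2)) x +
      (fun x => ρ ^ L • ∑ i : Fin n, (if b i then (1 : ℝ) else 0) •
        bump (‖(r * ρ)⁻¹ • (x - (z + (r * (8 * ρ * (i + 1) / ce)) • e))‖ ^ 2)) x) := by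
    funext x
    rw [vb_eq hr hρ]
    simp only [smul_eq_mul]
  have s1 : ContDiff ℝ ∞ (fun x : E2 => prof (‖r⁻¹ • (x - z)‖ ^ 2)) :=
    contDiff_prof2.comp ((contDiff_id.sub contDiff_const).const_smul r⁻¹)
  have s2 : ∀ i : Fin n, ContDiff ℝ ∞ (fun x : E2 =>
      bump (‖(r * ρ)⁻¹ • (x - (z + (r * (8 * ρ * (i + 1) / ce)) • e))‖ ^ 2)) := fun i =>
    contDiff_bump2.comp ((contDiff_id.sub contDiff_const).const_smul (r * ρ)⁻¹)
  have s3 : ∀ i : Fin n, ContDiff ℝ ∞ (fun x : E2 => (if b i then (1 : ℝ) else 0) •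
      bump (‖(r * ρ)⁻¹ • (x - (z + (r * (8 * ρ * (i + 1) / ce)) • e))‖ ^ 2)) := fun i =>
    (s2 i).const_smul _
  have s4 : ContDiff ℝ ∞ (fun x : E2 => ∑ i : Fin n, (if b i then (1 : ℝ) else 0) •
      bump (‖(r * ρ)⁻¹ • (x - (z + (r * (8 * ρ * (i + 1) / ce)) • e))‖ ^ 2)) :=
    ContDiff.sum fun i _ => s3 i
  have s5 : ContDiff ℝ ∞ (fun x : E2 => ρ ^ L • ∑ i : Fin n, (if b i then (1 : ℝ) else 0) •
      bump (‖(r * ρ)⁻¹ • (x - (z + (r * (8 * ρ * (i + 1) / ce)) • e))‖ ^ 2)) :=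
    s4.const_smul _
  have hle : ((j : ℕ∞) : WithTop ℕ∞) ≤ ∞ := by exact_mod_cast le_top
  have hle' : (j : WithTop ℕ∞) ≤ ∞ := hle
  rw [ev, iteratedFDeriv_const_smul_apply' ((s1.add s5).of_le hle').contDiffAt,
    fun_iteratedFDeriv_add_apply (s1.of_le hle').contDiffAt (s5.of_le hle').contDiffAt,
    iteratedFDeriv_const_smul_apply' (s4.of_le hle').contDiffAt,
    iteratedFDeriv_fun_sum_apply (fun i _ => ((s3 i).of_le hle').contDiffAt)]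
  have b1 : ‖iteratedFDeriv ℝ j (fun x : E2 => prof (‖r⁻¹ • (x - z)‖ ^ 2)) x‖
      ≤ C1 / r ^ N := by
    refine (iter_scaled contDiff_prof2 (h1 j hj) (inv_nonneg.2 hr.le) z x).trans ?_
    rw [inv_pow, inv_mul_eq_div]
    exact div_le_div_of_nonneg_left hC1.le (pow_pos hr N) (pow_le_pow_of_le_one hr.le hr1 hj)
  have b2 : ∀ i : Fin n, ‖iteratedFDeriv ℝ j (fun x : E2 => (if b i then (1 : ℝ) else 0) •
      bump (‖(r * ρ)⁻¹ • (x - (z + (r * (8 * ρ * (i + 1) / ce)) • e))‖ ^ 2)) x‖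
      ≤ C2 / (r * ρ) ^ N := by
    intro i
    rw [iteratedFDeriv_const_smul_apply' ((s2 i).of_le hle').contDiffAt, norm_smul]
    have h3 : ‖(if b i then (1 : ℝ) else 0)‖ ≤ 1 := by
      split_ifs <;> simp
    have h4 := iter_scaled contDiff_bump2 (h2 j hj) (inv_nonneg.2 (mul_pos hr hρ).le)
      (z + (r * (8 * ρ * (i + 1) / ce)) • e) x
    have h5 : (r * ρ)⁻¹ ^ j * C2 ≤ C2 / (r * ρ) ^ N := by
      rw [inv_pow, inv_mul_eq_div]
      refine div_le_div_of_nonneg_left hC2.le (pow_pos (mul_pos hr hρ) N)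
        (pow_le_pow_of_le_one (mul_pos hr hρ).le ?_ hj)
      exact mul_le_one₀ hr1 hρ.le hρ1
    calc _ ≤ 1 * (C2 / (r * ρ) ^ N) :=
          mul_le_mul h3 (h4.trans h5) (norm_nonneg _) zero_le_one
      _ = _ := one_mul _
  have b3 : ‖∑ i : Fin n, iteratedFDeriv ℝ j (fun x : E2 => (if b i then (1 : ℝ) else 0) •
      bump (‖(r * ρ)⁻¹ • (x - (z + (r * (8 * ρ * (i + 1) / ce)) • e))‖ ^ 2)) x‖
      ≤ n * (C2 / (r * ρ) ^ N) := by
    refine (norm_sum_le_of_le _ fun i _ => b2 i).trans (le_of_eq ?_)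
    simp
  have b4 : ρ ^ L * (n * (C2 / (r * ρ) ^ N)) ≤ C2 / r ^ N := by
    obtain ⟨k, rfl⟩ : ∃ k, L = N + 1 + k := ⟨L - (N + 1), by omega⟩
    have e1 : ρ ^ (N + 1 + k) * (n * (C2 / (r * ρ) ^ N)) = (ρ ^ k * (n * ρ)) * (C2 / r ^ N) := by
      rw [mul_pow]
      field_simp
      ring
    rw [e1]
    refine mul_le_of_le_one_left (by positivity) ?_
    exact mul_le_one₀ (pow_le_one₀ hρ.le hρ1) (by positivity) hn
  rw [norm_smul, Real.norm_eq_abs, abs_of_nonneg hkg]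
  calc kg * _ ≤ kg * (C1 / r ^ N + C2 / r ^ N) := by
        refine mul_le_mul_of_nonneg_left ((norm_add_le _ _).trans (add_le_add b1 ?_)) hkg
        rw [norm_smul, Real.norm_eq_abs, abs_of_nonneg (by positivity)]
        exact (mul_le_mul_of_nonneg_left b3 (by positivity)).trans b4
    _ = (C1 + C2) * (kg / r ^ N) := by ring

/-! ### the exponent near the origin -/

/-- near the origin `expo` is the polynomial `(|z|² - |z|⁴) / 16` -/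
theorem expo_near_zero {n : ℕ} {ρ : ℝ} (hρ : 0 < ρ) (hρ1 : ρ ≤ 1) {L : ℕ} {ce : ℝ}
    (hce : 0 < ce) (hce1 : ce ≤ 1) {c s : ℝ} (hcs : c ^ 2 + s ^ 2 = 1) (b : Fin n → Bool)
    {p : PP} (hp : p.1 ^ 2 + p.2 ^ 2 < ρ ^ 2) :
    Expo.qq p = expo ρ L ce c s b p := by
  unfold expo
  have h1 : p.1 ^ 2 + p.2 ^ 2 < 1 := hp.trans_le (pow_le_one₀ hρ.le hρ1)
  have hs : ∑ i : Fin n, (if b i then (1 : ℝ) else 0) * bump (((p.1 - 8 * ρ * (i + 1) / ce * c) ^ 2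
      + (p.2 - 8 * ρ * (i + 1) / ce * s) ^ 2) / ρ ^ 2) = 0 := by
    refine Finset.sum_eq_zero fun i _ => ?_
    have ht : 8 * ρ ≤ 8 * ρ * ((i : ℝ) + 1) / ce := by
      rw [le_div_iff₀ hce]
      have : (0 : ℝ) ≤ i := Nat.cast_nonneg _
      nlinarith [mul_nonneg hρ.le this]
    set t : ℝ := 8 * ρ * ((i : ℝ) + 1) / ce
    have key : ρ ^ 2 ≤ (p.1 - t * c) ^ 2 + (p.2 - t * s) ^ 2 := by
      have e1 : (p.1 - t * c) ^ 2 + (p.2 - t * s) ^ 2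
          = (p.1 ^ 2 + p.2 ^ 2) - 2 * t * (p.1 * c + p.2 * s) + t ^ 2 * (c ^ 2 + s ^ 2) := by
        ring
      have e2 : (p.1 * c + p.2 * s) ^ 2 ≤ p.1 ^ 2 + p.2 ^ 2 := by
        nlinarith [sq_nonneg (p.1 * s - p.2 * c)]
      have e3 : |p.1 * c + p.2 * s| ≤ ρ := abs_le_of_sq_le_sq (by nlinarith) hρ.le
      have e4 := (abs_le.1 e3).2
      rw [e1, hcs]
      nlinarith [sq_nonneg p.1, sq_nonneg p.2]
    have : 1 ≤ ((p.1 - t * c) ^ 2 + (p.2 - t * s) ^ 2) / ρ ^ 2 := by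
      rw [le_div_iff₀ (by positivity)]
      linarith
    unfold bump
    rw [Real.smoothTransition.zero_of_nonpos (by linarith), mul_zero]
  rw [hs, Expo.qq_eq, prof, Real.smoothTransition.one_of_one_le (by linarith)]
  ring

theorem qq_zero : Expo.qq 0 = 0 := by
  rw [Expo.qq_eq]
  norm_num

theorem dx_qq_zero : dx Expo.qq 0 = 0 := by
  have e : Expo.qq = fun z => (z.1 ^ 2 + z.2 ^ 2 - (z.1 ^ 2 + z.2 ^ 2) ^ 2) * (1 / 16) := by
    funext z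
    rw [Expo.qq_eq]
    ring
  have h1 : ContDiff ℝ ∞ (fun z : PP => z.1 ^ 2 + z.2 ^ 2) :=
    (contDiff_fst.pow 2).add (contDiff_snd.pow 2)
  have d1 : dx (fun z : PP => z.1 ^ 2 + z.2 ^ 2) 0 = 0 := by
    rw [dx_add (contDiff_fst.pow 2) (contDiff_snd.pow 2), dx_pow 2 contDiff_fst,
      dx_pow 2 contDiff_snd]
    simp
  rw [e, dx_mul (h1.sub (h1.pow 2)) contDiff_const, dx_sub h1 (h1.pow 2), dx_pow 2 h1, d1,
    dx_const]
  simp

theorem dy_qq_zero : dy Expo.qq 0 = 0 := by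
  have e : Expo.qq = fun z => (z.1 ^ 2 + z.2 ^ 2 - (z.1 ^ 2 + z.2 ^ 2) ^ 2) * (1 / 16) := by
    funext z
    rw [Expo.qq_eq]
    ring
  have h1 : ContDiff ℝ ∞ (fun z : PP => z.1 ^ 2 + z.2 ^ 2) :=
    (contDiff_fst.pow 2).add (contDiff_snd.pow 2)
  have d1 : dy (fun z : PP => z.1 ^ 2 + z.2 ^ 2) 0 = 0 := by
    rw [dy_add (contDiff_fst.pow 2) (contDiff_snd.pow 2), dy_pow 2 contDiff_fst,
      dy_pow 2 contDiff_snd]
    simp
  rw [e, dy_mul (h1.sub (h1.pow 2)) contDiff_const, dy_sub h1 (h1.pow 2), dy_pow 2 h1, d1,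
    dy_const]
  simp

/-- value, gradient and Laplacian of `expo` at the origin -/
theorem expo_at_zero' {n : ℕ} {ρ : ℝ} (hρ : 0 < ρ) (hρ1 : ρ ≤ 1) {L : ℕ} {ce : ℝ}
    (hce : 0 < ce) (hce1 : ce ≤ 1) {c s : ℝ} (hcs : c ^ 2 + s ^ 2 = 1) (b : Fin n → Bool) :
    expo ρ L ce c s b 0 = 0 ∧ dx (expo ρ L ce c s b) 0 = 0 ∧ dy (expo ρ L ce c s b) 0 = 0 ∧
    dx (dx (expo ρ L ce c s b)) 0 + dy (dy (expo ρ L ce c s b)) 0 = 1 / 4 := by
  set B : Set PP := {p : PP | p.1 ^ 2 + p.2 ^ 2 < ρ ^ 2}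
  have hB : IsOpen B := isOpen_lt (by fun_prop) continuous_const
  have h0 : (0 : PP) ∈ B := by
    change (0 : PP).1 ^ 2 + (0 : PP).2 ^ 2 < ρ ^ 2
    simpa using pow_pos hρ 2
  have hc : ∀ p ∈ B, Expo.qq p = expo ρ L ce c s b p := fun p hp =>
    expo_near_zero hρ hρ1 hce hce1 hcs b hp
  refine ⟨?_, ?_, ?_, ?_⟩
  · rw [← hc 0 h0, qq_zero]
  · rw [← dx_congr_on hB hc 0 h0, dx_qq_zero]
  · rw [← dy_congr_on hB hc 0 h0, dy_qq_zero]
  · rw [← dx_congr_on hB (dx_congr_on hB hc) 0 h0, ← dy_congr_on hB (dy_congr_on hB hc) 0 h0,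
      Expo.lap_qq]
    norm_num

theorem norm_ge_of_far {ρ t : ℝ} (ht : 8 * ρ ≤ t) (hρ : 0 < ρ) {e ξ : E2} (he : ‖e‖ = 1)
    (hξ : ‖ξ‖ < ρ) : ρ ≤ ‖ξ - t • e‖ := by
  have h1 := norm_sub_norm_le (t • e) ξ
  rw [norm_smul, he, mul_one, Real.norm_eq_abs, abs_of_nonneg (by linarith), norm_sub_rev] at h1
  linarith

/-- near the centre the exponent is radial polynomial -/
theorem vb_germ {n : ℕ} {kg r ρ : ℝ} {L : ℕ} {ce : ℝ} {z e : E2} {b : Fin n → Bool}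
    (hr : 0 < r) (hρ : 0 < ρ) (hce : 0 < ce) (hce1 : ce ≤ 1) (he : ‖e‖ = 1) :
    vb kg r ρ L ce z e b =ᶠ[nhds z]
      fun x => kg * ((‖r⁻¹ • (x - z)‖ ^ 2 - (‖r⁻¹ • (x - z)‖ ^ 2) ^ 2) / 16) := by
  have hcont : Continuous fun x : E2 => ‖r⁻¹ • (x - z)‖ := by fun_prop
  have hmem : {x : E2 | ‖r⁻¹ • (x - z)‖ < min ρ 1} ∈ nhds z := by
    refine (isOpen_lt hcont continuous_const).mem_nhds ?_
    simp only [mem_ofPred_eq, sub_self, smul_zero, norm_zero]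
    exact lt_min hρ one_pos
  filter_upwards [hmem] with x hx
  have hx1 : ‖r⁻¹ • (x - z)‖ < ρ := lt_of_lt_of_le hx (min_le_left _ _)
  have hx2 : ‖r⁻¹ • (x - z)‖ < 1 := lt_of_lt_of_le hx (min_le_right _ _)
  have hx0 : 0 ≤ ‖r⁻¹ • (x - z)‖ := norm_nonneg _
  unfold vb
  have hs : ∑ i : Fin n, (if b i then (1 : ℝ) else 0) *
      bump (‖r⁻¹ • (x - z) - (8 * ρ * (i + 1) / ce) • e‖ ^ 2 / ρ ^ 2) = 0 := by
    refine Finset.sum_eq_zero fun i _ => ?_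
    have ht : 8 * ρ ≤ 8 * ρ * ((i : ℝ) + 1) / ce := by
      rw [le_div_iff₀ hce]
      have : (0 : ℝ) ≤ i := Nat.cast_nonneg _
      nlinarith [mul_nonneg hρ.le this]
    have h3 := norm_ge_of_far ht hρ he hx1
    have h4 : 1 ≤ ‖r⁻¹ • (x - z) - (8 * ρ * (i + 1) / ce) • e‖ ^ 2 / ρ ^ 2 := by
      rw [le_div_iff₀ (by positivity), one_mul]
      exact pow_le_pow_left₀ hρ.le h3 2
    unfold bump
    rw [Real.smoothTransition.zero_of_nonpos (by linarith), mul_zero]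
  rw [hs, prof, Real.smoothTransition.one_of_one_le (by nlinarith)]
  ring

end Red

open Red

theorem vexp_smooth {n : ℕ} (kg r ρ : ℝ) (L : ℕ) (ce : ℝ) (z e : E2) (b : Fin n → Bool) :
    ContDiff ℝ ∞ (vexp kg r ρ L ce z e b) := contDiff_vb kg r ρ L ce z e b

theorem vexp_zero {n : ℕ} (kg r ρ : ℝ) (L : ℕ) (ce : ℝ) (z e : E2) (b : Fin n → Bool)
    (hr : 0 < r) (hρ : 0 < ρ) (hρ1 : ρ ≤ 1) (hce : 0 < ce) (hn : 8 * ρ * n / ce ≤ 1 / 64)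
    (he : ‖e‖ = 1) (x : E2) (hx : 2 * r ≤ ‖x - z‖) : vexp kg r ρ L ce z e b x = 0 :=
  vb_support hr hρ hρ1 hce he hn hx

theorem vexp_bound (N : ℕ) : ∃ C : ℝ, 0 < C ∧ ∀ (n : ℕ) (kg r ρ : ℝ) (L : ℕ) (ce : ℝ) (z e : E2)
    (b : Fin n → Bool), 0 < kg → 0 < r → r ≤ 1 → 0 < ρ → ρ ≤ 1 → n * ρ ≤ 1 → N + 1 ≤ L →
    ∀ j ≤ N, ∀ x, ‖iteratedFDeriv ℝ j (vexp kg r ρ L ce z e b) x‖ ≤ C * kg / r ^ N := by
  obtain ⟨C, hC, h⟩ := vb_bound N
  refine ⟨C, hC, ?_⟩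
  intro n kg r ρ L ce z e b hkg hr hr1 hρ hρ1 hn hL j hj x
  rw [mul_div_assoc]
  exact h kg r ρ L n ce z e b hkg.le hr hr1 hρ hρ1 hL hn j hj x

/-- a vector of `E2` in an orthonormal frame -/
theorem e2_decomp {a1 a2 : E2} (h1 : ‖a1‖ = 1) (h2 : ‖a2‖ = 1) (h12 : inner ℝ a1 a2 = 0)
    (e : E2) : e = (inner ℝ e a1) • a1 + (inner ℝ e a2) • a2 := by
  have hon : Orthonormal ℝ ![a1, a2] := by
    rw [orthonormal_iff_ite]
    have h21 : inner ℝ a2 a1 = 0 := by rw [real_inner_comm]; exact h12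
    intro i j
    fin_cases i <;> fin_cases j <;> simp [h1, h2, h12, h21]
  have hcard : Fintype.card (Fin 2) = Module.finrank ℝ E2 := by simp
  set B := basisOfOrthonormalOfCardEqFinrank hon hcard with hB
  have hBc : ⇑B = ![a1, a2] := coe_basisOfOrthonormalOfCardEqFinrank hon hcard
  have hB' : Orthonormal ℝ B := by rw [hBc]; exact hon
  set OB := B.toOrthonormalBasis hB'
  have hs := OB.sum_repr' e
  have hOB : ⇑OB = ![a1, a2] := by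
    rw [Module.Basis.coe_toOrthonormalBasis, hBc]
  rw [Fin.sum_univ_two, hOB] at hs
  simp only [Matrix.cons_val_zero, Matrix.cons_val_one] at hs
  rw [real_inner_comm a1 e, real_inner_comm a2 e]
  exact hs.symm

theorem vexp_pt {n : ℕ} (kg r ρ : ℝ) (L : ℕ) (ce : ℝ) (z e : E2) (b : Fin n → Bool)
    (hr : 0 < r) (a1 a2 : E2) (h1 : ‖a1‖ = 1) (h2 : ‖a2‖ = 1) (h12 : inner ℝ a1 a2 = 0) (w : PP) :
    vexp kg r ρ L ce z e b (pt z r a1 a2 w)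
      = kg * expo ρ L ce (inner ℝ e a1) (inner ℝ e a2) b w :=
  vb_chart hr.ne' h1 h2 h12 (e2_decomp h1 h2 h12 e) w

/-- near `0` the exponent is `(|w|² - |w|⁴)/16` -/
theorem expo_germ {n : ℕ} (ρ : ℝ) (L : ℕ) (ce c s : ℝ) (b : Fin n → Bool) (hρ : 0 < ρ)
    (hce : 0 < ce) (hce1 : ce ≤ 1) (hcs : c ^ 2 + s ^ 2 = 1) :
    expo ρ L ce c s b =ᶠ[nhds 0]
      fun w => ((w.1 ^ 2 + w.2 ^ 2) - (w.1 ^ 2 + w.2 ^ 2) ^ 2) / 16 := by
  have hmem : {p : PP | p.1 ^ 2 + p.2 ^ 2 < min (ρ ^ 2) 1} ∈ nhds (0 : PP) := by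
    refine (isOpen_lt (by fun_prop) continuous_const).mem_nhds ?_
    change (0 : PP).1 ^ 2 + (0 : PP).2 ^ 2 < min (ρ ^ 2) 1
    simp only [Prod.fst_zero, Prod.snd_zero, ne_eq, OfNat.ofNat_ne_zero, not_false_eq_true,
      zero_pow, add_zero]
    exact lt_min (by positivity) one_pos
  filter_upwards [hmem] with p hp
  have hp1 : p.1 ^ 2 + p.2 ^ 2 < ρ ^ 2 := lt_of_lt_of_le hp (min_le_left _ _)
  have hp2 : p.1 ^ 2 + p.2 ^ 2 < 1 := lt_of_lt_of_le hp (min_le_right _ _)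
  unfold expo
  have hs : ∑ i : Fin n, (if b i then (1 : ℝ) else 0) * bump (((p.1 - 8 * ρ * (i + 1) / ce * c) ^ 2
      + (p.2 - 8 * ρ * (i + 1) / ce * s) ^ 2) / ρ ^ 2) = 0 := by
    refine Finset.sum_eq_zero fun i _ => ?_
    have ht : 8 * ρ ≤ 8 * ρ * ((i : ℝ) + 1) / ce := by
      rw [le_div_iff₀ hce]
      have : (0 : ℝ) ≤ i := Nat.cast_nonneg _
      nlinarith [mul_nonneg hρ.le this]
    set t : ℝ := 8 * ρ * ((i : ℝ) + 1) / ce
    have key : ρ ^ 2 ≤ (p.1 - t * c) ^ 2 + (p.2 - t * s) ^ 2 := by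
      have e1 : (p.1 - t * c) ^ 2 + (p.2 - t * s) ^ 2
          = (p.1 ^ 2 + p.2 ^ 2) - 2 * t * (p.1 * c + p.2 * s) + t ^ 2 * (c ^ 2 + s ^ 2) := by
        ring
      have e2 : (p.1 * c + p.2 * s) ^ 2 ≤ p.1 ^ 2 + p.2 ^ 2 := by
        nlinarith [sq_nonneg (p.1 * s - p.2 * c)]
      have e3 : |p.1 * c + p.2 * s| ≤ ρ := abs_le_of_sq_le_sq (by nlinarith) hρ.le
      have e4 := (abs_le.1 e3).2
      rw [e1, hcs]
      nlinarith [sq_nonneg p.1, sq_nonneg p.2]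
    have : 1 ≤ ((p.1 - t * c) ^ 2 + (p.2 - t * s) ^ 2) / ρ ^ 2 := by
      rw [le_div_iff₀ (by positivity)]
      linarith
    unfold bump
    rw [Real.smoothTransition.zero_of_nonpos (by linarith), mul_zero]
  rw [hs, prof, Real.smoothTransition.one_of_one_le (by linarith)]
  ring

/-- value and derivatives at the centre -/
theorem expo_at_zero {n : ℕ} (ρ : ℝ) (L : ℕ) (ce c s : ℝ) (b : Fin n → Bool) (hρ : 0 < ρ)
    (hce : 0 < ce) (hce1 : ce ≤ 1) (hcs : c ^ 2 + s ^ 2 = 1) :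
    expo ρ L ce c s b 0 = 0 ∧ dx (expo ρ L ce c s b) 0 = 0 ∧ dy (expo ρ L ce c s b) 0 = 0 ∧
    dx (dx (expo ρ L ce c s b)) 0 + dy (dy (expo ρ L ce c s b)) 0 = 1 / 4 := by
  have hg : expo ρ L ce c s b =ᶠ[nhds 0] Expo.qq := by
    refine (expo_germ ρ L ce c s b hρ hce hce1 hcs).trans (Filter.Eventually.of_forall fun w => ?_)
    simp only [Expo.qq_eq]
  refine ⟨?_, ?_, ?_, ?_⟩
  · rw [hg.eq_of_nhds, qq_zero]
  · rw [dx_congr hg, dx_qq_zero]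
  · rw [dy_congr hg, dy_qq_zero]
  · rw [dx_congr (dx_eventuallyEq hg), dy_congr (dy_eventuallyEq hg), Expo.lap_qq]
    norm_num

theorem vexp_center {n : ℕ} (kg r ρ : ℝ) (L : ℕ) (ce : ℝ) (z e : E2) (b : Fin n → Bool)
    (hr : 0 < r) (hρ : 0 < ρ) (hce : 0 < ce) (hce1 : ce ≤ 1) (he : ‖e‖ = 1) :
    vexp kg r ρ L ce z e b z = 0 ∧ fderiv ℝ (vexp kg r ρ L ce z e b) z = 0 := by
  have hg : vexp kg r ρ L ce z e b =ᶠ[nhds z]
      fun x => kg * ((‖r⁻¹ • (x - z)‖ ^ 2 - (‖r⁻¹ • (x - z)‖ ^ 2) ^ 2) / 16) :=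
    vb_germ (kg := kg) (L := L) (b := b) hr hρ hce hce1 he
  refine ⟨?_, ?_⟩
  · rw [hg.eq_of_nhds]
    simp
  · rw [hg.fderiv_eq]
    have h1 : HasFDerivAt (fun x : E2 => r⁻¹ • (x - z)) (r⁻¹ • ContinuousLinearMap.id ℝ E2) z :=
      ((hasFDerivAt_id z).sub_const z).const_smul r⁻¹
    have h2 : HasFDerivAt (fun x : E2 => ‖r⁻¹ • (x - z)‖ ^ 2) (0 : E2 →L[ℝ] ℝ) z :=
      h1.norm_sq.congr_fderiv (by ext v; simp)
    have h3 : HasFDerivAt (fun x : E2 => (‖r⁻¹ • (x - z)‖ ^ 2) ^ 2) (0 : E2 →L[ℝ] ℝ) z :=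
      (h2.pow 2).congr_fderiv (by ext v; simp)
    have h4 := (((h2.sub h3).mul_const (1 / 16)).const_mul kg).congr_fderiv
      (f' := _) (g' := (0 : E2 →L[ℝ] ℝ)) (by ext v; simp)
    have h5 : HasFDerivAt (fun x : E2 => kg * ((‖r⁻¹ • (x - z)‖ ^ 2
        - (‖r⁻¹ • (x - z)‖ ^ 2) ^ 2) / 16)) (0 : E2 →L[ℝ] ℝ) z := by
      refine h4.congr_of_eventuallyEq (Filter.Eventually.of_forall fun x => ?_)
      simp only [Pi.sub_apply]
      ring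
    exact h5.fderiv

end Crest.Agent.Iso341
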