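import Crest.Agent.Iso341.RedExp
import Crest.Agent.Iso341.GeomGauss

/-! S0341, REDUCE: the adapted frame at the centre of the pocket. -/

set_option autoImplicit false

open MeasureTheory Set
open scoped ContDiff

namespace Crest.Agent.Iso341

namespace RedF

/-- expansion of a vector of `E3` in an orthonormal triple -/
theorem e3_decomp {E1 E2' E3' : E3} (n1 : ‖E1‖ = 1) (n2 : ‖E2'‖ = 1) (n3 : ‖E3'‖ = 1)
    (h12 : inner ℝ E1 E2' = 0) (h13 : inner ℝ E1 E3' = 0) (h23 : inner ℝ E2' E3' = 0) (w : E3) :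
    w = (inner ℝ E1 w) • E1 + (inner ℝ E2' w) • E2' + (inner ℝ E3' w) • E3' := by
  have hon : Orthonormal ℝ ![E1, E2', E3'] := by
    rw [orthonormal_iff_ite]
    have h21 : inner ℝ E2' E1 = 0 := by rw [real_inner_comm]; exact h12
    have h31 : inner ℝ E3' E1 = 0 := by rw [real_inner_comm]; exact h13
    have h32 : inner ℝ E3' E2' = 0 := by rw [real_inner_comm]; exact h23
    intro i j
    fin_cases i <;> fin_cases j <;> simp [n1, n2, n3, h12, h13, h23, h21, h31, h32]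
  have hcard : Fintype.card (Fin 3) = Module.finrank ℝ E3 := by simp
  set B := basisOfOrthonormalOfCardEqFinrank hon hcard with hB
  have hBc : ⇑B = ![E1, E2', E3'] := coe_basisOfOrthonormalOfCardEqFinrank hon hcard
  have hB' : Orthonormal ℝ B := by rw [hBc]; exact hon
  set OB := B.toOrthonormalBasis hB'
  have hs := OB.sum_repr' w
  have hOB : ⇑OB = ![E1, E2', E3'] := by
    rw [Module.Basis.coe_toOrthonormalBasis, hBc]
  rw [Fin.sum_univ_three, hOB] at hs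
  simp only [Matrix.cons_val_zero, Matrix.cons_val_one, Matrix.cons_val_two, Matrix.head_cons,
    Matrix.tail_cons] at hs
  exact hs.symm

/-- Parseval for an orthonormal triple of `E3` -/
theorem e3_inner {E1 E2' E3' : E3} (n1 : ‖E1‖ = 1) (n2 : ‖E2'‖ = 1) (n3 : ‖E3'‖ = 1)
    (h12 : inner ℝ E1 E2' = 0) (h13 : inner ℝ E1 E3' = 0) (h23 : inner ℝ E2' E3' = 0)
    (u w : E3) : inner ℝ u w = inner ℝ E1 u * inner ℝ E1 w + inner ℝ E2' u * inner ℝ E2' w
      + inner ℝ E3' u * inner ℝ E3' w := by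
  conv_lhs => rw [e3_decomp n1 n2 n3 h12 h13 h23 w]
  rw [inner_add_right, inner_add_right, inner_smul_right, inner_smul_right, inner_smul_right,
    real_inner_comm E1 u, real_inner_comm E2' u, real_inner_comm E3' u]
  ring

/-- a unit vector orthogonal to a given unit vector of `E2` -/
theorem exists_perp (a : E2) (ha : ‖a‖ = 1) : ∃ b : E2, ‖b‖ = 1 ∧ inner ℝ a b = 0 := by
  refine ⟨WithLp.toLp 2 ![-a 1, a 0], ?_, ?_⟩
  · have h : ‖a‖ ^ 2 = 1 := by rw [ha]; norm_num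
    rw [EuclideanSpace.norm_sq_eq, Fin.sum_univ_two] at h
    have h2 : ‖(WithLp.toLp 2 ![-a 1, a 0] : E2)‖ ^ 2 = 1 := by
      rw [EuclideanSpace.norm_sq_eq, Fin.sum_univ_two]
      simp only [Matrix.cons_val_zero, Matrix.cons_val_one, norm_neg]
      linarith
    have h3 : 0 ≤ ‖(WithLp.toLp 2 ![-a 1, a 0] : E2)‖ := norm_nonneg _
    nlinarith
  · simp [PiLp.inner_apply, Fin.sum_univ_two]
    ring

/-- derivative of the metric identity -/
theorem metric_deriv {F : E2 → E3} {v : E2 → ℝ} {z : E2} {U : Set E2} (hU : IsOpen U)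
    (hz : z ∈ U) (hF : ContDiffOn ℝ ∞ F U) (hv : ContDiffOn ℝ ∞ v U)
    (hm : ∀ x ∈ U, ∀ a b, inner ℝ (fderiv ℝ F x a) (fderiv ℝ F x b)
      = Real.exp (2 * v x) * inner ℝ a b)
    (hv1 : fderiv ℝ v z = 0) (a b c : E2) :
    inner ℝ (fderiv ℝ (fderiv ℝ F) z c a) (fderiv ℝ F z b)
      + inner ℝ (fderiv ℝ F z a) (fderiv ℝ (fderiv ℝ F) z c b) = 0 := by
  have hD : ContDiffOn ℝ ∞ (fderiv ℝ F) U := hF.fderiv_of_isOpen hU (by simp)
  have hDz : DifferentiableAt ℝ (fderiv ℝ F) z :=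
    (hD.contDiffAt (hU.mem_nhds hz)).differentiableAt (by simp)
  have hvz : DifferentiableAt ℝ v z :=
    (hv.contDiffAt (hU.mem_nhds hz)).differentiableAt (by simp)
  have ha : HasFDerivAt (fun x => fderiv ℝ F x a)
      ((ContinuousLinearMap.apply ℝ E3 a).comp (fderiv ℝ (fderiv ℝ F) z)) z :=
    (ContinuousLinearMap.apply ℝ E3 a).hasFDerivAt.comp z hDz.hasFDerivAt
  have hb : HasFDerivAt (fun x => fderiv ℝ F x b)
      ((ContinuousLinearMap.apply ℝ E3 b).comp (fderiv ℝ (fderiv ℝ F) z)) z :=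
    (ContinuousLinearMap.apply ℝ E3 b).hasFDerivAt.comp z hDz.hasFDerivAt
  have h1 := ha.inner ℝ hb
  have h2 : HasFDerivAt (fun x => Real.exp (2 * v x) * inner ℝ a b) (0 : E2 →L[ℝ] ℝ) z := by
    have hvf : HasFDerivAt v (0 : E2 →L[ℝ] ℝ) z := by
      have := hvz.hasFDerivAt
      rwa [hv1] at this
    exact (((hvf.const_mul 2).exp).mul_const (inner ℝ a b)).congr_fderiv (by ext w; simp)
  have h3 : (fun x => inner ℝ (fderiv ℝ F x a) (fderiv ℝ F x b)) =ᶠ[nhds z]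
      fun x => Real.exp (2 * v x) * inner ℝ a b := by
    filter_upwards [hU.mem_nhds hz] with x hx using hm x hx a b
  have h4 := (h1.congr_of_eventuallyEq h3.symm).unique h2
  have h5 := congrArg (fun L : E2 →L[ℝ] ℝ => L c) h4
  simp only [ContinuousLinearMap.comp_apply, ContinuousLinearMap.prod_apply,
    fderivInnerCLM_apply, ContinuousLinearMap.apply_apply, zero_apply] at h5
  linarith

/-- symmetry of the second derivative -/
theorem second_symm {F : E2 → E3} {z : E2} {U : Set E2} (hU : IsOpen U)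
    (hz : z ∈ U) (hF : ContDiffOn ℝ ∞ F U) (a b : E2) :
    fderiv ℝ (fderiv ℝ F) z a b = fderiv ℝ (fderiv ℝ F) z b a := by
  have hs : IsSymmSndFDerivAt ℝ F z := by
    apply ContDiffAt.isSymmSndFDerivAt (n := ∞) (hF.contDiffAt (hU.mem_nhds hz))
    simp only [minSmoothness_of_isRCLikeNormedField]
    exact WithTop.coe_le_coe.2 (le_top : (2 : ℕ∞) ≤ ⊤)
  exact hs.eq a b

/-- the tangential part of the second derivative vanishes at a critical point of the exponent -/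
theorem tangential_zero {F : E2 → E3} {v : E2 → ℝ} {z : E2} {U : Set E2} (hU : IsOpen U)
    (hz : z ∈ U) (hF : ContDiffOn ℝ ∞ F U) (hv : ContDiffOn ℝ ∞ v U)
    (hm : ∀ x ∈ U, ∀ a b, inner ℝ (fderiv ℝ F x a) (fderiv ℝ F x b)
      = Real.exp (2 * v x) * inner ℝ a b)
    (hv1 : fderiv ℝ v z = 0) (a b c : E2) :
    inner ℝ (fderiv ℝ (fderiv ℝ F) z a b) (fderiv ℝ F z c) = 0 := by
  have A := fun a b c => metric_deriv hU hz hF hv hm hv1 a b c
  have S := fun a b => second_symm hU hz hF a b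
  -- S a b c := <Q a b, T c>
  have A' : ∀ a b c, inner ℝ (fderiv ℝ (fderiv ℝ F) z c a) (fderiv ℝ F z b)
      = - inner ℝ (fderiv ℝ (fderiv ℝ F) z c b) (fderiv ℝ F z a) := by
    intro a b c
    have := A a b c
    rw [real_inner_comm (fderiv ℝ (fderiv ℝ F) z c b) (fderiv ℝ F z a)] at this
    linarith
  have e1 := A' b c a
  have e2 : inner ℝ (fderiv ℝ (fderiv ℝ F) z a c) (fderiv ℝ F z b)
      = inner ℝ (fderiv ℝ (fderiv ℝ F) z c a) (fderiv ℝ F z b) := by rw [S a c]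
  have e3 := A' a b c
  have e4 : inner ℝ (fderiv ℝ (fderiv ℝ F) z c b) (fderiv ℝ F z a)
      = inner ℝ (fderiv ℝ (fderiv ℝ F) z b c) (fderiv ℝ F z a) := by rw [S c b]
  have e5 := A' c a b
  have e6 : inner ℝ (fderiv ℝ (fderiv ℝ F) z b a) (fderiv ℝ F z c)
      = inner ℝ (fderiv ℝ (fderiv ℝ F) z a b) (fderiv ℝ F z c) := by rw [S b a]
  linarith

/-- the off-diagonal coefficient vanishes at a maximiser -/
theorem offdiag_zero {p q r : ℝ} (h : ∀ s : ℝ, |p + 2 * s * q + s ^ 2 * r| ≤ |p| * (1 + s ^ 2)) :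
    q = 0 := by
  have key : ∀ σ : ℝ, σ ^ 2 = 1 → σ * p = |p| → q = 0 := by
    intro σ hσ hp
    have hb : ∀ s : ℝ, 2 * s * (σ * q) ≤ s ^ 2 * (|p| - σ * r) := by
      intro s
      have h1 := h s
      have h2 : σ * (p + 2 * s * q + s ^ 2 * r) ≤ |p + 2 * s * q + s ^ 2 * r| := by
        have h3 : |σ| = 1 := by
          have : |σ| ^ 2 = 1 := by rw [sq_abs]; exact hσ
          nlinarith [abs_nonneg σ]
        calc σ * (p + 2 * s * q + s ^ 2 * r) ≤ |σ * (p + 2 * s * q + s ^ 2 * r)| := le_abs_self _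
          _ = |p + 2 * s * q + s ^ 2 * r| := by rw [abs_mul, h3, one_mul]
      nlinarith
    set K := |p| - σ * r with hK
    have h1 := hb 1
    have h2 := hb (-1)
    have hK0 : 0 ≤ K := by nlinarith
    have h3 := hb (σ * q / (K + 1))
    have hK1 : 0 < K + 1 := by linarith
    have h4 : 2 * (σ * q / (K + 1)) * (σ * q) = 2 * (σ * q) ^ 2 / (K + 1) := by
      field_simp
    have h5 : (σ * q / (K + 1)) ^ 2 * K ≤ (σ * q) ^ 2 / (K + 1) := by
      rw [div_pow, div_mul_eq_mul_div, div_le_div_iff₀ (by positivity) hK1]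
      nlinarith [sq_nonneg (σ * q), mul_nonneg (sq_nonneg (σ * q)) hK0]
    have h6 : (σ * q) ^ 2 / (K + 1) ≤ 0 := by
      have : 2 * (σ * q) ^ 2 / (K + 1) = (σ * q) ^ 2 / (K + 1) + (σ * q) ^ 2 / (K + 1) := by ring
      linarith
    have h7 : (σ * q) ^ 2 ≤ 0 := by
      by_contra hcon
      push Not at hcon
      have := div_pos hcon hK1
      linarith
    have h8 : q ^ 2 ≤ 0 := by
      have : (σ * q) ^ 2 = q ^ 2 := by rw [mul_pow, hσ, one_mul]
      linarith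
    nlinarith [sq_nonneg q]
  rcases le_total 0 p with hp | hp
  · exact key 1 (by norm_num) (by rw [abs_of_nonneg hp, one_mul])
  · exact key (-1) (by norm_num) (by rw [abs_of_nonpos hp]; ring)

end RedF

open RedF Red

theorem exists_frame (F : E2 → E3) (v : E2 → ℝ) (z e : E2) (U : Set E2) (hU : IsOpen U)
    (hz : z ∈ U) (hF : ContDiffOn ℝ ∞ F U) (hv : ContDiffOn ℝ ∞ v U)
    (hm : ∀ x ∈ U, ∀ a b, inner ℝ (fderiv ℝ F x a) (fderiv ℝ F x b)
      = Real.exp (2 * v x) * inner ℝ a b)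
    (hv0 : v z = 0) (hv1 : fderiv ℝ v z = 0) (he : ‖e‖ = 1)
    (hne : fderiv ℝ (fderiv ℝ F) z e e ≠ 0) :
    ∃ (a1 a2 : E2) (E1 E2' E3' : E3) (μ1 μ2 : ℝ), Frame F z e a1 a2 E1 E2' E3' μ1 μ2 := by
  set T := fderiv ℝ F z with hT
  set Q := fderiv ℝ (fderiv ℝ F) z with hQ
  have hiso : ∀ a b, inner ℝ (T a) (T b) = inner ℝ a b := by
    intro a b
    have := hm z hz a b
    rw [hv0, mul_zero, Real.exp_zero, one_mul] at this
    exact this
  have htan : ∀ a b c, inner ℝ (Q a b) (T c) = 0 := tangential_zero hU hz hF hv hm hv1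
  have hsym : ∀ a b, Q a b = Q b a := second_symm hU hz hF
  set ν : E3 := ‖Q e e‖⁻¹ • Q e e with hν
  have hQn : 0 < ‖Q e e‖ := norm_pos_iff.2 hne
  have hνn : ‖ν‖ = 1 := by
    rw [hν, norm_smul, norm_inv, norm_norm, inv_mul_cancel₀ hQn.ne']
  have hTν : ∀ c, inner ℝ (T c) ν = 0 := by
    intro c
    rw [hν, inner_smul_right, real_inner_comm, htan, mul_zero]
  have hTn : ∀ a, ‖a‖ = 1 → ‖T a‖ = 1 := by
    intro a ha
    have h := hiso a a
    rw [real_inner_self_eq_norm_sq, real_inner_self_eq_norm_sq, ha] at h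
    have h0 : 0 ≤ ‖T a‖ := norm_nonneg _
    nlinarith
  obtain ⟨e', he', hee'⟩ := exists_perp e he
  have hmul : ∀ w : E3, (∀ c, inner ℝ w (T c) = 0) → w = (inner ℝ ν w) • ν := by
    intro w hw
    have h := e3_decomp (hTn e he) (hTn e' he') hνn (by rw [hiso]; exact hee') (hTν e) (hTν e') w
    rw [real_inner_comm w (T e), real_inner_comm w (T e'), hw, hw, zero_smul, zero_smul, zero_add,
      zero_add] at h
    exact h
  have hQh : ∀ a b, Q a b = (inner ℝ ν (Q a b)) • ν := fun a b => hmul _ (htan a b)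
  -- the maximiser
  have hcont : Continuous fun a : E2 => |inner ℝ ν (Q a a)| := by
    have h1 : Continuous fun a : E2 => Q a a := by fun_prop
    exact (continuous_const.inner h1).abs
  obtain ⟨a1, ha1, hmax⟩ := (isCompact_sphere (0 : E2) 1).exists_isMaxOn
    ⟨e, by simp [he]⟩ hcont.continuousOn
  have ha1n : ‖a1‖ = 1 := by simpa using ha1
  obtain ⟨a2, ha2n, ha12⟩ := exists_perp a1 ha1n
  have hmax1 : ∀ a : E2, ‖a‖ = 1 → |inner ℝ ν (Q a a)| ≤ |inner ℝ ν (Q a1 a1)| := by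
    intro a ha
    exact hmax (show a ∈ Metric.sphere (0 : E2) 1 by simp [ha])
  have hmax2 : ∀ a : E2, |inner ℝ ν (Q a a)| ≤ |inner ℝ ν (Q a1 a1)| * ‖a‖ ^ 2 := by
    intro a
    rcases eq_or_ne a 0 with rfl | h
    · simp
    · have hn : 0 < ‖a‖ := norm_pos_iff.2 h
      have h1 := hmax1 (‖a‖⁻¹ • a) (by rw [norm_smul, norm_inv, norm_norm, inv_mul_cancel₀ hn.ne'])
      have e0 : Q (‖a‖⁻¹ • a) (‖a‖⁻¹ • a) = (‖a‖⁻¹ * ‖a‖⁻¹) • Q a a := by
        simp only [map_smul, smul_apply, smul_smul]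
      rw [e0, inner_smul_right, abs_mul, abs_of_pos (show 0 < ‖a‖⁻¹ * ‖a‖⁻¹ by positivity),
        ← mul_inv, inv_mul_eq_div, div_le_iff₀ (by positivity)] at h1
      calc _ ≤ _ := h1
        _ = _ := by ring
  set h11 := inner ℝ ν (Q a1 a1) with hh11
  set h12 := inner ℝ ν (Q a1 a2) with hh12
  set h22 := inner ℝ ν (Q a2 a2) with hh22
  have hquad : ∀ s t : ℝ, inner ℝ ν (Q (s • a1 + t • a2) (s • a1 + t • a2))
      = s ^ 2 * h11 + 2 * s * t * h12 + t ^ 2 * h22 := by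
    intro s t
    simp only [map_add, map_smul, add_apply, smul_apply,
      smul_add, inner_add_right, inner_smul_right]
    rw [hsym a2 a1]
    ring
  have h12z : h12 = 0 := by
    refine offdiag_zero (p := h11) (r := h22) fun s => ?_
    have h := hmax2 ((1 : ℝ) • a1 + s • a2)
    rw [hquad, norm_sq_comb ha1n ha2n ha12] at h
    calc _ = |1 ^ 2 * h11 + 2 * 1 * s * h12 + s ^ 2 * h22| := by congr 1; ring
      _ ≤ _ := h
      _ = _ := by ring
  have hQe : ‖Q e e‖ ≤ |h11| := by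
    have h := hmax1 e he
    have h2 : ‖Q e e‖ = |inner ℝ ν (Q e e)| := by
      conv_lhs => rw [hQh e e]
      rw [norm_smul, hνn, mul_one, Real.norm_eq_abs]
    rw [h2]
    exact h
  have h11pos : 0 < |h11| := lt_of_lt_of_le hQn hQe
  obtain ⟨σ, hσ, hσp⟩ : ∃ σ : ℝ, σ ^ 2 = 1 ∧ σ * h11 = |h11| := by
    rcases le_total 0 h11 with hp | hp
    · exact ⟨1, by norm_num, by rw [abs_of_nonneg hp, one_mul]⟩
    · exact ⟨-1, by norm_num, by rw [abs_of_nonpos hp]; ring⟩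
  have hσa : |σ| = 1 := by
    have : |σ| ^ 2 = 1 := by rw [sq_abs]; exact hσ
    nlinarith [abs_nonneg σ]
  have hQ12 : Q a1 a2 = 0 := by
    rw [hQh a1 a2, ← hh12, h12z, zero_smul]
  have hle : |σ * h22| ≤ |h11| := by
    rw [abs_mul, hσa, one_mul]
    exact hmax1 a2 ha2n
  have hQee : Q e e = (inner ℝ e a1 ^ 2 * h11 + inner ℝ e a2 ^ 2 * h22) • ν := by
    have h1 := hquad (inner ℝ e a1) (inner ℝ e a2)
    rw [← e2_decomp ha1n ha2n ha12 e, h12z, mul_zero, add_zero] at h1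
    rw [hQh e e, h1]
  have hcs : inner ℝ e a1 ^ 2 + inner ℝ e a2 ^ 2 = 1 := by
    have h1 := norm_sq_comb ha1n ha2n ha12 (inner ℝ e a1) (inner ℝ e a2)
    rw [← e2_decomp ha1n ha2n ha12 e, he] at h1
    linarith
  refine ⟨a1, a2, T a1, T a2, σ • ν, |h11|, σ * h22, ?_⟩
  refine
    { na1 := ha1n
      na2 := ha2n
      a12 := ha12
      nE1 := hTn a1 ha1n
      nE2 := hTn a2 ha2n
      nE3 := ?_
      E12 := ?_
      E13 := ?_
      E23 := ?_
      d1 := rfl
      d2 := rfl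
      h11 := ?_
      h12 := hQ12
      h21 := ?_
      h22 := ?_
      pos := h11pos
      le1 := hle
      ne := hQe
      nee := ?_ }
  · rw [norm_smul, hνn, mul_one, Real.norm_eq_abs, hσa]
  · rw [hiso, ha12]
  · rw [inner_smul_right, hTν, mul_zero]
  · rw [inner_smul_right, hTν, mul_zero]
  · rw [smul_smul, ← hσp]
    have : σ * h11 * σ = h11 := by
      calc σ * h11 * σ = σ ^ 2 * h11 := by ring
        _ = h11 := by rw [hσ, one_mul]
    rw [this]
    exact hQh a1 a1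
  · change Q a2 a1 = 0
    rw [hsym, hQ12]
  · rw [smul_smul]
    have : σ * h22 * σ = h22 := by
      calc σ * h22 * σ = σ ^ 2 * h22 := by ring
        _ = h22 := by rw [hσ, one_mul]
    rw [this]
    exact hQh a2 a2
  · change ‖Q e e‖ ≤ _
    rw [hQee, norm_smul, hνn, mul_one, Real.norm_eq_abs]
    have hs2 : inner ℝ e a2 ^ 2 ≤ 1 := by nlinarith [sq_nonneg (inner ℝ e a1)]
    calc |inner ℝ e a1 ^ 2 * h11 + inner ℝ e a2 ^ 2 * h22|
        ≤ |inner ℝ e a1 ^ 2 * h11| + |inner ℝ e a2 ^ 2 * h22| := abs_add_le _ _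
      _ = |h11| * inner ℝ e a1 ^ 2 + inner ℝ e a2 ^ 2 * |h22| := by
          rw [abs_mul (inner ℝ e a1 ^ 2), abs_mul (inner ℝ e a2 ^ 2),
            abs_of_nonneg (sq_nonneg (inner ℝ e a1)), abs_of_nonneg (sq_nonneg (inner ℝ e a2))]
          ring
      _ ≤ |h11| * inner ℝ e a1 ^ 2 + 1 * |h22| := by gcongr
      _ = |h11| * inner ℝ e a1 ^ 2 + |σ * h22| := by
          rw [abs_mul σ, hσa]

namespace RedF

/-- the linear part of the chart `pt` -/
noncomputable def JJ (r : ℝ) (a1 a2 : E2) : PP →L[ℝ] E2 :=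
  r • ((ContinuousLinearMap.fst ℝ ℝ ℝ).smulRight a1 + (ContinuousLinearMap.snd ℝ ℝ ℝ).smulRight a2)

theorem JJ_apply (r : ℝ) (a1 a2 : E2) (w : PP) : JJ r a1 a2 w = r • (w.1 • a1 + w.2 • a2) := by
  simp [JJ]

theorem pt_eq (z : E2) (r : ℝ) (a1 a2 : E2) (w : PP) : pt z r a1 a2 w = z + JJ r a1 a2 w := by
  rw [pt, JJ_apply]

theorem JJ_one (r : ℝ) (a1 a2 : E2) : JJ r a1 a2 (1, 0) = r • a1 := by
  simp [JJ_apply]

theorem JJ_two (r : ℝ) (a1 a2 : E2) : JJ r a1 a2 (0, 1) = r • a2 := by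
  simp [JJ_apply]

/-- component in the direction `E` divided by `r` -/
noncomputable def lE (r : ℝ) (E : E3) : E3 →L[ℝ] ℝ := r⁻¹ • innerSL ℝ E

theorem lE_apply (r : ℝ) (E w : E3) : lE r E w = r⁻¹ * inner ℝ E w := by
  simp [lE]

section comp

variable {F : E2 → E3} {z : E2} {r R : ℝ} {a1 a2 : E2}

theorem comp_dx (hr : 0 < r) {U : Set E2} (hU : IsOpen U) (hF : ContDiffOn ℝ ∞ F U) (E : E3)
    {w : PP} (hw : z + JJ r a1 a2 w ∈ U) :
    dx (fun w => lE r E (F (z + JJ r a1 a2 w))) w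
      = inner ℝ E (fderiv ℝ F (z + JJ r a1 a2 w) a1) := by
  rw [dx_aff _ ((hF.contDiffAt (hU.mem_nhds hw)).differentiableAt (by simp)), JJ_one, lE_apply,
    map_smul, inner_smul_right, ← mul_assoc, inv_mul_cancel₀ hr.ne', one_mul]

theorem comp_dy (hr : 0 < r) {U : Set E2} (hU : IsOpen U) (hF : ContDiffOn ℝ ∞ F U) (E : E3)
    {w : PP} (hw : z + JJ r a1 a2 w ∈ U) :
    dy (fun w => lE r E (F (z + JJ r a1 a2 w))) w
      = inner ℝ E (fderiv ℝ F (z + JJ r a1 a2 w) a2) := by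
  rw [dy_aff _ ((hF.contDiffAt (hU.mem_nhds hw)).differentiableAt (by simp)), JJ_two, lE_apply,
    map_smul, inner_smul_right, ← mul_assoc, inv_mul_cancel₀ hr.ne', one_mul]

theorem comp_dxd {U : Set E2} (hU : IsOpen U) (hF : ContDiffOn ℝ ∞ F U) (E : E3)
    (a : E2) {w : PP} (hw : z + JJ r a1 a2 w ∈ U) :
    dx (fun w => inner ℝ E (fderiv ℝ F (z + JJ r a1 a2 w) a)) w
      = r * inner ℝ E (fderiv ℝ (fderiv ℝ F) (z + JJ r a1 a2 w) a1 a) := by
  have hD : ContDiffOn ℝ ∞ (fderiv ℝ F) U := hF.fderiv_of_isOpen hU (by simp)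
  have h := dx_aff (H := fderiv ℝ F) (z0 := z) (J := JJ r a1 a2) (z := w)
    ((innerSL ℝ E) ∘L (ContinuousLinearMap.apply ℝ E3 a))
    ((hD.contDiffAt (hU.mem_nhds hw)).differentiableAt (by simp))
  rw [JJ_one] at h
  refine h.trans ?_
  simp [inner_smul_right]

theorem comp_dyd {U : Set E2} (hU : IsOpen U) (hF : ContDiffOn ℝ ∞ F U) (E : E3)
    (a : E2) {w : PP} (hw : z + JJ r a1 a2 w ∈ U) :
    dy (fun w => inner ℝ E (fderiv ℝ F (z + JJ r a1 a2 w) a)) w
      = r * inner ℝ E (fderiv ℝ (fderiv ℝ F) (z + JJ r a1 a2 w) a2 a) := by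
  have hD : ContDiffOn ℝ ∞ (fderiv ℝ F) U := hF.fderiv_of_isOpen hU (by simp)
  have h := dy_aff (H := fderiv ℝ F) (z0 := z) (J := JJ r a1 a2) (z := w)
    ((innerSL ℝ E) ∘L (ContinuousLinearMap.apply ℝ E3 a))
    ((hD.contDiffAt (hU.mem_nhds hw)).differentiableAt (by simp))
  rw [JJ_two] at h
  refine h.trans ?_
  simp [inner_smul_right]

end comp

end RedF

/-- Gauss equation at the centre -/
theorem frame_gauss (F : E2 → E3) (v : E2 → ℝ) (z e : E2) (r R : ℝ) (hr : 0 < r) (hR : 0 < R)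
    (hF : ContDiffOn ℝ ∞ F (Metric.ball z R)) (hv : ContDiff ℝ ∞ v)
    (hm : ∀ x ∈ Metric.ball z R, ∀ a b, inner ℝ (fderiv ℝ F x a) (fderiv ℝ F x b)
      = Real.exp (2 * v x) * inner ℝ a b)
    (a1 a2 : E2) (E1 E2' E3' : E3) (μ1 μ2 : ℝ) (h : Frame F z e a1 a2 E1 E2' E3' μ1 μ2)
    (h0 : v z = 0) (h1 : dx (fun w => v (pt z r a1 a2 w)) 0 = 0)
    (h2 : dy (fun w => v (pt z r a1 a2 w)) 0 = 0) :
    r ^ 2 * (μ1 * μ2) = -(dx (dx (fun w => v (pt z r a1 a2 w))) 0
      + dy (dy (fun w => v (pt z r a1 a2 w))) 0) := by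
  set B := Metric.ball z R with hB
  have hBo : IsOpen B := Metric.isOpen_ball
  set J := JJ r a1 a2 with hJ
  set U : Set PP := {w : PP | z + J w ∈ B} with hUdef
  have hU : IsOpen U := isOpen_aff hBo z J
  have hz : z ∈ B := Metric.mem_ball_self hR
  have h0U : (0 : PP) ∈ U := by
    change z + J 0 ∈ B
    rw [map_zero, add_zero]
    exact hz
  have hz0 : z + J 0 = z := by rw [map_zero, add_zero]
  set comp : E3 → PP → ℝ := fun E w => lE r E (F (z + J w)) with hcomp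
  have hsm : ∀ E, ContDiffOn ℝ ∞ (comp E) U := fun E => contDiffOn_aff hF z J (lE r E)
  have hvs : ContDiff ℝ ∞ (fun w => v (pt z r a1 a2 w)) := by
    have : (fun w => v (pt z r a1 a2 w)) = fun w => v (z + J w) := by
      funext w; rw [pt_eq]
    rw [this]
    exact hv.comp (contDiff_const.add J.contDiff)
  have hcx : ∀ E, ∀ w ∈ U, dx (comp E) w = inner ℝ E (fderiv ℝ F (z + J w) a1) :=
    fun E w hw => comp_dx hr hBo hF E hw
  have hcy : ∀ E, ∀ w ∈ U, dy (comp E) w = inner ℝ E (fderiv ℝ F (z + J w) a2) :=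
    fun E w hw => comp_dy hr hBo hF E hw
  have hpars := e3_inner h.nE1 h.nE2 h.nE3 h.E12 h.E13 h.E23
  have g := gauss_ambient 1 (comp E1) (comp E2') (comp E3') (fun w => v (pt z r a1 a2 w)) U hU
    (hsm E1) (hsm E2') (hsm E3') hvs.contDiffOn ?_ ?_ ?_ 0 h0U
  · have hxx : ∀ E, dx (dx (comp E)) 0 = r * inner ℝ E (fderiv ℝ (fderiv ℝ F) z a1 a1) := by
      intro E
      rw [dx_congr_on hU (hcx E) 0 h0U, comp_dxd hBo hF E a1 h0U, ← hJ, hz0]
    have hyy : ∀ E, dy (dy (comp E)) 0 = r * inner ℝ E (fderiv ℝ (fderiv ℝ F) z a2 a2) := by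
      intro E
      rw [dy_congr_on hU (hcy E) 0 h0U, comp_dyd hBo hF E a2 h0U, ← hJ, hz0]
    have hxy : ∀ E, dx (dy (comp E)) 0 = r * inner ℝ E (fderiv ℝ (fderiv ℝ F) z a1 a2) := by
      intro E
      rw [dx_congr_on hU (hcy E) 0 h0U, comp_dxd hBo hF E a2 h0U, ← hJ, hz0]
    have hp0 : pt z r a1 a2 0 = z := by rw [pt_eq, ← hJ, hz0]
    rw [hxx, hxx, hxx, hyy, hyy, hyy, hxy, hxy, hxy, h.h11, h.h12, h.h22, h1, h2, hp0, h0] at g
    simp only [inner_smul_right, h.E13, h.E23, inner_zero_right, real_inner_self_eq_norm_sq,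
      h.nE3] at g
    simp only [mul_zero, Real.exp_zero] at g
    linarith
  · intro w hw
    rw [hcx E1 w hw, hcx E2' w hw, hcx E3' w hw, pt_eq, ← hJ]
    have := hpars (fderiv ℝ F (z + J w) a1) (fderiv ℝ F (z + J w) a1)
    rw [hm _ hw, real_inner_self_eq_norm_sq, h.na1] at this
    linarith
  · intro w hw
    rw [hcy E1 w hw, hcy E2' w hw, hcy E3' w hw, pt_eq, ← hJ]
    have := hpars (fderiv ℝ F (z + J w) a2) (fderiv ℝ F (z + J w) a2)
    rw [hm _ hw, real_inner_self_eq_norm_sq, h.na2] at this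
    linarith
  · intro w hw
    rw [hcx E1 w hw, hcx E2' w hw, hcx E3' w hw, hcy E1 w hw, hcy E2' w hw, hcy E3' w hw]
    have := hpars (fderiv ℝ F (z + J w) a1) (fderiv ℝ F (z + J w) a2)
    rw [hm _ hw, h.a12, mul_zero] at this
    linarith

end Crest.Agent.Iso341
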