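import Crest.Agent.Iso341.TestDefs
import Crest.Agent.Iso341.Calc

/-! S0341, TEST: calculus of `Cl` (bounds of all derivatives up to order `n`). -/

set_option autoImplicit false

open MeasureTheory Set
open scoped ContDiff

namespace Crest.Agent.Iso341.Test

variable {n : ℕ} {f g : PP → ℝ} {A : Set PP} {a b : ℝ}

theorem Cl.bd : ∀ {n : ℕ} {f : PP → ℝ} {A : Set PP} {a : ℝ}, Cl n f A a → ∀ z ∈ A, |f z| ≤ a
  | 0, _, _, _, h => h
  | _ + 1, _, _, _, h => h.1

theorem Cl.mono : ∀ {n : ℕ} {f : PP → ℝ} {A : Set PP} {a b : ℝ}, Cl n f A a → a ≤ b → Cl n f A b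
  | 0, _, _, _, _, h, hab => fun z hz => (h z hz).trans hab
  | _ + 1, _, _, _, _, h, hab => ⟨fun z hz => (h.1 z hz).trans hab, Cl.mono h.2.1 hab,
      Cl.mono h.2.2 hab⟩

theorem Cl.anti : ∀ {n : ℕ} {f : PP → ℝ} {A B : Set PP} {a : ℝ}, Cl n f A a → B ⊆ A → Cl n f B a
  | 0, _, _, _, _, h, hab => fun z hz => h z (hab hz)
  | _ + 1, _, _, _, _, h, hab => ⟨fun z hz => h.1 z (hab hz), Cl.anti h.2.1 hab,
      Cl.anti h.2.2 hab⟩

theorem Cl.pred : ∀ {n : ℕ} {f : PP → ℝ} {A : Set PP} {a : ℝ}, Cl (n + 1) f A a → Cl n f A a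
  | 0, _, _, _, h => h.1
  | _ + 1, _, _, _, h => ⟨h.1, Cl.pred h.2.1, Cl.pred h.2.2⟩

theorem Cl.le : ∀ {m n : ℕ} {f : PP → ℝ} {A : Set PP} {a : ℝ}, Cl n f A a → m ≤ n → Cl m f A a := by
  intro m n f A a h hmn
  induction hmn with
  | refl => exact h
  | step _ ih => exact ih (Cl.pred h)

theorem Cl.dx (h : Cl (n + 1) f A a) : Cl n (dx f) A a := h.2.1

theorem Cl.dy (h : Cl (n + 1) f A a) : Cl n (dy f) A a := h.2.2

theorem Cl.congr_on : ∀ {n : ℕ} {f g : PP → ℝ} {A : Set PP} {a : ℝ}, IsOpen A →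
    (∀ z ∈ A, f z = g z) → Cl n g A a → Cl n f A a
  | 0, _, _, _, _, _, h, hg => fun z hz => by rw [h z hz]; exact hg z hz
  | _ + 1, _, _, _, _, hA, h, hg => ⟨fun z hz => by rw [h z hz]; exact hg.1 z hz,
      Cl.congr_on hA (dx_congr_on hA h) hg.2.1, Cl.congr_on hA (dy_congr_on hA h) hg.2.2⟩

theorem Cl.zero : ∀ {n : ℕ} {A : Set PP} {a : ℝ}, 0 ≤ a → Cl n (fun _ => (0 : ℝ)) A a
  | 0, _, _, ha => fun z _ => by simpa using ha
  | n + 1, A, a, ha => by
      refine ⟨fun z _ => by simpa using ha, ?_, ?_⟩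
      · rw [dx_const']; exact Cl.zero ha
      · rw [dy_const']; exact Cl.zero ha

theorem Cl.const {c : ℝ} (h : |c| ≤ a) : Cl n (fun _ => c) A a := by
  cases n with
  | zero => exact fun z _ => h
  | succ n =>
    refine ⟨fun z _ => h, ?_, ?_⟩
    · rw [dx_const']; exact Cl.zero ((abs_nonneg _).trans h)
    · rw [dy_const']; exact Cl.zero ((abs_nonneg _).trans h)

theorem Cl.add : ∀ {n : ℕ} {f g : PP → ℝ} {A : Set PP} {a b : ℝ}, ContDiff ℝ ∞ f →
    ContDiff ℝ ∞ g → Cl n f A a → Cl n g A b → Cl n (fun z => f z + g z) A (a + b)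
  | 0, _, _, _, _, _, _, _, h, k => fun z hz => (abs_add_le _ _).trans (add_le_add (h z hz) (k z hz))
  | n + 1, f, g, A, a, b, hf, hg, h, k => by
      refine ⟨fun z hz => (abs_add_le _ _).trans (add_le_add (h.1 z hz) (k.1 z hz)), ?_, ?_⟩
      · rw [dx_add' hf hg]; exact Cl.add (contDiff_dx hf) (contDiff_dx hg) h.2.1 k.2.1
      · rw [dy_add' hf hg]; exact Cl.add (contDiff_dy hf) (contDiff_dy hg) h.2.2 k.2.2

theorem Cl.neg : ∀ {n : ℕ} {f : PP → ℝ} {A : Set PP} {a : ℝ},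
    Cl n f A a → Cl n (fun z => - f z) A a
  | 0, _, _, _, h => fun z hz => by rw [abs_neg]; exact h z hz
  | n + 1, f, A, a, h => by
      refine ⟨fun z hz => by rw [abs_neg]; exact h.1 z hz, ?_, ?_⟩
      · rw [dx_neg']; exact Cl.neg h.2.1
      · rw [dy_neg']; exact Cl.neg h.2.2

theorem Cl.sub (hf : ContDiff ℝ ∞ f) (hg : ContDiff ℝ ∞ g) (h : Cl n f A a) (k : Cl n g A b) :
    Cl n (fun z => f z - g z) A (a + b) := by
  have := Cl.add hf hg.neg h (Cl.neg k)
  simpa only [sub_eq_add_neg] using this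

theorem Cl.mul : ∀ {n : ℕ} {f g : PP → ℝ} {A : Set PP} {a b : ℝ}, 0 ≤ a → 0 ≤ b →
    ContDiff ℝ ∞ f → ContDiff ℝ ∞ g → Cl n f A a → Cl n g A b →
    Cl n (fun z => f z * g z) A (2 ^ n * a * b)
  | 0, _, _, _, a, b, ha, hb, _, _, h, k => fun z hz => by
      simp only [pow_zero, one_mul]; rw [abs_mul]
      exact mul_le_mul (h z hz) (k z hz) (abs_nonneg _) ha
  | n + 1, f, g, A, a, b, ha, hb, hf, hg, h, k => by
      have hab : 0 ≤ a * b := mul_nonneg ha hb
      have h2 : (1 : ℝ) ≤ 2 ^ n := one_le_pow₀ (by norm_num)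
      have e1 : 2 ^ n * a * b + 2 ^ n * a * b = 2 ^ (n + 1) * a * b := by ring
      refine ⟨fun z hz => ?_, ?_, ?_⟩
      · rw [abs_mul]
        have := mul_le_mul (h.1 z hz) (k.1 z hz) (abs_nonneg _) ha
        have h3 : (1 : ℝ) ≤ 2 ^ (n + 1) := one_le_pow₀ (by norm_num)
        nlinarith
      · rw [dx_mul' hf hg, ← e1]
        exact Cl.add ((contDiff_dx hf).mul hg) (hf.mul (contDiff_dx hg))
          (Cl.mul ha hb (contDiff_dx hf) hg h.2.1 (Cl.pred k))
          (Cl.mul ha hb hf (contDiff_dx hg) (Cl.pred h) k.2.1)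
      · rw [dy_mul' hf hg, ← e1]
        exact Cl.add ((contDiff_dy hf).mul hg) (hf.mul (contDiff_dy hg))
          (Cl.mul ha hb (contDiff_dy hf) hg h.2.2 (Cl.pred k))
          (Cl.mul ha hb hf (contDiff_dy hg) (Cl.pred h) k.2.2)

theorem Cl.const_mul {c : ℝ} (hf : ContDiff ℝ ∞ f) (h : Cl n f A a) :
    Cl n (fun z => c * f z) A (|c| * a) := by
  induction n generalizing f with
  | zero => intro z hz; rw [abs_mul]; exact mul_le_mul_of_nonneg_left (h z hz) (abs_nonneg _)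
  | succ n ih =>
    refine ⟨fun z hz => ?_, ?_, ?_⟩
    · rw [abs_mul]; exact mul_le_mul_of_nonneg_left (h.1 z hz) (abs_nonneg _)
    · have : Iso341.dx (fun z => c * f z) = fun z => c * Iso341.dx f z :=
        funext (dx_const_mul c hf)
      rw [this]; exact ih (contDiff_dx hf) h.2.1
    · have : Iso341.dy (fun z => c * f z) = fun z => c * Iso341.dy f z :=
        funext (dy_const_mul c hf)
      rw [this]; exact ih (contDiff_dy hf) h.2.2

theorem contDiff_inv' {g : PP → ℝ} (hg : ContDiff ℝ ∞ g) (h0 : ∀ z, g z ≠ 0) :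
    ContDiff ℝ ∞ (fun z => (g z)⁻¹) := hg.inv h0

/-- bounds for the inverse -/
theorem Cl.inv (n : ℕ) (a : ℝ) (ha : 0 ≤ a) : ∃ b : ℝ, 0 < b ∧ ∀ (g : PP → ℝ) (A : Set PP),
    ContDiff ℝ ∞ g → (∀ z, 1 / 2 ≤ g z) → Cl n g A a → Cl n (fun z => (g z)⁻¹) A b := by
  have hval : ∀ g : PP → ℝ, (∀ z, 1 / 2 ≤ g z) → ∀ z, |(g z)⁻¹| ≤ 2 := by
    intro g h0 z
    have h1 := h0 z
    rw [abs_of_pos (by positivity)]
    have := inv_anti₀ (by norm_num : (0 : ℝ) < 1 / 2) h1
    norm_num at this; linarith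
  induction n with
  | zero => exact ⟨2, by norm_num, fun g A _ h0 _ z _ => hval g h0 z⟩
  | succ n ih =>
    obtain ⟨b, hb, H⟩ := ih
    refine ⟨2 + 2 ^ n * a * (2 ^ n * b * b), by positivity, fun g A hg h0 h => ?_⟩
    have hne : ∀ z, g z ≠ 0 := fun z => by have := h0 z; positivity
    have hi := contDiff_inv' hg hne
    have hC := H g A hg h0 (Cl.pred h)
    have hCC := Cl.mul hb.le hb.le hi hi hC hC
    have dxe : Iso341.dx (fun z => (g z)⁻¹) = fun z => -(Iso341.dx g z * ((g z)⁻¹ * (g z)⁻¹)) := by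
      funext z
      rw [dx_comp_at (G := fun t => t⁻¹) (differentiableAt_inv (hne z)) (diffAt hg z), deriv_inv]
      have := hne z
      field_simp
    have dye : Iso341.dy (fun z => (g z)⁻¹) = fun z => -(Iso341.dy g z * ((g z)⁻¹ * (g z)⁻¹)) := by
      funext z
      rw [dy_comp_at (G := fun t => t⁻¹) (differentiableAt_inv (hne z)) (diffAt hg z), deriv_inv]
      have := hne z
      field_simp
    have hpos : 0 ≤ 2 ^ n * a * (2 ^ n * b * b) := by positivity
    refine ⟨fun z _ => (hval g h0 z).trans (by linarith), ?_, ?_⟩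
    · rw [dxe]
      exact Cl.mono (Cl.neg (Cl.mul ha (by positivity) (contDiff_dx hg) (hi.mul hi) h.2.1 hCC))
        (by linarith)
    · rw [dye]
      exact Cl.mono (Cl.neg (Cl.mul ha (by positivity) (contDiff_dy hg) (hi.mul hi) h.2.2 hCC))
        (by linarith)

/-- smooth functions have bounds on compact sets -/
theorem Cl.of_compact (n : ℕ) {f : PP → ℝ} (hf : ContDiff ℝ ∞ f) {K : Set PP} (hK : IsCompact K) :
    ∃ a : ℝ, 0 < a ∧ Cl n f K a := by
  induction n generalizing f with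
  | zero =>
    obtain ⟨a, ha⟩ := hK.exists_bound_of_continuousOn hf.continuous.continuousOn
    exact ⟨max a 1, by positivity, fun z hz => (ha z hz).trans (le_max_left _ _)⟩
  | succ n ih =>
    obtain ⟨a, ha⟩ := hK.exists_bound_of_continuousOn hf.continuous.continuousOn
    obtain ⟨b, hb, h1⟩ := ih (contDiff_dx hf)
    obtain ⟨c, hc, h2⟩ := ih (contDiff_dy hf)
    refine ⟨max a (max b c), by positivity, fun z hz => (ha z hz).trans (le_max_left _ _), ?_, ?_⟩
    · exact Cl.mono h1 ((le_max_left _ _).trans (le_max_right _ _))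
    · exact Cl.mono h2 ((le_max_right _ _).trans (le_max_right _ _))

/-- the exponential -/
theorem Cl.exp (n : ℕ) (a : ℝ) (ha : 0 ≤ a) : ∃ b : ℝ, 0 < b ∧ ∀ (g : PP → ℝ) (A : Set PP),
    ContDiff ℝ ∞ g → Cl n g A a → Cl n (fun z => Real.exp (g z)) A b := by
  have hval : ∀ (g : PP → ℝ) (A : Set PP), (∀ z ∈ A, |g z| ≤ a) → ∀ z ∈ A,
      |Real.exp (g z)| ≤ Real.exp a := by
    intro g A h z hz
    rw [abs_of_pos (Real.exp_pos _)]
    exact Real.exp_le_exp.2 ((le_abs_self _).trans (h z hz))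
  induction n with
  | zero => exact ⟨Real.exp a, Real.exp_pos _, fun g A _ h => hval g A h⟩
  | succ n ih =>
    obtain ⟨b, hb, H⟩ := ih
    refine ⟨Real.exp a + 2 ^ n * b * a, by positivity, fun g A hg h => ?_⟩
    have hC := H g A hg (Cl.pred h)
    have hi : ContDiff ℝ ∞ (fun z => Real.exp (g z)) := hg.exp
    have dxe : Iso341.dx (fun z => Real.exp (g z)) = fun z => Real.exp (g z) * Iso341.dx g z := by
      funext z
      rw [dx_comp (g := Real.exp) Real.contDiff_exp hg z, Real.deriv_exp]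
    have dye : Iso341.dy (fun z => Real.exp (g z)) = fun z => Real.exp (g z) * Iso341.dy g z := by
      funext z
      rw [dy_comp (g := Real.exp) Real.contDiff_exp hg z, Real.deriv_exp]
    have hpos : 0 ≤ 2 ^ n * b * a := by positivity
    have hpos' := Real.exp_pos a
    refine ⟨fun z hz => (hval g A h.1 z hz).trans (by linarith), ?_, ?_⟩
    · rw [dxe]
      exact Cl.mono (Cl.mul hb.le ha hi (contDiff_dx hg) hC h.2.1) (by linarith)
    · rw [dye]
      exact Cl.mono (Cl.mul hb.le ha hi (contDiff_dy hg) hC h.2.2) (by linarith)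

end Crest.Agent.Iso341.Test
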