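import Crest.Agent.Iso341.RedDefs
import Crest.Agent.Iso341.Calc
import Crest.Agent.Iso341.TestCl

/-! S0341, REDUCE, R4: the functions `XX`, `YY`, `FF` built from an immersion. -/

set_option autoImplicit false

open MeasureTheory Set
open scoped ContDiff

namespace Crest.Agent.Iso341.RN

/-! ### points -/

theorem pt_zero (z : E2) (r : ℝ) (a1 a2 : E2) : pt z r a1 a2 0 = z := by
  simp [pt]

theorem contDiff_pt (z : E2) (r : ℝ) (a1 a2 : E2) : ContDiff ℝ ∞ (pt z r a1 a2) := by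
  unfold pt
  fun_prop

theorem norm_comb_sq {a1 a2 : E2} (h1 : ‖a1‖ = 1) (h2 : ‖a2‖ = 1) (h12 : inner ℝ a1 a2 = 0)
    (x y : ℝ) : ‖x • a1 + y • a2‖ ^ 2 = x ^ 2 + y ^ 2 := by
  rw [norm_add_sq_real, norm_smul, norm_smul, h1, h2, inner_smul_left, inner_smul_right, h12]
  simp

/-- the disc of radius `3` -/
def D9 : Set PP := {w | w.1 ^ 2 + w.2 ^ 2 < 9}

theorem isOpen_D9 : IsOpen D9 := isOpen_lt (by fun_prop) (by fun_prop)

theorem pt_mem {z : E2} {r : ℝ} {a1 a2 : E2} (hr : 0 < r) (h1 : ‖a1‖ = 1) (h2 : ‖a2‖ = 1)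
    (h12 : inner ℝ a1 a2 = 0) {w : PP} (hw : w ∈ D9) : pt z r a1 a2 w ∈ Metric.ball z (3 * r) := by
  rw [mem_ball_iff_norm, pt, add_sub_cancel_left, norm_smul, Real.norm_eq_abs, abs_of_pos hr]
  have h := norm_comb_sq h1 h2 h12 w.1 w.2
  have h3 : ‖w.1 • a1 + w.2 • a2‖ < 3 := by
    have : w.1 ^ 2 + w.2 ^ 2 < 9 := hw
    nlinarith [norm_nonneg (w.1 • a1 + w.2 • a2)]
  nlinarith

/-- the derivative of `pt` -/
theorem hasFDerivAt_pt (z : E2) (r : ℝ) (a1 a2 : E2) (w : PP) :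
    HasFDerivAt (pt z r a1 a2) (r • ((ContinuousLinearMap.fst ℝ ℝ ℝ).smulRight a1
      + (ContinuousLinearMap.snd ℝ ℝ ℝ).smulRight a2)) w := by
  have h : HasFDerivAt (fun w : PP => ((ContinuousLinearMap.fst ℝ ℝ ℝ).smulRight a1
      + (ContinuousLinearMap.snd ℝ ℝ ℝ).smulRight a2) w) _ w := ContinuousLinearMap.hasFDerivAt _
  have h' := (h.const_smul r).const_add z
  exact h'

/-! ### jets -/

/-- values of the `k`-th derivative along the frame, component `E` -/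
noncomputable def jet (z : E2) (r : ℝ) (a1 a2 : E2) (F : E2 → E3) (E : E3) (k : ℕ)
    (v : Fin k → E2) (w : PP) : ℝ :=
  inner ℝ (iteratedFDeriv ℝ k F (pt z r a1 a2 w) v) E

theorem hasFDerivAt_jet {z : E2} {r : ℝ} {a1 a2 : E2} {F : E2 → E3} (hF : ContDiff ℝ ∞ F)
    (E : E3) (k : ℕ) (v : Fin k → E2) (w : PP) :
    HasFDerivAt (jet z r a1 a2 F E k v)
      (((innerSL ℝ E).comp (ContinuousMultilinearMap.apply ℝ (fun _ : Fin k => E2) E3 v)).comp
        ((fderiv ℝ (iteratedFDeriv ℝ k F) (pt z r a1 a2 w)).comp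
          (r • ((ContinuousLinearMap.fst ℝ ℝ ℝ).smulRight a1
            + (ContinuousLinearMap.snd ℝ ℝ ℝ).smulRight a2)))) w := by
  have h1 : DifferentiableAt ℝ (iteratedFDeriv ℝ k F) (pt z r a1 a2 w) :=
    (hF.differentiable_iteratedFDeriv (by exact_mod_cast ENat.natCast_lt_top k)) _
  have h2 := h1.hasFDerivAt.comp w (hasFDerivAt_pt z r a1 a2 w)
  have h3 := ((innerSL ℝ E).comp
    (ContinuousMultilinearMap.apply ℝ (fun _ : Fin k => E2) E3 v)).hasFDerivAt.comp w h2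
  refine h3.congr_of_eventuallyEq (Filter.Eventually.of_forall fun w' => ?_)
  simp [jet, real_inner_comm]

theorem dx_jet {z : E2} {r : ℝ} {a1 a2 : E2} {F : E2 → E3} (hF : ContDiff ℝ ∞ F)
    (E : E3) (k : ℕ) (v : Fin k → E2) :
    dx (jet z r a1 a2 F E k v) = fun w => r * jet z r a1 a2 F E (k + 1) (Fin.cons a1 v) w := by
  funext w
  rw [dx_of (hasFDerivAt_jet hF E k v w)]
  simp [jet, iteratedFDeriv_succ_apply_left, real_inner_comm]

theorem dy_jet {z : E2} {r : ℝ} {a1 a2 : E2} {F : E2 → E3} (hF : ContDiff ℝ ∞ F)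
    (E : E3) (k : ℕ) (v : Fin k → E2) :
    dy (jet z r a1 a2 F E k v) = fun w => r * jet z r a1 a2 F E (k + 1) (Fin.cons a2 v) w := by
  funext w
  rw [dy_of (hasFDerivAt_jet hF E k v w)]
  simp [jet, iteratedFDeriv_succ_apply_left, real_inner_comm]

theorem contDiff_jet {z : E2} {r : ℝ} {a1 a2 : E2} {F : E2 → E3} (hF : ContDiff ℝ ∞ F)
    (E : E3) (k : ℕ) (v : Fin k → E2) : ContDiff ℝ ∞ (jet z r a1 a2 F E k v) := by
  have h1 : ContDiff ℝ ∞ (iteratedFDeriv ℝ k F) :=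
    hF.iteratedFDeriv_right (m := ∞) le_rfl
  have h2 : ContDiff ℝ ∞ (fun w => iteratedFDeriv ℝ k F (pt z r a1 a2 w)) :=
    h1.comp (contDiff_pt z r a1 a2)
  have h3 : ContDiff ℝ ∞ (fun w => ((innerSL ℝ E).comp
    (ContinuousMultilinearMap.apply ℝ (fun _ : Fin k => E2) E3 v))
      (iteratedFDeriv ℝ k F (pt z r a1 a2 w))) :=
    (ContinuousLinearMap.contDiff _).comp h2
  have h4 : jet z r a1 a2 F E k v = fun w => ((innerSL ℝ E).comp
    (ContinuousMultilinearMap.apply ℝ (fun _ : Fin k => E2) E3 v))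
      (iteratedFDeriv ℝ k F (pt z r a1 a2 w)) := by
    funext w
    simp [jet, real_inner_comm]
  rw [h4]; exact h3

theorem Cl_jet {z : E2} {r M : ℝ} {a1 a2 : E2} {F : E2 → E3} (hF : ContDiff ℝ ∞ F) (hr : 0 < r)
    (hr1 : r ≤ 1) (h1 : ‖a1‖ = 1) (h2 : ‖a2‖ = 1) (h12 : inner ℝ a1 a2 = 0)
    (hM : ∀ j ≤ 5, ∀ x ∈ Metric.ball z (3 * r), ‖iteratedFDeriv ℝ j F x‖ ≤ M)
    (E : E3) (hE : ‖E‖ ≤ 1) : ∀ (n k : ℕ) (v : Fin k → E2), n + k ≤ 5 → (∀ i, ‖v i‖ ≤ 1) →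
      Cl n (jet z r a1 a2 F E k v) D9 M := by
  have hb : ∀ (k : ℕ) (v : Fin k → E2), k ≤ 5 → (∀ i, ‖v i‖ ≤ 1) → ∀ w ∈ D9,
      |jet z r a1 a2 F E k v w| ≤ M := by
    intro k v hk hv w hw
    have e1 := hM k hk _ (pt_mem (z := z) hr h1 h2 h12 hw)
    have e2 := ContinuousMultilinearMap.le_opNorm (iteratedFDeriv ℝ k F (pt z r a1 a2 w)) v
    have e3 : ∏ i, ‖v i‖ ≤ 1 := Finset.prod_le_one (fun i _ => norm_nonneg _) (fun i _ => hv i)
    have e4 := abs_real_inner_le_norm (iteratedFDeriv ℝ k F (pt z r a1 a2 w) v) E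
    have e5 := norm_nonneg (iteratedFDeriv ℝ k F (pt z r a1 a2 w))
    calc |jet z r a1 a2 F E k v w| ≤ ‖iteratedFDeriv ℝ k F (pt z r a1 a2 w) v‖ * ‖E‖ := e4
      _ ≤ ‖iteratedFDeriv ℝ k F (pt z r a1 a2 w) v‖ * 1 :=
          mul_le_mul_of_nonneg_left hE (norm_nonneg _)
      _ ≤ ‖iteratedFDeriv ℝ k F (pt z r a1 a2 w)‖ * ∏ i, ‖v i‖ := by rw [mul_one]; exact e2
      _ ≤ ‖iteratedFDeriv ℝ k F (pt z r a1 a2 w)‖ * 1 := mul_le_mul_of_nonneg_left e3 e5
      _ ≤ M := by rw [mul_one]; exact e1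
  have hcons : ∀ (k : ℕ) (v : Fin k → E2) (a : E2), ‖a‖ = 1 → (∀ i, ‖v i‖ ≤ 1) →
      ∀ i, ‖(Fin.cons a v : Fin (k + 1) → E2) i‖ ≤ 1 := by
    intro k v a ha hv i
    refine Fin.cases ?_ (fun j => ?_) i
    · simp [ha]
    · simpa using hv j
  intro n
  induction n with
  | zero => intro k v hk hv; exact hb k v (by omega) hv
  | succ n ih =>
    intro k v hk hv
    have hr' : |r| * M ≤ M := by
      have hM0 : 0 ≤ M := (norm_nonneg _).trans (hM 0 (by norm_num) z (by simp [hr]))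
      rw [abs_of_pos hr]; nlinarith
    refine ⟨hb k v (by omega) hv, ?_, ?_⟩
    · rw [dx_jet hF]
      exact Test.Cl.mono (Test.Cl.const_mul (contDiff_jet hF E _ _)
        (ih (k + 1) _ (by omega) (hcons k v a1 h1 hv))) hr'
    · rw [dy_jet hF]
      exact Test.Cl.mono (Test.Cl.const_mul (contDiff_jet hF E _ _)
        (ih (k + 1) _ (by omega) (hcons k v a2 h2 hv))) hr'

/-! ### integrating bounds -/

/-- value bound from the gradient bound, one more derivative -/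
theorem Cl_step {n : ℕ} {g : PP → ℝ} {c : ℝ} (hg : ContDiff ℝ ∞ g) (hc : 0 ≤ c)
    (h0 : |g 0| ≤ c) (hx : Cl n (dx g) D9 c) (hy : Cl n (dy g) D9 c) :
    Cl (n + 1) g D9 (7 * c) := by
  have hb : ∀ z ∈ D9, |g z| ≤ 7 * c := by
    intro z hz
    have hconv : Convex ℝ D9 := by
      intro a ha b hb s t hs ht hst
      have ha' : a.1 ^ 2 + a.2 ^ 2 < 9 := ha
      have hb' : b.1 ^ 2 + b.2 ^ 2 < 9 := hb
      change (s • a + t • b).1 ^ 2 + (s • a + t • b).2 ^ 2 < 9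
      simp only [Prod.fst_add, Prod.snd_add, Prod.smul_fst, Prod.smul_snd, smul_eq_mul]
      have e : t = 1 - s := by linarith
      subst e
      have k1 : 0 ≤ s * (1 - s) * ((a.1 - b.1) ^ 2 + (a.2 - b.2) ^ 2) := by positivity
      rcases eq_or_lt_of_le hs with h | h
      · subst h; simpa using hb'
      · nlinarith
    have hbd : ∀ w ∈ D9, ‖fderiv ℝ g w‖ ≤ 2 * c := by
      intro w hw
      refine ContinuousLinearMap.opNorm_le_bound _ (by positivity) fun u => ?_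
      have e1 := Test.Cl.bd hx w hw
      have e2 := Test.Cl.bd hy w hw
      have e3 : fderiv ℝ g w u = u.1 * dx g w + u.2 * dy g w := by
        have : u = u.1 • ((1 : ℝ), (0 : ℝ)) + u.2 • ((0 : ℝ), (1 : ℝ)) := by
          ext <;> simp
        conv_lhs => rw [this]
        rw [map_add, map_smul, map_smul]
        rfl
      rw [e3, Real.norm_eq_abs]
      have f1 : |u.1| ≤ ‖u‖ := by simpa using norm_fst_le u
      have f2 : |u.2| ≤ ‖u‖ := by simpa using norm_snd_le u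
      calc |u.1 * dx g w + u.2 * dy g w| ≤ |u.1 * dx g w| + |u.2 * dy g w| := abs_add_le _ _
        _ = |u.1| * |dx g w| + |u.2| * |dy g w| := by rw [abs_mul, abs_mul]
        _ ≤ ‖u‖ * c + ‖u‖ * c :=
            add_le_add (mul_le_mul f1 e1 (abs_nonneg _) (norm_nonneg _))
              (mul_le_mul f2 e2 (abs_nonneg _) (norm_nonneg _))
        _ = 2 * c * ‖u‖ := by ring
    have h00 : (0 : PP) ∈ D9 := by simp [D9]
    have := hconv.norm_image_sub_le_of_norm_fderiv_le (f := g) (fun w _ => diffAt hg w) hbd h00 hz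
    rw [sub_zero, Real.norm_eq_abs] at this
    have hz' : z.1 ^ 2 + z.2 ^ 2 < 9 := hz
    have hn : ‖z‖ ≤ 3 := by
      rw [Prod.norm_def]
      refine max_le ?_ ?_
      · rw [Real.norm_eq_abs]; exact abs_le_of_sq_le_sq (by nlinarith [sq_nonneg z.2]) (by norm_num)
      · rw [Real.norm_eq_abs]; exact abs_le_of_sq_le_sq (by nlinarith [sq_nonneg z.1]) (by norm_num)
    have h4 : 2 * c * ‖z‖ ≤ 2 * c * 3 := mul_le_mul_of_nonneg_left hn (by positivity)
    have h5 : |g z| ≤ |g z - g 0| + |g 0| := by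
      have := abs_add_le (g z - g 0) (g 0); simpa using this
    linarith
  exact ⟨hb, Test.Cl.mono hx (by linarith), Test.Cl.mono hy (by linarith)⟩

/-- a function vanishing for `|w|² > 4` -/
theorem Cl_univ_of_D9 {n : ℕ} {g : PP → ℝ} {c : ℝ} (hc : 0 ≤ c)
    (h0 : ∀ w : PP, 4 < w.1 ^ 2 + w.2 ^ 2 → g w = 0) (h : Cl n g D9 c) : Cl n g univ c := by
  have hopen : IsOpen {w : PP | 4 < w.1 ^ 2 + w.2 ^ 2} := isOpen_lt (by fun_prop) (by fun_prop)
  induction n generalizing g with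
  | zero =>
    intro w _
    by_cases hw : w ∈ D9
    · exact h w hw
    · have : 4 < w.1 ^ 2 + w.2 ^ 2 := by
        simp only [D9, mem_ofPred_eq, not_lt] at hw; linarith
      rw [h0 w this]; simpa using hc
  | succ n ih =>
    refine ⟨?_, ih (fun w hw => ?_) h.2.1, ih (fun w hw => ?_) h.2.2⟩
    · intro w _
      by_cases hw : w ∈ D9
      · exact h.1 w hw
      · have : 4 < w.1 ^ 2 + w.2 ^ 2 := by
          simp only [D9, mem_ofPred_eq, not_lt] at hw; linarith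
        rw [h0 w this]; simpa using hc
    · have := dx_congr_on (g := fun _ => (0 : ℝ)) hopen h0 w hw
      rw [this, dx_const']
    · have := dy_congr_on (g := fun _ => (0 : ℝ)) hopen h0 w hw
      rw [this, dy_const']

/-! ### the cutoff -/

theorem contDiff_cut : ContDiff ℝ ∞ cut :=
  Real.smoothTransition.contDiff.comp (by fun_prop)

theorem cut_zero_of {w : PP} (hw : 4 ≤ w.1 ^ 2 + w.2 ^ 2) : cut w = 0 :=
  Real.smoothTransition.zero_of_nonpos (by nlinarith)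

theorem cut_one_of {w : PP} (hw : w.1 ^ 2 + w.2 ^ 2 ≤ 9 / 4) : cut w = 1 :=
  Real.smoothTransition.one_of_one_le (by nlinarith)

theorem exists_Cl_cut (n : ℕ) : ∃ C : ℝ, 1 ≤ C ∧ Cl n cut D9 C := by
  obtain ⟨a, ha, h⟩ := Test.Cl.of_compact n contDiff_cut (isCompact_closedBall (0 : PP) 3)
  refine ⟨max a 1, le_max_right _ _, Test.Cl.mono (Test.Cl.anti h fun w hw => ?_) (le_max_left _ _)⟩
  have hw' : w.1 ^ 2 + w.2 ^ 2 < 9 := hw
  rw [mem_closedBall_zero_iff, Prod.norm_def]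
  refine max_le ?_ ?_
  · rw [Real.norm_eq_abs]; exact abs_le_of_sq_le_sq (by nlinarith [sq_nonneg w.2]) (by norm_num)
  · rw [Real.norm_eq_abs]; exact abs_le_of_sq_le_sq (by nlinarith [sq_nonneg w.1]) (by norm_num)

/-! ### the components -/

section comps

variable {z : E2} {r μ : ℝ} {a1 a2 : E2} {F : E2 → E3} {y0 E : E3}

theorem uc_eq (w : PP) : uc z r a1 a2 F y0 E w
    = r⁻¹ * (jet z r a1 a2 F E 0 Fin.elim0 w - inner ℝ y0 E) := by
  simp only [uc, jet, iteratedFDeriv_zero_apply, inner_sub_left]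
  rw [div_eq_inv_mul]

theorem contDiff_uc (hF : ContDiff ℝ ∞ F) : ContDiff ℝ ∞ (uc z r a1 a2 F y0 E) := by
  have : uc z r a1 a2 F y0 E = fun w => r⁻¹ * (jet z r a1 a2 F E 0 Fin.elim0 w - inner ℝ y0 E) :=
    funext uc_eq
  rw [this]
  exact contDiff_const.mul ((contDiff_jet hF E 0 _).sub contDiff_const)

theorem dx_uc (hF : ContDiff ℝ ∞ F) (hr : r ≠ 0) : dx (uc z r a1 a2 F y0 E)
    = jet z r a1 a2 F E 1 (Fin.cons a1 Fin.elim0) := by
  have : uc z r a1 a2 F y0 E = fun w => r⁻¹ * (jet z r a1 a2 F E 0 Fin.elim0 w - inner ℝ y0 E) :=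
    funext uc_eq
  funext w
  rw [this, dx_const_mul _ ((contDiff_jet hF E 0 _).sub contDiff_const),
    dx_sub (contDiff_jet hF E 0 _) contDiff_const, dx_jet hF, dx_const]
  field_simp
  simp

theorem dy_uc (hF : ContDiff ℝ ∞ F) (hr : r ≠ 0) : dy (uc z r a1 a2 F y0 E)
    = jet z r a1 a2 F E 1 (Fin.cons a2 Fin.elim0) := by
  have : uc z r a1 a2 F y0 E = fun w => r⁻¹ * (jet z r a1 a2 F E 0 Fin.elim0 w - inner ℝ y0 E) :=
    funext uc_eq
  funext w
  rw [this, dy_const_mul _ ((contDiff_jet hF E 0 _).sub contDiff_const),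
    dy_sub (contDiff_jet hF E 0 _) contDiff_const, dy_jet hF, dy_const]
  field_simp
  simp

theorem jet_one (a : E2) (w : PP) : jet z r a1 a2 F E 1 (Fin.cons a Fin.elim0) w
    = inner ℝ (fderiv ℝ F (pt z r a1 a2 w) a) E := by
  simp [jet, iteratedFDeriv_one_apply]

theorem jet_two (a b : E2) (w : PP) : jet z r a1 a2 F E 2 (Fin.cons a (Fin.cons b Fin.elim0)) w
    = inner ℝ (fderiv ℝ (fderiv ℝ F) (pt z r a1 a2 w) a b) E := by
  simp [jet, iteratedFDeriv_two_apply]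

end comps

/-! ### smoothness, values outside -/

theorem smooth_XYF (z : E2) (r μ : ℝ) (a1 a2 : E2) (F : E2 → E3) (y0 E : E3)
    (hF : ContDiff ℝ ∞ F) :
    ContDiff ℝ ∞ (XX z r a1 a2 F y0 E) ∧ ContDiff ℝ ∞ (YY z r a1 a2 F y0 E) ∧
    ContDiff ℝ ∞ (FF z r μ a1 a2 F y0 E) := by
  have hu : ContDiff ℝ ∞ (uc z r a1 a2 F y0 E) := contDiff_uc hF
  have hc := contDiff_cut
  refine ⟨?_, ?_, ?_⟩
  · exact contDiff_fst.add (hc.mul (hu.sub contDiff_fst))
  · exact contDiff_snd.add (hc.mul (hu.sub contDiff_snd))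
  · have h2 : ContDiff ℝ ∞ (fun w : PP => w.1 ^ 2 / 2) := by fun_prop
    exact h2.add (hc.mul ((hu.div_const μ).sub h2))

theorem out_XYF (z : E2) (r μ : ℝ) (a1 a2 : E2) (F : E2 → E3) (y0 E1 E2' E3' : E3) (w : PP)
    (hw : 4 ≤ w.1 ^ 2 + w.2 ^ 2) :
    XX z r a1 a2 F y0 E1 w = w.1 ∧ YY z r a1 a2 F y0 E2' w = w.2 ∧
    FF z r μ a1 a2 F y0 E3' w = w.1 ^ 2 / 2 := by
  simp [XX, YY, FF, cut_zero_of hw]

/-! ### values inside -/

theorem isOpen_D94 : IsOpen {w : PP | w.1 ^ 2 + w.2 ^ 2 < 9 / 4} :=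
  isOpen_lt (by fun_prop) (by fun_prop)

section inside

variable {z : E2} {r μ : ℝ} {a1 a2 : E2} {F : E2 → E3} {y0 E : E3}

theorem dx_XX (hF : ContDiff ℝ ∞ F) (hr : r ≠ 0) {w : PP} (hw : w.1 ^ 2 + w.2 ^ 2 < 9 / 4) :
    dx (XX z r a1 a2 F y0 E) w = inner ℝ (fderiv ℝ F (pt z r a1 a2 w) a1) E := by
  have := dx_congr_on (f := XX z r a1 a2 F y0 E) (g := uc z r a1 a2 F y0 E) isOpen_D94
    (fun w hw => by rw [XX, cut_one_of (le_of_lt hw)]; ring) w hw
  rw [this, dx_uc hF hr, jet_one]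

theorem dy_XX (hF : ContDiff ℝ ∞ F) (hr : r ≠ 0) {w : PP} (hw : w.1 ^ 2 + w.2 ^ 2 < 9 / 4) :
    dy (XX z r a1 a2 F y0 E) w = inner ℝ (fderiv ℝ F (pt z r a1 a2 w) a2) E := by
  have := dy_congr_on (f := XX z r a1 a2 F y0 E) (g := uc z r a1 a2 F y0 E) isOpen_D94
    (fun w hw => by rw [XX, cut_one_of (le_of_lt hw)]; ring) w hw
  rw [this, dy_uc hF hr, jet_one]

theorem dx_YY (hF : ContDiff ℝ ∞ F) (hr : r ≠ 0) {w : PP} (hw : w.1 ^ 2 + w.2 ^ 2 < 9 / 4) :
    dx (YY z r a1 a2 F y0 E) w = inner ℝ (fderiv ℝ F (pt z r a1 a2 w) a1) E := by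
  have := dx_congr_on (f := YY z r a1 a2 F y0 E) (g := uc z r a1 a2 F y0 E) isOpen_D94
    (fun w hw => by rw [YY, cut_one_of (le_of_lt hw)]; ring) w hw
  rw [this, dx_uc hF hr, jet_one]

theorem dy_YY (hF : ContDiff ℝ ∞ F) (hr : r ≠ 0) {w : PP} (hw : w.1 ^ 2 + w.2 ^ 2 < 9 / 4) :
    dy (YY z r a1 a2 F y0 E) w = inner ℝ (fderiv ℝ F (pt z r a1 a2 w) a2) E := by
  have := dy_congr_on (f := YY z r a1 a2 F y0 E) (g := uc z r a1 a2 F y0 E) isOpen_D94
    (fun w hw => by rw [YY, cut_one_of (le_of_lt hw)]; ring) w hw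
  rw [this, dy_uc hF hr, jet_one]

theorem dx_FF (hF : ContDiff ℝ ∞ F) (hr : r ≠ 0) {w : PP} (hw : w.1 ^ 2 + w.2 ^ 2 < 9 / 4) :
    dx (FF z r μ a1 a2 F y0 E) w = 1 / μ * inner ℝ (fderiv ℝ F (pt z r a1 a2 w) a1) E := by
  have := dx_congr_on (f := FF z r μ a1 a2 F y0 E) (g := fun w => 1 / μ * uc z r a1 a2 F y0 E w)
    isOpen_D94 (fun w hw => by rw [FF, cut_one_of (le_of_lt hw)]; ring) w hw
  rw [this, dx_const_mul _ (contDiff_uc hF), dx_uc hF hr, jet_one]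

theorem dy_FF (hF : ContDiff ℝ ∞ F) (hr : r ≠ 0) {w : PP} (hw : w.1 ^ 2 + w.2 ^ 2 < 9 / 4) :
    dy (FF z r μ a1 a2 F y0 E) w = 1 / μ * inner ℝ (fderiv ℝ F (pt z r a1 a2 w) a2) E := by
  have := dy_congr_on (f := FF z r μ a1 a2 F y0 E) (g := fun w => 1 / μ * uc z r a1 a2 F y0 E w)
    isOpen_D94 (fun w hw => by rw [FF, cut_one_of (le_of_lt hw)]; ring) w hw
  rw [this, dy_const_mul _ (contDiff_uc hF), dy_uc hF hr, jet_one]

end inside

/-! ### the base immersion -/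

theorem dx_fst' : dx (fun w : PP => w.1) = fun _ => 1 := funext dx_fst
theorem dy_fst' : dy (fun w : PP => w.1) = fun _ => 0 := funext dy_fst
theorem dx_snd' : dx (fun w : PP => w.2) = fun _ => 0 := funext dx_snd
theorem dy_snd' : dy (fun w : PP => w.2) = fun _ => 1 := funext dy_snd

/-- cutoff times a small function -/
theorem Cl_cut_mul {C c : ℝ} (hC : 0 ≤ C) (hcut : Cl 4 cut D9 C) {g : PP → ℝ}
    (hg : ContDiff ℝ ∞ g) (hc : 0 ≤ c) (h : Cl 4 g D9 c) :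
    Cl 4 (fun w => cut w * g w) univ (16 * C * c) := by
  refine Cl_univ_of_D9 (by positivity) (fun w hw => by rw [cut_zero_of hw.le, zero_mul]) ?_
  have := Test.Cl.mul hC hc contDiff_cut hg hcut h
  norm_num at this ⊢
  exact this

/-- first components: `uc - x` is small if its gradient at `0` vanishes -/
theorem small_first {z : E2} {r M : ℝ} {F : E2 → E3} (hF : ContDiff ℝ ∞ F) (hr : 0 < r)
    (hr1 : r ≤ 1) (hM : ∀ j ≤ 5, ∀ x ∈ Metric.ball z (3 * r), ‖iteratedFDeriv ℝ j F x‖ ≤ M)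
    {a1 a2 : E2} (h1 : ‖a1‖ = 1) (h2 : ‖a2‖ = 1) (h12 : inner ℝ a1 a2 = 0) {E : E3}
    (hE : ‖E‖ = 1) {l : PP → ℝ} {l1 l2 : ℝ} (hl : ContDiff ℝ ∞ l) (hl0 : l 0 = 0)
    (hdx : dx l = fun _ => l1) (hdy : dy l = fun _ => l2)
    (hd1 : inner ℝ (fderiv ℝ F z a1) E = l1) (hd2 : inner ℝ (fderiv ℝ F z a2) E = l2) :
    Cl 4 (fun w => uc z r a1 a2 F (F z) E w - l w) D9 (49 * (r * M)) := by
  have hM0 : 0 ≤ M := (norm_nonneg _).trans (hM 0 (by norm_num) z (by simp [hr]))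
  have hc : 0 ≤ r * M := by positivity
  have hu : ContDiff ℝ ∞ (uc z r a1 a2 F (F z) E) := contDiff_uc hF
  have hE' : ‖E‖ ≤ 1 := hE.le
  have hj : ∀ (k : ℕ) (v : Fin k → E2), ContDiff ℝ ∞ (jet z r a1 a2 F E k v) :=
    fun k v => contDiff_jet hF E k v
  have hn : ∀ (a b : E2), ‖a‖ = 1 → ‖b‖ = 1 →
      ∀ i, ‖(Fin.cons a (Fin.cons b Fin.elim0) : Fin 2 → E2) i‖ ≤ 1 := by
    intro a b ha hb i
    fin_cases i
    · exact ha.le
    · exact hb.le
  have hcl : ∀ (a b : E2), ‖a‖ = 1 → ‖b‖ = 1 →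
      Cl 2 (fun w => r * jet z r a1 a2 F E 2 (Fin.cons a (Fin.cons b Fin.elim0)) w) D9 (r * M) := by
    intro a b ha hb
    have := Test.Cl.const_mul (c := r) (hj 2 _)
      (Cl_jet hF hr hr1 h1 h2 h12 hM E hE' 2 2 _ (by norm_num) (hn a b ha hb))
    rwa [abs_of_pos hr] at this
  have hz : (0 : PP) ∈ D9 := by simp [D9]
  have ex : dx (fun w => uc z r a1 a2 F (F z) E w - l w)
      = fun w => jet z r a1 a2 F E 1 (Fin.cons a1 Fin.elim0) w - l1 := by
    rw [dx_sub' hu hl, dx_uc hF hr.ne', hdx]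
  have ey : dy (fun w => uc z r a1 a2 F (F z) E w - l w)
      = fun w => jet z r a1 a2 F E 1 (Fin.cons a2 Fin.elim0) w - l2 := by
    rw [dy_sub' hu hl, dy_uc hF hr.ne', hdy]
  have hcst : ∀ c : ℝ, ContDiff ℝ ∞ (fun _ : PP => c) := fun c => contDiff_const
  have key : ∀ (b : E2) (lb : ℝ), ‖b‖ = 1 → inner ℝ (fderiv ℝ F z b) E = lb →
      Cl 3 (fun w => jet z r a1 a2 F E 1 (Fin.cons b Fin.elim0) w - lb) D9 (7 * (r * M)) := by
    intro b lb hb hlb
    refine Cl_step ((hj 1 _).sub (hcst _)) hc ?_ ?_ ?_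
    · rw [jet_one, pt_zero, hlb, sub_self, abs_zero]; exact hc
    · rw [dx_sub' (hj 1 _) (hcst _), dx_jet hF, dx_const']
      simp only [sub_zero]
      exact hcl a1 b h1 hb
    · rw [dy_sub' (hj 1 _) (hcst _), dy_jet hF, dy_const']
      simp only [sub_zero]
      exact hcl a2 b h2 hb
  have := Cl_step (n := 3) (g := fun w => uc z r a1 a2 F (F z) E w - l w) (c := 7 * (r * M))
    (hu.sub hl) (by positivity)
    (by rw [hl0, uc, pt_zero]; simp; positivity)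
    (by rw [ex]; exact key a1 l1 h1 hd1) (by rw [ey]; exact key a2 l2 h2 hd2)
  refine Test.Cl.mono this (by linarith)

/-- third component -/
theorem small_third {z e : E2} {r M μ η : ℝ} {F : E2 → E3} (hF : ContDiff ℝ ∞ F) (hr : 0 < r)
    (hr1 : r ≤ 1) (hμ : 0 < μ)
    (hM : ∀ j ≤ 5, ∀ x ∈ Metric.ball z (3 * r), ‖iteratedFDeriv ℝ j F x‖ ≤ M)
    {a1 a2 : E2} {E1 E2' E3' : E3} {μ1 μ2 : ℝ} (h : Frame F z e a1 a2 E1 E2' E3' μ1 μ2)
    (hη1 : r ^ 2 * M / μ ≤ η) (hη2 : |r * μ1 / μ - 1| ≤ η) (hη3 : |r * μ2 / μ| ≤ η) :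
    Cl 4 (fun w => uc z r a1 a2 F (F z) E3' w / μ - w.1 ^ 2 / 2) D9 (343 * η) := by
  have hη : 0 ≤ η := (abs_nonneg _).trans hη2
  have hu : ContDiff ℝ ∞ (uc z r a1 a2 F (F z) E3') := contDiff_uc hF
  have hE' : ‖E3'‖ ≤ 1 := h.nE3.le
  have hj : ∀ (k : ℕ) (v : Fin k → E2), ContDiff ℝ ∞ (jet z r a1 a2 F E3' k v) :=
    fun k v => contDiff_jet hF E3' k v
  have hcst : ∀ c : ℝ, ContDiff ℝ ∞ (fun _ : PP => c) := fun c => contDiff_const
  have h1 := h.na1
  have h2 := h.na2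
  have hjc : ∀ (c : ℝ) (k : ℕ) (v : Fin k → E2),
      ContDiff ℝ ∞ (fun w => c * jet z r a1 a2 F E3' k v w) := fun c k v => (hcst c).mul (hj k v)
  -- third derivatives
  have hn : ∀ (a b c : E2), ‖a‖ = 1 → ‖b‖ = 1 → ‖c‖ = 1 →
      ∀ i, ‖(Fin.cons a (Fin.cons b (Fin.cons c Fin.elim0)) : Fin 3 → E2) i‖ ≤ 1 := by
    intro a b c ha hb hc i
    fin_cases i
    · exact ha.le
    · exact hb.le
    · exact hc.le
  have hcl : ∀ (a b c : E2), ‖a‖ = 1 → ‖b‖ = 1 → ‖c‖ = 1 →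
      Cl 1 (fun w => r ^ 2 / μ * jet z r a1 a2 F E3' 3
        (Fin.cons a (Fin.cons b (Fin.cons c Fin.elim0))) w) D9 η := by
    intro a b c ha hb hc
    have := Test.Cl.const_mul (c := r ^ 2 / μ) (hj 3 _)
      (Cl_jet hF hr hr1 h1 h2 h.a12 hM E3' hE' 1 3 _ (by norm_num) (hn a b c ha hb hc))
    rw [abs_of_pos (by positivity)] at this
    refine Test.Cl.mono this ?_
    rw [div_mul_eq_mul_div]; exact hη1
  -- second derivatives
  have key2 : ∀ (a b : E2) (lb : ℝ), ‖a‖ = 1 → ‖b‖ = 1 →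
      |r / μ * inner ℝ (fderiv ℝ (fderiv ℝ F) z a b) E3' - lb| ≤ η →
      Cl 2 (fun w => r / μ * jet z r a1 a2 F E3' 2 (Fin.cons a (Fin.cons b Fin.elim0)) w - lb)
        D9 (7 * η) := by
    intro a b lb ha hb hlb
    refine Cl_step ((hjc _ 2 _).sub (hcst _)) hη ?_ ?_ ?_
    · rw [jet_two, pt_zero]; exact hlb
    · rw [dx_sub' (hjc _ 2 _) (hcst _), dx_const']
      have e : dx (fun w => r / μ * jet z r a1 a2 F E3' 2 (Fin.cons a (Fin.cons b Fin.elim0)) w)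
          = fun w => r ^ 2 / μ * jet z r a1 a2 F E3' 3
            (Fin.cons a1 (Fin.cons a (Fin.cons b Fin.elim0))) w := by
        funext w
        rw [dx_const_mul _ (hj 2 _), dx_jet hF]
        ring
      rw [e]
      simp only [sub_zero]
      exact hcl a1 a b h1 ha hb
    · rw [dy_sub' (hjc _ 2 _) (hcst _), dy_const']
      have e : dy (fun w => r / μ * jet z r a1 a2 F E3' 2 (Fin.cons a (Fin.cons b Fin.elim0)) w)
          = fun w => r ^ 2 / μ * jet z r a1 a2 F E3' 3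
            (Fin.cons a2 (Fin.cons a (Fin.cons b Fin.elim0))) w := by
        funext w
        rw [dy_const_mul _ (hj 2 _), dy_jet hF]
        ring
      rw [e]
      simp only [sub_zero]
      exact hcl a2 a b h2 ha hb
  -- first derivatives
  have key1 : ∀ (b : E2) (lb : PP → ℝ) (b1 b2 : ℝ), ‖b‖ = 1 → ContDiff ℝ ∞ lb → lb 0 = 0 →
      dx lb = (fun _ => b1) → dy lb = (fun _ => b2) → inner ℝ (fderiv ℝ F z b) E3' = 0 →
      |r / μ * inner ℝ (fderiv ℝ (fderiv ℝ F) z a1 b) E3' - b1| ≤ η →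
      |r / μ * inner ℝ (fderiv ℝ (fderiv ℝ F) z a2 b) E3' - b2| ≤ η →
      Cl 3 (fun w => 1 / μ * jet z r a1 a2 F E3' 1 (Fin.cons b Fin.elim0) w - lb w)
        D9 (49 * η) := by
    intro b lb b1 b2 hb hlb hlb0 hb1 hb2 hin g1 g2
    have := Cl_step (n := 2)
      (g := fun w => 1 / μ * jet z r a1 a2 F E3' 1 (Fin.cons b Fin.elim0) w - lb w)
      (c := 7 * η) ((hjc _ 1 _).sub hlb) (by positivity)
      (by rw [jet_one, pt_zero, hin, hlb0]; simp; positivity)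
      (by
        rw [dx_sub' (hjc _ 1 _) hlb, hb1]
        have e : dx (fun w => 1 / μ * jet z r a1 a2 F E3' 1 (Fin.cons b Fin.elim0) w)
            = fun w => r / μ * jet z r a1 a2 F E3' 2 (Fin.cons a1 (Fin.cons b Fin.elim0)) w := by
          funext w
          rw [dx_const_mul _ (hj 1 _), dx_jet hF]
          ring
        rw [e]
        exact key2 a1 b b1 h1 hb g1)
      (by
        rw [dy_sub' (hjc _ 1 _) hlb, hb2]
        have e : dy (fun w => 1 / μ * jet z r a1 a2 F E3' 1 (Fin.cons b Fin.elim0) w)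
            = fun w => r / μ * jet z r a1 a2 F E3' 2 (Fin.cons a2 (Fin.cons b Fin.elim0)) w := by
          funext w
          rw [dy_const_mul _ (hj 1 _), dy_jet hF]
          ring
        rw [e]
        exact key2 a2 b b2 h2 hb g2)
    exact Test.Cl.mono this (by linarith)
  have hsq : ContDiff ℝ ∞ (fun w : PP => w.1 ^ 2 / 2) := by fun_prop
  have exq : dx (fun w : PP => w.1 ^ 2 / 2) = fun w => w.1 := by
    funext w
    have : (fun w : PP => w.1 ^ 2 / 2) = fun w : PP => (1 / 2 : ℝ) * w.1 ^ 2 := by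
      funext w; ring
    rw [this, dx_const_mul _ (by fun_prop), dx_sq (f := fun w : PP => w.1) contDiff_fst, dx_fst]
    ring
  have eyq : dy (fun w : PP => w.1 ^ 2 / 2) = fun w => 0 := by
    funext w
    have : (fun w : PP => w.1 ^ 2 / 2) = fun w : PP => (1 / 2 : ℝ) * w.1 ^ 2 := by
      funext w; ring
    rw [this, dy_const_mul _ (by fun_prop), dy_sq (f := fun w : PP => w.1) contDiff_fst, dy_fst]
    ring
  have e11 : inner ℝ (fderiv ℝ (fderiv ℝ F) z a1 a1) E3' = μ1 := by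
    rw [h.h11, inner_smul_left, real_inner_self_eq_norm_sq, h.nE3]; simp
  have e22 : inner ℝ (fderiv ℝ (fderiv ℝ F) z a2 a2) E3' = μ2 := by
    rw [h.h22, inner_smul_left, real_inner_self_eq_norm_sq, h.nE3]; simp
  have e12 : inner ℝ (fderiv ℝ (fderiv ℝ F) z a1 a2) E3' = 0 := by
    rw [h.h12, inner_zero_left]
  have e21 : inner ℝ (fderiv ℝ (fderiv ℝ F) z a2 a1) E3' = 0 := by
    rw [h.h21, inner_zero_left]
  have hud : (fun w => uc z r a1 a2 F (F z) E3' w / μ - w.1 ^ 2 / 2)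
      = fun w => 1 / μ * uc z r a1 a2 F (F z) E3' w - w.1 ^ 2 / 2 := by
    funext w; ring
  rw [hud]
  have hu' : ContDiff ℝ ∞ (fun w => 1 / μ * uc z r a1 a2 F (F z) E3' w) := (hcst _).mul hu
  have := Cl_step (n := 3) (g := fun w => 1 / μ * uc z r a1 a2 F (F z) E3' w - w.1 ^ 2 / 2)
    (c := 49 * η) (hu'.sub hsq) (by positivity)
    (by rw [uc, pt_zero]; simp; positivity)
    (by
      rw [dx_sub' hu' hsq, exq]
      have e : dx (fun w => 1 / μ * uc z r a1 a2 F (F z) E3' w)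
          = fun w => 1 / μ * jet z r a1 a2 F E3' 1 (Fin.cons a1 Fin.elim0) w := by
        funext w
        rw [dx_const_mul _ hu, dx_uc hF hr.ne']
      rw [e]
      refine key1 a1 (fun w => w.1) 1 0 h1 contDiff_fst rfl dx_fst' dy_fst' ?_ ?_ ?_
      · rw [h.d1, h.E13]
      · rw [e11]
        have : r / μ * μ1 - 1 = r * μ1 / μ - 1 := by ring
        rw [this]; exact hη2
      · rw [e21]; simpa using hη)
    (by
      rw [dy_sub' hu' hsq, eyq]
      have e : dy (fun w => 1 / μ * uc z r a1 a2 F (F z) E3' w)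
          = fun w => 1 / μ * jet z r a1 a2 F E3' 1 (Fin.cons a2 Fin.elim0) w := by
        funext w
        rw [dy_const_mul _ hu, dy_uc hF hr.ne']
      rw [e]
      refine key1 a2 (fun w => 0) 0 0 h2 contDiff_const rfl (dx_const' 0) (dy_const' 0) ?_ ?_ ?_
      · rw [h.d2, h.E23]
      · rw [e12]; simpa using hη
      · rw [e22]
        have : r / μ * μ2 - 0 = r * μ2 / μ := by ring
        rw [this]; exact hη3)
  exact Test.Cl.mono this (by linarith)

theorem near_base : ∃ C : ℝ, 1 ≤ C ∧ ∀ (z e : E2) (r M μ η : ℝ) (F : E2 → E3), 0 < r →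
    r ≤ 1 → ContDiff ℝ ∞ F → 0 < μ →
    (∀ j ≤ 5, ∀ x ∈ Metric.ball z (3 * r), ‖iteratedFDeriv ℝ j F x‖ ≤ M) →
    ∀ (a1 a2 : E2) (E1 E2' E3' : E3) (μ1 μ2 : ℝ), Frame F z e a1 a2 E1 E2' E3' μ1 μ2 →
    r * M ≤ η → r ^ 2 * M / μ ≤ η → |r * μ1 / μ - 1| ≤ η → |r * μ2 / μ| ≤ η →
    Near (C * η) (XX z r a1 a2 F (F z) E1) (YY z r a1 a2 F (F z) E2')
      (FF z r μ a1 a2 F (F z) E3') ∧
    dx (FF z r μ a1 a2 F (F z) E3') 0 = 0 ∧ dy (FF z r μ a1 a2 F (F z) E3') 0 = 0 := by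
  obtain ⟨Cc, hCc, hcut⟩ := exists_Cl_cut 4
  refine ⟨16 * Cc * 343, by nlinarith, ?_⟩
  intro z e r M μ η F hr hr1 hF hμ hM a1 a2 E1 E2' E3' μ1 μ2 h hη1 hη2 hη3 hη4
  have hη : 0 ≤ η := (abs_nonneg _).trans hη3
  have hCc0 : 0 ≤ Cc := by linarith
  have hM0 : 0 ≤ M := (norm_nonneg _).trans (hM 0 (by norm_num) z (by simp [hr]))
  have u1 : ContDiff ℝ ∞ (uc z r a1 a2 F (F z) E1) := contDiff_uc hF
  have u2 : ContDiff ℝ ∞ (uc z r a1 a2 F (F z) E2') := contDiff_uc hF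
  have u3 : ContDiff ℝ ∞ (uc z r a1 a2 F (F z) E3') := contDiff_uc hF
  have hB := small_third hF hr hr1 hμ hM h hη2 hη3 hη4
  have hsm : ContDiff ℝ ∞ (fun w => uc z r a1 a2 F (F z) E3' w / μ - w.1 ^ 2 / 2) :=
    (u3.div_const μ).sub (by fun_prop)
  have hr2 : 49 * (r * M) ≤ 49 * η := by linarith
  have hA1 : Cl 4 (fun w => uc z r a1 a2 F (F z) E1 w - w.1) D9 (49 * (r * M)) :=
    small_first hF hr hr1 hM h.na1 h.na2 h.a12 h.nE1 (l := fun w => w.1) contDiff_fst rfl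
      dx_fst' dy_fst' (by rw [h.d1, real_inner_self_eq_norm_sq, h.nE1]; norm_num)
      (by rw [h.d2, real_inner_comm, h.E12])
  have hA2 : Cl 4 (fun w => uc z r a1 a2 F (F z) E2' w - w.2) D9 (49 * (r * M)) :=
    small_first hF hr hr1 hM h.na1 h.na2 h.a12 h.nE2 (l := fun w => w.2) contDiff_snd rfl
      dx_snd' dy_snd' (by rw [h.d1, h.E12])
      (by rw [h.d2, real_inner_self_eq_norm_sq, h.nE2]; norm_num)
  have hsX := smooth_XYF z r μ a1 a2 F (F z) E1 hF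
  have hsY := smooth_XYF z r μ a1 a2 F (F z) E2' hF
  have hsF := smooth_XYF z r μ a1 a2 F (F z) E3' hF
  refine ⟨⟨hsX.1, hsY.2.1, hsF.2.2, fun w hw => out_XYF z r μ a1 a2 F (F z) E1 E2' E3' w hw,
    ?_, ?_, ?_⟩, ?_, ?_⟩
  · have := Cl_cut_mul hCc0 hcut (u1.sub contDiff_fst) (by positivity) hA1
    have e : (fun w => XX z r a1 a2 F (F z) E1 w - w.1)
        = fun w => cut w * (uc z r a1 a2 F (F z) E1 w - w.1) := by
      funext w; simp [XX]
    rw [e]
    exact Test.Cl.mono this (by nlinarith [mul_nonneg hCc0 hη])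
  · have := Cl_cut_mul hCc0 hcut (u2.sub contDiff_snd) (by positivity) hA2
    have e : (fun w => YY z r a1 a2 F (F z) E2' w - w.2)
        = fun w => cut w * (uc z r a1 a2 F (F z) E2' w - w.2) := by
      funext w; simp [YY]
    rw [e]
    exact Test.Cl.mono this (by nlinarith [mul_nonneg hCc0 hη])
  · have := Cl_cut_mul hCc0 hcut hsm (by positivity) hB
    have e : (fun w => FF z r μ a1 a2 F (F z) E3' w - w.1 ^ 2 / 2)
        = fun w => cut w * (uc z r a1 a2 F (F z) E3' w / μ - w.1 ^ 2 / 2) := by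
      funext w; simp [FF]
    rw [e]
    exact Test.Cl.mono this (by nlinarith [mul_nonneg hCc0 hη])
  · rw [dx_FF hF hr.ne' (by simp), pt_zero, h.d1, h.E13, mul_zero]
  · rw [dy_FF hF hr.ne' (by simp), pt_zero, h.d2, h.E23, mul_zero]

/-! ### the metric equations -/

theorem parseval3 {E1 E2' E3' : E3} (g1 : ‖E1‖ = 1) (g2 : ‖E2'‖ = 1) (g3 : ‖E3'‖ = 1)
    (g12 : inner ℝ E1 E2' = 0) (g13 : inner ℝ E1 E3' = 0) (g23 : inner ℝ E2' E3' = 0)
    (u v : E3) : inner ℝ u E1 * inner ℝ v E1 + inner ℝ u E2' * inner ℝ v E2'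
      + inner ℝ u E3' * inner ℝ v E3' = inner ℝ u v := by
  have hon : Orthonormal ℝ ![E1, E2', E3'] := by
    constructor
    · intro i; fin_cases i <;> simp [g1, g2, g3]
    · intro i j hij
      fin_cases i <;> fin_cases j <;>
        simp_all [real_inner_comm]
  have hcard : Fintype.card (Fin 3) = Module.finrank ℝ E3 := by simp
  let B := (basisOfOrthonormalOfCardEqFinrank hon hcard)
  have hB : ⇑B = ![E1, E2', E3'] := coe_basisOfOrthonormalOfCardEqFinrank hon hcard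
  let OB := B.toOrthonormalBasis (by rw [hB]; exact hon)
  have hOB : ⇑OB = ![E1, E2', E3'] := by
    rw [Module.Basis.coe_toOrthonormalBasis, hB]
  have := OB.sum_inner_mul_inner u v
  rw [Fin.sum_univ_three, hOB] at this
  simp only [Matrix.cons_val_zero, Matrix.cons_val_one, Matrix.cons_val_two,
    Matrix.head_cons, Matrix.tail_cons] at this
  rw [real_inner_comm v E1, real_inner_comm v E2', real_inner_comm v E3'] at this
  exact this

theorem metric_XYF (z : E2) (r μ : ℝ) (a1 a2 : E2) (F : E2 → E3) (v : E2 → ℝ)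
    (y0 E1 E2' E3' : E3) (hr : 0 < r) (hμ : 0 < μ) (hF : ContDiff ℝ ∞ F)
    (hm : ∀ x ∈ Metric.ball z (3 * r), ∀ a b, inner ℝ (fderiv ℝ F x a) (fderiv ℝ F x b)
      = Real.exp (2 * v x) * inner ℝ a b)
    (h1 : ‖a1‖ = 1) (h2 : ‖a2‖ = 1) (h12 : inner ℝ a1 a2 = 0)
    (g1 : ‖E1‖ = 1) (g2 : ‖E2'‖ = 1) (g3 : ‖E3'‖ = 1) (g12 : inner ℝ E1 E2' = 0)
    (g13 : inner ℝ E1 E3' = 0) (g23 : inner ℝ E2' E3' = 0) (w : PP)
    (hw : w.1 ^ 2 + w.2 ^ 2 < 9 / 4) :
    dx (XX z r a1 a2 F y0 E1) w ^ 2 + dx (YY z r a1 a2 F y0 E2') w ^ 2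
      + μ ^ 2 * dx (FF z r μ a1 a2 F y0 E3') w ^ 2 = Real.exp (2 * v (pt z r a1 a2 w)) ∧
    dy (XX z r a1 a2 F y0 E1) w ^ 2 + dy (YY z r a1 a2 F y0 E2') w ^ 2
      + μ ^ 2 * dy (FF z r μ a1 a2 F y0 E3') w ^ 2 = Real.exp (2 * v (pt z r a1 a2 w)) ∧
    dx (XX z r a1 a2 F y0 E1) w * dy (XX z r a1 a2 F y0 E1) w
      + dx (YY z r a1 a2 F y0 E2') w * dy (YY z r a1 a2 F y0 E2') w
      + μ ^ 2 * (dx (FF z r μ a1 a2 F y0 E3') w * dy (FF z r μ a1 a2 F y0 E3') w) = 0 := by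
  have hr' := hr.ne'
  have hw9 : w ∈ D9 := show w.1 ^ 2 + w.2 ^ 2 < 9 by linarith
  have hpt := pt_mem (z := z) hr h1 h2 h12 hw9
  have P := parseval3 g1 g2 g3 g12 g13 g23
  rw [dx_XX hF hr' hw, dx_YY hF hr' hw, dx_FF hF hr' hw, dy_XX hF hr' hw, dy_YY hF hr' hw,
    dy_FF hF hr' hw]
  set A := fderiv ℝ F (pt z r a1 a2 w) a1 with hA
  set B := fderiv ℝ F (pt z r a1 a2 w) a2 with hB
  have m11 := hm _ hpt a1 a1
  have m22 := hm _ hpt a2 a2
  have m12 := hm _ hpt a1 a2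
  rw [← hA] at m11
  rw [← hB] at m22
  rw [← hA, ← hB] at m12
  rw [real_inner_self_eq_norm_sq a1, h1, one_pow, mul_one] at m11
  rw [real_inner_self_eq_norm_sq a2, h2, one_pow, mul_one] at m22
  rw [h12, mul_zero] at m12
  have P11 := P A A
  have P22 := P B B
  have P12 := P A B
  rw [m11] at P11
  rw [m22] at P22
  rw [m12] at P12
  refine ⟨?_, ?_, ?_⟩
  · rw [← P11]; field_simp
  · rw [← P22]; field_simp
  · rw [← P12]; field_simp

/-! ### the colouring functions -/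

/-- the colouring functions -/
noncomputable def gc (z : E2) (r : ℝ) (F : E2 → E3) (k : Fin 3) (w : PP) : ℝ :=
  cut w * uc z r (EuclideanSpace.single 0 1) (EuclideanSpace.single 1 1) F 0
    (EuclideanSpace.single k 1) w

theorem gc_smooth (z : E2) (r : ℝ) (F : E2 → E3) (k : Fin 3) (hF : ContDiff ℝ ∞ F) :
    ContDiff ℝ ∞ (gc z r F k) := contDiff_cut.mul (contDiff_uc hF)

theorem gc_bound : ∃ C : ℝ, 0 < C ∧ ∀ (z : E2) (r M : ℝ) (F : E2 → E3) (k : Fin 3), 0 < r →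
    r ≤ 1 → ContDiff ℝ ∞ F →
    (∀ j ≤ 5, ∀ x ∈ Metric.ball z (3 * r), ‖iteratedFDeriv ℝ j F x‖ ≤ M) →
    Cl 5 (gc z r F k) univ (C * M / r) := by
  obtain ⟨Cc, hCc, hcut⟩ := exists_Cl_cut 5
  refine ⟨32 * Cc, by linarith, ?_⟩
  intro z r M F k hr hr1 hF hM
  have hM0 : 0 ≤ M := (norm_nonneg _).trans (hM 0 (by norm_num) z (by simp [hr]))
  have hCc0 : 0 ≤ Cc := by linarith
  have n1 : ‖(EuclideanSpace.single 0 1 : E2)‖ = 1 := by simp
  have n2 : ‖(EuclideanSpace.single 1 1 : E2)‖ = 1 := by simp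
  have n12 : inner ℝ (EuclideanSpace.single 0 1 : E2) (EuclideanSpace.single 1 1) = 0 := by
    rw [EuclideanSpace.inner_single_left]; simp
  have n3 : ‖(EuclideanSpace.single k 1 : E3)‖ ≤ 1 := by simp
  refine Cl_univ_of_D9 (by positivity) (fun w hw => by rw [gc, cut_zero_of hw.le, zero_mul]) ?_
  have e : uc z r (EuclideanSpace.single 0 1) (EuclideanSpace.single 1 1) F 0
      (EuclideanSpace.single k 1) = fun w => r⁻¹ * jet z r (EuclideanSpace.single 0 1)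
        (EuclideanSpace.single 1 1) F (EuclideanSpace.single k 1) 0 Fin.elim0 w := by
    funext w; rw [uc_eq]; simp
  have h0 := Test.Cl.const_mul (c := r⁻¹) (contDiff_jet hF (EuclideanSpace.single k 1) 0 Fin.elim0)
    (Cl_jet hF hr hr1 n1 n2 n12 hM (EuclideanSpace.single k 1) n3 5 0 Fin.elim0 (by norm_num)
      (fun i => i.elim0))
  rw [abs_of_pos (inv_pos.2 hr), ← e] at h0
  have := Test.Cl.mul hCc0 (by positivity) contDiff_cut (contDiff_uc hF) hcut h0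
  refine Test.Cl.mono this (le_of_eq ?_)
  field_simp
  ring

/-! ### closeness of equal colours -/

/-- a function vanishing for `|w|² > 4` -/
theorem Cl_univ_of {A : Set PP} (hA : ∀ w : PP, w ∉ A → 4 < w.1 ^ 2 + w.2 ^ 2) {n : ℕ}
    {g : PP → ℝ} {c : ℝ} (hc : 0 ≤ c)
    (h0 : ∀ w : PP, 4 < w.1 ^ 2 + w.2 ^ 2 → g w = 0) (h : Cl n g A c) : Cl n g univ c := by
  have hopen : IsOpen {w : PP | 4 < w.1 ^ 2 + w.2 ^ 2} := isOpen_lt (by fun_prop) (by fun_prop)
  induction n generalizing g with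
  | zero =>
    intro w _
    by_cases hw : w ∈ A
    · exact h w hw
    · rw [h0 w (hA w hw)]; simpa using hc
  | succ n ih =>
    refine ⟨?_, ih (fun w hw => ?_) h.2.1, ih (fun w hw => ?_) h.2.2⟩
    · intro w _
      by_cases hw : w ∈ A
      · exact h.1 w hw
      · rw [h0 w (hA w hw)]; simpa using hc
    · have := dx_congr_on (g := fun _ => (0 : ℝ)) hopen h0 w hw
      rw [this, dx_const']
    · have := dy_congr_on (g := fun _ => (0 : ℝ)) hopen h0 w hw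
      rw [this, dy_const']

/-- the linear map with columns `(α, β)`, `(α', β')` -/
noncomputable def lin (α β α' β' : ℝ) (w : PP) : PP := (w.1 * α + w.2 * α', w.1 * β + w.2 * β')

theorem contDiff_lin (α β α' β' : ℝ) : ContDiff ℝ ∞ (lin α β α' β') := by
  unfold lin; fun_prop

theorem hasFDerivAt_lin (α β α' β' : ℝ) (w : PP) : HasFDerivAt (lin α β α' β')
    ((ContinuousLinearMap.fst ℝ ℝ ℝ).smulRight ((α, β) : PP)
      + (ContinuousLinearMap.snd ℝ ℝ ℝ).smulRight ((α', β') : PP)) w := by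
  have h : HasFDerivAt (fun w : PP => ((ContinuousLinearMap.fst ℝ ℝ ℝ).smulRight ((α, β) : PP)
      + (ContinuousLinearMap.snd ℝ ℝ ℝ).smulRight ((α', β') : PP)) w) _ w :=
    ContinuousLinearMap.hasFDerivAt _
  refine h.congr_of_eventuallyEq (Filter.Eventually.of_forall fun w' => ?_)
  simp [lin]

theorem dx_lin {g : PP → ℝ} (hg : ContDiff ℝ ∞ g) (α β α' β' : ℝ) :
    dx (fun w => g (lin α β α' β' w)) = fun w => α * dx g (lin α β α' β' w)
      + β * dy g (lin α β α' β' w) := by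
  funext w
  have h := (diffAt hg (lin α β α' β' w)).hasFDerivAt.comp w (hasFDerivAt_lin α β α' β' w)
  have h' : HasFDerivAt (fun w => g (lin α β α' β' w)) _ w := h
  rw [dx_of h']
  have e : ((α, β) : PP) = α • ((1 : ℝ), (0 : ℝ)) + β • ((0 : ℝ), (1 : ℝ)) := by ext <;> simp
  simp only [ContinuousLinearMap.comp_apply, add_apply,
    ContinuousLinearMap.smulRight_apply, ContinuousLinearMap.coe_fst',
    ContinuousLinearMap.coe_snd', one_smul, zero_smul, add_zero]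
  rw [e, map_add, map_smul, map_smul]
  rfl

theorem dy_lin {g : PP → ℝ} (hg : ContDiff ℝ ∞ g) (α β α' β' : ℝ) :
    dy (fun w => g (lin α β α' β' w)) = fun w => α' * dx g (lin α β α' β' w)
      + β' * dy g (lin α β α' β' w) := by
  funext w
  have h := (diffAt hg (lin α β α' β' w)).hasFDerivAt.comp w (hasFDerivAt_lin α β α' β' w)
  have h' : HasFDerivAt (fun w => g (lin α β α' β' w)) _ w := h
  rw [dy_of h']
  have e : ((α', β') : PP) = α' • ((1 : ℝ), (0 : ℝ)) + β' • ((0 : ℝ), (1 : ℝ)) := by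
    ext <;> simp
  simp only [ContinuousLinearMap.comp_apply, add_apply,
    ContinuousLinearMap.smulRight_apply, ContinuousLinearMap.coe_fst',
    ContinuousLinearMap.coe_snd', one_smul, zero_smul, zero_add]
  rw [e, map_add, map_smul, map_smul]
  rfl

theorem Cl_lin {α β α' β' : ℝ} (h1 : |α| ≤ 1) (h2 : |β| ≤ 1) (h3 : |α'| ≤ 1) (h4 : |β'| ≤ 1)
    {n : ℕ} {g : PP → ℝ} {c : ℝ} (hg : ContDiff ℝ ∞ g) (hc : 0 ≤ c) (h : Cl n g univ c) :
    Cl n (fun w => g (lin α β α' β' w)) univ (2 ^ n * c) := by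
  induction n generalizing g with
  | zero => intro w _; simpa using h _ (mem_univ _)
  | succ n ih =>
    have hp : (1 : ℝ) ≤ 2 ^ (n + 1) := one_le_pow₀ (by norm_num)
    have hl := contDiff_lin α β α' β'
    have sx : ContDiff ℝ ∞ (fun w => dx g (lin α β α' β' w)) := (contDiff_dx hg).comp hl
    have sy : ContDiff ℝ ∞ (fun w => dy g (lin α β α' β' w)) := (contDiff_dy hg).comp hl
    have ix := ih (contDiff_dx hg) h.2.1
    have iy := ih (contDiff_dy hg) h.2.2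
    have hpos : 0 ≤ 2 ^ n * c := by positivity
    refine ⟨fun w _ => ?_, ?_, ?_⟩
    · have := h.1 (lin α β α' β' w) (mem_univ _)
      nlinarith
    · rw [dx_lin hg]
      refine Test.Cl.mono (Test.Cl.add (contDiff_const.mul sx) (contDiff_const.mul sy)
        (Test.Cl.const_mul sx ix) (Test.Cl.const_mul sy iy)) ?_
      have : 2 ^ (n + 1) * c = 2 ^ n * c + 2 ^ n * c := by ring
      rw [this]
      exact add_le_add (by nlinarith) (by nlinarith)
    · rw [dy_lin hg]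
      refine Test.Cl.mono (Test.Cl.add (contDiff_const.mul sx) (contDiff_const.mul sy)
        (Test.Cl.const_mul sx ix) (Test.Cl.const_mul sy iy)) ?_
      have : 2 ^ (n + 1) * c = 2 ^ n * c + 2 ^ n * c := by ring
      rw [this]
      exact add_le_add (by nlinarith) (by nlinarith)

theorem abs_coord_le {a : E2} (ha : ‖a‖ = 1) (i : Fin 2) : |a i| ≤ 1 := by
  have := EuclideanSpace.norm_eq a
  have h2 : ‖a‖ ^ 2 = ∑ i, ‖a i‖ ^ 2 := EuclideanSpace.norm_sq_eq a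
  rw [ha, Fin.sum_univ_two] at h2
  simp only [Real.norm_eq_abs, sq_abs] at h2
  refine abs_le_of_sq_le_sq ?_ (by norm_num)
  fin_cases i
  · simp only [Fin.zero_eta]; nlinarith [sq_nonneg (a 1)]
  · simp only [Fin.mk_one]; nlinarith [sq_nonneg (a 0)]

theorem abs_coord_le3 {a : E3} (ha : ‖a‖ = 1) (i : Fin 3) : |a i| ≤ 1 := by
  have h2 : ‖a‖ ^ 2 = ∑ i, ‖a i‖ ^ 2 := EuclideanSpace.norm_sq_eq a
  rw [ha, Fin.sum_univ_three] at h2
  simp only [Real.norm_eq_abs, sq_abs] at h2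
  refine abs_le_of_sq_le_sq ?_ (by norm_num)
  fin_cases i
  · simp only [Fin.zero_eta]; nlinarith [sq_nonneg (a 1), sq_nonneg (a 2)]
  · simp only [Fin.mk_one]; nlinarith [sq_nonneg (a 0), sq_nonneg (a 2)]
  · simp only [Fin.reduceFinMk]; nlinarith [sq_nonneg (a 0), sq_nonneg (a 1)]

/-- the components in the frame `(a1, a2)` in terms of the colouring functions -/
theorem cut_uc_eq {z : E2} {r : ℝ} {a1 a2 : E2} {F F' : E2 → E3} {y0 E : E3}
    (h1 : ‖a1‖ = 1) (h2 : ‖a2‖ = 1) (h12 : inner ℝ a1 a2 = 0) (w : PP) :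
    cut w * (uc z r a1 a2 F y0 E w - uc z r a1 a2 F' y0 E w)
      = E 0 * (gc z r F 0 (lin (a1 0) (a1 1) (a2 0) (a2 1) w)
          - gc z r F' 0 (lin (a1 0) (a1 1) (a2 0) (a2 1) w))
      + E 1 * (gc z r F 1 (lin (a1 0) (a1 1) (a2 0) (a2 1) w)
          - gc z r F' 1 (lin (a1 0) (a1 1) (a2 0) (a2 1) w))
      + E 2 * (gc z r F 2 (lin (a1 0) (a1 1) (a2 0) (a2 1) w)
          - gc z r F' 2 (lin (a1 0) (a1 1) (a2 0) (a2 1) w)) := by
  have hp : pt z r (EuclideanSpace.single 0 1) (EuclideanSpace.single 1 1)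
      (lin (a1 0) (a1 1) (a2 0) (a2 1) w) = pt z r a1 a2 w := by
    unfold pt lin
    congr 2
    ext i
    fin_cases i
    · simp
    · simp
  have hcut : cut (lin (a1 0) (a1 1) (a2 0) (a2 1) w) = cut w := by
    have e := norm_comb_sq h1 h2 h12 w.1 w.2
    rw [EuclideanSpace.norm_sq_eq, Fin.sum_univ_two] at e
    simp only [Real.norm_eq_abs, sq_abs, PiLp.add_apply, PiLp.smul_apply, smul_eq_mul] at e
    unfold cut lin
    simp only
    rw [e]
  simp only [gc, uc, hp, hcut, sub_zero]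
  have hin : ∀ (x : E3), inner ℝ x E = x 0 * E 0 + x 1 * E 1 + x 2 * E 2 := by
    intro x
    rw [PiLp.inner_apply, Fin.sum_univ_three]
    simp [mul_comm]
  have hs : ∀ (x : E3) (k : Fin 3), inner ℝ x (EuclideanSpace.single k (1 : ℝ)) = x k := by
    intro x k
    rw [EuclideanSpace.inner_single_right]; simp
  simp only [hs, hin, PiLp.sub_apply]
  ring

theorem close_of_color (z : E2) (r μ η : ℝ) (a1 a2 : E2) (F F' : E2 → E3) (y0 : E3)
    (hμ : 0 < μ) (hη : 0 ≤ η) (hF : ContDiff ℝ ∞ F) (hF' : ContDiff ℝ ∞ F')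
    (h1 : ‖a1‖ = 1) (h2 : ‖a2‖ = 1) (h12 : inner ℝ a1 a2 = 0)
    (hc : ∀ k, Cl 4 (fun w => gc z r F k w - gc z r F' k w) (Metric.closedBall 0 2) η)
    (E : E3) (hE : ‖E‖ = 1) :
    Cl 4 (fun w => XX z r a1 a2 F y0 E w - XX z r a1 a2 F' y0 E w) univ (48 * η) ∧
    Cl 4 (fun w => YY z r a1 a2 F y0 E w - YY z r a1 a2 F' y0 E w) univ (48 * η) ∧
    Cl 4 (fun w => FF z r μ a1 a2 F y0 E w - FF z r μ a1 a2 F' y0 E w) univ (48 * η / μ) := by
  have hsm : ∀ k, ContDiff ℝ ∞ (fun w => gc z r F k w - gc z r F' k w) := fun k =>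
    (gc_smooth z r F k hF).sub (gc_smooth z r F' k hF')
  have hu : ∀ k, Cl 4 (fun w => gc z r F k w - gc z r F' k w) univ η := by
    intro k
    refine Cl_univ_of (A := Metric.closedBall 0 2) (fun w hw => ?_) hη (fun w hw => ?_) (hc k)
    · rw [mem_closedBall_zero_iff, Prod.norm_def, max_le_iff, not_and_or] at hw
      rcases hw with h | h
      · rw [Real.norm_eq_abs, not_le] at h
        nlinarith [sq_abs w.1, sq_nonneg w.2]
      · rw [Real.norm_eq_abs, not_le] at h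
        nlinarith [sq_abs w.2, sq_nonneg w.1]
    · rw [gc, gc, cut_zero_of hw.le]; ring
  have hl := contDiff_lin (a1 0) (a1 1) (a2 0) (a2 1)
  have hg : ∀ k, Cl 4 (fun w => gc z r F k (lin (a1 0) (a1 1) (a2 0) (a2 1) w)
      - gc z r F' k (lin (a1 0) (a1 1) (a2 0) (a2 1) w)) univ (16 * η) := by
    intro k
    have := Cl_lin (abs_coord_le h1 0) (abs_coord_le h1 1) (abs_coord_le h2 0)
      (abs_coord_le h2 1) (hsm k) hη (hu k)
    norm_num at this
    exact this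
  have hgs : ∀ k, ContDiff ℝ ∞ (fun w => gc z r F k (lin (a1 0) (a1 1) (a2 0) (a2 1) w)
      - gc z r F' k (lin (a1 0) (a1 1) (a2 0) (a2 1) w)) := fun k => (hsm k).comp hl
  have hgk : ∀ k, Cl 4 (fun w => E k * (gc z r F k (lin (a1 0) (a1 1) (a2 0) (a2 1) w)
      - gc z r F' k (lin (a1 0) (a1 1) (a2 0) (a2 1) w))) univ (16 * η) := by
    intro k
    refine Test.Cl.mono (Test.Cl.const_mul (hgs k) (hg k)) ?_
    have := abs_coord_le3 hE k
    nlinarith
  have hgks : ∀ k, ContDiff ℝ ∞ (fun w => E k * (gc z r F k (lin (a1 0) (a1 1) (a2 0) (a2 1) w)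
      - gc z r F' k (lin (a1 0) (a1 1) (a2 0) (a2 1) w))) :=
    fun k => contDiff_const.mul (hgs k)
  have main : Cl 4 (fun w => cut w * (uc z r a1 a2 F y0 E w - uc z r a1 a2 F' y0 E w)) univ
      (48 * η) := by
    have e : (fun w => cut w * (uc z r a1 a2 F y0 E w - uc z r a1 a2 F' y0 E w))
      = fun w => E 0 * (gc z r F 0 (lin (a1 0) (a1 1) (a2 0) (a2 1) w)
          - gc z r F' 0 (lin (a1 0) (a1 1) (a2 0) (a2 1) w))
      + E 1 * (gc z r F 1 (lin (a1 0) (a1 1) (a2 0) (a2 1) w)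
          - gc z r F' 1 (lin (a1 0) (a1 1) (a2 0) (a2 1) w))
      + E 2 * (gc z r F 2 (lin (a1 0) (a1 1) (a2 0) (a2 1) w)
          - gc z r F' 2 (lin (a1 0) (a1 1) (a2 0) (a2 1) w)) :=
      funext (cut_uc_eq h1 h2 h12)
    rw [e]
    refine Test.Cl.mono (Test.Cl.add ((hgks 0).add (hgks 1)) (hgks 2)
      (Test.Cl.add (hgks 0) (hgks 1) (hgk 0) (hgk 1)) (hgk 2)) ?_
    linarith
  have hucs : ContDiff ℝ ∞ (fun w => cut w * (uc z r a1 a2 F y0 E w - uc z r a1 a2 F' y0 E w)) :=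
    contDiff_cut.mul ((contDiff_uc hF).sub (contDiff_uc hF'))
  refine ⟨?_, ?_, ?_⟩
  · have e : (fun w => XX z r a1 a2 F y0 E w - XX z r a1 a2 F' y0 E w)
        = fun w => cut w * (uc z r a1 a2 F y0 E w - uc z r a1 a2 F' y0 E w) := by
      funext w; simp only [XX]; ring
    rw [e]; exact main
  · have e : (fun w => YY z r a1 a2 F y0 E w - YY z r a1 a2 F' y0 E w)
        = fun w => cut w * (uc z r a1 a2 F y0 E w - uc z r a1 a2 F' y0 E w) := by
      funext w; simp only [YY]; ring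
    rw [e]; exact main
  · have e : (fun w => FF z r μ a1 a2 F y0 E w - FF z r μ a1 a2 F' y0 E w)
        = fun w => 1 / μ * (cut w * (uc z r a1 a2 F y0 E w - uc z r a1 a2 F' y0 E w)) := by
      funext w; simp only [FF]; ring
    rw [e]
    refine Test.Cl.mono (Test.Cl.const_mul hucs main) (le_of_eq ?_)
    rw [abs_of_pos (by positivity)]
    ring

end Crest.Agent.Iso341.RN
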