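import Crest.Agent.Iso341.RedNear
import Crest.Agent.Iso341.RedExp

/-! S0341, REDUCE: small lemmas for the assembly. -/

set_option autoImplicit false

open MeasureTheory Set
open scoped ContDiff

namespace Crest.Agent.Iso341.RP

/-- smooth extension from a ball -/
theorem exists_ext (F : E2 → E3) (z : E2) (r R : ℝ) (hr : 0 < r) (hR : 3 * r < R)
    (hF : ContDiffOn ℝ ∞ F (Metric.ball z R)) :
    ∃ F' : E2 → E3, ContDiff ℝ ∞ F' ∧ ∀ x ∈ Metric.ball z (3 * r), F' =ᶠ[nhds x] F := by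
  let f : ContDiffBump z :=
    { rIn := 3 * r, rOut := (3 * r + R) / 2, rIn_pos := by positivity, rIn_lt_rOut := by linarith }
  refine ⟨fun x => f x • F x, ?_, ?_⟩
  · rw [contDiff_iff_contDiffAt]
    intro x
    by_cases hx : x ∈ Metric.ball z R
    · exact f.contDiffAt.smul (hF.contDiffAt (Metric.isOpen_ball.mem_nhds hx))
    · have hx' : x ∉ tsupport f := by
        rw [f.tsupport_eq, Metric.mem_closedBall, not_le]
        rw [Metric.mem_ball, not_lt] at hx
        have : f.rOut = (3 * r + R) / 2 := rfl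
        rw [this]; linarith
      have h0 : (fun x => f x • F x) =ᶠ[nhds x] fun _ => 0 := by
        have := notMem_tsupport_iff_eventuallyEq.1 hx'
        filter_upwards [this] with y hy
        simp only [Pi.zero_apply] at hy
        rw [hy, zero_smul]
      exact (contDiffAt_const (c := (0 : E3))).congr_of_eventuallyEq h0
  · intro x hx
    have hb : Metric.ball z (3 * r) ∈ nhds x := Metric.isOpen_ball.mem_nhds hx
    filter_upwards [hb] with y hy
    have : f y = 1 := f.one_of_mem_closedBall (Metric.ball_subset_closedBall hy)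
    rw [this, one_smul]

theorem exists_min_pos {J : ℕ} (f : Fin (J + 1) → ℝ) (hf : ∀ j, 0 < f j) :
    ∃ d : ℝ, 0 < d ∧ ∀ j, d ≤ f j := by
  obtain ⟨j, hj⟩ := Finite.exists_min f
  exact ⟨f j, hf j, hj⟩

/-- two orthonormal vectors of the plane form a basis -/
theorem comb2 {a1 a2 : E2} (h1 : ‖a1‖ = 1) (h2 : ‖a2‖ = 1) (h12 : inner ℝ a1 a2 = 0) (x : E2) :
    x = (inner ℝ x a1 : ℝ) • a1 + (inner ℝ x a2 : ℝ) • a2 := by
  have hon : Orthonormal ℝ ![a1, a2] := by
    constructor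
    · intro i; fin_cases i <;> simp [h1, h2]
    · intro i j hij
      fin_cases i <;> fin_cases j <;>
        simp_all [real_inner_comm]
  have hcard : Fintype.card (Fin 2) = Module.finrank ℝ E2 := by simp
  let B := (basisOfOrthonormalOfCardEqFinrank hon hcard)
  have hB : ⇑B = ![a1, a2] := coe_basisOfOrthonormalOfCardEqFinrank hon hcard
  let OB := B.toOrthonormalBasis (by rw [hB]; exact hon)
  have hOB : ⇑OB = ![a1, a2] := by
    rw [Module.Basis.coe_toOrthonormalBasis, hB]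
  have := OB.sum_repr' x
  rw [Fin.sum_univ_two, hOB] at this
  simp only [Matrix.cons_val_zero, Matrix.cons_val_one] at this
  rw [real_inner_comm x a1, real_inner_comm x a2] at this
  exact this.symm

/-- pigeonhole for colours -/
theorem exists_class {n K : ℕ} (hK : 0 < K) (col : (Fin n → Bool) → Fin K) :
    ∃ T : Finset (Fin n → Bool), 2 ^ n ≤ K * T.card ∧
      ∀ b ∈ T, ∀ b' ∈ T, col b = col b' := by
  classical
  have : Nonempty (Fin K) := ⟨⟨0, hK⟩⟩
  obtain ⟨y, hy⟩ := Fintype.exists_le_card_fiber_of_nsmul_le_card (M := ℝ) col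
    (b := (2 : ℝ) ^ n / K) (by
      have : (K : ℝ) ≠ 0 := by exact_mod_cast hK.ne'
      simp only [Fintype.card_fin, nsmul_eq_mul, Fintype.card_pi, Fintype.card_bool,
        Finset.prod_const, Finset.card_univ]
      push_cast
      rw [mul_div_cancel₀ _ this])
  refine ⟨Finset.univ.filter fun b => col b = y, ?_, ?_⟩
  · have hK' : (0 : ℝ) < K := by exact_mod_cast hK
    rw [div_le_iff₀ hK'] at hy
    have : ((2 ^ n : ℕ) : ℝ) ≤ ((K * (Finset.univ.filter fun b => col b = y).card : ℕ) : ℝ) := by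
      push_cast
      linarith
    exact_mod_cast this
  · intro b hb b' hb'
    rw [Finset.mem_filter] at hb hb'
    rw [hb.2, hb'.2]

/-- data of an immersion near `z`, extended smoothly -/
structure Imm (z e : E2) (r M θ : ℝ) (v : E2 → ℝ) (F : E2 → E3) : Prop where
  sm : ContDiff ℝ ∞ F
  met : ∀ x ∈ Metric.ball z (3 * r), ∀ a b, inner ℝ (fderiv ℝ F x a) (fderiv ℝ F x b)
      = Real.exp (2 * v x) * inner ℝ a b
  bd : ∀ j ≤ 5, ∀ x ∈ Metric.ball z (3 * r), ‖iteratedFDeriv ℝ j F x‖ ≤ M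
  big : θ ≤ ‖fderiv ℝ (fderiv ℝ F) z e e‖

theorem exists_imm {z e : E2} {r R M M' θ : ℝ} {v : E2 → ℝ} (hr : 0 < r) (hR : 3 * r < R)
    (hMM : M ≤ M') (F : E2 → E3) (hF : ContDiffOn ℝ ∞ F (Metric.ball z R))
    (hm : ∀ x ∈ Metric.ball z R, ∀ a b, inner ℝ (fderiv ℝ F x a) (fderiv ℝ F x b)
      = Real.exp (2 * v x) * inner ℝ a b)
    (hb : ∀ j ≤ 5, ∀ x ∈ Metric.ball z R, ‖iteratedFDeriv ℝ j F x‖ ≤ M)
    (hθ : θ ≤ ‖fderiv ℝ (fderiv ℝ F) z e e‖) : ∃ F', Imm z e r M' θ v F' := by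
  obtain ⟨F', hF', he⟩ := exists_ext F z r R hr hR hF
  have hsub : Metric.ball z (3 * r) ⊆ Metric.ball z R := Metric.ball_subset_ball hR.le
  refine ⟨F', hF', ?_, ?_, ?_⟩
  · intro x hx a b
    rw [(he x hx).fderiv_eq]
    exact hm x (hsub hx) a b
  · intro j hj x hx
    rw [((he x hx).iteratedFDeriv (𝕜 := ℝ) j).eq_of_nhds]
    exact (hb j hj x (hsub hx)).trans hMM
  · have hz : z ∈ Metric.ball z (3 * r) := Metric.mem_ball_self (by positivity)
    rw [((he z hz).fderiv).fderiv_eq]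
    exact hθ

/-- the exponent in a frame -/
theorem vb_pt {n : ℕ} {kg r ρ : ℝ} {L : ℕ} {ce : ℝ} {z e : E2} {b : Fin n → Bool}
    (hr : r ≠ 0) {a1 a2 : E2} (h1 : ‖a1‖ = 1) (h2 : ‖a2‖ = 1) (h12 : inner ℝ a1 a2 = 0) :
    (fun w => Red.vb kg r ρ L ce z e b (pt z r a1 a2 w))
      = fun w => kg * expo ρ L ce (inner ℝ e a1) (inner ℝ e a2) b w := by
  funext w
  exact Red.vb_chart hr h1 h2 h12 (comb2 h1 h2 h12 e) w

theorem inner_sq_add {a1 a2 e : E2} (h1 : ‖a1‖ = 1) (h2 : ‖a2‖ = 1) (h12 : inner ℝ a1 a2 = 0)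
    (he : ‖e‖ = 1) : (inner ℝ e a1 : ℝ) ^ 2 + (inner ℝ e a2 : ℝ) ^ 2 = 1 := by
  have := Red.norm_sq_comb h1 h2 h12 (inner ℝ e a1) (inner ℝ e a2)
  rw [← comb2 h1 h2 h12 e, he] at this
  linarith

theorem vb_frame {n : ℕ} {kg r ρ : ℝ} {L : ℕ} {ce : ℝ} {z e : E2} {b : Fin n → Bool}
    (hr : r ≠ 0) (hρ : 0 < ρ) (hρ1 : ρ ≤ 1) (hce : 0 < ce) (hce1 : ce ≤ 1) (he : ‖e‖ = 1)
    {a1 a2 : E2} (h1 : ‖a1‖ = 1) (h2 : ‖a2‖ = 1) (h12 : inner ℝ a1 a2 = 0) :
    dx (fun w => Red.vb kg r ρ L ce z e b (pt z r a1 a2 w)) 0 = 0 ∧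
    dy (fun w => Red.vb kg r ρ L ce z e b (pt z r a1 a2 w)) 0 = 0 ∧
    dx (dx (fun w => Red.vb kg r ρ L ce z e b (pt z r a1 a2 w))) 0
      + dy (dy (fun w => Red.vb kg r ρ L ce z e b (pt z r a1 a2 w))) 0 = kg / 4 := by
  rw [vb_pt hr h1 h2 h12]
  obtain ⟨g0, g1, g2, g3⟩ := Red.expo_at_zero' hρ hρ1 (L := L) hce hce1
    (inner_sq_add h1 h2 h12 he) b
  have hs := contDiff_expo ρ L ce (inner ℝ e a1) (inner ℝ e a2) b
  have ex : dx (fun w => kg * expo ρ L ce (inner ℝ e a1) (inner ℝ e a2) b w)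
      = fun w => kg * dx (expo ρ L ce (inner ℝ e a1) (inner ℝ e a2) b) w :=
    funext (dx_const_mul kg hs)
  have ey : dy (fun w => kg * expo ρ L ce (inner ℝ e a1) (inner ℝ e a2) b w)
      = fun w => kg * dy (expo ρ L ce (inner ℝ e a1) (inner ℝ e a2) b) w :=
    funext (dy_const_mul kg hs)
  refine ⟨?_, ?_, ?_⟩
  · rw [ex]; simp only; rw [g1, mul_zero]
  · rw [ey]; simp only; rw [g2, mul_zero]
  · rw [ex, ey, dx_const_mul kg (contDiff_dx hs), dy_const_mul kg (contDiff_dy hs)]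
    rw [← mul_add, g3]; ring

theorem vb_center {n : ℕ} {kg r ρ : ℝ} {L : ℕ} {ce : ℝ} {z e : E2} {b : Fin n → Bool}
    (hr : r ≠ 0) (hρ : 0 < ρ) (hρ1 : ρ ≤ 1) (hce : 0 < ce) (hce1 : ce ≤ 1) (he : ‖e‖ = 1) :
    Red.vb kg r ρ L ce z e b z = 0 ∧ fderiv ℝ (Red.vb kg r ρ L ce z e b) z = 0 := by
  have n1 : ‖(EuclideanSpace.single 0 1 : E2)‖ = 1 := by simp
  have n2 : ‖(EuclideanSpace.single 1 1 : E2)‖ = 1 := by simp
  have n12 : inner ℝ (EuclideanSpace.single 0 1 : E2) (EuclideanSpace.single 1 1) = 0 := by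
    rw [EuclideanSpace.inner_single_left]; simp
  obtain ⟨hx, hy, -⟩ := vb_frame (n := n) (kg := kg) (L := L) (z := z) (b := b) hr hρ hρ1 hce
    hce1 he n1 n2 n12
  constructor
  · have := congrFun (vb_pt (n := n) (kg := kg) (L := L) (z := z) (b := b) (ρ := ρ) (ce := ce)
      (e := e) hr n1 n2 n12) 0
    simp only [RN.pt_zero] at this
    rw [this, (Red.expo_at_zero' hρ hρ1 (L := L) hce hce1 (inner_sq_add n1 n2 n12 he) b).1,
      mul_zero]
  · have hd : DifferentiableAt ℝ (Red.vb kg r ρ L ce z e b)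
        (pt z r (EuclideanSpace.single 0 1) (EuclideanSpace.single 1 1) 0) :=
      (Red.contDiff_vb kg r ρ L ce z e b).differentiable (by simp) _
    have hc := hd.hasFDerivAt.comp (0 : PP) (RN.hasFDerivAt_pt z r
      (EuclideanSpace.single 0 1) (EuclideanSpace.single 1 1) 0)
    have hc' : HasFDerivAt (fun w => Red.vb kg r ρ L ce z e b
      (pt z r (EuclideanSpace.single 0 1) (EuclideanSpace.single 1 1) w)) _ 0 := hc
    rw [dx_of hc', RN.pt_zero] at hx
    rw [dy_of hc', RN.pt_zero] at hy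
    simp only [ContinuousLinearMap.comp_apply, smul_apply, add_apply,
      ContinuousLinearMap.smulRight_apply, ContinuousLinearMap.coe_fst',
      ContinuousLinearMap.coe_snd', one_smul, zero_smul, add_zero, zero_add, map_smul,
      smul_eq_mul, mul_eq_zero, hr, false_or] at hx hy
    ext x
    rw [comb2 n1 n2 n12 x, map_add, map_smul, map_smul, hx, hy]
    simp

end Crest.Agent.Iso341.RP
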