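import Crest.Agent.Iso341.RedParam
import Crest.Agent.Iso341.RedFrame
import Crest.Agent.Iso341.Color

/-! S0341, REDUCE: `CoreStatement → PocketStatement`. -/

set_option autoImplicit false

open MeasureTheory Set
open scoped ContDiff

namespace Crest.Agent.Iso341

open RN RP

namespace RP

/-- frame of an immersion with the pocket exponent, with the bounds on the curvatures -/
theorem frame_of_imm {n : ℕ} {kg r ρ M θ : ℝ} {L : ℕ} {ce : ℝ} {z e : E2} {b : Fin n → Bool}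
    (hr : 0 < r) (hρ : 0 < ρ) (hρ1 : ρ ≤ 1) (hce : 0 < ce) (hce1 : ce ≤ 1)
    (he : ‖e‖ = 1) (hθ : 0 < θ) {F : E2 → E3}
    (hF : Imm z e r M θ (Red.vb kg r ρ L ce z e b) F) :
    ∃ (a1 a2 : E2) (E1 E2' E3' : E3) (μ1 μ2 : ℝ), Frame F z e a1 a2 E1 E2' E3' μ1 μ2 ∧
      θ ≤ μ1 ∧ μ1 ≤ M ∧ r ^ 2 * (μ1 * μ2) = - (kg / 4) := by
  have h3 : 0 < 3 * r := by positivity
  have hz : z ∈ Metric.ball z (3 * r) := Metric.mem_ball_self h3
  obtain ⟨hv0, hv1⟩ := vb_center (n := n) (kg := kg) (L := L) (z := z) (b := b) hr.ne' hρ hρ1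
    hce hce1 he
  have hvs : ContDiff ℝ ∞ (Red.vb kg r ρ L ce z e b) := Red.contDiff_vb kg r ρ L ce z e b
  obtain ⟨a1, a2, E1, E2', E3', μ1, μ2, h⟩ := exists_frame F (Red.vb kg r ρ L ce z e b) z e
    (Metric.ball z (3 * r)) Metric.isOpen_ball hz hF.sm.contDiffOn hvs.contDiffOn hF.met hv0 hv1 he
    (fun h0 => by have := hF.big; rw [h0, norm_zero] at this; linarith)
  obtain ⟨hx, hy, hxy⟩ := vb_frame (n := n) (kg := kg) (L := L) (z := z) (b := b) hr.ne' hρ hρ1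
    hce hce1 he h.na1 h.na2 h.a12
  refine ⟨a1, a2, E1, E2', E3', μ1, μ2, h, hF.big.trans h.ne, ?_, ?_⟩
  · have e1 := hF.bd 2 (by norm_num) z hz
    have e2 := ContinuousMultilinearMap.le_opNorm (iteratedFDeriv ℝ 2 F z) ![a1, a1]
    have e3 : iteratedFDeriv ℝ 2 F z ![a1, a1] = μ1 • E3' := by
      rw [iteratedFDeriv_two_apply]; simpa using h.h11
    rw [e3, norm_smul, h.nE3, mul_one, Fin.prod_univ_two] at e2
    simp only [Matrix.cons_val_zero, Matrix.cons_val_one, h.na1, mul_one] at e2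
    exact (le_abs_self μ1).trans (e2.trans e1)
  · have := frame_gauss F (Red.vb kg r ρ L ce z e b) z e r (3 * r) hr h3 hF.sm.contDiffOn hvs
      hF.met a1 a2 E1 E2' E3' μ1 μ2 h hv0 hx hy
    rw [hxy] at this
    exact this

/-- `Near` is stable under small perturbations -/
theorem near_add {δ : ℝ} {X Y f X' Y' f' : PP → ℝ} (h : Near (δ / 2) X Y f)
    (hX : ContDiff ℝ ∞ X') (hY : ContDiff ℝ ∞ Y') (hf : ContDiff ℝ ∞ f')
    (ho : ∀ z : PP, 4 ≤ z.1 ^ 2 + z.2 ^ 2 → X' z = z.1 ∧ Y' z = z.2 ∧ f' z = z.1 ^ 2 / 2)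
    (cX : Cl 4 (fun z => X' z - X z) univ (δ / 2)) (cY : Cl 4 (fun z => Y' z - Y z) univ (δ / 2))
    (cf : Cl 4 (fun z => f' z - f z) univ (δ / 2)) : Near δ X' Y' f' := by
  have e : δ / 2 + δ / 2 = δ := by ring
  have hsq : ContDiff ℝ ∞ (fun w : PP => w.1 ^ 2 / 2) := by fun_prop
  refine ⟨hX, hY, hf, ho, ?_, ?_, ?_⟩
  · have := Test.Cl.add (hX.sub h.smX) (h.smX.sub contDiff_fst) cX h.clX
    rw [e] at this
    have e2 : (fun z : PP => X' z - X z + (X z - z.1)) = fun z => X' z - z.1 := by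
      funext z; ring
    rw [e2] at this
    exact this
  · have := Test.Cl.add (hY.sub h.smY) (h.smY.sub contDiff_snd) cY h.clY
    rw [e] at this
    have e2 : (fun z : PP => Y' z - Y z + (Y z - z.2)) = fun z => Y' z - z.2 := by
      funext z; ring
    rw [e2] at this
    exact this
  · have := Test.Cl.add (hf.sub h.smf) (h.smf.sub hsq) cf h.clf
    rw [e] at this
    have e2 : (fun z : PP => f' z - f z + (f z - z.1 ^ 2 / 2)) = fun z => f' z - z.1 ^ 2 / 2 := by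
      funext z; ring
    rw [e2] at this
    exact this

end RP

set_option maxHeartbeats 4000000 in
theorem pocket_of_core (h : CoreStatement) : PocketStatement := by
  intro M₀ θ ε R N z e hθ hε hR he
  -- constants
  obtain ⟨M, hM1, hMM⟩ : ∃ M : ℝ, 1 ≤ M ∧ M₀ ≤ M := ⟨max M₀ 1, le_max_right _ _, le_max_left _ _⟩
  have hM0 : 0 < M := by linarith
  obtain ⟨ce, hce, hce1, hceM⟩ : ∃ ce : ℝ, 0 < ce ∧ ce ≤ 1 ∧ ce * (2 * M) ≤ θ := by
    refine ⟨min 1 (θ / (2 * M)), by positivity, min_le_left _ _, ?_⟩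
    calc min 1 (θ / (2 * M)) * (2 * M) ≤ θ / (2 * M) * (2 * M) :=
          mul_le_mul_of_nonneg_right (min_le_right _ _) (by positivity)
      _ = θ := by field_simp
  obtain ⟨δ, κs, hδ, hκs, H⟩ := h ce hce hce1
  obtain ⟨Cn, hCn, hnear⟩ := near_base
  have hCn0 : 0 < Cn := by linarith
  set η : ℝ := δ / 2 / Cn with hηdef
  have hη : 0 < η := by positivity
  have hCη : Cn * η = δ / 2 := by rw [hηdef]; field_simp
  obtain ⟨r, hr, hr1, hrR, hrM, hrη, hrθ, hrηθ⟩ : ∃ r : ℝ, 0 < r ∧ r ≤ 1 ∧ 3 * r < R ∧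
      r * M ≤ 1 ∧ r * M ≤ η ∧ r * θ ≤ 1 ∧ r * M ≤ η * θ := by
    refine ⟨min 1 (min (R / 4) (min (1 / M) (min (η / M) (min (1 / θ) (η * θ / M))))),
      by positivity, min_le_left _ _, ?_, ?_, ?_, ?_, ?_⟩
    · have : min 1 (min (R / 4) (min (1 / M) (min (η / M) (min (1 / θ) (η * θ / M))))) ≤ R / 4 :=
        (min_le_right _ _).trans (min_le_left _ _)
      linarith
    · rw [← le_div_iff₀ hM0]
      exact (min_le_right _ _).trans ((min_le_right _ _).trans (min_le_left _ _))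
    · rw [← le_div_iff₀ hM0]
      exact (min_le_right _ _).trans ((min_le_right _ _).trans ((min_le_right _ _).trans
        (min_le_left _ _)))
    · rw [← le_div_iff₀ hθ]
      exact (min_le_right _ _).trans ((min_le_right _ _).trans ((min_le_right _ _).trans
        ((min_le_right _ _).trans (min_le_left _ _))))
    · rw [← le_div_iff₀ hM0]
      exact (min_le_right _ _).trans ((min_le_right _ _).trans ((min_le_right _ _).trans
        ((min_le_right _ _).trans (min_le_right _ _))))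
  have hrθ0 : 0 < r * θ := by positivity
  obtain ⟨Cv, hCv, hvb⟩ := Red.vb_bound N
  obtain ⟨kg, hkg, hkg1, hkg2, hkg3⟩ : ∃ kg : ℝ, 0 < kg ∧ kg ≤ κs * (r * θ) ^ 2 ∧
      Cv * (kg / r ^ N) ≤ ε ∧ kg ≤ min (2 * (r ^ 2 * θ ^ 2)) (4 * (r ^ 2 * θ ^ 2) * η) := by
    refine ⟨min (κs * (r * θ) ^ 2) (min (ε * r ^ N / Cv)
      (min (2 * (r ^ 2 * θ ^ 2)) (4 * (r ^ 2 * θ ^ 2) * η))), by positivity, min_le_left _ _,
      ?_, (min_le_right _ _).trans (min_le_right _ _)⟩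
    have hrN : 0 < r ^ N := by positivity
    have : min (κs * (r * θ) ^ 2) (min (ε * r ^ N / Cv)
      (min (2 * (r ^ 2 * θ ^ 2)) (4 * (r ^ 2 * θ ^ 2) * η))) ≤ ε * r ^ N / Cv :=
      (min_le_right _ _).trans (min_le_left _ _)
    rw [le_div_iff₀ hCv] at this
    rw [← mul_div_assoc, div_le_iff₀ hrN]
    linarith
  have hkg4 : kg ≤ 2 * (r ^ 2 * θ ^ 2) := hkg3.trans (min_le_left _ _)
  have hkg5 : kg ≤ 4 * (r ^ 2 * θ ^ 2) * η := hkg3.trans (min_le_right _ _)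
  set L : ℕ := max 8 (N + 1) with hL
  have hL8 : 8 ≤ L := le_max_left _ _
  have hLN : N + 1 ≤ L := le_max_right _ _
  -- the grid
  obtain ⟨J, hJ⟩ := pow_unbounded_of_one_lt (M / θ) (show (1 : ℝ) < 1 + η by linarith)
  set μ : Fin (J + 1) → ℝ := fun j => min 1 (r * θ * (1 + η) ^ (j : ℕ)) with hμdef
  have hμ0 : ∀ j, 0 < μ j := fun j => by simp only [hμdef]; positivity
  have hμ1 : ∀ j, μ j ≤ 1 := fun j => min_le_left _ _
  have hμθ : ∀ j, r * θ ≤ μ j := fun j => le_min hrθ (by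
    have : (1 : ℝ) ≤ (1 + η) ^ (j : ℕ) := one_le_pow₀ (by linarith)
    nlinarith)
  have hκ0 : ∀ j, 0 < kg / μ j ^ 2 := fun j => by have := hμ0 j; positivity
  have hκs' : ∀ j, kg / μ j ^ 2 ≤ κs := fun j => by
    have h0 := hμ0 j
    rw [div_le_iff₀ (by positivity)]
    refine hkg1.trans (mul_le_mul_of_nonneg_left ?_ hκs.le)
    have := hμθ j
    nlinarith
  have hm0 : ∀ j, 0 < μ j ^ 2 := fun j => by have := hμ0 j; positivity
  have hm1 : ∀ j, μ j ^ 2 ≤ 1 := fun j => by have := hμ0 j; have := hμ1 j; nlinarith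
  choose δ₁ cn hδ₁ hcn H2 using fun j => H (kg / μ j ^ 2) (μ j ^ 2) (hκ0 j) (hκs' j) (hm0 j)
    (hm1 j) L hL8
  obtain ⟨δm, hδm, hδmle⟩ := exists_min_pos δ₁ hδ₁
  obtain ⟨cm, hcm, hcmle⟩ := exists_min_pos cn hcn
  obtain ⟨c', hc', hc'1, hc'2, hc'3⟩ : ∃ c' : ℝ, 0 < c' ∧ c' ≤ cm ∧ c' ≤ 1 ∧
      c' ≤ ce / 512 :=
    ⟨min cm (min 1 (ce / 512)), by positivity, min_le_left _ _,
      (min_le_right _ _).trans (min_le_left _ _), (min_le_right _ _).trans (min_le_right _ _)⟩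
  -- colours
  obtain ⟨Cg, hCg, hgc⟩ := gc_bound
  set δd : ℝ := min δm (δ / 2) with hδd
  have hδd0 : 0 < δd := by positivity
  set ηc : ℝ := δd * (r * θ) / 48 with hηc
  have hηc0 : 0 < ηc := by positivity
  obtain ⟨Nc, col, hcol⟩ := exists_coloring 4 2 (Cg * M / r) ηc (by norm_num) hηc0
  set K : ℕ := (Nc + 1) * ((Nc + 1) * (Nc + 1)) with hK
  have hK0 : 0 < K := by positivity
  choose ρ₀ hρ₀ H3 using fun j => H2 j c' hc' (hc'1.trans (hcmle j)) K
  obtain ⟨ρm, hρm, hρmle⟩ := exists_min_pos ρ₀ hρ₀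
  -- choice of n and ρ
  obtain ⟨n, ρ, hρ, hρ1, hρm', hnρ⟩ : ∃ (n : ℕ) (ρ : ℝ), 0 < ρ ∧ ρ ≤ 1 ∧ ρ ≤ ρm ∧
      n * ρ = c' := by
    obtain ⟨n, hn⟩ := exists_nat_gt (c' / min 1 ρm)
    have hmin : 0 < min 1 ρm := by positivity
    have hn0 : (0 : ℝ) < n := lt_of_le_of_lt (by positivity) hn
    have hle : c' / n ≤ min 1 ρm := by
      rw [div_le_iff₀ hn0]
      rw [div_lt_iff₀ hmin] at hn
      linarith
    exact ⟨n, c' / n, by positivity, hle.trans (min_le_left _ _), hle.trans (min_le_right _ _),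
      by field_simp⟩
  have hnρ1 : (n : ℝ) * ρ ≤ 1 := by rw [hnρ]; exact hc'2
  have hn64 : 8 * ρ * n / ce ≤ 1 / 64 := by
    rw [div_le_iff₀ hce]
    have : 8 * ρ * n = 8 * c' := by rw [← hnρ]; ring
    rw [this]; linarith
  -- contradiction hypothesis
  by_contra hcon
  push Not at hcon
  have hex : ∀ b : Fin n → Bool, ∃ F, Imm z e r M θ (Red.vb kg r ρ L ce z e b) F := by
    intro b
    obtain ⟨F, hF, hm, hb, hbig⟩ := hcon (Red.vb kg r ρ L ce z e b)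
      (Red.contDiff_vb kg r ρ L ce z e b)
      (fun x hx => Red.vb_support hr hρ hρ1 hce he hn64 (by linarith))
      (fun j hj x => (hvb kg r ρ L n ce z e b hkg.le hr hr1 hρ hρ1 hLN hnρ1 j hj x).trans hkg2)
    exact exists_imm hr hrR hMM F hF hm hb hbig
  choose F hF using hex
  -- colour classes
  obtain ⟨T, hTcard, hTcol⟩ := exists_class hK0 (fun b => finProdFinEquiv
    (col (gc z r (F b) 0), finProdFinEquiv (col (gc z r (F b) 1), col (gc z r (F b) 2))))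
  have hTne : T.Nonempty := by
    rw [Finset.nonempty_iff_ne_empty]
    rintro rfl
    simp at hTcard
  obtain ⟨b₀, hb₀⟩ := hTne
  have hcl5 : ∀ b k, Cl 5 (gc z r (F b) k) (Metric.closedBall 0 2) (Cg * M / r) := fun b k =>
    Test.Cl.anti (hgc z r M (F b) k hr hr1 (hF b).sm (hF b).bd) (subset_univ _)
  have hgs : ∀ b k, ContDiff ℝ ∞ (gc z r (F b) k) := fun b k => gc_smooth z r (F b) k (hF b).sm
  have hclose : ∀ b ∈ T, ∀ b' ∈ T, ∀ k, Cl 4 (fun w => gc z r (F b) k w - gc z r (F b') k w)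
      (Metric.closedBall 0 2) ηc := by
    intro b hb b' hb' k
    refine hcol _ _ (hgs b k) (hgs b' k) (hcl5 b k) (hcl5 b' k) ?_
    have := hTcol b hb b' hb'
    have h1 := finProdFinEquiv.injective this
    rw [Prod.mk.injEq] at h1
    obtain ⟨g0, g1⟩ := h1
    have h2 := finProdFinEquiv.injective g1
    rw [Prod.mk.injEq] at h2
    obtain ⟨g1, g2⟩ := h2
    fin_cases k
    · exact g0
    · exact g1
    · exact g2
  -- the frame of the base immersion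
  obtain ⟨a1, a2, E1, E2', E3', μ1, μ2, hfr, hμ1θ, hμ1M, hgauss⟩ :=
    frame_of_imm hr hρ hρ1 hce hce1 he hθ (hF b₀)
  have hμ1pos : 0 < μ1 := by linarith
  have hμ2 : r ^ 2 * (μ1 * |μ2|) = kg / 4 := by
    have h1 : |r ^ 2 * (μ1 * μ2)| = kg / 4 := by
      rw [hgauss, abs_neg, abs_of_pos (by positivity)]
    rw [abs_mul, abs_mul, abs_of_pos hμ1pos, abs_of_pos (by positivity : 0 < r ^ 2)] at h1
    exact h1
  have hμ2' : r ^ 2 * (θ * |μ2|) ≤ kg / 4 := by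
    rw [← hμ2]
    have := abs_nonneg μ2
    gcongr
  -- direction
  set c : ℝ := inner ℝ e a1 with hc
  set s : ℝ := inner ℝ e a2 with hs
  have hcs : c ^ 2 + s ^ 2 = 1 := inner_sq_add hfr.na1 hfr.na2 hfr.a12 he
  have hcce : ce ≤ |c| := by
    have h1 : θ ≤ μ1 * c ^ 2 + |μ2| := (hF b₀).big.trans hfr.nee
    have h2 : |μ2| ≤ θ / 2 := by
      have hr2 : 0 < r ^ 2 := by positivity
      have : r ^ 2 * (θ * |μ2|) ≤ r ^ 2 * (θ * (θ / 2)) := by
        refine hμ2'.trans ?_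
        have := hkg4
        nlinarith
      have := le_of_mul_le_mul_left this hr2
      exact le_of_mul_le_mul_left this hθ
    have h3 : θ / 2 ≤ M * c ^ 2 := by
      have : μ1 * c ^ 2 ≤ M * c ^ 2 := mul_le_mul_of_nonneg_right hμ1M (sq_nonneg _)
      linarith
    have h4 : ce ≤ c ^ 2 := by
      have : M * ce ≤ M * c ^ 2 := by linarith
      exact le_of_mul_le_mul_left this hM0
    have h5 : ce ^ 2 ≤ |c| ^ 2 := by rw [sq_abs]; nlinarith
    exact (pow_le_pow_iff_left₀ hce.le (abs_nonneg c) (by norm_num)).1 h5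
  -- the grid value
  obtain ⟨j0, hj1, hj2⟩ := exists_nat_pow_near (show 1 ≤ μ1 / θ by rw [le_div_iff₀ hθ]; linarith)
    (show (1 : ℝ) < 1 + η by linarith)
  rw [le_div_iff₀ hθ] at hj1
  rw [div_lt_iff₀ hθ] at hj2
  have hjJ : j0 < J := by
    by_contra hge
    push Not at hge
    have e1 : (1 + η) ^ J ≤ (1 + η) ^ j0 := pow_le_pow_right₀ (by linarith) hge
    have e2 : (1 + η) ^ J * θ ≤ (1 + η) ^ j0 * θ := mul_le_mul_of_nonneg_right e1 hθ.le
    rw [div_lt_iff₀ hθ] at hJ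
    linarith
  obtain ⟨j, hj⟩ : ∃ j : Fin (J + 1), (j : ℕ) = j0 := ⟨⟨j0, by omega⟩, rfl⟩
  have hq0 : r * θ * (1 + η) ^ j0 ≤ r * μ1 := by
    have := mul_le_mul_of_nonneg_left hj1 hr.le
    linarith
  have hrμ1 : r * μ1 ≤ 1 := (mul_le_mul_of_nonneg_left hμ1M hr.le).trans hrM
  have hμj : μ j = r * θ * (1 + η) ^ j0 := by
    simp only [hμdef, hj]
    exact min_eq_right (hq0.trans hrμ1)
  have hq1 : μ j ≤ r * μ1 := by rw [hμj]; exact hq0
  have hq2 : r * μ1 ≤ (1 + η) * μ j := by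
    rw [hμj]
    have := mul_le_mul_of_nonneg_left hj2.le hr.le
    calc r * μ1 ≤ r * ((1 + η) ^ (j0 + 1) * θ) := this
      _ = (1 + η) * (r * θ * (1 + η) ^ j0) := by ring
  have hμj0 := hμ0 j
  have hμjθ := hμθ j
  have ratio1 : |r * μ1 / μ j - 1| ≤ η := by
    rw [abs_le]
    constructor
    · have : 1 ≤ r * μ1 / μ j := by rw [le_div_iff₀ hμj0]; linarith
      linarith
    · have : r * μ1 / μ j ≤ 1 + η := by rw [div_le_iff₀ hμj0]; exact hq2
      linarith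
  have ratio2 : |r * μ2 / μ j| ≤ η := by
    rw [abs_div, abs_mul, abs_of_pos hr, abs_of_pos hμj0, div_le_iff₀ hμj0]
    have e1 : |μ2| ≤ η * θ := by
      have e2 : (r ^ 2 * θ) * |μ2| ≤ (r ^ 2 * θ) * (η * θ) := by
        calc (r ^ 2 * θ) * |μ2| = r ^ 2 * (θ * |μ2|) := by ring
          _ ≤ kg / 4 := hμ2'
          _ ≤ (4 * (r ^ 2 * θ ^ 2) * η) / 4 := by gcongr
          _ = (r ^ 2 * θ) * (η * θ) := by ring
      exact le_of_mul_le_mul_left e2 (by positivity)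
    calc r * |μ2| ≤ r * (η * θ) := mul_le_mul_of_nonneg_left e1 hr.le
      _ = η * (r * θ) := by ring
      _ ≤ η * μ j := mul_le_mul_of_nonneg_left hμjθ hη.le
  have hrr : r ^ 2 * M / μ j ≤ η := by
    rw [div_le_iff₀ hμj0]
    calc r ^ 2 * M = r * (r * M) := by ring
      _ ≤ r * (η * θ) := mul_le_mul_of_nonneg_left hrηθ hr.le
      _ = η * (r * θ) := by ring
      _ ≤ η * μ j := mul_le_mul_of_nonneg_left hμjθ hη.le
  obtain ⟨nb, gx, gy⟩ := hnear z e r M (μ j) η (F b₀) hr hr1 (hF b₀).sm hμj0 (hF b₀).bd a1 a2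
    E1 E2' E3' μ1 μ2 hfr hrη hrr ratio1 ratio2
  rw [hCη] at nb
  have h48 : 48 * ηc ≤ δd := by
    rw [hηc]
    have : δd * (r * θ) ≤ δd * 1 := mul_le_mul_of_nonneg_left hrθ hδd0.le
    linarith
  have h48' : 48 * ηc / μ j ≤ δd := by
    rw [div_le_iff₀ hμj0, hηc]
    have : δd * (r * θ) ≤ δd * μ j := mul_le_mul_of_nonneg_left hμjθ hδd0.le
    linarith
  have hcc : ∀ b ∈ T, ∀ b' ∈ T, ∀ E : E3, ‖E‖ = 1 →
      Cl 4 (fun w => XX z r a1 a2 (F b) (F b₀ z) E w - XX z r a1 a2 (F b') (F b₀ z) E w)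
        univ δd ∧
      Cl 4 (fun w => YY z r a1 a2 (F b) (F b₀ z) E w - YY z r a1 a2 (F b') (F b₀ z) E w)
        univ δd ∧
      Cl 4 (fun w => FF z r (μ j) a1 a2 (F b) (F b₀ z) E w
        - FF z r (μ j) a1 a2 (F b') (F b₀ z) E w) univ δd := by
    intro b hb b' hb' E hE
    obtain ⟨k1, k2, k3⟩ := close_of_color z r (μ j) ηc a1 a2 (F b) (F b') (F b₀ z) hμj0 hηc0.le
      (hF b).sm (hF b').sm hfr.na1 hfr.na2 hfr.a12 (hclose b hb b' hb') E hE
    exact ⟨Test.Cl.mono k1 h48, Test.Cl.mono k2 h48, Test.Cl.mono k3 h48'⟩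
  have hδdm : δd ≤ δ₁ j := (min_le_left _ _).trans (hδmle j)
  have hδd2 : δd ≤ δ / 2 := min_le_right _ _
  have hsX : ∀ b E, _ := fun b E => smooth_XYF z r (μ j) a1 a2 (F b) (F b₀ z) E (hF b).sm
  refine H3 j ρ hρ (hρm'.trans (hρmle j)) n hnρ.le (by rw [← hnρ]; nlinarith) c s hcs hcce T
    (by exact_mod_cast hTcard)
    (fun b => XX z r a1 a2 (F b) (F b₀ z) E1) (fun b => YY z r a1 a2 (F b) (F b₀ z) E2')
    (fun b => FF z r (μ j) a1 a2 (F b) (F b₀ z) E3') ?_ ?_ ?_ ?_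
  · intro b hb
    refine near_add nb (hsX b E1).1 (hsX b E2').2.1 (hsX b E3').2.2
      (fun w hw => out_XYF z r (μ j) a1 a2 (F b) (F b₀ z) E1 E2' E3' w hw) ?_ ?_ ?_
    · exact Test.Cl.mono (hcc b hb b₀ hb₀ E1 hfr.nE1).1 hδd2
    · exact Test.Cl.mono (hcc b hb b₀ hb₀ E2' hfr.nE2).2.1 hδd2
    · exact Test.Cl.mono (hcc b hb b₀ hb₀ E3' hfr.nE3).2.2 hδd2
  · intro b hb b' hb'
    exact ⟨Test.Cl.mono (hcc b hb b' hb' E1 hfr.nE1).1 hδdm,
      Test.Cl.mono (hcc b hb b' hb' E2' hfr.nE2).2.1 hδdm,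
      Test.Cl.mono (hcc b hb b' hb' E3' hfr.nE3).2.2 hδdm⟩
  · intro b hb
    have k3 := (hcc b hb b₀ hb₀ E3' hfr.nE3).2.2
    have s1 := (hsX b E3').2.2
    have s2 := (hsX b₀ E3').2.2
    constructor
    · have := Test.Cl.bd (Test.Cl.dx k3) 0 (mem_univ _)
      rw [dx_sub s1 s2, gx, sub_zero] at this
      exact this.trans hδdm
    · have := Test.Cl.bd (Test.Cl.dy k3) 0 (mem_univ _)
      rw [dy_sub s1 s2, gy, sub_zero] at this
      exact this.trans hδdm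
  · intro b hb w hw
    have hmet := metric_XYF z r (μ j) a1 a2 (F b) (Red.vb kg r ρ L ce z e b) (F b₀ z) E1 E2' E3'
      hr hμj0 (hF b).sm (hF b).met hfr.na1 hfr.na2 hfr.a12 hfr.nE1 hfr.nE2 hfr.nE3 hfr.E12
      hfr.E13 hfr.E23 w hw
    have hv := congrFun (vb_pt (n := n) (kg := kg) (L := L) (z := z) (b := b) (ρ := ρ) (ce := ce)
      (e := e) hr.ne' hfr.na1 hfr.na2 hfr.a12) w
    rw [hv] at hmet
    have hkk : kg / μ j ^ 2 * μ j ^ 2 = kg := by field_simp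
    rw [hkk]
    exact hmet

end Crest.Agent.Iso341
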