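import Crest.Agent.Iso341.Calc

/-! S0341, part SLAB, file 1: the weighted energy inequality for the operator `LL` inside the
hyperbolic disc `p² + Y² ≤ 9/64`, with a time function `t = -s x + c y`. -/

set_option autoImplicit false

open MeasureTheory Set
open scoped ContDiff

namespace Crest.Agent.Iso341.Slab

/-- the time function -/
def tf (c s : ℝ) (z : PP) : ℝ := -s * z.1 + c * z.2

theorem contDiff_tf (c s : ℝ) : ContDiff ℝ ∞ (tf c s) := by
  unfold tf; fun_prop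

theorem dx_tf (c s : ℝ) (z : PP) : dx (tf c s) z = -s := by
  have h : tf c s = fun w : PP => -s * w.1 + c * w.2 := rfl
  rw [h, dx_add (contDiff_const.mul contDiff_fst) (contDiff_const.mul contDiff_snd),
    dx_const_mul _ contDiff_fst, dx_const_mul _ contDiff_snd, dx_fst, dx_snd]; ring

theorem dy_tf (c s : ℝ) (z : PP) : dy (tf c s) z = c := by
  have h : tf c s = fun w : PP => -s * w.1 + c * w.2 := rfl
  rw [h, dy_add (contDiff_const.mul contDiff_fst) (contDiff_const.mul contDiff_snd),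
    dy_const_mul _ contDiff_fst, dy_const_mul _ contDiff_snd, dy_fst, dy_snd]; ring

section basic

variable {δ c s ce : ℝ} {p Y f : PP → ℝ}

theorem _root_.Crest.Agent.Iso341.Chart.slab_abs_Dy_le (h : Chart δ p Y) (hδ : δ ≤ 1 / 10) (f : PP → ℝ) (z : PP) :
    |Dy p Y f z| ≤ 3 * (|dx f z| + |dy f z|) := by
  have hJ := (h.J_bounds hδ z).1
  have h1 : |dx p z| ≤ 11 / 10 := by
    have := abs_le.1 (h.px z); rw [abs_le]; constructor <;> linarith
  have h2 : |dy p z| ≤ 1 / 10 := (h.py z).trans hδ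
  rw [Dy, abs_div, abs_of_pos (h.J_pos hδ z), div_le_iff₀ (h.J_pos hδ z)]
  have h3 : |br p f z| ≤ 11 / 10 * |dy f z| + 1 / 10 * |dx f z| := by
    simp only [br]
    refine (abs_sub _ _).trans ?_
    rw [abs_mul, abs_mul]
    gcongr
  nlinarith [abs_nonneg (dx f z), abs_nonneg (dy f z)]

theorem _root_.Crest.Agent.Iso341.Chart.slab_abs_Dp_le (h : Chart δ p Y) (hδ : δ ≤ 1 / 10) (f : PP → ℝ) (z : PP) :
    |Dp p Y f z| ≤ 3 * (|dx f z| + |dy f z|) := by
  have hJ := (h.J_bounds hδ z).1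
  have h1 : |dy Y z| ≤ 11 / 10 := by
    have := abs_le.1 (h.Yy z); rw [abs_le]; constructor <;> linarith
  have h2 : |dx Y z| ≤ 1 / 10 := (h.Yx z).trans hδ
  rw [Dp, abs_div, abs_of_pos (h.J_pos hδ z), div_le_iff₀ (h.J_pos hδ z)]
  have h3 : |br f Y z| ≤ |dx f z| * (11 / 10) + |dy f z| * (1 / 10) := by
    simp only [br]
    refine (abs_sub _ _).trans ?_
    rw [abs_mul, abs_mul]
    gcongr
  nlinarith [abs_nonneg (dx f z), abs_nonneg (dy f z)]

theorem abs_s_le (hcs : c ^ 2 + s ^ 2 = 1) : |s| ≤ 1 := by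
  rw [← sq_le_one_iff_abs_le_one]; nlinarith [sq_nonneg c]

theorem abs_c_le (hcs : c ^ 2 + s ^ 2 = 1) : |c| ≤ 1 := by
  rw [← sq_le_one_iff_abs_le_one]; nlinarith [sq_nonneg s]

theorem _root_.Crest.Agent.Iso341.Chart.slab_Dy_tf_ge (h : Chart δ p Y) (hce : 0 < ce) (hδ : δ ≤ 1 / 10) (hδ' : δ ≤ ce / 10)
    (hc : ce ≤ c) (hcs : c ^ 2 + s ^ 2 = 1) (z : PP) : ce / 2 ≤ Dy p Y (tf c s) z := by
  have hs := abs_le.1 (abs_s_le hcs)
  have hc1 := (abs_le.1 (abs_c_le hcs)).2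
  have h0 : 0 ≤ δ := (abs_nonneg _).trans (h.px z)
  have h1 := abs_le.1 (h.px z)
  have h2 := abs_le.1 (h.py z)
  have h3 := abs_le.1 (h.Yx z)
  have h4 := abs_le.1 (h.Yy z)
  rw [Dy, le_div_iff₀ (h.J_pos hδ z)]
  have e : br p (tf c s) z = dx p z * c + dy p z * s := by
    simp only [br, dx_tf, dy_tf]; ring
  rw [e]
  have hJ : br p Y z ≤ 1 + 3 * δ := by
    simp only [br]
    have a1 : |dy p z * dx Y z| ≤ δ * δ := by
      rw [abs_mul]; exact mul_le_mul (h.py z) (h.Yx z) (abs_nonneg _) h0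
    have a2 := abs_le.1 a1
    nlinarith [mul_nonneg (sub_nonneg.2 h1.2) (sub_nonneg.2 h4.2)]
  have a3 : -δ ≤ dy p z * s := by
    have : |dy p z * s| ≤ δ * 1 := by
      rw [abs_mul]; exact mul_le_mul (h.py z) (abs_s_le hcs) (abs_nonneg _) h0
    have := abs_le.1 this
    linarith
  have hJ0 := h.J_pos hδ z
  nlinarith [mul_le_mul_of_nonneg_left hJ hce.le]

theorem _root_.Crest.Agent.Iso341.Chart.slab_abs_Dp_tf_le (h : Chart δ p Y) (hδ : δ ≤ 1 / 10)
    (hcs : c ^ 2 + s ^ 2 = 1) (z : PP) : |Dp p Y (tf c s) z| ≤ 2 := by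
  have h0 : 0 ≤ δ := (abs_nonneg _).trans (h.px z)
  have h1 := abs_le.1 (h.px z)
  have h4 := abs_le.1 (h.Yy z)
  have e : br (tf c s) Y z = -s * dy Y z - c * dx Y z := by
    simp only [br, dx_tf, dy_tf]
  rw [Dp, abs_div, abs_of_pos (h.J_pos hδ z), div_le_iff₀ (h.J_pos hδ z), e]
  have hJ : 1 - 2 * δ ≤ br p Y z := by
    simp only [br]
    have a1 : |dy p z * dx Y z| ≤ δ * δ := by
      rw [abs_mul]; exact mul_le_mul (h.py z) (h.Yx z) (abs_nonneg _) h0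
    have a2 := abs_le.1 a1
    nlinarith [mul_nonneg (sub_nonneg.2 h1.1) (sub_nonneg.2 h4.1)]
  have h5 : |dy Y z| ≤ 1 + δ := by rw [abs_le]; constructor <;> linarith
  have h6 : |-s * dy Y z - c * dx Y z| ≤ 1 * (1 + δ) + 1 * δ := by
    refine (abs_sub _ _).trans ?_
    rw [abs_mul, abs_mul, abs_neg]
    exact add_le_add (mul_le_mul (abs_s_le hcs) h5 (abs_nonneg _) zero_le_one)
      (mul_le_mul (abs_c_le hcs) (h.Yx z) (abs_nonneg _) zero_le_one)
  linarith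

theorem _root_.Crest.Agent.Iso341.Chart.slab_abs_Dy_tf_le (h : Chart δ p Y) (hδ : δ ≤ 1 / 10)
    (hcs : c ^ 2 + s ^ 2 = 1) (z : PP) : |Dy p Y (tf c s) z| ≤ 6 := by
  refine (h.slab_abs_Dy_le hδ _ z).trans ?_
  rw [dx_tf, dy_tf, abs_neg]
  linarith [abs_s_le hcs, abs_c_le hcs]

end basic

/-! ### the pointwise energy identity -/

section identity

variable {κ : ℝ} {p Y k φ t : PP → ℝ} {B : ℝ → ℝ}

theorem energy_identity (hp : ContDiff ℝ ∞ p) (hY : ContDiff ℝ ∞ Y)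
    (hJ : ∀ z, br p Y z ≠ 0) (hk : ContDiff ℝ ∞ k) (hφ : ContDiff ℝ ∞ φ) (ht : ContDiff ℝ ∞ t)
    (hB : ContDiff ℝ ∞ B) (z : PP) :
    Dp p Y (fun w => B (t w) * (κ * k w * (Dp p Y φ w * Dy p Y φ w))) z
      + Dy p Y (fun w => B (t w) * (1 / 2 * (Dy p Y φ w ^ 2 - κ * (k w * Dp p Y φ w ^ 2)))) z
    = B (t z) * Dy p Y φ z * LL κ p Y k φ z
      + (deriv B (t z) * Dy p Y t z / 2 * Dy p Y φ z ^ 2
        - 1 / 2 * (deriv B (t z) * Dy p Y t z * (κ * k z) + B (t z) * (κ * Dy p Y k z))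
          * Dp p Y φ z ^ 2
        + deriv B (t z) * Dp p Y t z * (κ * k z) * (Dp p Y φ z * Dy p Y φ z)) := by
  have c1 := contDiff_Dy hp hY hJ hφ
  have c3 := contDiff_Dp hp hY hJ hφ
  have hBt : ContDiff ℝ ∞ fun w => B (t w) := hB.comp ht
  have g1 : ContDiff ℝ ∞ fun w => κ * k w := contDiff_const.mul hk
  have g2 : ContDiff ℝ ∞ fun w => Dp p Y φ w * Dy p Y φ w := c3.mul c1
  have g3 : ContDiff ℝ ∞ fun w => κ * k w * (Dp p Y φ w * Dy p Y φ w) := g1.mul g2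
  have g4 : ContDiff ℝ ∞ fun w => Dy p Y φ w ^ 2 := c1.pow 2
  have g5 : ContDiff ℝ ∞ fun w => Dp p Y φ w ^ 2 := c3.pow 2
  have g6 : ContDiff ℝ ∞ fun w => k w * Dp p Y φ w ^ 2 := hk.mul g5
  have g7 : ContDiff ℝ ∞ fun w => κ * (k w * Dp p Y φ w ^ 2) := contDiff_const.mul g6
  have g8 : ContDiff ℝ ∞ fun w => Dy p Y φ w ^ 2 - κ * (k w * Dp p Y φ w ^ 2) := g4.sub g7
  have g9 : ContDiff ℝ ∞ fun w => 1 / 2 * (Dy p Y φ w ^ 2 - κ * (k w * Dp p Y φ w ^ 2)) :=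
    contDiff_const.mul g8
  rw [Dp_mul hBt g3, Dp_mul g1 g2, Dp_const_mul κ hk, Dp_mul c3 c1, Dp_comp hB ht,
    Dy_mul hBt g9, Dy_const_mul _ g8, Dy_sub g4 g7, Dy_const_mul κ g6, Dy_mul hk g5,
    Dy_sq c1, Dy_sq c3, Dy_comp hB ht, LL_expand hp hY hJ hk hφ, ← Dp_Dy hp hY hJ hφ]
  ring

theorem mass_identity (hφ : ContDiff ℝ ∞ φ) (ht : ContDiff ℝ ∞ t)
    (hB : ContDiff ℝ ∞ B) (z : PP) :
    Dy p Y (fun w => B (t w) * φ w ^ 2) z
    = deriv B (t z) * Dy p Y t z * φ z ^ 2 + 2 * (B (t z) * φ z * Dy p Y φ z) := by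
  have hBt : ContDiff ℝ ∞ fun w => B (t w) := hB.comp ht
  rw [Dy_mul hBt (hφ.pow 2), Dy_sq hφ, Dy_comp hB ht]
  ring

end identity

/-! ### positivity (real numbers) -/

theorem form_ge {ce κ k ky B B' W ty tp a b l : ℝ} (hce : 0 < ce) (_hce1 : ce ≤ 1) (hκ : 0 < κ)
    (hκ1 : κ ≤ ce ^ 2 / 400) (hk1 : -(26 / 100) ≤ k) (hk2 : k ≤ -(1 / 10)) (hky : |ky| ≤ 8 / 10)
    (hty : ce / 2 ≤ ty) (htp : |tp| ≤ 2) (hB : 40 / ce * |B| ≤ B') (hW0 : 0 ≤ W)
    (hW : B ^ 2 ≤ W * B') :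
    ce / 16 * B' * a ^ 2 + ce / 200 * κ * B' * b ^ 2 ≤
      B * a * l + (B' * ty / 2 * a ^ 2 - 1 / 2 * (B' * ty * (κ * k) + B * (κ * ky)) * b ^ 2
        + B' * tp * (κ * k) * (b * a)) + 4 / ce * W * l ^ 2 := by
  have hB0 : 0 ≤ B' := le_trans (by positivity) hB
  have hB1 : |B| ≤ ce / 40 * B' := by
    have := mul_le_mul_of_nonneg_left hB (by positivity : 0 ≤ ce / 40)
    have e : ce / 40 * (40 / ce * |B|) = |B| := by field_simp
    linarith
  -- the source term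
  have h1 : -(ce / 16 * B' * a ^ 2 + 4 / ce * W * l ^ 2) ≤ B * a * l := by
    have hW' : 0 ≤ W * B' := le_trans (sq_nonneg _) hW
    -- multiply by ce
    have key : (B * a * l) ^ 2 ≤ (W * B') * (a ^ 2 * l ^ 2) := by
      have := mul_le_mul_of_nonneg_right hW (by positivity : 0 ≤ a ^ 2 * l ^ 2)
      nlinarith
    have p1 : 0 ≤ ce / 16 * B' * a ^ 2 := by positivity
    have p2 : 0 ≤ 4 / ce * W * l ^ 2 := by positivity
    have e2 : (ce / 16 * B' * a ^ 2) * (4 / ce * W * l ^ 2) = (W * B') * (a ^ 2 * l ^ 2) / 4 := by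
      field_simp; ring
    have h3 : |B * a * l| ≤ ce / 16 * B' * a ^ 2 + 4 / ce * W * l ^ 2 := by
      apply abs_le_of_sq_le_sq _ (by positivity)
      nlinarith [sq_nonneg (ce / 16 * B' * a ^ 2 - 4 / ce * W * l ^ 2)]
    linarith [(abs_le.1 h3).1]
  -- the p-derivative
  have h2 : 1 / 40 * ce * κ * B' * b ^ 2 ≤ - (1 / 2 * (B' * ty * (κ * k))) * b ^ 2 := by
    have : 1 / 40 * ce * κ * B' ≤ - (1 / 2 * (B' * ty * (κ * k))) := by
      have q1 : ce / 2 * (1 / 10) ≤ ty * (-k) := mul_le_mul hty (by linarith) (by norm_num) (by linarith)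
      have := mul_le_mul_of_nonneg_left q1 (by positivity : 0 ≤ 1 / 2 * (B' * κ))
      nlinarith
    exact mul_le_mul_of_nonneg_right this (sq_nonneg b)
  have h3 : -(1 / 100 * ce * κ * B') * b ^ 2 ≤ - (1 / 2 * (B * (κ * ky))) * b ^ 2 := by
    have : -(1 / 100 * ce * κ * B') ≤ - (1 / 2 * (B * (κ * ky))) := by
      have q1 : |B * ky| ≤ ce / 40 * B' * (8 / 10) := by
        rw [abs_mul]; exact mul_le_mul hB1 hky (abs_nonneg _) (by positivity)
      have q2 := (abs_le.1 q1).2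
      have := mul_le_mul_of_nonneg_left q2 (by positivity : 0 ≤ 1 / 2 * κ)
      nlinarith
    exact mul_le_mul_of_nonneg_right this (sq_nonneg b)
  have h4 : B' * (ce / 4) * a ^ 2 ≤ B' * ty / 2 * a ^ 2 := by
    apply mul_le_mul_of_nonneg_right _ (sq_nonneg a)
    nlinarith
  have h5 : -(B' * (52 / 100 * κ) * |b * a|) ≤ B' * tp * (κ * k) * (b * a) := by
    have q1 : |tp * k| ≤ 2 * (26 / 100) := by
      rw [abs_mul]
      exact mul_le_mul htp (by rw [abs_le]; constructor <;> linarith) (abs_nonneg _) (by norm_num)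
    have q2 : |B' * tp * (κ * k) * (b * a)| ≤ B' * (52 / 100 * κ) * |b * a| := by
      have e : B' * tp * (κ * k) * (b * a) = (B' * κ) * (tp * k) * (b * a) := by ring
      rw [e, abs_mul, abs_mul, abs_of_nonneg (by positivity : 0 ≤ B' * κ)]
      have := mul_le_mul_of_nonneg_left q1 (by positivity : 0 ≤ B' * κ)
      have := mul_le_mul_of_nonneg_right this (abs_nonneg (b * a))
      nlinarith
    linarith [(abs_le.1 q2).1]
  have h6 : 52 / 100 * κ * |b * a| ≤ ce / 8 * a ^ 2 + 1 / 100 * ce * κ * b ^ 2 := by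
    have q1 : (52 / 100 * κ * |b * a|) ^ 2 ≤ (ce / 8 * a ^ 2 + 1 / 100 * ce * κ * b ^ 2) ^ 2 := by
      rw [mul_pow, sq_abs]
      have : (52 / 100 * κ) ^ 2 ≤ 4 * (ce / 8) * (1 / 100 * ce * κ) := by
        have := mul_le_mul_of_nonneg_left hκ1 hκ.le
        nlinarith
      have := mul_le_mul_of_nonneg_right this (by positivity : 0 ≤ (b * a) ^ 2)
      nlinarith [sq_nonneg (ce / 8 * a ^ 2 - 1 / 100 * ce * κ * b ^ 2)]
    exact (abs_le_of_sq_le_sq' q1 (by positivity)).2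
  have h7 := mul_le_mul_of_nonneg_left h6 hB0
  nlinarith

theorem mass_ge {ce B B' W ty f a : ℝ} (hce : 0 < ce)
    (hty : ce / 2 ≤ ty) (hB0 : 0 ≤ B') (hW0 : 0 ≤ W) (hW : B ^ 2 ≤ W * B') :
    ce / 4 * B' * f ^ 2 ≤ B' * ty * f ^ 2 + 2 * (B * f * a) + 4 / ce * W * a ^ 2 := by
  have key : (2 * (B * f * a)) ^ 2 ≤ 4 * (W * B') * (f ^ 2 * a ^ 2) := by
    have := mul_le_mul_of_nonneg_right hW (by positivity : 0 ≤ f ^ 2 * a ^ 2)
    nlinarith
  have p1 : 0 ≤ ce / 4 * B' * f ^ 2 := by positivity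
  have p2 : 0 ≤ 4 / ce * W * a ^ 2 := by positivity
  have e2 : (ce / 4 * B' * f ^ 2) * (4 / ce * W * a ^ 2) = (W * B') * (f ^ 2 * a ^ 2) := by
    field_simp
  have h3 : |2 * (B * f * a)| ≤ ce / 4 * B' * f ^ 2 + 4 / ce * W * a ^ 2 := by
    apply abs_le_of_sq_le_sq _ (by positivity)
    nlinarith [sq_nonneg (ce / 4 * B' * f ^ 2 - 4 / ce * W * a ^ 2)]
  have h4 : B' * (ce / 2) * f ^ 2 ≤ B' * ty * f ^ 2 :=
    mul_le_mul_of_nonneg_right (mul_le_mul_of_nonneg_left hty hB0) (sq_nonneg f)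
  linarith [(abs_le.1 h3).1]

/-! ### integrated inequalities -/

section integrated

variable {ce δ κ c s : ℝ} {p Y k φ : PP → ℝ} {B W : ℝ → ℝ} {D : Set PP}

theorem zero_off (hD : IsClosed D) (hφD : ∀ z, z ∉ D → φ z = 0) {z : PP} (hz : z ∉ D) :
    φ =ᶠ[nhds z] fun _ => 0 :=
  Filter.eventuallyEq_of_mem (hD.isOpen_compl.mem_nhds hz) fun w hw => hφD w hw

theorem Dy_zero_off (hD : IsClosed D) (hφD : ∀ z, z ∉ D → φ z = 0) {z : PP} (hz : z ∉ D) :
    Dy p Y φ z = 0 := by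
  rw [Dy_congr (zero_off hD hφD hz), Dy_const]

theorem Dp_zero_off (hD : IsClosed D) (hφD : ∀ z, z ∉ D → φ z = 0) {z : PP} (hz : z ∉ D) :
    Dp p Y φ z = 0 := by
  rw [Dp_congr (zero_off hD hφD hz), Dp_const]

theorem LL_const (c : ℝ) (z : PP) : LL κ p Y k (fun _ => c) z = 0 := by
  have h1 : Dy p Y (fun _ : PP => c) = fun _ => 0 := funext (Dy_const c)
  have h2 : (fun w => k w * Dp p Y (fun _ : PP => c) w) = fun _ => 0 := by
    funext w; rw [Dp_const]; ring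
  rw [LL, h1, h2, Dy_const, Dp_const]; ring

theorem LL_zero_off (hD : IsClosed D) (hφD : ∀ z, z ∉ D → φ z = 0) {z : PP} (hz : z ∉ D) :
    LL κ p Y k φ z = 0 := by
  rw [LL_congr (zero_off hD hφD hz), LL_const]

theorem _root_.Crest.Agent.Iso341.Pocket.slab_k_bounds (h : Pocket δ p Y k) (hδ : δ ≤ 1 / 1000) {z : PP}
    (hz : p z ^ 2 + Y z ^ 2 ≤ 9 / 64) :
    -(26 / 100) ≤ k z ∧ k z ≤ -(1 / 10) ∧ |Dy p Y k z| ≤ 8 / 10 ∧ |Dp p Y k z| ≤ 8 / 10 := by
  have h1 : p z ^ 2 + Y z ^ 2 < 1 := by linarith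
  have h2 := abs_le.1 (h.k0 z h1)
  have h3 := abs_le.1 (h.ky z h1)
  have h4 := abs_le.1 (h.kp z h1)
  have hY : |Y z| ≤ 3 / 8 := by
    apply abs_le_of_sq_le_sq _ (by norm_num)
    nlinarith [sq_nonneg (p z)]
  have hp : |p z| ≤ 3 / 8 := by
    apply abs_le_of_sq_le_sq _ (by norm_num)
    nlinarith [sq_nonneg (Y z)]
  have hY' := abs_le.1 hY
  have hp' := abs_le.1 hp
  refine ⟨by nlinarith [sq_nonneg (p z), sq_nonneg (Y z)], by linarith, ?_, ?_⟩
  · rw [abs_le]; constructor <;> linarith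
  · rw [abs_le]; constructor <;> linarith

theorem energy_int (h : Chart δ p Y) (hP : Pocket δ p Y k) (hce : 0 < ce) (hce1 : ce ≤ 1)
    (hκ : 0 < κ) (hκ1 : κ ≤ ce ^ 2 / 400) (hδ : δ ≤ 1 / 1000) (hδ' : δ ≤ ce / 10)
    (hc : ce ≤ c) (hcs : c ^ 2 + s ^ 2 = 1) (hφ : ContDiff ℝ ∞ φ) (hs : HasCompactSupport φ)
    (hD : IsClosed D) (hDs : ∀ z ∈ D, p z ^ 2 + Y z ^ 2 ≤ 9 / 64)
    (hφD : ∀ z, z ∉ D → φ z = 0) (hB : ContDiff ℝ ∞ B) (hW : Continuous W) (hW0 : ∀ u, 0 ≤ W u)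
    (hB1 : ∀ z ∈ D, 40 / ce * |B (tf c s z)| ≤ deriv B (tf c s z))
    (hB2 : ∀ z ∈ D, B (tf c s z) ^ 2 ≤ W (tf c s z) * deriv B (tf c s z)) :
    ∫ z, (ce / 16 * deriv B (tf c s z) * Dy p Y φ z ^ 2
        + ce / 200 * κ * deriv B (tf c s z) * Dp p Y φ z ^ 2) * br p Y z
      ≤ ∫ z, 4 / ce * W (tf c s z) * LL κ p Y k φ z ^ 2 * br p Y z := by
  have hJ := h.J_ne (hδ.trans (by norm_num))
  have hp := h.smp
  have hY := h.smY
  have hk := hP.smk
  have ht := contDiff_tf c s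
  have c1 := contDiff_Dy hp hY hJ hφ
  have c3 := contDiff_Dp hp hY hJ hφ
  have cL := contDiff_LL (κ := κ) hp hY hJ hk hφ
  have hBt : ContDiff ℝ ∞ fun w => B (tf c s w) := hB.comp ht
  have hB' : Continuous (deriv B) := hB.continuous_deriv (by simp)
  have hB't : Continuous fun z => deriv B (tf c s z) := hB'.comp ht.continuous
  have hJc := (contDiff_br hp hY).continuous
  set A1 : PP → ℝ := fun w => B (tf c s w) * (κ * k w * (Dp p Y φ w * Dy p Y φ w)) with hA1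
  set A2 : PP → ℝ := fun w =>
    B (tf c s w) * (1 / 2 * (Dy p Y φ w ^ 2 - κ * (k w * Dp p Y φ w ^ 2))) with hA2
  have a1 : ContDiff ℝ ∞ A1 := hBt.mul ((contDiff_const.mul hk).mul (c3.mul c1))
  have a2 : ContDiff ℝ ∞ A2 :=
    hBt.mul (contDiff_const.mul ((c1.pow 2).sub (contDiff_const.mul (hk.mul (c3.pow 2)))))
  have s1 : HasCompactSupport A1 := hcs_mul_right (hcs_mul_right (hcs_mul_left (hcs_Dp hs) _) _) _
  have sq1 : HasCompactSupport fun w => Dy p Y φ w ^ 2 :=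
    (hcs_Dy hs).comp_left (g := fun t => t ^ 2) (by norm_num)
  have sq2 : HasCompactSupport fun w => Dp p Y φ w ^ 2 :=
    (hcs_Dp hs).comp_left (g := fun t => t ^ 2) (by norm_num)
  have sq3 : HasCompactSupport fun w => LL κ p Y k φ w ^ 2 :=
    (hcs_LL hs).comp_left (g := fun t => t ^ 2) (by norm_num)
  have s2 : HasCompactSupport A2 :=
    hcs_mul_right (hcs_mul_right (hcs_sub sq1 (hcs_mul_right (hcs_mul_right sq2 _) _)) _) _
  have key := integral_div hp hY hJ a1 a2 s1 s2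
  have i1 : Integrable fun z => (Dp p Y A1 z + Dy p Y A2 z) * br p Y z :=
    integrable_smooth_cs (((contDiff_Dp hp hY hJ a1).add (contDiff_Dy hp hY hJ a2)).mul
      (contDiff_br hp hY)) (hcs_mul_left (hcs_add (hcs_Dp s1) (hcs_Dy s2)) _)
  have i2 : Integrable fun z => 4 / ce * W (tf c s z) * LL κ p Y k φ z ^ 2 * br p Y z := by
    refine integrable_cs ?_ (hcs_mul_left (hcs_mul_right sq3 _) _)
    exact ((continuous_const.mul (hW.comp ht.continuous)).mul (cL.continuous.pow 2)).mul hJc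
  have i3 : Integrable fun z => (ce / 16 * deriv B (tf c s z) * Dy p Y φ z ^ 2
      + ce / 200 * κ * deriv B (tf c s z) * Dp p Y φ z ^ 2) * br p Y z := by
    refine integrable_cs ?_ (hcs_mul_left (hcs_add (hcs_mul_right sq1 _) (hcs_mul_right sq2 _)) _)
    exact (((continuous_const.mul hB't).mul (c1.continuous.pow 2)).add
      ((continuous_const.mul hB't).mul (c3.continuous.pow 2))).mul hJc
  have mono := integral_mono i3 (i1.add i2) (fun z => ?_)
  · simp only [Pi.add_apply] at mono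
    rw [integral_add i1 i2, key, zero_add] at mono
    exact mono
  · simp only [Pi.add_apply]
    have hJ0 := (h.J_pos (hδ.trans (by norm_num)) z).le
    rw [← add_mul]
    refine mul_le_mul_of_nonneg_right ?_ hJ0
    by_cases hz : z ∈ D
    · obtain ⟨k1, k2, k3, -⟩ := hP.slab_k_bounds hδ (hDs z hz)
      rw [hA1, hA2, energy_identity hp hY hJ hk hφ ht hB z]
      exact form_ge hce hce1 hκ hκ1 k1 k2 k3
        (h.slab_Dy_tf_ge hce (hδ.trans (by norm_num)) hδ' hc hcs z)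
        (h.slab_abs_Dp_tf_le (hδ.trans (by norm_num)) hcs z) (hB1 z hz) (hW0 _) (hB2 z hz)
    · rw [hA1, hA2, energy_identity hp hY hJ hk hφ ht hB z, Dy_zero_off hD hφD hz,
        Dp_zero_off hD hφD hz, LL_zero_off hD hφD hz]
      simp

theorem mass_int (h : Chart δ p Y) (hce : 0 < ce)
    (hδ : δ ≤ 1 / 1000) (hδ' : δ ≤ ce / 10)
    (hc : ce ≤ c) (hcs : c ^ 2 + s ^ 2 = 1) (hφ : ContDiff ℝ ∞ φ) (hs : HasCompactSupport φ)
    (hD : IsClosed D) 
    (hφD : ∀ z, z ∉ D → φ z = 0) (hB : ContDiff ℝ ∞ B) (hW : Continuous W) (hW0 : ∀ u, 0 ≤ W u)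
    (hB1 : ∀ z ∈ D, 0 ≤ deriv B (tf c s z))
    (hB2 : ∀ z ∈ D, B (tf c s z) ^ 2 ≤ W (tf c s z) * deriv B (tf c s z)) :
    ∫ z, ce / 4 * deriv B (tf c s z) * φ z ^ 2 * br p Y z
      ≤ ∫ z, 4 / ce * W (tf c s z) * Dy p Y φ z ^ 2 * br p Y z := by
  have hJ := h.J_ne (hδ.trans (by norm_num))
  have hp := h.smp
  have hY := h.smY
  have ht := contDiff_tf c s
  have c1 := contDiff_Dy hp hY hJ hφ
  have hBt : ContDiff ℝ ∞ fun w => B (tf c s w) := hB.comp ht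
  have hB' : Continuous (deriv B) := hB.continuous_deriv (by simp)
  have hB't : Continuous fun z => deriv B (tf c s z) := hB'.comp ht.continuous
  have hJc := (contDiff_br hp hY).continuous
  set A2 : PP → ℝ := fun w => B (tf c s w) * φ w ^ 2 with hA2
  have a2 : ContDiff ℝ ∞ A2 := hBt.mul (hφ.pow 2)
  have sq1 : HasCompactSupport fun w => Dy p Y φ w ^ 2 :=
    (hcs_Dy hs).comp_left (g := fun t => t ^ 2) (by norm_num)
  have sq2 : HasCompactSupport fun w => φ w ^ 2 :=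
    hs.comp_left (g := fun t => t ^ 2) (by norm_num)
  have s2 : HasCompactSupport A2 := hcs_mul_right sq2 _
  have key := integral_Dy hp hY hJ a2 s2
  have i1 : Integrable fun z => Dy p Y A2 z * br p Y z :=
    integrable_smooth_cs ((contDiff_Dy hp hY hJ a2).mul
      (contDiff_br hp hY)) (hcs_mul_left (hcs_Dy s2) _)
  have i2 : Integrable fun z => 4 / ce * W (tf c s z) * Dy p Y φ z ^ 2 * br p Y z := by
    refine integrable_cs ?_ (hcs_mul_left (hcs_mul_right sq1 _) _)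
    exact ((continuous_const.mul (hW.comp ht.continuous)).mul (c1.continuous.pow 2)).mul hJc
  have i3 : Integrable fun z => ce / 4 * deriv B (tf c s z) * φ z ^ 2 * br p Y z := by
    refine integrable_cs ?_ (hcs_mul_left (hcs_mul_right sq2 _) _)
    exact ((continuous_const.mul hB't).mul (hφ.continuous.pow 2)).mul hJc
  have mono := integral_mono i3 (i1.add i2) (fun z => ?_)
  · simp only [Pi.add_apply] at mono
    rw [integral_add i1 i2, key, zero_add] at mono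
    exact mono
  · simp only [Pi.add_apply]
    have hJ0 := (h.J_pos (hδ.trans (by norm_num)) z).le
    rw [← add_mul]
    refine mul_le_mul_of_nonneg_right ?_ hJ0
    by_cases hz : z ∈ D
    · rw [hA2, mass_identity hφ ht hB z]
      exact mass_ge hce (h.slab_Dy_tf_ge hce (hδ.trans (by norm_num)) hδ' hc hcs z) (hB1 z hz)
        (hW0 _) (hB2 z hz)
    · rw [hA2, mass_identity hφ ht hB z, Dy_zero_off hD hφD hz, hφD z hz]
      simp

end integrated

end Crest.Agent.Iso341.Slab
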