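import Crest.Agent.Iso341.Slab1

/-! S0341, part SLAB, file 2: cutoff functions, second derivatives of the time function. -/

set_option autoImplicit false

open MeasureTheory Set
open scoped ContDiff

namespace Crest.Agent.Iso341.Slab

/-! ### one-dimensional cutoffs -/

theorem bdd_deriv_aux (f : ℝ → ℝ) (hf : Continuous f) (a b : ℝ) (h1 : ∀ u, u < a → f u = 0)
    (h2 : ∀ u, b < u → f u = 0) : ∃ M : ℝ, 0 < M ∧ ∀ u, |f u| ≤ M := by
  obtain ⟨M, hM⟩ := (isCompact_Icc (a := a) (b := b)).exists_bound_of_continuousOn hf.continuousOn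
  refine ⟨max M 1, by positivity, fun u => ?_⟩
  by_cases hu : u ∈ Icc a b
  · exact (hM u hu).trans (le_max_left _ _)
  · have : f u = 0 := by
      rcases lt_or_ge u a with h | h
      · exact h1 u h
      · rcases lt_or_ge b u with h' | h'
        · exact h2 u h'
        · exact absurd ⟨h, h'⟩ hu
    rw [this, abs_zero]; positivity

theorem deriv_zero_of_lt {g : ℝ → ℝ} {a c : ℝ} (h : ∀ u, u < a → g u = c) (u : ℝ) (hu : u < a) :
    deriv g u = 0 := by
  have : g =ᶠ[nhds u] fun _ => c := Filter.eventuallyEq_of_mem (isOpen_Iio.mem_nhds hu) h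
  rw [this.deriv_eq, deriv_const]

theorem deriv_zero_of_gt {g : ℝ → ℝ} {b c : ℝ} (h : ∀ u, b < u → g u = c) (u : ℝ) (hu : b < u) :
    deriv g u = 0 := by
  have : g =ᶠ[nhds u] fun _ => c := Filter.eventuallyEq_of_mem (isOpen_Ioi.mem_nhds hu) h
  rw [this.deriv_eq, deriv_const]

theorem contDiff_deriv' {g : ℝ → ℝ} (hg : ContDiff ℝ ∞ g) : ContDiff ℝ ∞ (deriv g) := by
  have := (contDiff_infty_iff_deriv.1 hg).2
  exact this

theorem bdd_derivs (g : ℝ → ℝ) (hg : ContDiff ℝ ∞ g) (a b c1 c2 : ℝ)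
    (h1 : ∀ u, u < a → g u = c1) (h2 : ∀ u, b < u → g u = c2) :
    ∃ M : ℝ, 0 < M ∧ ∀ u, |deriv g u| ≤ M ∧ |deriv (deriv g) u| ≤ M := by
  have d1 := deriv_zero_of_lt h1
  have d2 := deriv_zero_of_gt h2
  obtain ⟨M1, p1, e1⟩ := bdd_deriv_aux (deriv g) (contDiff_deriv' hg).continuous a b d1 d2
  obtain ⟨M2, p2, e2⟩ := bdd_deriv_aux (deriv (deriv g))
    (contDiff_deriv' (contDiff_deriv' hg)).continuous a b (deriv_zero_of_lt d1)
    (deriv_zero_of_gt d2)
  exact ⟨max M1 M2, by positivity, fun u => ⟨(e1 u).trans (le_max_left _ _),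
    (e2 u).trans (le_max_right _ _)⟩⟩

/-- cutoff in `r = p² + Y²`: `1` for `r ≤ 27/256`, `0` for `r ≥ 35/256` -/
noncomputable def ch0 (r : ℝ) : ℝ := Real.smoothTransition ((35 - 256 * r) / 8)

theorem contDiff_ch0 : ContDiff ℝ ∞ ch0 := by
  unfold ch0
  exact Real.smoothTransition.contDiff.comp (by fun_prop)

theorem ch0_one {r : ℝ} (hr : r ≤ 27 / 256) : ch0 r = 1 :=
  Real.smoothTransition.one_of_one_le (by linarith)

theorem ch0_zero {r : ℝ} (hr : 35 / 256 ≤ r) : ch0 r = 0 :=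
  Real.smoothTransition.zero_of_nonpos (by linarith)

theorem ch0_bdd : ∃ M : ℝ, 0 < M ∧ ∀ u, |deriv ch0 u| ≤ M ∧ |deriv (deriv ch0) u| ≤ M :=
  bdd_derivs ch0 contDiff_ch0 (27 / 256) (35 / 256) 1 0 (fun _ hu => ch0_one hu.le)
    (fun _ hu => ch0_zero hu.le)

/-- cutoff: `1` for `|u| ≤ 2`, `0` for `|u| ≥ 3` -/
noncomputable def ch2 (u : ℝ) : ℝ := Real.smoothTransition ((9 - u ^ 2) / 5)

theorem contDiff_ch2 : ContDiff ℝ ∞ ch2 := by
  unfold ch2
  exact Real.smoothTransition.contDiff.comp (by fun_prop)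

theorem ch2_one {u : ℝ} (hu : |u| ≤ 2) : ch2 u = 1 := by
  refine Real.smoothTransition.one_of_one_le ?_
  have : u ^ 2 ≤ 2 ^ 2 := sq_le_sq' (by linarith [(abs_le.1 hu).1]) (abs_le.1 hu).2
  linarith

theorem ch2_zero {u : ℝ} (hu : 3 ≤ |u|) : ch2 u = 0 := by
  refine Real.smoothTransition.zero_of_nonpos ?_
  have : 3 ^ 2 ≤ |u| ^ 2 := by gcongr
  rw [sq_abs] at this
  linarith

theorem ch2_abs_le (u : ℝ) : |ch2 u| ≤ 1 := by
  have h1 : 0 ≤ ch2 u := Real.smoothTransition.nonneg _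
  have h2 : ch2 u ≤ 1 := Real.smoothTransition.le_one _
  rw [abs_of_nonneg h1]
  exact h2

theorem ch2_bdd : ∃ M : ℝ, 0 < M ∧ ∀ u, |deriv ch2 u| ≤ M ∧ |deriv (deriv ch2) u| ≤ M :=
  bdd_derivs ch2 contDiff_ch2 (-3) 3 0 0
    (fun u hu => ch2_zero (by rw [abs_of_neg (by linarith)]; linarith))
    (fun u hu => ch2_zero (by rw [abs_of_pos (by linarith)]; linarith))

/-- the weight -/
noncomputable def Bw (Λ ρ : ℝ) (u : ℝ) : ℝ :=
  Real.smoothTransition ((u - ρ) / ρ) * Real.exp (Λ * u)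

theorem contDiff_Bw (Λ ρ : ℝ) : ContDiff ℝ ∞ (Bw Λ ρ) := by
  unfold Bw
  exact (Real.smoothTransition.contDiff.comp (by fun_prop)).mul (by fun_prop)

theorem Bw_nonneg (Λ ρ u : ℝ) : 0 ≤ Bw Λ ρ u :=
  mul_nonneg (Real.smoothTransition.nonneg _) (Real.exp_pos _).le

theorem smoothTransition_mono : Monotone Real.smoothTransition := by
  intro x y hxy
  have hexp : expNegInvGlue x ≤ expNegInvGlue y := expNegInvGlue.monotone hxy
  have hexp' : expNegInvGlue (1 - y) ≤ expNegInvGlue (1 - x) :=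
    expNegInvGlue.monotone (by linarith)
  unfold Real.smoothTransition
  rw [div_le_div_iff₀ (Real.smoothTransition.pos_denom x) (Real.smoothTransition.pos_denom y)]
  have h1 := expNegInvGlue.nonneg x
  have h2 := expNegInvGlue.nonneg (1 - y)
  nlinarith

theorem deriv_Bw (Λ ρ u : ℝ) : deriv (Bw Λ ρ) u
    = deriv (fun v => Real.smoothTransition ((v - ρ) / ρ)) u * Real.exp (Λ * u)
      + Λ * Bw Λ ρ u := by
  have h1 : DifferentiableAt ℝ (fun v => Real.smoothTransition ((v - ρ) / ρ)) u := by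
    have : ContDiff ℝ ∞ (fun v => Real.smoothTransition ((v - ρ) / ρ)) :=
      Real.smoothTransition.contDiff.comp (by fun_prop)
    exact (this.differentiable (by simp)) u
  have h2 : HasDerivAt (fun v => Real.exp (Λ * v)) (Real.exp (Λ * u) * (Λ * 1)) u :=
    ((hasDerivAt_id u).const_mul Λ).exp
  have h3 := (h1.hasDerivAt.mul h2).deriv
  have e : Bw Λ ρ = (fun v => Real.smoothTransition ((v - ρ) / ρ)) * fun v => Real.exp (Λ * v) := by
    funext v; rfl
  rw [e, h3]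
  simp only [Pi.mul_apply]
  ring

theorem Bw_deriv_ge {Λ ρ : ℝ} (hρ : 0 < ρ) (u : ℝ) : Λ * Bw Λ ρ u ≤ deriv (Bw Λ ρ) u := by
  rw [deriv_Bw]
  have hm : Monotone fun v => Real.smoothTransition ((v - ρ) / ρ) := by
    intro x y hxy
    exact smoothTransition_mono (by gcongr)
  have := hm.deriv_nonneg (x := u)
  nlinarith [mul_nonneg this (Real.exp_pos (Λ * u)).le]

theorem Bw_zero {Λ ρ u : ℝ} (hρ : 0 < ρ) (hu : u ≤ ρ) : Bw Λ ρ u = 0 := by
  unfold Bw
  rw [Real.smoothTransition.zero_of_nonpos (div_nonpos_of_nonpos_of_nonneg (by linarith) hρ.le),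
    zero_mul]

theorem Bw_le {Λ ρ u : ℝ} (hΛ : 0 ≤ Λ) (hu : u ≤ 1) : Bw Λ ρ u ≤ Real.exp Λ := by
  unfold Bw
  calc Real.smoothTransition ((u - ρ) / ρ) * Real.exp (Λ * u)
      ≤ 1 * Real.exp Λ := by
        refine mul_le_mul (Real.smoothTransition.le_one _) ?_ (Real.exp_pos _).le zero_le_one
        exact Real.exp_le_exp.2 (by nlinarith)
    _ = _ := one_mul _

theorem Bw_ge {Λ ρ u : ℝ} (hΛ : 0 ≤ Λ) (hρ : 0 < ρ) (hu : 2 * ρ ≤ u) : 1 ≤ Bw Λ ρ u := by
  unfold Bw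
  rw [Real.smoothTransition.one_of_one_le ((one_le_div hρ).2 (by linarith)), one_mul]
  exact Real.one_le_exp (by nlinarith)

/-! ### second derivatives of the time function -/

section second

variable {δ c s : ℝ} {p Y : PP → ℝ}

theorem cl2_p (hp : ContDiff ℝ ∞ p) (h : Cl 2 (fun z => p z - z.1) univ δ) (z : PP) :
    |dx (dx p) z| ≤ δ ∧ |dy (dx p) z| ≤ δ ∧ |dx (dy p) z| ≤ δ ∧ |dy (dy p) z| ≤ δ := by
  have e1 : dx (fun z : PP => p z - z.1) = fun z => dx p z - 1 := by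
    rw [dx_sub' hp contDiff_fst]; funext w; rw [dx_fst]
  have e2 : dy (fun z : PP => p z - z.1) = fun z => dy p z - 0 := by
    rw [dy_sub' hp contDiff_fst]; funext w; rw [dy_fst]
  simp only [Cl, e1, e2] at h
  obtain ⟨-, ⟨-, h1, h2⟩, ⟨-, h3, h4⟩⟩ := h
  refine ⟨?_, ?_, ?_, ?_⟩
  · have := h1 z (mem_univ _); rwa [dx_sub (contDiff_dx hp) contDiff_const, dx_const, sub_zero] at this
  · have := h2 z (mem_univ _); rwa [dy_sub (contDiff_dx hp) contDiff_const, dy_const, sub_zero] at this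
  · have := h3 z (mem_univ _); rwa [dx_sub (contDiff_dy hp) contDiff_const, dx_const, sub_zero] at this
  · have := h4 z (mem_univ _); rwa [dy_sub (contDiff_dy hp) contDiff_const, dy_const, sub_zero] at this

theorem cl2_Y (hY : ContDiff ℝ ∞ Y) (h : Cl 2 (fun z => Y z - z.2) univ δ) (z : PP) :
    |dx (dx Y) z| ≤ δ ∧ |dy (dx Y) z| ≤ δ ∧ |dx (dy Y) z| ≤ δ ∧ |dy (dy Y) z| ≤ δ := by
  have e1 : dx (fun z : PP => Y z - z.2) = fun z => dx Y z - 0 := by
    rw [dx_sub' hY contDiff_snd]; funext w; rw [dx_snd]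
  have e2 : dy (fun z : PP => Y z - z.2) = fun z => dy Y z - 1 := by
    rw [dy_sub' hY contDiff_snd]; funext w; rw [dy_snd]
  simp only [Cl, e1, e2] at h
  obtain ⟨-, ⟨-, h1, h2⟩, ⟨-, h3, h4⟩⟩ := h
  refine ⟨?_, ?_, ?_, ?_⟩
  · have := h1 z (mem_univ _); rwa [dx_sub (contDiff_dx hY) contDiff_const, dx_const, sub_zero] at this
  · have := h2 z (mem_univ _); rwa [dy_sub (contDiff_dx hY) contDiff_const, dy_const, sub_zero] at this
  · have := h3 z (mem_univ _); rwa [dx_sub (contDiff_dy hY) contDiff_const, dx_const, sub_zero] at this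
  · have := h4 z (mem_univ _); rwa [dy_sub (contDiff_dy hY) contDiff_const, dy_const, sub_zero] at this

theorem abs_br_le {f g : PP → ℝ} {z : PP} {a b : ℝ} (h1 : |dx f z| ≤ a) (h2 : |dy f z| ≤ a)
    (h3 : |dx g z| ≤ b) (h4 : |dy g z| ≤ b) (ha : 0 ≤ a) : |br f g z| ≤ 2 * (a * b) := by
  simp only [br]
  refine (abs_sub _ _).trans ?_
  rw [abs_mul, abs_mul]
  have := mul_le_mul h1 h4 (abs_nonneg _) ha
  have := mul_le_mul h2 h3 (abs_nonneg _) ha
  linarith

theorem quot_bound {N J dN dJ : ℝ} (h1 : |N| ≤ 2) (h2 : |dN| ≤ 1) (h3 : 1 / 2 ≤ J) (h4 : J ≤ 2)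
    (h5 : |dJ| ≤ 1) : |(dN * J - N * dJ) / J ^ 2| ≤ 16 := by
  have hJ : 0 < J ^ 2 := by positivity
  rw [abs_div, abs_of_pos hJ, div_le_iff₀ hJ]
  have h6 : |dN * J - N * dJ| ≤ 1 * 2 + 2 * 1 := by
    refine (abs_sub _ _).trans ?_
    rw [abs_mul, abs_mul]
    have hJ2 : |J| ≤ 2 := by rw [abs_le]; constructor <;> linarith
    exact add_le_add (mul_le_mul h2 hJ2 (abs_nonneg _) zero_le_one)
      (mul_le_mul h1 h5 (abs_nonneg _) (by norm_num))
  nlinarith

theorem _root_.Crest.Agent.Iso341.Chart.slab_dJ_le (h : Chart δ p Y) (hδ : δ ≤ 1 / 10) (h1 : Cl 2 (fun z => p z - z.1) univ δ)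
    (h2 : Cl 2 (fun z => Y z - z.2) univ δ) (z : PP) :
    |dx (br p Y) z| ≤ 1 ∧ |dy (br p Y) z| ≤ 1 := by
  have hp := h.smp
  have hY := h.smY
  obtain ⟨a1, a2, a3, a4⟩ := cl2_p hp h1 z
  obtain ⟨b1, b2, b3, b4⟩ := cl2_Y hY h2 z
  have c1 : |dx p z| ≤ 11 / 10 := by
    have := abs_le.1 (h.px z); rw [abs_le]; constructor <;> linarith
  have c2 : |dy p z| ≤ 11 / 10 := (h.py z).trans (by linarith)
  have c3 : |dx Y z| ≤ 11 / 10 := (h.Yx z).trans (by linarith)
  have c4 : |dy Y z| ≤ 11 / 10 := by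
    have := abs_le.1 (h.Yy z); rw [abs_le]; constructor <;> linarith
  constructor
  · rw [dx_br hp hY]
    refine (abs_add_le _ _).trans ?_
    have e1 := abs_br_le (f := dx p) (g := Y) (a1.trans hδ) (a2.trans hδ) c3 c4 (by norm_num)
    have e2 := abs_br_le (f := p) (g := dx Y) c1 c2 (b1.trans hδ) (b2.trans hδ) (by norm_num)
    linarith
  · rw [dy_br hp hY]
    refine (abs_add_le _ _).trans ?_
    have e1 := abs_br_le (f := dy p) (g := Y) (a3.trans hδ) (a4.trans hδ) c3 c4 (by norm_num)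
    have e2 := abs_br_le (f := p) (g := dy Y) c1 c2 (b3.trans hδ) (b4.trans hδ) (by norm_num)
    linarith

theorem _root_.Crest.Agent.Iso341.Chart.slab_D_quot_le (h : Chart δ p Y) (hδ : δ ≤ 1 / 10)
    (h1 : Cl 2 (fun z => p z - z.1) univ δ)
    (h2 : Cl 2 (fun z => Y z - z.2) univ δ) {N : PP → ℝ} (hN : ContDiff ℝ ∞ N) (z : PP)
    (n0 : |N z| ≤ 2) (n1 : |dx N z| ≤ 1) (n2 : |dy N z| ≤ 1) :
    |Dy p Y (fun w => N w / br p Y w) z| ≤ 96 ∧ |Dp p Y (fun w => N w / br p Y w) z| ≤ 96 := by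
  have hp := h.smp
  have hY := h.smY
  have hJ := h.J_ne hδ
  obtain ⟨j1, j2⟩ := h.J_bounds hδ z
  obtain ⟨d1, d2⟩ := h.slab_dJ_le hδ h1 h2 z
  have e1 : |dx (fun w => N w / br p Y w) z| ≤ 16 := by
    rw [dx_div hN (contDiff_br hp hY) (hJ z)]
    exact quot_bound n0 n1 j1 j2 d1
  have e2 : |dy (fun w => N w / br p Y w) z| ≤ 16 := by
    rw [dy_div hN (contDiff_br hp hY) (hJ z)]
    exact quot_bound n0 n2 j1 j2 d2
  constructor
  · have := h.slab_abs_Dy_le hδ (fun w => N w / br p Y w) z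
    linarith
  · have := h.slab_abs_Dp_le hδ (fun w => N w / br p Y w) z
    linarith

theorem lin_bound {c s a b m : ℝ} (hcs : c ^ 2 + s ^ 2 = 1) (ha : |a| ≤ m) (hb : |b| ≤ m) :
    |c * a + s * b| ≤ 2 * m := by
  have h1 := abs_c_le hcs
  have h2 := abs_s_le hcs
  refine (abs_add_le _ _).trans ?_
  rw [abs_mul, abs_mul]
  nlinarith [abs_nonneg a, abs_nonneg b, abs_nonneg c, abs_nonneg s]

theorem _root_.Crest.Agent.Iso341.Chart.slab_DD_tf_le (h : Chart δ p Y) (hδ : δ ≤ 1 / 10)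
    (h1 : Cl 2 (fun z => p z - z.1) univ δ)
    (h2 : Cl 2 (fun z => Y z - z.2) univ δ) (hcs : c ^ 2 + s ^ 2 = 1) (z : PP) :
    |Dy p Y (Dy p Y (tf c s)) z| ≤ 96 ∧ |Dp p Y (Dp p Y (tf c s)) z| ≤ 96 := by
  have hp := h.smp
  have hY := h.smY
  obtain ⟨a1, a2, a3, a4⟩ := cl2_p hp h1 z
  obtain ⟨b1, b2, b3, b4⟩ := cl2_Y hY h2 z
  have c1 : |dx p z| ≤ 1 + 1 / 10 := by
    have := abs_le.1 (h.px z); rw [abs_le]; constructor <;> linarith
  have c2 : |dy p z| ≤ 1 / 10 := (h.py z).trans (by linarith)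
  have c3 : |dx Y z| ≤ 1 / 10 := (h.Yx z).trans (by linarith)
  have c4 : |dy Y z| ≤ 1 + 1 / 10 := by
    have := abs_le.1 (h.Yy z); rw [abs_le]; constructor <;> linarith
  have hc1 := abs_c_le hcs
  have hs1 := abs_s_le hcs
  constructor
  · have e : Dy p Y (tf c s) = fun w => (c * dx p w + s * dy p w) / br p Y w := by
      funext w; simp only [Dy, br, dx_tf, dy_tf]; ring
    have hN : ContDiff ℝ ∞ fun w => c * dx p w + s * dy p w :=
      (contDiff_const.mul (contDiff_dx hp)).add (contDiff_const.mul (contDiff_dy hp))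
    rw [e]
    refine (h.slab_D_quot_le hδ h1 h2 hN z ?_ ?_ ?_).1
    · refine (abs_add_le _ _).trans ?_
      rw [abs_mul, abs_mul]
      nlinarith [abs_nonneg (dx p z), abs_nonneg (dy p z)]
    · rw [dx_add (contDiff_const.mul (contDiff_dx hp)) (contDiff_const.mul (contDiff_dy hp)),
        dx_const_mul _ (contDiff_dx hp), dx_const_mul _ (contDiff_dy hp)]
      exact (lin_bound hcs (a1.trans hδ) (a3.trans hδ)).trans (by norm_num)
    · rw [dy_add (contDiff_const.mul (contDiff_dx hp)) (contDiff_const.mul (contDiff_dy hp)),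
        dy_const_mul _ (contDiff_dx hp), dy_const_mul _ (contDiff_dy hp)]
      exact (lin_bound hcs (a2.trans hδ) (a4.trans hδ)).trans (by norm_num)
  · have e : Dp p Y (tf c s) = fun w => ((-c) * dx Y w + (-s) * dy Y w) / br p Y w := by
      funext w; simp only [Dp, br, dx_tf, dy_tf]; ring
    have hN : ContDiff ℝ ∞ fun w => (-c) * dx Y w + (-s) * dy Y w :=
      (contDiff_const.mul (contDiff_dx hY)).add (contDiff_const.mul (contDiff_dy hY))
    have hcs' : (-c) ^ 2 + (-s) ^ 2 = 1 := by nlinarith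
    rw [e]
    refine (h.slab_D_quot_le hδ h1 h2 hN z ?_ ?_ ?_).2
    · refine (abs_add_le _ _).trans ?_
      rw [abs_mul, abs_mul, abs_neg, abs_neg]
      nlinarith [abs_nonneg (dx Y z), abs_nonneg (dy Y z)]
    · rw [dx_add (contDiff_const.mul (contDiff_dx hY)) (contDiff_const.mul (contDiff_dy hY)),
        dx_const_mul _ (contDiff_dx hY), dx_const_mul _ (contDiff_dy hY)]
      exact (lin_bound hcs' (b1.trans hδ) (b3.trans hδ)).trans (by norm_num)
    · rw [dy_add (contDiff_const.mul (contDiff_dx hY)) (contDiff_const.mul (contDiff_dy hY)),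
        dy_const_mul _ (contDiff_dx hY), dy_const_mul _ (contDiff_dy hY)]
      exact (lin_bound hcs' (b2.trans hδ) (b4.trans hδ)).trans (by norm_num)

end second

end Crest.Agent.Iso341.Slab
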