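import Crest.Agent.Iso341.Slab2

/-! S0341, part SLAB, file 3: the spatial cutoff and the commutators. -/

set_option autoImplicit false

open MeasureTheory Set
open scoped ContDiff

namespace Crest.Agent.Iso341.Slab

section cut

variable {ce δ κ c s ρ : ℝ} {p Y k ζ S φ : PP → ℝ}

theorem contDiff_q (hp : ContDiff ℝ ∞ p) (hY : ContDiff ℝ ∞ Y) :
    ContDiff ℝ ∞ fun z => p z ^ 2 + Y z ^ 2 := (hp.pow 2).add (hY.pow 2)

theorem Dy_q (hp : ContDiff ℝ ∞ p) (hY : ContDiff ℝ ∞ Y) (hJ : ∀ z, br p Y z ≠ 0) (z : PP) :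
    Dy p Y (fun z => p z ^ 2 + Y z ^ 2) z = 2 * Y z := by
  rw [Dy_add (hp.pow 2) (hY.pow 2), Dy_sq hp, Dy_sq hY, Dy_p, Dy_Y hJ]; ring

theorem Dp_q (hp : ContDiff ℝ ∞ p) (hY : ContDiff ℝ ∞ Y) (hJ : ∀ z, br p Y z ≠ 0) (z : PP) :
    Dp p Y (fun z => p z ^ 2 + Y z ^ 2) z = 2 * p z := by
  rw [Dp_add (hp.pow 2) (hY.pow 2), Dp_sq hp, Dp_sq hY, Dp_p hJ, Dp_Y]; ring

/-- general chain rule for second derivatives -/
theorem Dy_Dy_comp {G : ℝ → ℝ} {t : PP → ℝ} (hp : ContDiff ℝ ∞ p) (hY : ContDiff ℝ ∞ Y)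
    (hJ : ∀ z, br p Y z ≠ 0) (hG : ContDiff ℝ ∞ G) (ht : ContDiff ℝ ∞ t) (z : PP) :
    Dy p Y (Dy p Y (fun w => G (t w))) z
      = deriv (deriv G) (t z) * Dy p Y t z ^ 2 + deriv G (t z) * Dy p Y (Dy p Y t) z := by
  have e : Dy p Y (fun w => G (t w)) = fun w => deriv G (t w) * Dy p Y t w :=
    funext (Dy_comp hG ht)
  have hG' := contDiff_deriv' hG
  have hGt : ContDiff ℝ ∞ fun w => deriv G (t w) := hG'.comp ht
  rw [e, Dy_mul hGt (contDiff_Dy hp hY hJ ht), Dy_comp hG' ht]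
  ring

theorem Dp_Dp_comp {G : ℝ → ℝ} {t : PP → ℝ} (hp : ContDiff ℝ ∞ p) (hY : ContDiff ℝ ∞ Y)
    (hJ : ∀ z, br p Y z ≠ 0) (hG : ContDiff ℝ ∞ G) (ht : ContDiff ℝ ∞ t) (z : PP) :
    Dp p Y (Dp p Y (fun w => G (t w))) z
      = deriv (deriv G) (t z) * Dp p Y t z ^ 2 + deriv G (t z) * Dp p Y (Dp p Y t) z := by
  have e : Dp p Y (fun w => G (t w)) = fun w => deriv G (t w) * Dp p Y t w :=
    funext (Dp_comp hG ht)
  have hG' := contDiff_deriv' hG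
  have hGt : ContDiff ℝ ∞ fun w => deriv G (t w) := hG'.comp ht
  rw [e, Dp_mul hGt (contDiff_Dp hp hY hJ ht), Dp_comp hG' ht]
  ring

/-- bound of the commutator of `LL` with the multiplication by a function `χ`, in real numbers -/
theorem comm_real {κ k kp x xy xp xyy xpp f fy fp m1 m2 : ℝ} (hκ : 0 < κ) (hκ1 : κ ≤ 1)
    (hk1 : -(26 / 100) ≤ k) (hk2 : k ≤ -(1 / 10)) (hkp : |kp| ≤ 8 / 10)
    (hxy : |xy| ≤ m1) (hxp : |xp| ≤ m1) (hxyy : |xyy| ≤ m2) (hxpp : |xpp| ≤ m2)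
    (hx : x = xyy + κ * (kp * xp + k * xpp)) (h12 : m1 ≤ m2) :
    |f * x + 2 * (xy * fy + κ * k * (xp * fp))| ≤ 3 * m2 * (|f| + |fy| + |fp|) := by
  have hm1 : 0 ≤ m1 := (abs_nonneg _).trans hxy
  have hm2 : 0 ≤ m2 := hm1.trans h12
  have hk : |k| ≤ 26 / 100 := by rw [abs_le]; constructor <;> linarith
  have hκ' : |κ| ≤ 1 := by rw [abs_of_pos hκ]; exact hκ1
  have h1 : |x| ≤ 3 * m2 := by
    have a1 : |kp * xp| ≤ 8 / 10 * m1 := by
      rw [abs_mul]; exact mul_le_mul hkp hxp (abs_nonneg _) (by norm_num)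
    have a2 : |k * xpp| ≤ 26 / 100 * m2 := by
      rw [abs_mul]; exact mul_le_mul hk hxpp (abs_nonneg _) (by norm_num)
    have a3 : |κ * (kp * xp + k * xpp)| ≤ 1 * (8 / 10 * m1 + 26 / 100 * m2) := by
      rw [abs_mul]
      exact mul_le_mul hκ' ((abs_add_le _ _).trans (add_le_add a1 a2)) (abs_nonneg _) zero_le_one
    rw [hx]
    refine (abs_add_le _ _).trans ?_
    linarith
  have h2 : |xy * fy| ≤ m1 * |fy| := by
    rw [abs_mul]; exact mul_le_mul_of_nonneg_right hxy (abs_nonneg _)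
  have h3 : |κ * k * (xp * fp)| ≤ 26 / 100 * (m1 * |fp|) := by
    rw [abs_mul, abs_mul, abs_mul]
    have a1 : |κ| * |k| ≤ 1 * (26 / 100) := mul_le_mul hκ' hk (abs_nonneg _) zero_le_one
    have a2 : |xp| * |fp| ≤ m1 * |fp| := mul_le_mul_of_nonneg_right hxp (abs_nonneg _)
    have := mul_le_mul a1 a2 (by positivity) (by norm_num)
    linarith
  have h4 : |f * x| ≤ |f| * (3 * m2) := by
    rw [abs_mul]; exact mul_le_mul_of_nonneg_left h1 (abs_nonneg _)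
  have h5 : |2 * (xy * fy + κ * k * (xp * fp))| ≤ 2 * (m1 * |fy| + 26 / 100 * (m1 * |fp|)) := by
    rw [abs_mul, abs_of_pos (by norm_num : (0 : ℝ) < 2)]
    have := (abs_add_le (xy * fy) (κ * k * (xp * fp))).trans (add_le_add h2 h3)
    linarith
  have h6 := abs_add_le (f * x) (2 * (xy * fy + κ * k * (xp * fp)))
  have h7 : m1 * |fy| ≤ m2 * |fy| := mul_le_mul_of_nonneg_right h12 (abs_nonneg _)
  have h8 : m1 * |fp| ≤ m2 * |fp| := mul_le_mul_of_nonneg_right h12 (abs_nonneg _)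
  have h9 := mul_nonneg hm2 (abs_nonneg fy)
  have h10 := mul_nonneg hm2 (abs_nonneg fp)
  nlinarith

/-- the commutator with the spatial cutoff -/
theorem comm_ch0 {M : ℝ} (hM0 : 0 < M)
    (hM : ∀ u, |deriv ch0 u| ≤ M ∧ |deriv (deriv ch0) u| ≤ M)
    (h : Chart δ p Y) (hP : Pocket δ p Y k) (hδ : δ ≤ 1 / 1000) (hκ : 0 < κ) (hκ1 : κ ≤ 1)
    {z : PP} (hz : p z ^ 2 + Y z ^ 2 ≤ 9 / 64) (ζ : PP → ℝ) :
    |ζ z * LL κ p Y k (fun w => ch0 (p w ^ 2 + Y w ^ 2)) z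
      + 2 * (Dy p Y (fun w => ch0 (p w ^ 2 + Y w ^ 2)) z * Dy p Y ζ z
        + κ * k z * (Dp p Y (fun w => ch0 (p w ^ 2 + Y w ^ 2)) z * Dp p Y ζ z))|
      ≤ 9 * M * (|ζ z| + |Dy p Y ζ z| + |Dp p Y ζ z|) := by
  have hp := h.smp
  have hY := h.smY
  have hJ := h.J_ne (hδ.trans (by norm_num))
  have hq := contDiff_q hp hY
  obtain ⟨k1, k2, k3, k4⟩ := hP.slab_k_bounds hδ hz
  have hYz : |Y z| ≤ 3 / 8 := by
    apply abs_le_of_sq_le_sq _ (by norm_num)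
    nlinarith [sq_nonneg (p z)]
  have hpz : |p z| ≤ 3 / 8 := by
    apply abs_le_of_sq_le_sq _ (by norm_num)
    nlinarith [sq_nonneg (Y z)]
  obtain ⟨M1, M2⟩ := hM (p z ^ 2 + Y z ^ 2)
  have eDy : Dy p Y (fun w => ch0 (p w ^ 2 + Y w ^ 2)) z
      = deriv ch0 (p z ^ 2 + Y z ^ 2) * (2 * Y z) := by
    rw [Dy_comp contDiff_ch0 hq, Dy_q hp hY hJ]
  have eDp : Dp p Y (fun w => ch0 (p w ^ 2 + Y w ^ 2)) z
      = deriv ch0 (p z ^ 2 + Y z ^ 2) * (2 * p z) := by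
    rw [Dp_comp contDiff_ch0 hq, Dp_q hp hY hJ]
  have eq1 : Dy p Y (fun z => p z ^ 2 + Y z ^ 2) = fun w => 2 * Y w := funext (Dy_q hp hY hJ)
  have eq2 : Dp p Y (fun z => p z ^ 2 + Y z ^ 2) = fun w => 2 * p w := funext (Dp_q hp hY hJ)
  have eDyy : Dy p Y (Dy p Y (fun w => ch0 (p w ^ 2 + Y w ^ 2))) z
      = deriv (deriv ch0) (p z ^ 2 + Y z ^ 2) * (2 * Y z) ^ 2
        + deriv ch0 (p z ^ 2 + Y z ^ 2) * 2 := by
    rw [Dy_Dy_comp hp hY hJ contDiff_ch0 hq, eq1, Dy_const_mul 2 hY, Dy_Y hJ, mul_one]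
  have eDpp : Dp p Y (Dp p Y (fun w => ch0 (p w ^ 2 + Y w ^ 2))) z
      = deriv (deriv ch0) (p z ^ 2 + Y z ^ 2) * (2 * p z) ^ 2
        + deriv ch0 (p z ^ 2 + Y z ^ 2) * 2 := by
    rw [Dp_Dp_comp hp hY hJ contDiff_ch0 hq, eq2, Dp_const_mul 2 hp, Dp_p hJ, mul_one]
  have b1 : ∀ a : ℝ, |a| ≤ 3 / 8 → |deriv ch0 (p z ^ 2 + Y z ^ 2) * (2 * a)| ≤ M := by
    intro a ha
    rw [abs_mul, abs_mul, abs_of_pos (by norm_num : (0 : ℝ) < 2)]
    have := mul_le_mul M1 (by linarith : 2 * |a| ≤ 1) (by positivity) hM0.le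
    linarith
  have b2 : ∀ a : ℝ, |a| ≤ 3 / 8 → |deriv (deriv ch0) (p z ^ 2 + Y z ^ 2) * (2 * a) ^ 2
        + deriv ch0 (p z ^ 2 + Y z ^ 2) * 2| ≤ 3 * M := by
    intro a ha
    have ha2 : |(2 * a) ^ 2| ≤ 1 := by
      rw [abs_of_nonneg (sq_nonneg _)]
      have := abs_le.1 ha
      nlinarith
    refine (abs_add_le _ _).trans ?_
    rw [abs_mul, abs_mul, abs_of_pos (by norm_num : (0 : ℝ) < 2)]
    have := mul_le_mul M2 ha2 (abs_nonneg _) hM0.le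
    linarith
  have := comm_real (κ := κ) (k := k z) (kp := Dp p Y k z)
    (x := LL κ p Y k (fun w => ch0 (p w ^ 2 + Y w ^ 2)) z)
    (xy := Dy p Y (fun w => ch0 (p w ^ 2 + Y w ^ 2)) z)
    (xp := Dp p Y (fun w => ch0 (p w ^ 2 + Y w ^ 2)) z)
    (xyy := Dy p Y (Dy p Y (fun w => ch0 (p w ^ 2 + Y w ^ 2))) z)
    (xpp := Dp p Y (Dp p Y (fun w => ch0 (p w ^ 2 + Y w ^ 2))) z)
    (f := ζ z) (fy := Dy p Y ζ z) (fp := Dp p Y ζ z) (m1 := M) (m2 := 3 * M) hκ hκ1 k1 k2 k4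
    (by rw [eDy]; exact b1 _ hYz) (by rw [eDp]; exact b1 _ hpz) (by rw [eDyy]; exact b2 _ hYz)
    (by rw [eDpp]; exact b2 _ hpz)
    (LL_expand hp hY hJ hP.smk (contDiff_ch0.comp hq) z) (by linarith)
  linarith

/-- the cutoff in the slab -/
noncomputable def Xt (c s ρ : ℝ) (z : PP) : ℝ := ch2 (tf c s z / ρ)

theorem contDiff_Xt (c s ρ : ℝ) : ContDiff ℝ ∞ (Xt c s ρ) :=
  contDiff_ch2.comp ((contDiff_tf c s).div_const ρ)

/-- the commutator with the slab cutoff -/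
theorem comm_ch2 {M : ℝ} (hM0 : 0 < M)
    (hM : ∀ u, |deriv ch2 u| ≤ M ∧ |deriv (deriv ch2) u| ≤ M)
    (h : Chart δ p Y) (h1 : Cl 2 (fun z => p z - z.1) univ δ)
    (h2 : Cl 2 (fun z => Y z - z.2) univ δ)
    (hP : Pocket δ p Y k) (hδ : δ ≤ 1 / 1000) (hκ : 0 < κ) (hκ1 : κ ≤ 1)
    (hcs : c ^ 2 + s ^ 2 = 1) (hρ : 0 < ρ) (hρ1 : ρ ≤ 1)
    {z : PP} (hz : p z ^ 2 + Y z ^ 2 ≤ 9 / 64) (φ : PP → ℝ) :
    |φ z * LL κ p Y k (Xt c s ρ) z
      + 2 * (Dy p Y (Xt c s ρ) z * Dy p Y φ z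
        + κ * k z * (Dp p Y (Xt c s ρ) z * Dp p Y φ z))|
      ≤ 396 * M / ρ ^ 2 * (|φ z| + |Dy p Y φ z| + |Dp p Y φ z|) := by
  have hp := h.smp
  have hY := h.smY
  have hδ1 : δ ≤ 1 / 10 := hδ.trans (by norm_num)
  have hJ := h.J_ne hδ1
  obtain ⟨k1, k2, k3, k4⟩ := hP.slab_k_bounds hδ hz
  set G : ℝ → ℝ := fun u => ch2 (u / ρ) with hG
  have cG : ContDiff ℝ ∞ G := contDiff_ch2.comp (contDiff_id.div_const ρ)
  have eX : Xt c s ρ = fun w => G (tf c s w) := rfl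
  have dG : ∀ u, deriv G u = deriv ch2 (u / ρ) / ρ := by
    intro u
    have hd : HasDerivAt ch2 (deriv ch2 (u / ρ)) (u / ρ) :=
      ((contDiff_ch2.differentiable (by simp)) _).hasDerivAt
    have := (hd.comp u ((hasDerivAt_id u).div_const ρ)).deriv
    have e : G = ch2 ∘ fun v => id v / ρ := by funext v; simp [hG]
    rw [e, this]; ring
  have dG' : deriv G = fun u => deriv ch2 (u / ρ) / ρ := funext dG
  have ddG : ∀ u, deriv (deriv G) u = deriv (deriv ch2) (u / ρ) / ρ ^ 2 := by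
    intro u
    have hd : HasDerivAt (deriv ch2) (deriv (deriv ch2) (u / ρ)) (u / ρ) :=
      (((contDiff_deriv' contDiff_ch2).differentiable (by simp)) _).hasDerivAt
    have := ((hd.comp u ((hasDerivAt_id u).div_const ρ)).div_const ρ).deriv
    have e : deriv G = fun v => (deriv ch2 ∘ fun v => id v / ρ) v / ρ := by
      rw [dG']; funext v; simp
    rw [e, this]; field_simp
  have b0 := h.slab_abs_Dy_tf_le hδ1 hcs z
  have b0' := h.slab_abs_Dp_tf_le hδ1 hcs z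
  obtain ⟨b3, b4⟩ := h.slab_DD_tf_le hδ1 h1 h2 hcs z
  obtain ⟨M1, M2⟩ := hM (tf c s z / ρ)
  have hρ2 : 0 < ρ ^ 2 := by positivity
  have g1 : |deriv G (tf c s z)| ≤ M / ρ := by
    rw [dG, abs_div, abs_of_pos hρ]; gcongr
  have g2 : |deriv (deriv G) (tf c s z)| ≤ M / ρ ^ 2 := by
    rw [ddG, abs_div, abs_of_pos hρ2]; gcongr
  have hMρ : M / ρ ≤ M / ρ ^ 2 := by
    apply div_le_div_of_nonneg_left hM0.le hρ2; nlinarith
  have hMρ0 : 0 ≤ M / ρ := by positivity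
  have eDy : Dy p Y (Xt c s ρ) z = deriv G (tf c s z) * Dy p Y (tf c s) z := by
    rw [eX, Dy_comp cG (contDiff_tf c s)]
  have eDp : Dp p Y (Xt c s ρ) z = deriv G (tf c s z) * Dp p Y (tf c s) z := by
    rw [eX, Dp_comp cG (contDiff_tf c s)]
  have b1 : ∀ a : ℝ, |a| ≤ 6 → |deriv G (tf c s z) * a| ≤ 6 * (M / ρ) := by
    intro a ha
    rw [abs_mul]
    have := mul_le_mul g1 ha (abs_nonneg _) hMρ0
    linarith
  have b2 : ∀ a b : ℝ, |a| ≤ 6 → |b| ≤ 96 → |deriv (deriv G) (tf c s z) * a ^ 2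
      + deriv G (tf c s z) * b| ≤ 132 * (M / ρ ^ 2) := by
    intro a b ha hb
    have ha2 : |a ^ 2| ≤ 36 := by
      rw [abs_of_nonneg (sq_nonneg _)]
      have := abs_le.1 ha
      nlinarith
    refine (abs_add_le _ _).trans ?_
    rw [abs_mul, abs_mul]
    have q1 := mul_le_mul g2 ha2 (abs_nonneg _) (by positivity)
    have q2 := mul_le_mul g1 hb (abs_nonneg _) hMρ0
    linarith
  have := comm_real (κ := κ) (k := k z) (kp := Dp p Y k z)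
    (x := LL κ p Y k (Xt c s ρ) z)
    (xy := Dy p Y (Xt c s ρ) z)
    (xp := Dp p Y (Xt c s ρ) z)
    (xyy := Dy p Y (Dy p Y (Xt c s ρ)) z)
    (xpp := Dp p Y (Dp p Y (Xt c s ρ)) z)
    (f := φ z) (fy := Dy p Y φ z) (fp := Dp p Y φ z) (m1 := 6 * (M / ρ))
    (m2 := 132 * (M / ρ ^ 2)) hκ hκ1 k1 k2 k4
    (by rw [eDy]; exact b1 _ b0) (by rw [eDp]; exact b1 _ (b0'.trans (by norm_num)))
    (by rw [eX, Dy_Dy_comp hp hY hJ cG (contDiff_tf c s)]; exact b2 _ _ b0 b3)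
    (by rw [eX, Dp_Dp_comp hp hY hJ cG (contDiff_tf c s)]
        exact b2 _ _ (b0'.trans (by norm_num)) b4)
    (LL_expand hp hY hJ hP.smk (contDiff_Xt c s ρ) z)
    (by linarith)
  refine this.trans (le_of_eq ?_)
  ring

/-- compactness of the disc -/
theorem isCompact_disc (h : Chart δ p Y) (hδ : δ ≤ 1 / 10) (r : ℝ) (hr : r ≤ 9 / 64) :
    IsCompact {z : PP | p z ^ 2 + Y z ^ 2 ≤ r} := by
  refine Metric.isCompact_of_isClosed_isBounded ?_ ?_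
  · exact isClosed_le (contDiff_q h.smp h.smY).continuous continuous_const
  · refine (Metric.isBounded_closedBall (x := (0 : PP)) (r := 1)).subset ?_
    intro z hz
    change p z ^ 2 + Y z ^ 2 ≤ r at hz
    have hYz : |Y z| ≤ 3 / 8 := by
      apply abs_le_of_sq_le_sq _ (by norm_num)
      nlinarith [sq_nonneg (p z)]
    have hpz : |p z| ≤ 3 / 8 := by
      apply abs_le_of_sq_le_sq _ (by norm_num)
      nlinarith [sq_nonneg (Y z)]
    have e1 := abs_le.1 (h.p0 z)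
    have e2 := abs_le.1 (h.Y0 z)
    have e3 := abs_le.1 hYz
    have e4 := abs_le.1 hpz
    rw [mem_closedBall_zero_iff, Prod.norm_def, max_le_iff, Real.norm_eq_abs, Real.norm_eq_abs,
      abs_le, abs_le]
    exact ⟨⟨by linarith, by linarith⟩, by linarith, by linarith⟩

theorem abs_tf_le (h : Chart δ p Y) (hδ : δ ≤ 1 / 10) (hcs : c ^ 2 + s ^ 2 = 1) {z : PP}
    (hz : p z ^ 2 + Y z ^ 2 ≤ 9 / 64) : |tf c s z| ≤ 1 := by
  have hYz : |Y z| ≤ 3 / 8 := by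
    apply abs_le_of_sq_le_sq _ (by norm_num)
    nlinarith [sq_nonneg (p z)]
  have hpz : |p z| ≤ 3 / 8 := by
    apply abs_le_of_sq_le_sq _ (by norm_num)
    nlinarith [sq_nonneg (Y z)]
  have e1 := abs_le.1 (h.p0 z)
  have e2 := abs_le.1 (h.Y0 z)
  have e3 := abs_le.1 hYz
  have e4 := abs_le.1 hpz
  have h1 : |z.1| ≤ 1 / 2 := by rw [abs_le]; constructor <;> linarith
  have h2 : |z.2| ≤ 1 / 2 := by rw [abs_le]; constructor <;> linarith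
  have hc1 := abs_c_le hcs
  have hs1 := abs_s_le hcs
  unfold tf
  refine (abs_add_le _ _).trans ?_
  rw [abs_mul, abs_mul, abs_neg]
  have a1 := mul_le_mul hs1 h1 (abs_nonneg _) zero_le_one
  have a2 := mul_le_mul hc1 h2 (abs_nonneg _) zero_le_one
  linarith

end cut

end Crest.Agent.Iso341.Slab
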