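import Crest.Agent.Iso341.TestS

/-! S0341, TEST: geometry of the slope. -/

set_option autoImplicit false

open MeasureTheory Set
open scoped ContDiff

namespace Crest.Agent.Iso341.Test

theorem norm_clm_le {δ : ℝ} (hδ : 0 ≤ δ) (T : PP →L[ℝ] ℝ) (h1 : |T (1, 0)| ≤ δ)
    (h2 : |T (0, 1)| ≤ δ) : ‖T‖ ≤ 2 * δ := by
  refine ContinuousLinearMap.opNorm_le_bound _ (by linarith) fun v => ?_
  have e : T v = v.1 * T (1, 0) + v.2 * T (0, 1) := by
    have : v = v.1 • ((1, 0) : PP) + v.2 • ((0, 1) : PP) := by ext <;> simp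
    conv_lhs => rw [this]
    rw [map_add, map_smul, map_smul]; simp
  have n1 : |v.1| ≤ ‖v‖ := norm_fst_le v
  have n2 : |v.2| ≤ ‖v‖ := norm_snd_le v
  have n0 := norm_nonneg v
  rw [e, Real.norm_eq_abs]
  calc |v.1 * T (1, 0) + v.2 * T (0, 1)| ≤ |v.1| * |T (1, 0)| + |v.2| * |T (0, 1)| := by
        rw [← abs_mul, ← abs_mul]; exact abs_add_le _ _
    _ ≤ ‖v‖ * δ + ‖v‖ * δ := add_le_add (mul_le_mul n1 h1 (abs_nonneg _) n0)
        (mul_le_mul n2 h2 (abs_nonneg _) n0)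
    _ = 2 * δ * ‖v‖ := by ring

theorem mean_val {δ : ℝ} (hδ : 0 ≤ δ) {g : PP → ℝ} (hg : ContDiff ℝ ∞ g)
    (h1 : ∀ z, |dx g z| ≤ δ) (h2 : ∀ z, |dy g z| ≤ δ) (z w : PP) :
    |g z - g w| ≤ 2 * δ * max |z.1 - w.1| |z.2 - w.2| := by
  have h := Convex.norm_image_sub_le_of_norm_fderiv_le (𝕜 := ℝ) (s := univ) (x := w) (y := z)
    (f := g) (C := 2 * δ) (fun x _ => diffAt hg x)
    (fun x _ => norm_clm_le hδ _ (h1 x) (h2 x)) convex_univ (mem_univ _) (mem_univ _)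
  simpa [Prod.norm_def] using h

theorem slp_diff {δ : ℝ} {X Y f : PP → ℝ} (h : Ctl δ X Y f) (z w : PP) :
    |(slp X Y f z - slp X Y f w) - (z.1 - w.1)| ≤ 2 * δ * max |z.1 - w.1| |z.2 - w.2| := by
  have hδ : 0 ≤ δ := (abs_nonneg _).trans (h.ch.p0 0)
  have := mean_val hδ (contDiff_shift_fst h.smp)
    (fun z => Cl.bd (Cl.dx h.clp) z (mem_univ _)) (fun z => Cl.bd (Cl.dy h.clp) z (mem_univ _)) z w
  convert this using 2
  ring

section

variable {ce δ ρ c s : ℝ} {X Y f : PP → ℝ}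

theorem slp_sep (hce : 0 < ce) (hce1 : ce ≤ 1) (hδ : δ ≤ ce / 100) (h : Ctl δ X Y f) (hρ : 0 < ρ)
    (hcs : c ^ 2 + s ^ 2 = 1) (hc : ce ≤ |c|) {i j : ℕ} (hij : i ≠ j) :
    5 * ρ ≤ |slp X Y f (zc ρ ce c s i) - slp X Y f (zc ρ ce c s j)| := by
  have hδ0 : 0 ≤ δ := (abs_nonneg _).trans (h.ch.p0 0)
  have h1 := slp_diff h (zc ρ ce c s i) (zc ρ ce c s j)
  set D := slp X Y f (zc ρ ce c s i) - slp X Y f (zc ρ ce c s j) with hD
  have ex : (zc ρ ce c s i).1 - (zc ρ ce c s j).1 = 8 * ρ * ((i : ℝ) - j) / ce * c := by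
    simp only [zc]; ring
  have ey : (zc ρ ce c s i).2 - (zc ρ ce c s j).2 = 8 * ρ * ((i : ℝ) - j) / ce * s := by
    simp only [zc]; ring
  have hN : (1 : ℝ) ≤ |(i : ℝ) - j| := by
    have h2 : (1 : ℤ) ≤ |(i : ℤ) - j| := Int.one_le_abs (by omega)
    have h3 : ((1 : ℤ) : ℝ) ≤ ((|(i : ℤ) - j| : ℤ) : ℝ) := by exact_mod_cast h2
    simpa using h3
  have hc1 : |c| ≤ 1 := by rw [← sq_le_one_iff_abs_le_one]; nlinarith [sq_nonneg s]
  have hs1 : |s| ≤ 1 := by rw [← sq_le_one_iff_abs_le_one]; nlinarith [sq_nonneg c]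
  set N := |(i : ℝ) - j| with hNdef
  set t := 8 * ρ * N / ce with ht
  have ht0 : 0 < t := by positivity
  have hx : |8 * ρ * ((i : ℝ) - j) / ce * c| = t * |c| := by
    rw [abs_mul, abs_div, abs_mul, abs_of_pos (by positivity : 0 < 8 * ρ), abs_of_pos hce]
  have hy : |8 * ρ * ((i : ℝ) - j) / ce * s| = t * |s| := by
    rw [abs_mul, abs_div, abs_mul, abs_of_pos (by positivity : 0 < 8 * ρ), abs_of_pos hce]
  rw [ex, ey, hx, hy] at h1
  have hmax : max (t * |c|) (t * |s|) ≤ t := by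
    apply max_le
    · nlinarith
    · nlinarith
  have h2 : |D - 8 * ρ * ((i : ℝ) - j) / ce * c| ≤ 2 * (ce / 100) * t :=
    h1.trans (mul_le_mul (by linarith) hmax (by positivity) (by positivity))
  have h3 : |8 * ρ * ((i : ℝ) - j) / ce * c| - |D| ≤ 2 * (ce / 100) * t := by
    have h30 := abs_sub_abs_le_abs_sub (8 * ρ * ((i : ℝ) - j) / ce * c) D
    rw [abs_sub_comm (8 * ρ * ((i : ℝ) - j) / ce * c) D] at h30
    linarith
  rw [hx] at h3
  have h4 : t * ce ≤ t * |c| := mul_le_mul_of_nonneg_left hc ht0.le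
  have h5 : t * ce = 8 * ρ * N := by rw [ht]; field_simp
  have h6 : 8 * ρ ≤ 8 * ρ * N := by nlinarith
  nlinarith

theorem dq_lt {z w : PP} {r : ℝ} (hr : 0 < r) (h : dq z w < r ^ 2) :
    |z.1 - w.1| < r ∧ |z.2 - w.2| < r := by
  simp only [dq] at h
  constructor
  · exact abs_lt_of_sq_lt_sq (by nlinarith [sq_nonneg (z.2 - w.2)]) hr.le
  · exact abs_lt_of_sq_lt_sq (by nlinarith [sq_nonneg (z.1 - w.1)]) hr.le

theorem dq_le {z w : PP} {r : ℝ} (hr : 0 < r) (h : dq z w ≤ r ^ 2) :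
    |z.1 - w.1| ≤ r ∧ |z.2 - w.2| ≤ r := by
  simp only [dq] at h
  constructor
  · exact abs_le_of_sq_le_sq (by nlinarith [sq_nonneg (z.2 - w.2)]) hr.le
  · exact abs_le_of_sq_le_sq (by nlinarith [sq_nonneg (z.1 - w.1)]) hr.le

theorem slp_near (hδ : δ ≤ 1 / 100) (h : Ctl δ X Y f) (hρ : 0 < ρ) {z w : PP}
    (hz : dq z w < ρ ^ 2 / 4) : |slp X Y f z - slp X Y f w| < ρ := by
  have hδ0 : 0 ≤ δ := (abs_nonneg _).trans (h.ch.p0 0)
  have h0 : dq z w < (ρ / 2) ^ 2 := by rw [div_pow]; norm_num; linarith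
  obtain ⟨h1, h2⟩ := dq_lt (by positivity) h0
  have h3 := slp_diff h z w
  have hmax : max |z.1 - w.1| |z.2 - w.2| ≤ ρ / 2 := max_le h1.le h2.le
  have h4 : |(slp X Y f z - slp X Y f w) - (z.1 - w.1)| ≤ 2 * (1 / 100) * (ρ / 2) :=
    h3.trans (mul_le_mul (by linarith) hmax (by positivity) (by positivity))
  rw [abs_le] at h4
  rw [abs_lt] at h1 ⊢
  constructor <;> linarith [h1.1, h1.2, h4.1, h4.2]

theorem strip_box (hce : 0 < ce) (hce1 : ce ≤ 1) (hδ : δ ≤ ce / 100) (h : Ctl δ X Y f) (hρ : 0 < ρ)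
    (hcs : c ^ 2 + s ^ 2 = 1) (hc : ce ≤ |c|) {z : PP} {i : ℕ}
    (h1 : |slp X Y f z - slp X Y f (zc ρ ce c s i)| ≤ 2 * ρ)
    (h2 : |-s * z.1 + c * z.2| ≤ 3 * ρ) :
    |z.1 - (zc ρ ce c s i).1| ≤ 30 * ρ / ce ∧ |z.2 - (zc ρ ce c s i).2| ≤ 30 * ρ / ce := by
  have hδ0 : 0 ≤ δ := (abs_nonneg _).trans (h.ch.p0 0)
  have h3 := slp_diff h z (zc ρ ce c s i)
  set w := zc ρ ce c s i with hw
  have hsw : -s * w.1 + c * w.2 = 0 := by rw [hw]; simp only [zc]; ring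
  have hs1 : |s| ≤ 1 := by rw [← sq_le_one_iff_abs_le_one]; nlinarith [sq_nonneg c]
  set u1 := z.1 - w.1 with hu1
  set u2 := z.2 - w.2 with hu2
  have h4 : |-s * u1 + c * u2| ≤ 3 * ρ := by
    have : -s * u1 + c * u2 = -s * z.1 + c * z.2 := by rw [hu1, hu2]; linarith
    rw [this]; exact h2
  have hcu : |c| * |u2| ≤ 3 * ρ + |u1| := by
    rw [← abs_mul]
    have e : c * u2 = (-s * u1 + c * u2) + s * u1 := by ring
    rw [e]
    refine (abs_add_le _ _).trans (add_le_add h4 ?_)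
    rw [abs_mul]
    nlinarith [abs_nonneg u1]
  have hu2' : ce * |u2| ≤ 3 * ρ + |u1| :=
    (mul_le_mul_of_nonneg_right hc (abs_nonneg _)).trans hcu
  have hM : ce * max |u1| |u2| ≤ 3 * ρ + |u1| := by
    rw [mul_max_of_nonneg _ _ hce.le]
    apply max_le _ hu2'
    nlinarith [abs_nonneg u1]
  have h5 : |u1| ≤ 2 * ρ + 2 * δ * max |u1| |u2| := by
    have : |u1| - |slp X Y f z - slp X Y f w| ≤ 2 * δ * max |u1| |u2| := by
      have h30 := abs_sub_abs_le_abs_sub u1 (slp X Y f z - slp X Y f w)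
      rw [abs_sub_comm u1] at h30
      linarith
    linarith
  have h6 : 2 * δ * max |u1| |u2| ≤ 1 / 50 * (3 * ρ + |u1|) := by
    have : 2 * δ * max |u1| |u2| ≤ 2 * (ce / 100) * max |u1| |u2| :=
      mul_le_mul_of_nonneg_right (by linarith) (by positivity)
    linarith
  have h7 : |u1| ≤ 3 * ρ := by linarith
  have h8 : 30 * ρ ≤ 30 * ρ / ce := by
    rw [le_div_iff₀ hce]; nlinarith
  constructor
  · linarith
  · rw [le_div_iff₀ hce]; nlinarith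

theorem slp_small (hδ : δ ≤ 1 / 100) (h : Ctl δ X Y f) {z : PP} (h1 : |z.1| ≤ 1 / 32)
    (h2 : |z.2| ≤ 1 / 32) : slp X Y f z ^ 2 + Y z ^ 2 < 25 / 256 := by
  have a1 := abs_le.1 (h.ch.p0 z)
  have a2 := abs_le.1 (h.ch.Y0 z)
  have b1 := abs_le.1 h1
  have b2 := abs_le.1 h2
  have c1 : |slp X Y f z| ≤ 1 / 20 := by
    rw [abs_le]; constructor <;> linarith [a1.1, a1.2, b1.1, b1.2]
  have c2 : |Y z| ≤ 1 / 20 := by
    rw [abs_le]; constructor <;> linarith [a2.1, a2.2, b2.1, b2.2]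
  have d1 := sq_le_sq' (abs_le.1 c1).1 (abs_le.1 c1).2
  have d2 := sq_le_sq' (abs_le.1 c2).1 (abs_le.1 c2).2
  norm_num at d1 d2 ⊢
  linarith

end

end Crest.Agent.Iso341.Test
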