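import Crest.Agent.Iso341.TestS

/-! S0341, TEST: integration by parts against the source, main term. -/

set_option autoImplicit false

open MeasureTheory Set
open scoped ContDiff

namespace Crest.Agent.Iso341.Test

/-- the factor of `H / J0` in the weak form -/
noncomputable def brk (X Y f V : PP → ℝ) (z : PP) : ℝ :=
  dx (fun w => Dp (slp X Y f) Y V w * br (slp X Y f) X w / br X Y w) z * dx Y z
  + dy (fun w => Dp (slp X Y f) Y V w * br (slp X Y f) X w / br X Y w) z * dy Y z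
  - dx (fun w => Dp (slp X Y f) Y V w * br (slp X Y f) Y w / br X Y w) z * dx X z
  - dy (fun w => Dp (slp X Y f) Y V w * br (slp X Y f) Y w / br X Y w) z * dy X z

theorem hcs_r1 {X Y H : PP → ℝ} (hs : HasCompactSupport H) : HasCompactSupport (r1 X Y H) := by
  have h1 : HasCompactSupport (fun w => H w / br X Y w * dx Y w) := hcs_mul_left (hcs_div hs _) _
  have h2 : HasCompactSupport (fun w => H w / br X Y w * dy Y w) := hcs_mul_left (hcs_div hs _) _
  have h3 := hcs_add (hcs_dx h1) (hcs_dy h2)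
  exact h3.comp_left (g := fun t => -t) neg_zero

theorem hcs_r2 {X Y H : PP → ℝ} (hs : HasCompactSupport H) : HasCompactSupport (r2 X Y H) := by
  have h1 : HasCompactSupport (fun w => H w / br X Y w * dx X w) := hcs_mul_left (hcs_div hs _) _
  have h2 : HasCompactSupport (fun w => H w / br X Y w * dy X w) := hcs_mul_left (hcs_div hs _) _
  exact hcs_add (hcs_dx h1) (hcs_dy h2)

theorem integral_SS {m : ℝ} {X Y f H V : PP → ℝ} (hX : ContDiff ℝ ∞ X)
    (hY : ContDiff ℝ ∞ Y) (hp : ContDiff ℝ ∞ (slp X Y f)) (hH : ContDiff ℝ ∞ H)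
    (hHs : HasCompactSupport H)
    (hV : ContDiff ℝ ∞ V) (hJ : ∀ z, br X Y z ≠ 0) (hJ' : ∀ z, br (slp X Y f) Y z ≠ 0)
    (hDV : ∀ z, Dy (slp X Y f) Y V z = 0) :
    ∫ z, V z * SS m X Y f H z * br (slp X Y f) Y z
      = 1 / m * ∫ z, H z / br X Y z * brk X Y f V z := by
  set p := slp X Y f with hpdef
  have sJ0 : ContDiff ℝ ∞ (br X Y) := contDiff_br hX hY
  have sJ : ContDiff ℝ ∞ (br p Y) := contDiff_br hp hY
  have sr1 := contDiff_r1 hX hY hH hJ
  have sr2 := contDiff_r2 hX hY hH hJ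
  have kr1 : HasCompactSupport (r1 X Y H) := hcs_r1 hHs
  have kr2 : HasCompactSupport (r2 X Y H) := hcs_r2 hHs
  have sA : ContDiff ℝ ∞ (fun w => r1 X Y H w / br p Y w) := sr1.div sJ hJ'
  have kA : HasCompactSupport (fun w => r1 X Y H w / br p Y w) := hcs_div kr1 _
  have sbr : ContDiff ℝ ∞ (br p X) := contDiff_br hp hX
  have sB : ContDiff ℝ ∞ (BB X Y f H) :=
    (((sbr.div sJ hJ').mul sr1).add sr2).div sJ0 hJ
  have kB : HasCompactSupport (BB X Y f H) :=
    hcs_div (hcs_add (hcs_mul_right kr1 _) kr2) _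
  have i1 : Integrable fun z => V z * Dy p Y (fun w => r1 X Y H w / br p Y w) z * br p Y z :=
    integrable_smooth_cs ((hV.mul (contDiff_Dy hp hY hJ' sA)).mul sJ)
      (hcs_mul_left (hcs_mul_right (hcs_Dy kA) _) _)
  have i2 : Integrable fun z => V z * Dp p Y (BB X Y f H) z * br p Y z :=
    integrable_smooth_cs ((hV.mul (contDiff_Dp hp hY hJ' sB)).mul sJ)
      (hcs_mul_left (hcs_mul_right (hcs_Dp kB) _) _)
  have e0 : ∀ z, V z * SS m X Y f H z * br p Y z
      = 1 / m * (V z * Dy p Y (fun w => r1 X Y H w / br p Y w) z * br p Y z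
        - V z * Dp p Y (BB X Y f H) z * br p Y z) := by
    intro z; rw [SS_eq]; ring
  have e1 : ∫ z, V z * Dy p Y (fun w => r1 X Y H w / br p Y w) z * br p Y z = 0 := by
    rw [integral_mul_Dy hp hY hJ' hV sA (Or.inr kA)]
    simp [hDV]
  have e2 : ∫ z, V z * Dp p Y (BB X Y f H) z * br p Y z
      = - ∫ z, Dp p Y V z * BB X Y f H z * br p Y z :=
    integral_mul_Dp hp hY hJ' hV sB (Or.inr kB)
  -- the second integration by parts
  set W1 : PP → ℝ := fun w => Dp p Y V w * br p X w / br X Y w with hW1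
  set W2 : PP → ℝ := fun w => Dp p Y V w * br p Y w / br X Y w with hW2
  have sDV : ContDiff ℝ ∞ (Dp p Y V) := contDiff_Dp hp hY hJ' hV
  have sW1 : ContDiff ℝ ∞ W1 := (sDV.mul sbr).div sJ0 hJ
  have sW2 : ContDiff ℝ ∞ W2 := (sDV.mul sJ).div sJ0 hJ
  have sG : ContDiff ℝ ∞ (fun w => H w / br X Y w) := hH.div sJ0 hJ
  have kG : HasCompactSupport (fun w => H w / br X Y w) := hcs_div hHs _
  have s1 := sG.mul (contDiff_dx hY)
  have s2 := sG.mul (contDiff_dy hY)
  have s3 := sG.mul (contDiff_dx hX)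
  have s4 := sG.mul (contDiff_dy hX)
  have k1 : HasCompactSupport (fun w => H w / br X Y w * dx Y w) := hcs_mul_left kG _
  have k2 : HasCompactSupport (fun w => H w / br X Y w * dy Y w) := hcs_mul_left kG _
  have k3 : HasCompactSupport (fun w => H w / br X Y w * dx X w) := hcs_mul_left kG _
  have k4 : HasCompactSupport (fun w => H w / br X Y w * dy X w) := hcs_mul_left kG _
  have p1 := integral_mul_dx sW1 s1 (Or.inr k1)
  have p2 := integral_mul_dy sW1 s2 (Or.inr k2)
  have p3 := integral_mul_dx sW2 s3 (Or.inr k3)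
  have p4 := integral_mul_dy sW2 s4 (Or.inr k4)
  have j1 : Integrable fun z => W1 z * dx (fun w => H w / br X Y w * dx Y w) z :=
    integrable_smooth_cs (sW1.mul (contDiff_dx s1)) (hcs_mul_right (hcs_dx k1) _)
  have j2 : Integrable fun z => W1 z * dy (fun w => H w / br X Y w * dy Y w) z :=
    integrable_smooth_cs (sW1.mul (contDiff_dy s2)) (hcs_mul_right (hcs_dy k2) _)
  have j3 : Integrable fun z => W2 z * dx (fun w => H w / br X Y w * dx X w) z :=
    integrable_smooth_cs (sW2.mul (contDiff_dx s3)) (hcs_mul_right (hcs_dx k3) _)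
  have j4 : Integrable fun z => W2 z * dy (fun w => H w / br X Y w * dy X w) z :=
    integrable_smooth_cs (sW2.mul (contDiff_dy s4)) (hcs_mul_right (hcs_dy k4) _)
  have l1 : Integrable fun z => dx W1 z * (H z / br X Y z * dx Y z) :=
    integrable_smooth_cs ((contDiff_dx sW1).mul s1) (hcs_mul_right k1 _)
  have l2 : Integrable fun z => dy W1 z * (H z / br X Y z * dy Y z) :=
    integrable_smooth_cs ((contDiff_dy sW1).mul s2) (hcs_mul_right k2 _)
  have l3 : Integrable fun z => dx W2 z * (H z / br X Y z * dx X z) :=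
    integrable_smooth_cs ((contDiff_dx sW2).mul s3) (hcs_mul_right k3 _)
  have l4 : Integrable fun z => dy W2 z * (H z / br X Y z * dy X z) :=
    integrable_smooth_cs ((contDiff_dy sW2).mul s4) (hcs_mul_right k4 _)
  have e3 : ∀ z, Dp p Y V z * BB X Y f H z * br p Y z
      = (W2 z * dx (fun w => H w / br X Y w * dx X w) z
          + W2 z * dy (fun w => H w / br X Y w * dy X w) z)
        - (W1 z * dx (fun w => H w / br X Y w * dx Y w) z
          + W1 z * dy (fun w => H w / br X Y w * dy Y w) z) := by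
    intro z
    have h1 := hJ z
    have h2 := hJ' z
    simp only [BB, r1, r2, hW1, hW2, ← hpdef]
    field_simp
    ring
  have e4 : ∀ z, H z / br X Y z * brk X Y f V z
      = (dx W1 z * (H z / br X Y z * dx Y z) + dy W1 z * (H z / br X Y z * dy Y z))
        - (dx W2 z * (H z / br X Y z * dx X z) + dy W2 z * (H z / br X Y z * dy X z)) := by
    intro z
    simp only [brk, ← hpdef, ← hW1, ← hW2]
    ring
  simp only [e0]
  rw [integral_const_mul, integral_sub i1 i2, e1, e2]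
  simp only [e3, e4]
  have E3 := (integral_sub (j3.add j4) (j1.add j2)).trans
    (congrArg₂ (· - ·) (integral_add j3 j4) (integral_add j1 j2))
  have E4 := (integral_sub (l1.add l2) (l3.add l4)).trans
    (congrArg₂ (· - ·) (integral_add l1 l2) (integral_add l3 l4))
  simp only [Pi.add_apply] at E3 E4
  rw [E3, E4, p1, p2, p3, p4]
  ring

theorem brk_main : ∃ ρ₂ : ℝ, 0 < ρ₂ ∧ ∀ X Y f : PP → ℝ, Ctl (1 / 100) X Y f →
    ∀ V : PP → ℝ, ∀ (U : Set PP) (σ q : ℝ), IsOpen U →
    (∀ z ∈ U, Dp (slp X Y f) Y V z = - (σ * (slp X Y f z - q))) →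
    ∀ z ∈ U, |slp X Y f z - q| ≤ ρ₂ → ∃ θ : ℝ, 1 / 2 ≤ θ ∧ brk X Y f V z = σ * θ := by
  obtain ⟨K1, hK1, D1⟩ := Cl.div 1 2 (by norm_num)
  refine ⟨1 / (1000 * K1), by positivity, fun X Y f hc V U σ q hU hV z hz hq => ?_⟩
  set p := slp X Y f with hp
  have smp : ContDiff ℝ ∞ p := hc.smp
  have hJ0 := hc.J0_ge (by norm_num)
  have hJ := hc.J_ge (by norm_num)
  have hJ0n := hc.J0ne
  have hJn := hc.Jne (by norm_num)
  have e : (1 / 100 + 1 : ℝ) ≤ 2 := by norm_num
  have e' : (1 / 100 : ℝ) ≤ 2 := by norm_num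
  have Xx : Cl 3 (dx X) univ 2 := Cl.mono (cl_dx_fst hc.smX hc.clX) e
  have Xy : Cl 3 (dy X) univ 2 := Cl.mono (cl_dy_fst hc.smX hc.clX) e'
  have Yx : Cl 3 (dx Y) univ 2 := Cl.mono (cl_dx_snd hc.smY hc.clY) e'
  have Yy : Cl 3 (dy Y) univ 2 := Cl.mono (cl_dy_snd hc.smY hc.clY) e
  have px : Cl 2 (dx p) univ 2 := Cl.mono (cl_dx_fst smp hc.clp) e
  have py : Cl 2 (dy p) univ 2 := Cl.mono (cl_dy_fst smp hc.clp) e'
  have cJ0 : Cl 3 (br X Y) univ 2 := Cl.mono (cl_of_sub_one hc.smJ0 hc.clJ0) e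
  have cJ : Cl 2 (br p Y) univ 2 := Cl.mono (cl_of_sub_one hc.smJ hc.clJ) e
  have sbr : ContDiff ℝ ∞ (br p X) := contDiff_br smp hc.smX
  have cbr : Cl 1 (br p X) univ (2 ^ (1 + 1) * 2 * 2) :=
    Cl.br (by norm_num) (by norm_num) smp hc.smX (Cl.le px (by norm_num)) (Cl.le py (by norm_num))
      (Cl.le Xx (by norm_num)) (Cl.le Xy (by norm_num))
  -- `al = br p X / J0`, `be = J / J0`
  set al : PP → ℝ := fun w => br p X w / br X Y w with hal
  set be : PP → ℝ := fun w => br p Y w / br X Y w with hbe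
  have sal : ContDiff ℝ ∞ al := sbr.div hc.smJ0 hJ0n
  have sbe : ContDiff ℝ ∞ be := hc.smJ.div hc.smJ0 hJ0n
  have cal : Cl 1 al univ (K1 * (2 ^ (1 + 1) * 2 * 2)) :=
    D1 _ _ univ _ (by norm_num) sbr hc.smJ0 hJ0 (Cl.le cJ0 (by norm_num)) cbr
  have cbe : Cl 1 be univ (K1 * 2) :=
    D1 _ _ univ _ (by norm_num) hc.smJ hc.smJ0 hJ0 (Cl.le cJ0 (by norm_num)) (Cl.le cJ (by norm_num))
  have spq : ContDiff ℝ ∞ (fun w => p w - q) := smp.sub contDiff_const
  have dxpq : dx (fun w => p w - q) z = dx p z := by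
    rw [dx_sub smp contDiff_const, dx_const, sub_zero]
  have dypq : dy (fun w => p w - q) z = dy p z := by
    rw [dy_sub smp contDiff_const, dy_const, sub_zero]
  have w1x : dx (fun w => Dp p Y V w * br p X w / br X Y w) z
      = -σ * (dx p z * al z + (p z - q) * dx al z) := by
    rw [dx_congr_on (g := fun w => -σ * ((p w - q) * al w)) hU
      (fun w hw => by rw [hV w hw]; simp only [hal]; ring) z hz,
      dx_const_mul _ (spq.mul sal), dx_mul spq sal, dxpq]
  have w1y : dy (fun w => Dp p Y V w * br p X w / br X Y w) z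
      = -σ * (dy p z * al z + (p z - q) * dy al z) := by
    rw [dy_congr_on (g := fun w => -σ * ((p w - q) * al w)) hU
      (fun w hw => by rw [hV w hw]; simp only [hal]; ring) z hz,
      dy_const_mul _ (spq.mul sal), dy_mul spq sal, dypq]
  have w2x : dx (fun w => Dp p Y V w * br p Y w / br X Y w) z
      = -σ * (dx p z * be z + (p z - q) * dx be z) := by
    rw [dx_congr_on (g := fun w => -σ * ((p w - q) * be w)) hU
      (fun w hw => by rw [hV w hw]; simp only [hbe]; ring) z hz,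
      dx_const_mul _ (spq.mul sbe), dx_mul spq sbe, dxpq]
  have w2y : dy (fun w => Dp p Y V w * br p Y w / br X Y w) z
      = -σ * (dy p z * be z + (p z - q) * dy be z) := by
    rw [dy_congr_on (g := fun w => -σ * ((p w - q) * be w)) hU
      (fun w hw => by rw [hV w hw]; simp only [hbe]; ring) z hz,
      dy_const_mul _ (spq.mul sbe), dy_mul spq sbe, dypq]
  set R : ℝ := dx be z * dx X z + dy be z * dy X z - (dx al z * dx Y z + dy al z * dy Y z) with hR
  refine ⟨be z * (dx p z * dx X z + dy p z * dy X z) - al z * (dx p z * dx Y z + dy p z * dy Y z)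
    + (p z - q) * R, ?_, ?_⟩
  · -- sharp bounds
    have mz := mem_univ z
    have bXx := abs_le.1 (Cl.bd (Cl.dx hc.clX) z mz)
    have bXy := abs_le.1 (Cl.bd (Cl.dy hc.clX) z mz)
    have bYx := abs_le.1 (Cl.bd (Cl.dx hc.clY) z mz)
    have bYy := abs_le.1 (Cl.bd (Cl.dy hc.clY) z mz)
    have eXx := congrFun (dx_shift_fst hc.smX) z
    have eXy := congrFun (dy_shift_fst hc.smX) z
    have eYx := congrFun (dx_shift_snd hc.smY) z
    have eYy := congrFun (dy_shift_snd hc.smY) z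
    have bpx := abs_le.1 (hc.ch.px z)
    have bpy := abs_le.1 (hc.ch.py z)
    have bJ0 := abs_le.1 (Cl.bd hc.clJ0 z mz)
    have bJ := abs_le.1 (Cl.bd hc.clJ z mz)
    have hJ0z := hJ0 z
    have hpos : 0 < br X Y z := by linarith
    have hRb : |R| ≤ 200 * K1 := by
      have e16 : (2 : ℝ) ^ (1 + 1) * 2 * 2 = 16 := by norm_num
      rw [e16] at cal
      have a1 := Cl.bd (Cl.dx cal) z mz
      have a2 := Cl.bd (Cl.dy cal) z mz
      have a3 := Cl.bd (Cl.dx cbe) z mz
      have a4 := Cl.bd (Cl.dy cbe) z mz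
      have b1 := Cl.bd Xx z mz
      have b2 := Cl.bd Xy z mz
      have b3 := Cl.bd Yx z mz
      have b4 := Cl.bd Yy z mz
      have hm : ∀ u v c d : ℝ, |u| ≤ c → |v| ≤ d → |u * v| ≤ c * d := by
        intro u v c d hu hv
        rw [abs_mul]
        exact mul_le_mul hu hv (abs_nonneg _) ((abs_nonneg _).trans hu)
      have c1 := hm _ _ _ _ a3 b1
      have c2 := hm _ _ _ _ a4 b2
      have c3 := hm _ _ _ _ a1 b3
      have c4 := hm _ _ _ _ a2 b4
      rw [hR]
      have c1' := abs_le.1 c1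
      have c2' := abs_le.1 c2
      have c3' := abs_le.1 c3
      have c4' := abs_le.1 c4
      rw [abs_le]
      constructor <;> linarith [c1'.1, c1'.2, c2'.1, c2'.2, c3'.1, c3'.2, c4'.1, c4'.2]
    have hR2 : |(p z - q) * R| ≤ 1 / 5 := by
      rw [abs_mul]
      calc |p z - q| * |R| ≤ 1 / (1000 * K1) * (200 * K1) :=
            mul_le_mul hq hRb (abs_nonneg _) (by positivity)
        _ = 1 / 5 := by field_simp; norm_num
    have hR3 := abs_le.1 hR2
    have mb : ∀ u v : ℝ, |u| ≤ 0.01 → |v| ≤ 0.01 → -0.0001 ≤ u * v ∧ u * v ≤ 0.0001 := by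
      intro u v hu hv
      have : |u * v| ≤ 0.01 * 0.01 := by
        rw [abs_mul]; exact mul_le_mul hu hv (abs_nonneg _) (by norm_num)
      have := abs_le.1 this
      constructor <;> linarith [this.1, this.2]
    clear w1x w1y w2x w2y dxpq dypq
    obtain ⟨a, hpxz⟩ : ∃ a, dx p z = a := ⟨_, rfl⟩
    obtain ⟨b, hpyz⟩ : ∃ a, dy p z = a := ⟨_, rfl⟩
    obtain ⟨c, hXxz⟩ : ∃ a, dx X z = a := ⟨_, rfl⟩
    obtain ⟨d, hXyz⟩ : ∃ a, dy X z = a := ⟨_, rfl⟩
    obtain ⟨e, hYxz⟩ : ∃ a, dx Y z = a := ⟨_, rfl⟩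
    obtain ⟨g, hYyz⟩ : ∃ a, dy Y z = a := ⟨_, rfl⟩
    rw [hpxz, hpyz, hXxz, hXyz, hYxz, hYyz]
    rw [← hp, hpxz] at bpx
    rw [← hp, hpyz] at bpy
    rw [hXxz] at eXx
    rw [hXyz] at eXy
    rw [hYxz] at eYx
    rw [hYyz] at eYy
    have ca : |a - 1| ≤ 0.01 := by rw [abs_le]; constructor <;> linarith [bpx.1, bpx.2]
    have cb : |b| ≤ 0.01 := by rw [abs_le]; constructor <;> linarith [bpy.1, bpy.2]
    have cc : |c - 1| ≤ 0.01 := by rw [abs_le]; constructor <;> linarith [bXx.1, bXx.2]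
    have cd : |d| ≤ 0.01 := by rw [abs_le]; constructor <;> linarith [bXy.1, bXy.2]
    have ce : |e| ≤ 0.01 := by rw [abs_le]; constructor <;> linarith [bYx.1, bYx.2]
    have cg : |g - 1| ≤ 0.01 := by rw [abs_le]; constructor <;> linarith [bYy.1, bYy.2]
    have m1 := mb _ _ ca cc
    have m2 := mb _ _ cb cd
    have m3 := mb _ _ ca cd
    have m4 := mb _ _ cb cc
    have m5 := mb _ _ ca ce
    have m6 := mb _ _ cb cg
    have ca' := abs_le.1 ca
    have cb' := abs_le.1 cb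
    have cc' := abs_le.1 cc
    have cd' := abs_le.1 cd
    have ce' := abs_le.1 ce
    have cg' := abs_le.1 cg
    have bbe : 0.9 ≤ be z := by
      simp only [hbe]
      rw [le_div_iff₀ hpos]
      linarith [bJ.1, bJ0.2]
    have bal : |al z| ≤ 0.1 := by
      have h0 : al z = (a * d - b * c) / br X Y z := by
        simp only [hal]; rw [Iso341.br, hpxz, hpyz, hXxz, hXyz]
      rw [h0, abs_div, abs_of_pos hpos, div_le_iff₀ hpos, abs_le]
      constructor <;> linarith [m3.1, m3.2, m4.1, m4.2, ca'.1, ca'.2, cb'.1, cb'.2, cc'.1, cc'.2,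
        cd'.1, cd'.2, bJ0.1]
    have h1 : 0.97 ≤ a * c + b * d := by
      linarith [m1.1, m2.1, ca'.1, cc'.1]
    have h2 : |a * e + b * g| ≤ 0.1 := by
      rw [abs_le]
      constructor <;> linarith [m5.1, m5.2, m6.1, m6.2, ce'.1, ce'.2, cb'.1, cb'.2]
    have h3 : |al z * (a * e + b * g)| ≤ 0.1 * 0.1 := by
      rw [abs_mul]; exact mul_le_mul bal h2 (abs_nonneg _) (by norm_num)
    have h4 := abs_le.1 h3
    have h5 : 0.9 * 0.97 ≤ be z * (a * c + b * d) :=
      mul_le_mul bbe h1 (by norm_num) (by linarith)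
    linarith [h4.1, h4.2, hR3.1, hR3.2]
  · simp only [brk, ← hp, w1x, w1y, w2x, w2y, hR]
    ring

end Crest.Agent.Iso341.Test
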