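import Crest.Agent.Iso341.TestDefs

/-! S0341, TEST, part V: the one dimensional profile `v0` of the test function. -/

set_option autoImplicit false

open MeasureTheory Set
open scoped ContDiff

namespace Crest.Agent.Iso341.Test

theorem contDiff_chi0 : ContDiff ℝ ∞ chi0 := by
  unfold chi0
  refine ContDiff.mul (Real.smoothTransition.contDiff.comp ?_) ?_ <;> fun_prop

theorem contDiff_v0 {n : ℕ} (ρ : ℝ) (q : Fin n → ℝ) (b b' : Fin n → Bool) :
    ContDiff ℝ ∞ (v0 ρ q b b') := by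
  unfold v0
  refine ContDiff.neg (ContDiff.sum fun i _ => contDiff_const.mul (contDiff_const.mul
    (contDiff_chi0.comp ?_)))
  fun_prop

theorem abs_sg_le {n : ℕ} (b b' : Fin n → Bool) (i : Fin n) : |sg b b' i| ≤ 1 := by
  simp only [sg]
  cases hb : b i <;> cases hb' : b' i <;> simp

theorem sg_eq_zero {n : ℕ} {b b' : Fin n → Bool} {i : Fin n} (h : b i = b' i) :
    sg b b' i = 0 := by
  simp only [sg, h, sub_self]

theorem chi0_eq_zero {t : ℝ} (ht : 2 ≤ |t|) : chi0 t = 0 := by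
  unfold chi0
  rw [Real.smoothTransition.zero_of_nonpos, zero_mul]
  have : (2 : ℝ) ^ 2 ≤ |t| ^ 2 := by gcongr
  rw [sq_abs] at this
  linarith

theorem chi0_eq {t : ℝ} (ht : |t| ≤ 1) : chi0 t = t ^ 2 / 2 := by
  unfold chi0
  rw [Real.smoothTransition.one_of_one_le, one_mul]
  have : |t| ^ 2 ≤ 1 ^ 2 := by gcongr
  rw [sq_abs] at this
  linarith

theorem diff_chi0 : Differentiable ℝ chi0 := contDiff_chi0.differentiable (by simp)

theorem contDiff_deriv_chi0 : ContDiff ℝ ∞ (deriv chi0) :=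
  (contDiff_infty_iff_deriv.1 contDiff_chi0).2

theorem diff_deriv_chi0 : Differentiable ℝ (deriv chi0) :=
  contDiff_deriv_chi0.differentiable (by simp)

theorem cont_deriv2_chi0 : Continuous (deriv (deriv chi0)) :=
  (contDiff_infty_iff_deriv.1 contDiff_deriv_chi0).2.continuous

theorem deriv_chi0_eq_zero {t : ℝ} (ht : 2 < |t|) : deriv chi0 t = 0 := by
  have hopen : IsOpen {y : ℝ | 2 < |y|} := isOpen_lt continuous_const continuous_abs
  have h1 : chi0 =ᶠ[nhds t] fun _ => (0 : ℝ) := by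
    filter_upwards [hopen.mem_nhds ht] with x hx
    exact chi0_eq_zero (le_of_lt hx)
  rw [h1.deriv_eq]
  simp

theorem deriv2_chi0_eq_zero {t : ℝ} (ht : 2 < |t|) : deriv (deriv chi0) t = 0 := by
  have hopen : IsOpen {y : ℝ | 2 < |y|} := isOpen_lt continuous_const continuous_abs
  have h1 : deriv chi0 =ᶠ[nhds t] fun _ => (0 : ℝ) := by
    filter_upwards [hopen.mem_nhds ht] with x hx
    exact deriv_chi0_eq_zero hx
  rw [h1.deriv_eq]
  simp

theorem deriv_chi0_eq {t : ℝ} (ht : |t| < 1) : deriv chi0 t = t := by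
  have hopen : IsOpen {y : ℝ | |y| < 1} := isOpen_lt continuous_abs continuous_const
  have h1 : chi0 =ᶠ[nhds t] fun x => x ^ 2 / 2 := by
    filter_upwards [hopen.mem_nhds ht] with x hx
    exact chi0_eq (le_of_lt hx)
  rw [h1.deriv_eq]
  have h2 : HasDerivAt (fun x : ℝ => x ^ 2 / 2) ((2 : ℕ) * t ^ (2 - 1) * 1 / 2) t :=
    ((hasDerivAt_id t).pow 2).div_const 2
  rw [h2.deriv]
  norm_num

/-- a continuous function vanishing for `|t| > 2` is bounded -/
theorem exists_bound_of_zero {g : ℝ → ℝ} (hg : Continuous g) (h0 : ∀ t, 2 < |t| → g t = 0) :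
    ∃ C : ℝ, 0 ≤ C ∧ ∀ t, |g t| ≤ C := by
  obtain ⟨C, hC⟩ := (isCompact_Icc (a := (-2 : ℝ)) (b := 2)).exists_bound_of_continuousOn
    hg.continuousOn
  refine ⟨max C 0, le_max_right _ _, fun t => ?_⟩
  by_cases ht : |t| ≤ 2
  · have := hC t (abs_le.1 ht)
    rw [Real.norm_eq_abs] at this
    exact this.trans (le_max_left _ _)
  · rw [h0 t (not_le.1 ht), abs_zero]
    exact le_max_right _ _

/-- at most one term of the sum is non zero -/
theorem sum_bound {n : ℕ} {ρ : ℝ} {q : Fin n → ℝ} (b b' : Fin n → Bool) (hρ : 0 < ρ)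
    (hq : ∀ i j, i ≠ j → 5 * ρ ≤ |q i - q j|) {g : ℝ → ℝ} {C : ℝ} (hC : 0 ≤ C)
    (h0 : ∀ t, 2 < |t| → g t = 0) (h1 : ∀ t, |g t| ≤ C) (x : ℝ) :
    |∑ i, sg b b' i * g ((x - q i) / ρ)| ≤ C := by
  by_cases hex : ∃ i, |x - q i| ≤ 2 * ρ
  · obtain ⟨i, hi⟩ := hex
    rw [Finset.sum_eq_single i]
    · rw [abs_mul]
      calc |sg b b' i| * |g ((x - q i) / ρ)| ≤ 1 * C := by
            gcongr
            · exact abs_sg_le b b' i
            · exact h1 _
        _ = C := one_mul C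
    · intro j _ hji
      rw [h0, mul_zero]
      rw [abs_div, abs_of_pos hρ, lt_div_iff₀ hρ]
      have h2 := hq j i hji
      have h3 : |q j - q i| ≤ |x - q i| + |x - q j| := by
        have : q j - q i = (x - q i) - (x - q j) := by ring
        rw [this]
        exact abs_sub _ _
      linarith
    · intro h
      exact absurd (Finset.mem_univ i) h
  · push Not at hex
    rw [Finset.sum_eq_zero, abs_zero]
    · exact hC
    · intro i _
      rw [h0, mul_zero]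
      rw [abs_div, abs_of_pos hρ, lt_div_iff₀ hρ]
      exact hex i

theorem sum_supp {n : ℕ} {ρ : ℝ} {q : Fin n → ℝ} {b b' : Fin n → Bool} (hρ : 0 < ρ)
    {g : ℝ → ℝ} (h0 : ∀ t, 2 < |t| → g t = 0) {x : ℝ}
    (hx : ∑ i, sg b b' i * g ((x - q i) / ρ) ≠ 0) : ∃ i, b i ≠ b' i ∧ |x - q i| ≤ 2 * ρ := by
  by_contra hcon
  push Not at hcon
  apply hx
  apply Finset.sum_eq_zero
  intro i _
  by_cases hi : b i = b' i
  · rw [sg_eq_zero hi, zero_mul]
  · rw [h0, mul_zero]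
    rw [abs_div, abs_of_pos hρ, lt_div_iff₀ hρ]
    exact hcon i hi

theorem sum_eq {n : ℕ} {ρ : ℝ} {q : Fin n → ℝ} {b b' : Fin n → Bool} (hρ : 0 < ρ)
    (hq : ∀ i j, i ≠ j → 5 * ρ ≤ |q i - q j|) {g : ℝ → ℝ} (h0 : ∀ t, 2 < |t| → g t = 0) {x : ℝ}
    (i : Fin n) (hx : |x - q i| < ρ) :
    ∑ i, sg b b' i * g ((x - q i) / ρ) = sg b b' i * g ((x - q i) / ρ) := by
  apply Finset.sum_eq_single i
  · intro j _ hji
    rw [h0, mul_zero]
    rw [abs_div, abs_of_pos hρ, lt_div_iff₀ hρ]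
    have h2 := hq j i hji
    have h3 : |q j - q i| ≤ |x - q i| + |x - q j| := by
      have : q j - q i = (x - q i) - (x - q j) := by ring
      rw [this]
      exact abs_sub _ _
    linarith
  · intro h
    exact absurd (Finset.mem_univ i) h

theorem hasDerivAt_comp_lin {g : ℝ → ℝ} (hg : Differentiable ℝ g) {ρ : ℝ} (a x : ℝ) :
    HasDerivAt (fun x => g ((x - a) / ρ)) (deriv g ((x - a) / ρ) * (1 / ρ)) x := by
  have h1 : HasDerivAt (fun x => (x - a) / ρ) (1 / ρ) x :=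
    ((hasDerivAt_id x).sub_const a).div_const ρ
  exact (hg ((x - a) / ρ)).hasDerivAt.comp x h1

theorem v0_eq {n : ℕ} {ρ : ℝ} {q : Fin n → ℝ} {b b' : Fin n → Bool} (x : ℝ) :
    v0 ρ q b b' x = -(ρ ^ 2 * ∑ i, sg b b' i * chi0 ((x - q i) / ρ)) := by
  simp only [v0, Finset.mul_sum]
  congr 1
  apply Finset.sum_congr rfl
  intro i _
  ring

theorem deriv_v0_eq {n : ℕ} {ρ : ℝ} {q : Fin n → ℝ} {b b' : Fin n → Bool} (hρ : 0 < ρ) :
    deriv (v0 ρ q b b') = fun x => -(ρ * ∑ i, sg b b' i * deriv chi0 ((x - q i) / ρ)) := by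
  funext x
  have h1 : HasDerivAt (v0 ρ q b b') (-(∑ i, sg b b' i * (ρ ^ 2 *
      (deriv chi0 ((x - q i) / ρ) * (1 / ρ))))) x := by
    unfold v0
    apply HasDerivAt.neg
    apply HasDerivAt.fun_sum
    intro i _
    apply HasDerivAt.const_mul
    apply HasDerivAt.const_mul
    exact hasDerivAt_comp_lin diff_chi0 _ _
  rw [h1.deriv, Finset.mul_sum]
  congr 1
  apply Finset.sum_congr rfl
  intro i _
  field_simp

theorem deriv2_v0_eq {n : ℕ} {ρ : ℝ} {q : Fin n → ℝ} {b b' : Fin n → Bool} (hρ : 0 < ρ) :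
    deriv (deriv (v0 ρ q b b')) =
      fun x => -∑ i, sg b b' i * deriv (deriv chi0) ((x - q i) / ρ) := by
  rw [deriv_v0_eq hρ]
  funext x
  have h1 : HasDerivAt (fun x => -(ρ * ∑ i, sg b b' i * deriv chi0 ((x - q i) / ρ)))
      (-(ρ * ∑ i, sg b b' i * (deriv (deriv chi0) ((x - q i) / ρ) * (1 / ρ)))) x := by
    apply HasDerivAt.neg
    apply HasDerivAt.const_mul
    apply HasDerivAt.fun_sum
    intro i _
    apply HasDerivAt.const_mul
    exact hasDerivAt_comp_lin diff_deriv_chi0 _ _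
  rw [h1.deriv, Finset.mul_sum]
  congr 1
  apply Finset.sum_congr rfl
  intro i _
  field_simp

theorem v0_bound : ∃ C : ℝ, 0 < C ∧ ∀ (n : ℕ) (ρ : ℝ) (q : Fin n → ℝ) (b b' : Fin n → Bool),
    0 < ρ → (∀ i j, i ≠ j → 5 * ρ ≤ |q i - q j|) → ∀ x, |v0 ρ q b b' x| ≤ C * ρ ^ 2 ∧
    |deriv (v0 ρ q b b') x| ≤ C * ρ ∧ |deriv (deriv (v0 ρ q b b')) x| ≤ C := by
  obtain ⟨C0, hC0, H0⟩ := exists_bound_of_zero diff_chi0.continuous
    (fun t ht => chi0_eq_zero (le_of_lt ht))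
  obtain ⟨C1, hC1, H1⟩ := exists_bound_of_zero diff_deriv_chi0.continuous
    (fun t ht => deriv_chi0_eq_zero ht)
  obtain ⟨C2, hC2, H2⟩ := exists_bound_of_zero cont_deriv2_chi0
    (fun t ht => deriv2_chi0_eq_zero ht)
  refine ⟨C0 + C1 + C2 + 1, by positivity, ?_⟩
  intro n ρ q b b' hρ hq x
  have h0 := sum_bound b b' hρ hq hC0 (fun t ht => chi0_eq_zero (le_of_lt ht)) H0 x
  have h1 := sum_bound b b' hρ hq hC1 (fun t ht => deriv_chi0_eq_zero ht) H1 x
  have h2 := sum_bound b b' hρ hq hC2 (fun t ht => deriv2_chi0_eq_zero ht) H2 x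
  refine ⟨?_, ?_, ?_⟩
  · rw [v0_eq, abs_neg, abs_mul, abs_of_pos (by positivity), mul_comm]
    gcongr
    linarith
  · rw [deriv_v0_eq hρ, abs_neg, abs_mul, abs_of_pos hρ, mul_comm]
    gcongr
    linarith
  · rw [deriv2_v0_eq hρ, abs_neg]
    linarith

theorem v0_supp {n : ℕ} {ρ : ℝ} {q : Fin n → ℝ} {b b' : Fin n → Bool} (hρ : 0 < ρ)
    (hq : ∀ i j, i ≠ j → 5 * ρ ≤ |q i - q j|) {x : ℝ}
    (hx : deriv (v0 ρ q b b') x ≠ 0 ∨ deriv (deriv (v0 ρ q b b')) x ≠ 0) :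
    ∃ i, b i ≠ b' i ∧ |x - q i| ≤ 2 * ρ := by
  have _ := hq
  rcases hx with hx | hx
  · rw [deriv_v0_eq hρ] at hx
    apply sum_supp hρ (fun t ht => deriv_chi0_eq_zero ht)
    intro h
    apply hx
    simp only [h, mul_zero, neg_zero]
  · rw [deriv2_v0_eq hρ] at hx
    apply sum_supp hρ (fun t ht => deriv2_chi0_eq_zero ht)
    intro h
    apply hx
    simp only [h, neg_zero]

theorem v0_deriv {n : ℕ} {ρ : ℝ} {q : Fin n → ℝ} {b b' : Fin n → Bool} (hρ : 0 < ρ)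
    (hq : ∀ i j, i ≠ j → 5 * ρ ≤ |q i - q j|) {x : ℝ} (i : Fin n) (hx : |x - q i| < ρ) :
    deriv (v0 ρ q b b') x = - (sg b b' i * (x - q i)) := by
  rw [deriv_v0_eq hρ]
  simp only
  rw [sum_eq hρ hq (fun t ht => deriv_chi0_eq_zero ht) i hx, deriv_chi0_eq]
  · field_simp
  · rw [abs_div, abs_of_pos hρ, div_lt_one hρ]
    exact hx

end Crest.Agent.Iso341.Test
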