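import Crest.Agent.Iso341.TestH
import Crest.Agent.Iso341.TestV
import Crest.Agent.Iso341.TestI
import Crest.Agent.Iso341.TestG

/-! S0341, TEST: assembly under the hypothesis `Ctl`. -/

set_option autoImplicit false

open MeasureTheory Set
open scoped ContDiff

namespace Crest.Agent.Iso341.Test

theorem volume_box (w : PP) {r : ℝ} (hr : 0 ≤ r) :
    (volume (Metric.closedBall w r)).toReal = (2 * r) ^ 2 := by
  rw [← closedBall_prod_same, Measure.volume_eq_prod, Measure.prod_prod, Real.volume_closedBall,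
    Real.volume_closedBall, ENNReal.toReal_mul, ENNReal.toReal_ofReal (by linarith)]
  ring

theorem integrable_box (w : PP) (r M : ℝ) :
    Integrable (indicator (Metric.closedBall w r) (fun _ => M)) := by
  refine (integrable_indicator_iff Metric.isClosed_closedBall.measurableSet).2 ?_
  exact integrableOn_const (by
    have := (isCompact_closedBall w r).measure_lt_top (μ := (volume : Measure PP))
    exact this.ne) (by simp)

theorem integral_box (w : PP) {r : ℝ} (hr : 0 ≤ r) (M : ℝ) :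
    ∫ z, indicator (Metric.closedBall w r) (fun _ => M) z = M * (2 * r) ^ 2 := by
  rw [integral_indicator Metric.isClosed_closedBall.measurableSet, setIntegral_const,
    Measure.real, volume_box w hr, smul_eq_mul, mul_comm]

theorem integral_boxes {n : ℕ} (D : Finset (Fin n)) (w : Fin n → PP) {r : ℝ} (hr : 0 ≤ r) (M : ℝ) :
    ∫ z, ∑ i ∈ D, indicator (Metric.closedBall (w i) r) (fun _ => M) z
      = M * (2 * r) ^ 2 * D.card := by
  rw [integral_finset_sum _ fun i _ => integrable_box (w i) r M]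
  simp only [integral_box _ hr, Finset.sum_const, nsmul_eq_mul]
  ring

theorem int_le_boxes {n : ℕ} (D : Finset (Fin n)) (w : Fin n → PP) {r M : ℝ} (hr : 0 ≤ r)
    (hM : 0 ≤ M) (g : PP → ℝ) (hg0 : ∀ z, 0 ≤ g z)
    (hg : ∀ z, g z ≠ 0 → g z ≤ M ∧ ∃ i ∈ D, z ∈ Metric.closedBall (w i) r) :
    ∫ z, g z ≤ M * (2 * r) ^ 2 * D.card := by
  rw [← integral_boxes D w hr M]
  refine integral_mono_of_nonneg (Filter.Eventually.of_forall hg0)
    (integrable_finset_sum _ fun i _ => integrable_box (w i) r M)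
    (Filter.Eventually.of_forall fun z => ?_)
  have hnn : ∀ i ∈ D, 0 ≤ indicator (Metric.closedBall (w i) r) (fun _ => M) z :=
    fun i _ => indicator_nonneg (fun _ _ => hM) z
  by_cases hz : g z = 0
  · simp only [hz]; exact Finset.sum_nonneg hnn
  · obtain ⟨h1, i, hi, h2⟩ := hg z hz
    have h3 := Finset.single_le_sum hnn hi
    rw [indicator_of_mem h2] at h3
    exact h1.trans h3

theorem int_ge_boxes {n : ℕ} (D : Finset (Fin n)) (w : Fin n → PP) {r M : ℝ} (hr : 0 ≤ r)
    (g : PP → ℝ) (hgi : Integrable g) (hg0 : ∀ z, 0 ≤ g z)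
    (hg : ∀ i ∈ D, ∀ z ∈ Metric.closedBall (w i) r, M ≤ g z)
    (hdis : ∀ i ∈ D, ∀ j ∈ D, i ≠ j → ∀ z, z ∈ Metric.closedBall (w i) r →
      z ∉ Metric.closedBall (w j) r) :
    M * (2 * r) ^ 2 * D.card ≤ ∫ z, g z := by
  rw [← integral_boxes D w hr M]
  refine integral_mono (integrable_finset_sum _ fun i _ => integrable_box (w i) r M) hgi
    fun z => ?_
  by_cases h : ∃ i ∈ D, z ∈ Metric.closedBall (w i) r
  · obtain ⟨i, hi, hz⟩ := h
    simp only
    rw [Finset.sum_eq_single_of_mem i hi]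
    · rw [indicator_of_mem hz]; exact hg i hi z hz
    · intro j hj hji
      rw [indicator_of_notMem (hdis i hi j hj (Ne.symm hji) z hz)]
  · push Not at h
    simp only
    rw [Finset.sum_eq_zero fun i hi => indicator_of_notMem (h i hi) _]
    exact hg0 z

theorem mem_box {z w : PP} {r : ℝ} : z ∈ Metric.closedBall w r ↔
    |z.1 - w.1| ≤ r ∧ |z.2 - w.2| ≤ r := by
  rw [Metric.mem_closedBall, Prod.dist_eq, max_le_iff, Real.dist_eq, Real.dist_eq]

theorem continuous_dq (w : PP) : Continuous fun z => dq z w := by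
  unfold dq; fun_prop

/-- where the source can be nonzero -/
theorem SS_supp {n : ℕ} {κ m ρ : ℝ} {L : ℕ} {ce c s : ℝ} (hρ : 0 < ρ) {b b' : Fin n → Bool}
    {X Y f : PP → ℝ} {z : PP} (hz : SS m X Y f (HH κ m ρ L ce c s b b') z ≠ 0) :
    ∃ i : Fin n, b i ≠ b' i ∧ dq z (zc ρ ce c s i) ≤ ρ ^ 2 / 4 := by
  by_contra hcon
  push Not at hcon
  apply hz
  have hU : IsOpen {w : PP | ∀ i : Fin n, b i ≠ b' i → ρ ^ 2 / 4 < dq w (zc ρ ce c s i)} := by
    have : {w : PP | ∀ i : Fin n, b i ≠ b' i → ρ ^ 2 / 4 < dq w (zc ρ ce c s i)}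
        = ⋂ i : Fin n, {w : PP | b i ≠ b' i → ρ ^ 2 / 4 < dq w (zc ρ ce c s i)} := by
      ext w; simp
    rw [this]
    refine isOpen_iInter_of_finite fun i => ?_
    by_cases h : b i ≠ b' i
    · have e : {w : PP | b i ≠ b' i → ρ ^ 2 / 4 < dq w (zc ρ ce c s i)}
          = {w : PP | ρ ^ 2 / 4 < dq w (zc ρ ce c s i)} := by ext w; simp [h]
      rw [e]; exact isOpen_lt continuous_const (continuous_dq _)
    · have e : {w : PP | b i ≠ b' i → ρ ^ 2 / 4 < dq w (zc ρ ce c s i)} = univ := by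
        ext w; simp [h]
      rw [e]; exact isOpen_univ
  refine SS_zero hU (fun w hw => ?_) z hcon
  by_contra hne
  obtain ⟨i, hi, h⟩ := HH_supp hρ hne
  exact absurd (hw i hi) (not_lt.2 h.le)

theorem strip_of_dq {ρ ce c s : ℝ} (hρ : 0 < ρ) (hcs : c ^ 2 + s ^ 2 = 1) {z : PP} {i : ℕ}
    (h : dq z (zc ρ ce c s i) ≤ ρ ^ 2 / 4) : |-s * z.1 + c * z.2| ≤ ρ := by
  have hsw : -s * (zc ρ ce c s i).1 + c * (zc ρ ce c s i).2 = 0 := by simp only [zc]; ring
  set w := zc ρ ce c s i
  have e : -s * z.1 + c * z.2 = -s * (z.1 - w.1) + c * (z.2 - w.2) := by linarith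
  rw [e]
  apply abs_le_of_sq_le_sq _ hρ.le
  simp only [dq] at h
  nlinarith [sq_nonneg (c * (z.1 - w.1) + s * (z.2 - w.2)), sq_nonneg ρ]

theorem hcs_HH {n : ℕ} {κ m ρ : ℝ} {L : ℕ} {ce c s : ℝ} (hρ : 0 < ρ) (b b' : Fin n → Bool) :
    HasCompactSupport (HH κ m ρ L ce c s b b') := by
  have hK : IsCompact (⋃ i : Fin n, Metric.closedBall (zc ρ ce c s i) ρ) :=
    isCompact_iUnion fun i => isCompact_closedBall _ _
  refine HasCompactSupport.intro hK fun z hz => ?_
  by_contra hne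
  obtain ⟨i, _, h⟩ := HH_supp hρ hne
  apply hz
  refine mem_iUnion.2 ⟨i, ?_⟩
  have h' : dq z (zc ρ ce c s i) < ρ ^ 2 := by nlinarith [sq_pos_of_pos hρ]
  have := dq_lt hρ h'
  exact mem_box.2 ⟨this.1.le, this.2.le⟩

theorem test_ctl (ce : ℝ) (hce : 0 < ce) (hce1 : ce ≤ 1) : ∃ C₆ c₆ ρ₁ : ℝ, 0 < C₆ ∧
    0 < c₆ ∧ 0 < ρ₁ ∧ ∀ κ m : ℝ, 0 < κ → κ ≤ 1 → 0 < m → m ≤ 1 → ∀ L : ℕ,
    ∀ ρ : ℝ, 0 < ρ → ρ ≤ ρ₁ → ∀ n : ℕ, 8 * ρ * n / ce ≤ 1 / 64 →
    ∀ c s : ℝ, c ^ 2 + s ^ 2 = 1 → ce ≤ |c| → ∀ X Y f : PP → ℝ, Ctl (ce / 100) X Y f →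
    ∀ b b' : Fin n → Bool,
      (∀ z, SS m X Y f (HH κ m ρ L ce c s b b') z ≠ 0 →
        slp X Y f z ^ 2 + Y z ^ 2 < 25 / 256 ∧ |-s * z.1 + c * z.2| ≤ ρ) ∧
      ∫ z, SS m X Y f (HH κ m ρ L ce c s b b') z ^ 2 ≤ (C₆ * (κ * ρ ^ L) / ρ) ^ 2 *
          (Finset.univ.filter fun i => b i ≠ b' i).card ∧
      ∃ V : PP → ℝ, ContDiff ℝ ∞ V ∧ (∀ z, Dy (slp X Y f) Y V z = 0) ∧
        (∀ z, |V z| ≤ C₆ * ρ ^ 2) ∧
        c₆ * (κ * ρ ^ L) * ρ ^ 2 * (Finset.univ.filter fun i => b i ≠ b' i).card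
          ≤ ∫ z, V z * SS m X Y f (HH κ m ρ L ce c s b b') z * br (slp X Y f) Y z ∧
        ∀ (δ : ℝ) (k : PP → ℝ), δ ≤ 1 → Pocket δ (slp X Y f) Y k →
          ∫ z in {z : PP | slp X Y f z ^ 2 + Y z ^ 2 < 9 / 64 ∧ |-s * z.1 + c * z.2| ≤ 3 * ρ},
            (Dp (slp X Y f) Y (fun w => k w * Dp (slp X Y f) Y V w) z) ^ 2
            ≤ (C₆ * ρ) ^ 2 * (Finset.univ.filter fun i => b i ≠ b' i).card := by
  obtain ⟨CH, hCH, HB⟩ := HH_bound
  obtain ⟨CS, hCS, SB⟩ := SS_bound'
  obtain ⟨CV, hCV, VB⟩ := v0_bound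
  obtain ⟨ρ₂, hρ₂, BM⟩ := brk_main
  refine ⟨CS * CH + CV + 240 * CV / ce, 1 / 64, min (1 / 32) ρ₂, by positivity, by norm_num,
    by positivity, ?_⟩
  intro κ m hκ hκ1 hm hm1 L ρ hρ hρ1 n hn c s hcs hc X Y f hctl b b'
  set C₆ := CS * CH + CV + 240 * CV / ce with hC₆
  set p := slp X Y f with hp
  set H := HH κ m ρ L ce c s b b' with hH
  set D := Finset.univ.filter fun i => b i ≠ b' i with hD
  have hρa : ρ ≤ 1 / 32 := hρ1.trans (min_le_left _ _)
  have hρb : ρ ≤ ρ₂ := hρ1.trans (min_le_right _ _)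
  have hce100 : ce / 100 ≤ 1 / 100 := by linarith
  have hctl1 : Ctl (1 / 100) X Y f := hctl.mono hce100
  have hctl2 : Ctl (1 / 2) X Y f := hctl.mono (by linarith)
  have smp : ContDiff ℝ ∞ p := hctl.smp
  have smY := hctl.smY
  have smX := hctl.smX
  have sH : ContDiff ℝ ∞ H := contDiff_HH κ m ρ L ce c s b b'
  have kH : HasCompactSupport H := hcs_HH hρ b b'
  have hJn : ∀ z, br p Y z ≠ 0 := hctl2.Jne le_rfl
  have hJ0n := hctl.J0ne
  have hJ0 := hctl2.J0_ge le_rfl
  have hJ0' : ∀ z, br X Y z ≤ 2 := fun z => by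
    have := abs_le.1 (Cl.bd hctl2.clJ0 z (mem_univ _)); linarith [this.2]
  have hzs : ∀ (i : Fin n) (z : PP), dq z (zc ρ ce c s i) ≤ ρ ^ 2 / 4 →
      |z.1| ≤ 1 / 32 ∧ |z.2| ≤ 1 / 32 := by
    intro i z hz
    have h1 : dq z (zc ρ ce c s i) ≤ (ρ / 2) ^ 2 := by rw [div_pow]; norm_num; linarith
    obtain ⟨h2, h3⟩ := dq_le (by positivity) h1
    obtain ⟨h4, h5⟩ := zc_small hρ hce hcs hn i
    rw [abs_le] at h2 h3 h4 h5 ⊢
    rw [abs_le]
    refine ⟨⟨?_, ?_⟩, ?_, ?_⟩ <;> linarith [h2.1, h2.2, h3.1, h3.2, h4.1, h4.2, h5.1, h5.2]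
  refine ⟨fun z hz => ?_, ?_, ?_⟩
  · obtain ⟨i, _, hi⟩ := SS_supp hρ hz
    obtain ⟨h1, h2⟩ := hzs i z hi
    exact ⟨slp_small le_rfl hctl1 h1 h2, strip_of_dq hρ hcs hi⟩
  · -- the L² bound
    have hM : ∀ z, SS m X Y f H z ^ 2 ≠ 0 →
        SS m X Y f H z ^ 2 ≤ (CS * CH * (κ * ρ ^ L / ρ ^ 2)) ^ 2
        ∧ ∃ i ∈ D, z ∈ Metric.closedBall (zc ρ ce c s i) (ρ / 2) := by
      intro z hz
      have hz' : SS m X Y f H z ≠ 0 := fun h => hz (by rw [h]; ring)
      obtain ⟨i, hi, hdq⟩ := SS_supp hρ hz'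
      have hin : z ∈ {z : PP | dq z (zc ρ ce c s i) < ρ ^ 2} := by
        have : dq z (zc ρ ce c s i) < ρ ^ 2 := by nlinarith [sq_pos_of_pos hρ]
        exact this
      have h1 := SB X Y f hctl2 m hm H sH _ _ (by positivity)
        (HB n κ m ρ L ce c s b b' hκ hκ1 hm hm1 hρ (by linarith) hce hce1 hcs hn i) z hin
      have h2 : CS * (CH * (κ * m * ρ ^ L / ρ ^ 2)) / m = CS * CH * (κ * ρ ^ L / ρ ^ 2) := by
        field_simp
      rw [h2] at h1
      refine ⟨sq_le_sq' (abs_le.1 h1).1 (abs_le.1 h1).2, i, by simp [hD, hi], ?_⟩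
      have h3 : dq z (zc ρ ce c s i) ≤ (ρ / 2) ^ 2 := by rw [div_pow]; norm_num; linarith
      exact mem_box.2 (dq_le (by positivity) h3)
    have h1 := int_le_boxes D (fun i => zc ρ ce c s i) (r := ρ / 2) (by positivity) (by positivity)
      (fun z => SS m X Y f H z ^ 2) (fun z => sq_nonneg _) hM
    refine h1.trans ?_
    apply mul_le_mul_of_nonneg_right _ (Nat.cast_nonneg _)
    have e : (CS * CH * (κ * ρ ^ L / ρ ^ 2)) ^ 2 * (2 * (ρ / 2)) ^ 2
        = (CS * CH * (κ * ρ ^ L) / ρ) ^ 2 := by field_simp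
    rw [e]
    have h5 : CS * CH ≤ C₆ := by
      have : 0 ≤ 240 * CV / ce := by positivity
      rw [hC₆]; linarith
    apply pow_le_pow_left₀ (by positivity)
    apply div_le_div_of_nonneg_right _ hρ.le
    exact mul_le_mul_of_nonneg_right h5 (by positivity)
  · -- the test function
    set q : Fin n → ℝ := fun i => p (zc ρ ce c s i) with hq
    have hsep : ∀ i j : Fin n, i ≠ j → 5 * ρ ≤ |q i - q j| := fun i j hij =>
      slp_sep hce hce1 le_rfl hctl hρ hcs hc (fun h => hij (Fin.ext h))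
    set v := v0 ρ q b b' with hv
    have sv : ContDiff ℝ ∞ v := contDiff_v0 ρ q b b'
    have sv' : ContDiff ℝ ∞ (deriv v) := (contDiff_infty_iff_deriv.1 sv).2
    have hDp : ∀ z, Dp p Y (fun w => v (p w)) z = deriv v (p z) := by
      intro z; rw [Dp_comp sv smp, Dp_p hJn, mul_one]
    have hDpp : ∀ z, Dp p Y (Dp p Y (fun w => v (p w))) z = deriv (deriv v) (p z) := by
      intro z
      have : Dp p Y (fun w => v (p w)) = fun w => deriv v (p w) := funext hDp
      rw [this, Dp_comp sv' smp, Dp_p hJn, mul_one]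
    have hDy : ∀ z, Dy p Y (fun w => v (p w)) z = 0 := by
      intro z; rw [Dy_comp sv smp, Dy_p, mul_zero]
    have sV : ContDiff ℝ ∞ (fun w => v (p w)) := sv.comp smp
    have hCC : CV ≤ C₆ := by
      have : 0 ≤ 240 * CV / ce := by positivity
      rw [hC₆]; nlinarith [mul_pos hCS hCH]
    refine ⟨fun w => v (p w), sV, hDy, fun z => ?_, ?_, ?_⟩
    · refine (VB n ρ q b b' hρ hsep (p z)).1.trans ?_
      exact mul_le_mul_of_nonneg_right hCC (by positivity)
    · -- lower bound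
      rw [integral_SS smX smY smp sH kH sV hJ0n hJn hDy]
      have key : ∀ (i : Fin n) (z : PP), b i ≠ b' i → dq z (zc ρ ce c s i) < ρ ^ 2 / 4 →
          sg b b' i * H z / 4 ≤ H z / br X Y z * brk X Y f (fun w => v (p w)) z
          ∧ 0 ≤ sg b b' i * H z := by
        intro i z hi hz
        have h1 := slp_near hce100 hctl hρ hz
        have hUo : IsOpen {w : PP | |p w - q i| < ρ} :=
          isOpen_lt ((smp.continuous.sub continuous_const).abs) continuous_const
        obtain ⟨θ, hθ, hbrk⟩ := BM X Y f hctl1 (fun w => v (p w)) {w : PP | |p w - q i| < ρ}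
          (sg b b' i) (q i) hUo (fun w hw => by
            rw [← hp, hDp, hv, v0_deriv hρ hsep i hw]) z h1 (h1.le.trans hρb)
        have h2 : dq z (zc ρ ce c s i) < ρ ^ 2 := by nlinarith [sq_pos_of_pos hρ]
        have h3 := (HH_lower hκ hm hρ (by linarith) hce hce1 hcs hn (L := L) i hi h2).1
        refine ⟨?_, h3⟩
        rw [hbrk]
        have h4 := hJ0 z
        have h5 := hJ0' z
        have h6 : 0 < br X Y z := by linarith
        have e : H z / br X Y z * (sg b b' i * θ) = sg b b' i * H z * (θ / br X Y z) := by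
          field_simp
        rw [e]
        have h7 : 1 / 4 ≤ θ / br X Y z := by
          rw [le_div_iff₀ h6]; linarith
        rw [div_eq_mul_one_div (sg b b' i * H z)]
        exact mul_le_mul_of_nonneg_left h7 h3
      have sbrk : ContDiff ℝ ∞ (brk X Y f (fun w => v (p w))) := by
        have sDV : ContDiff ℝ ∞ (Dp p Y (fun w => v (p w))) := contDiff_Dp smp smY hJn sV
        have s1 : ContDiff ℝ ∞ (fun w => Dp p Y (fun w => v (p w)) w * br p X w / br X Y w) :=
          (sDV.mul (contDiff_br smp smX)).div hctl.smJ0 hJ0n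
        have s2 : ContDiff ℝ ∞ (fun w => Dp p Y (fun w => v (p w)) w * br p Y w / br X Y w) :=
          (sDV.mul hctl.smJ).div hctl.smJ0 hJ0n
        exact ((((contDiff_dx s1).mul (contDiff_dx smY)).add
          ((contDiff_dy s1).mul (contDiff_dy smY))).sub
          ((contDiff_dx s2).mul (contDiff_dx smX))).sub ((contDiff_dy s2).mul (contDiff_dy smX))
      have hint : Integrable fun z => H z / br X Y z * brk X Y f (fun w => v (p w)) z :=
        integrable_smooth_cs ((sH.div hctl.smJ0 hJ0n).mul sbrk)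
          (hcs_mul_left (hcs_div kH _) _)
      have hnn : ∀ z, 0 ≤ H z / br X Y z * brk X Y f (fun w => v (p w)) z := by
        intro z
        by_cases hz : H z = 0
        · rw [hz]; simp
        · obtain ⟨i, hi, h⟩ := HH_supp hρ hz
          obtain ⟨h1, h2⟩ := key i z hi h
          linarith
      have hlow := int_ge_boxes D (fun i => zc ρ ce c s i) (r := ρ / 8) (M := κ * m * ρ ^ L / 4)
        (by positivity) _ hint hnn (fun i hi z hz => by
          have hi' : b i ≠ b' i := by simpa [hD] using hi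
          obtain ⟨h1, h2⟩ := mem_box.1 hz
          have h3 : dq z (zc ρ ce c s i) ≤ ρ ^ 2 / 16 := by
            simp only [dq]
            have a1 := sq_le_sq' (abs_le.1 h1).1 (abs_le.1 h1).2
            have a2 := sq_le_sq' (abs_le.1 h2).1 (abs_le.1 h2).2
            nlinarith [sq_nonneg ρ]
          have h4 : dq z (zc ρ ce c s i) < ρ ^ 2 / 4 := by nlinarith [sq_pos_of_pos hρ]
          have h5 : dq z (zc ρ ce c s i) < ρ ^ 2 := by nlinarith [sq_pos_of_pos hρ]
          have h6 := (HH_lower hκ hm hρ (by linarith) hce hce1 hcs hn (L := L) i hi' h5).2 h3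
          have h7 := (key i z hi' h4).1
          linarith)
        (fun i _ j _ hij z hz1 hz2 => by
          have h0 := zc_dist hρ hce hce1 hcs (i := i) (j := j) (fun h => hij (Fin.ext h))
          obtain ⟨h1, h2⟩ := mem_box.1 hz1
          obtain ⟨h3, h4⟩ := mem_box.1 hz2
          rw [abs_le] at h1 h2 h3 h4
          simp only [dq] at h0
          have a1 : |(zc ρ ce c s i).1 - (zc ρ ce c s j).1| ≤ ρ := by
            rw [abs_le]; constructor <;> linarith [h1.1, h1.2, h3.1, h3.2]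
          have a2 : |(zc ρ ce c s i).2 - (zc ρ ce c s j).2| ≤ ρ := by
            rw [abs_le]; constructor <;> linarith [h2.1, h2.2, h4.1, h4.2]
          have b1 := sq_le_sq' (abs_le.1 a1).1 (abs_le.1 a1).2
          have b2 := sq_le_sq' (abs_le.1 a2).1 (abs_le.1 a2).2
          nlinarith [sq_pos_of_pos hρ])
      have h8 := mul_le_mul_of_nonneg_left hlow (by positivity : 0 ≤ 1 / m)
      refine le_trans (le_of_eq ?_) h8
      field_simp
      ring
    · intro δ k hδ hk
      have hSm : MeasurableSet {z : PP | p z ^ 2 + Y z ^ 2 < 9 / 64 ∧ |-s * z.1 + c * z.2| ≤ 3 * ρ} := by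
        have h1 : IsOpen {z : PP | p z ^ 2 + Y z ^ 2 < 9 / 64} :=
          isOpen_lt ((smp.continuous.pow 2).add (smY.continuous.pow 2)) continuous_const
        have h2 : IsClosed {z : PP | |-s * z.1 + c * z.2| ≤ 3 * ρ} :=
          isClosed_le (by fun_prop) continuous_const
        exact h1.measurableSet.inter h2.measurableSet
      rw [← integral_indicator hSm]
      have h1 := int_le_boxes D (fun i => zc ρ ce c s i) (r := 30 * ρ / ce) (M := (4 * CV) ^ 2)
        (by positivity) (by positivity)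
        (indicator {z : PP | p z ^ 2 + Y z ^ 2 < 9 / 64 ∧ |-s * z.1 + c * z.2| ≤ 3 * ρ}
          (fun z => (Dp p Y (fun w => k w * Dp p Y (fun w => v (p w)) w) z) ^ 2))
        (fun z => indicator_nonneg (fun _ _ => sq_nonneg _) z)
        (fun z hz => by
          have hzS : z ∈ {z : PP | p z ^ 2 + Y z ^ 2 < 9 / 64 ∧ |-s * z.1 + c * z.2| ≤ 3 * ρ} :=
            mem_of_indicator_ne_zero hz
          rw [indicator_of_mem hzS] at hz ⊢
          have hval : Dp p Y (fun w => k w * Dp p Y (fun w => v (p w)) w) z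
              = Dp p Y k z * deriv v (p z) + k z * deriv (deriv v) (p z) := by
            rw [Dp_mul hk.smk (contDiff_Dp smp smY hJn sV), hDp, hDpp]
          rw [hval] at hz ⊢
          obtain ⟨hz1, hz2⟩ := hzS
          have hz1' : p z ^ 2 + Y z ^ 2 < 1 := by linarith
          have hpz : |p z| ≤ 3 / 8 := by
            apply abs_le_of_sq_le_sq _ (by norm_num)
            nlinarith [sq_nonneg (Y z)]
          have hpz' := abs_le.1 hpz
          have k1 := abs_le.1 (hk.kp z hz1')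
          have k0 := abs_le.1 (hk.k0 z hz1')
          have k1' : |Dp p Y k z| ≤ 2 := by
            rw [abs_le]; constructor <;> linarith [k1.1, k1.2, hpz'.1, hpz'.2]
          have k0' : |k z| ≤ 2 := by
            rw [abs_le]
            constructor <;> nlinarith [k0.1, k0.2, sq_nonneg (p z), sq_nonneg (Y z)]
          obtain ⟨_, v1, v2⟩ := VB n ρ q b b' hρ hsep (p z)
          have v1' : |deriv v (p z)| ≤ CV := v1.trans (by nlinarith)
          constructor
          · have h5 : |Dp p Y k z * deriv v (p z) + k z * deriv (deriv v) (p z)| ≤ 4 * CV := by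
              refine (abs_add_le _ _).trans ?_
              rw [abs_mul, abs_mul]
              have a1 := mul_le_mul k1' v1' (abs_nonneg _) (by norm_num)
              have a2 := mul_le_mul k0' v2 (abs_nonneg _) (by norm_num)
              linarith
            exact sq_le_sq' (abs_le.1 h5).1 (abs_le.1 h5).2
          · have hne : deriv v (p z) ≠ 0 ∨ deriv (deriv v) (p z) ≠ 0 := by
              by_contra hcon
              push Not at hcon
              apply hz
              rw [hcon.1, hcon.2]; ring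
            obtain ⟨i, hi, hi2⟩ := v0_supp hρ hsep hne
            exact ⟨i, by simp [hD, hi], mem_box.2 (strip_box hce hce1 le_rfl hctl hρ hcs hc hi2 hz2)⟩)
      refine h1.trans ?_
      apply mul_le_mul_of_nonneg_right _ (Nat.cast_nonneg _)
      have e : (4 * CV) ^ 2 * (2 * (30 * ρ / ce)) ^ 2 = (240 * CV / ce * ρ) ^ 2 := by
        field_simp; norm_num
      rw [e]
      apply pow_le_pow_left₀ (by positivity)
      apply mul_le_mul_of_nonneg_right _ hρ.le
      rw [hC₆]
      nlinarith [mul_pos hCS hCH]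

end Crest.Agent.Iso341.Test
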