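import Crest.Agent.Iso341.Defs

/-! S0341, TEST: definitions and statements of the parts. -/

set_option autoImplicit false

open MeasureTheory Set
open scoped ContDiff

namespace Crest.Agent.Iso341.Test

/-- centre of the bump `i` -/
noncomputable def zc (ρ ce c s : ℝ) (i : ℕ) : PP :=
  (8 * ρ * (i + 1) / ce * c, 8 * ρ * (i + 1) / ce * s)

/-- squared euclidean distance -/
def dq (z w : PP) : ℝ := (z.1 - w.1) ^ 2 + (z.2 - w.2) ^ 2

/-- `b i - b' i` as a real number -/
noncomputable def sg {n : ℕ} (b b' : Fin n → Bool) (i : Fin n) : ℝ :=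
  (if b i then 1 else 0) - (if b' i then 1 else 0)

/-- the difference of the two conformal factors -/
noncomputable def HH {n : ℕ} (κ m ρ : ℝ) (L : ℕ) (ce c s : ℝ) (b b' : Fin n → Bool) (z : PP) : ℝ :=
  (Real.exp (2 * (κ * m * expo ρ L ce c s b z))
        - Real.exp (2 * (κ * m * expo ρ L ce c s b' z))) / 2

/-- cut-off parabola -/
noncomputable def chi0 (t : ℝ) : ℝ := Real.smoothTransition ((4 - t ^ 2) / 3) * (t ^ 2 / 2)

/-- the profile of the test function -/
noncomputable def v0 {n : ℕ} (ρ : ℝ) (q : Fin n → ℝ) (b b' : Fin n → Bool) (x : ℝ) : ℝ :=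
  - ∑ i : Fin n, sg b b' i * (ρ ^ 2 * chi0 ((x - q i) / ρ))

end Crest.Agent.Iso341.Test
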