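import Crest.Agent.Iso341.TestCl

/-! S0341, TEST, part H: the difference `HH` of the two conformal factors. -/

set_option autoImplicit false

open MeasureTheory Set
open scoped ContDiff

namespace Crest.Agent.Iso341.Test

/-! ### geometry of the centres -/

theorem zc_dist {ρ ce c s : ℝ} (hρ : 0 < ρ) (hce : 0 < ce) (hce1 : ce ≤ 1)
    (hcs : c ^ 2 + s ^ 2 = 1) {i j : ℕ} (hij : i ≠ j) :
    (8 * ρ) ^ 2 ≤ dq (zc ρ ce c s i) (zc ρ ce c s j) := by
  have h1 : dq (zc ρ ce c s i) (zc ρ ce c s j)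
      = (8 * ρ) ^ 2 * (((i : ℝ) - j) ^ 2 * (c ^ 2 + s ^ 2) / ce ^ 2) := by
    simp only [dq, zc]
    field_simp
    ring
  rw [h1, hcs, mul_one]
  have h2 : (1 : ℝ) ≤ ((i : ℝ) - j) ^ 2 := by
    have h3 : (1 : ℤ) ≤ ((i : ℤ) - j) ^ 2 := by
      have h4 : ((i : ℤ) - j) ≠ 0 := by
        intro h
        apply hij
        omega
      have h5 : 0 < ((i : ℤ) - j) ^ 2 := by positivity
      omega
    exact_mod_cast h3
  have h3 : (1 : ℝ) ≤ ((i : ℝ) - j) ^ 2 / ce ^ 2 := by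
    rw [le_div_iff₀ (by positivity), one_mul]
    have : ce ^ 2 ≤ 1 := pow_le_one₀ hce.le hce1
    linarith
  calc (8 * ρ) ^ 2 = (8 * ρ) ^ 2 * 1 := by ring
    _ ≤ _ := by gcongr

theorem zc_small {ρ ce c s : ℝ} (hρ : 0 < ρ) (hce : 0 < ce) (hcs : c ^ 2 + s ^ 2 = 1)
    {n : ℕ} (hn : 8 * ρ * n / ce ≤ 1 / 64) (i : Fin n) :
    |(zc ρ ce c s i).1| ≤ 1 / 64 ∧ |(zc ρ ce c s i).2| ≤ 1 / 64 := by
  have hc : |c| ≤ 1 := by
    rw [← abs_one, ← sq_le_sq]
    nlinarith [sq_nonneg s]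
  have hs : |s| ≤ 1 := by
    rw [← abs_one, ← sq_le_sq]
    nlinarith [sq_nonneg c]
  have hi : ((i : ℕ) : ℝ) + 1 ≤ n := by exact_mod_cast i.2
  have h0 : 0 ≤ 8 * ρ * (((i : ℕ) : ℝ) + 1) / ce := by positivity
  have h1 : 8 * ρ * (((i : ℕ) : ℝ) + 1) / ce ≤ 1 / 64 := by
    refine le_trans ?_ hn
    gcongr
  constructor
  · simp only [zc]
    rw [abs_mul, abs_of_nonneg h0]
    calc 8 * ρ * (((i : ℕ) : ℝ) + 1) / ce * |c| ≤ 1 / 64 * 1 := by gcongr
      _ = 1 / 64 := by norm_num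
  · simp only [zc]
    rw [abs_mul, abs_of_nonneg h0]
    calc 8 * ρ * (((i : ℕ) : ℝ) + 1) / ce * |s| ≤ 1 / 64 * 1 := by gcongr
      _ = 1 / 64 := by norm_num

/-! ### smoothness -/

theorem contDiff_bump : ContDiff ℝ ∞ bump := by
  unfold bump
  refine Real.smoothTransition.contDiff.comp ?_
  fun_prop

theorem contDiff_prof : ContDiff ℝ ∞ prof := by
  unfold prof
  refine ContDiff.mul (Real.smoothTransition.contDiff.comp ?_) ?_ <;> fun_prop

theorem contDiff_expo {n : ℕ} (ρ : ℝ) (L : ℕ) (ce c s : ℝ) (b : Fin n → Bool) :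
    ContDiff ℝ ∞ (expo ρ L ce c s b) := by
  unfold expo
  refine ContDiff.add (contDiff_prof.comp ?_) (contDiff_const.mul (ContDiff.sum fun i _ =>
    contDiff_const.mul (contDiff_bump.comp ?_))) <;> fun_prop

theorem contDiff_HH {n : ℕ} (κ m ρ : ℝ) (L : ℕ) (ce c s : ℝ) (b b' : Fin n → Bool) :
    ContDiff ℝ ∞ (HH κ m ρ L ce c s b b') := by
  unfold HH
  have h1 := contDiff_expo ρ L ce c s b
  have h2 := contDiff_expo ρ L ce c s b'
  fun_prop

theorem bump_eq_zero {t : ℝ} (ht : 1 / 4 ≤ t) : bump t = 0 := by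
  unfold bump
  apply Real.smoothTransition.zero_of_nonpos
  linarith

theorem bump_eq_one {t : ℝ} (ht : t ≤ 1 / 16) : bump t = 1 := by
  unfold bump
  apply Real.smoothTransition.one_of_one_le
  linarith

theorem bump_nonneg (t : ℝ) : 0 ≤ bump t := Real.smoothTransition.nonneg _

theorem bump_le_one (t : ℝ) : bump t ≤ 1 := Real.smoothTransition.le_one _

theorem expo_eq {n : ℕ} (ρ : ℝ) (L : ℕ) (ce c s : ℝ) (b : Fin n → Bool) (z : PP) :
    expo ρ L ce c s b z = prof (z.1 ^ 2 + z.2 ^ 2) + ρ ^ L * ∑ i : Fin n,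
      (if b i then 1 else 0) * bump (dq z (zc ρ ce c s i) / ρ ^ 2) := rfl

theorem HH_supp {n : ℕ} {κ m ρ : ℝ} {L : ℕ} {ce c s : ℝ} (hρ : 0 < ρ) {b b' : Fin n → Bool} {z : PP}
    (hz : HH κ m ρ L ce c s b b' z ≠ 0) :
    ∃ i : Fin n, b i ≠ b' i ∧ dq z (zc ρ ce c s i) < ρ ^ 2 / 4 := by
  by_contra hcon
  push Not at hcon
  apply hz
  have h1 : expo ρ L ce c s b z = expo ρ L ce c s b' z := by
    rw [expo_eq, expo_eq]
    congr 2
    apply Finset.sum_congr rfl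
    intro i _
    by_cases hi : b i = b' i
    · rw [hi]
    · have h2 := hcon i hi
      rw [bump_eq_zero, mul_zero, mul_zero]
      rw [le_div_iff₀ (by positivity)]
      linarith
  simp only [HH]
  rw [h1]
  simp

/-- on the disc of radius `ρ` around a centre only one bump is present -/
theorem expo_disc {n : ℕ} {ρ : ℝ} {L : ℕ} {ce c s : ℝ} (hρ : 0 < ρ) (hce : 0 < ce) (hce1 : ce ≤ 1)
    (hcs : c ^ 2 + s ^ 2 = 1) (b : Fin n → Bool) (i : Fin n) {z : PP}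
    (hz : dq z (zc ρ ce c s i) < ρ ^ 2) :
    expo ρ L ce c s b z = prof (z.1 ^ 2 + z.2 ^ 2) + ρ ^ L *
      ((if b i then 1 else 0) * bump (dq z (zc ρ ce c s i) / ρ ^ 2)) := by
  rw [expo_eq]
  congr 2
  apply Finset.sum_eq_single i
  · intro j _ hji
    rw [bump_eq_zero, mul_zero]
    rw [le_div_iff₀ (by positivity)]
    have h1 := zc_dist hρ hce hce1 hcs (i := (i : ℕ)) (j := (j : ℕ))
      (fun h => hji (Fin.ext h.symm))
    have h2 : dq (zc ρ ce c s i) (zc ρ ce c s j) ≤ 2 * dq z (zc ρ ce c s i)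
        + 2 * dq z (zc ρ ce c s j) := by
      simp only [dq]
      nlinarith [sq_nonneg ((z.1 - (zc ρ ce c s i).1) + (z.1 - (zc ρ ce c s j).1)),
        sq_nonneg ((z.2 - (zc ρ ce c s i).2) + (z.2 - (zc ρ ce c s j).2))]
    nlinarith [sq_nonneg ρ]
  · intro h
    exact absurd (Finset.mem_univ i) h

theorem HH_formula {n : ℕ} {κ m ρ : ℝ} {L : ℕ} {ce c s : ℝ} (hρ : 0 < ρ) (hce : 0 < ce)
    (hce1 : ce ≤ 1) (hcs : c ^ 2 + s ^ 2 = 1) (b b' : Fin n → Bool) (i : Fin n) {z : PP}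
    (hz : dq z (zc ρ ce c s i) < ρ ^ 2) :
    HH κ m ρ L ce c s b b' z = sg b b' i * (Real.exp (2 * (κ * m) * prof (z.1 ^ 2 + z.2 ^ 2)) *
      ((Real.exp (2 * (κ * m * ρ ^ L) * bump (dq z (zc ρ ce c s i) / ρ ^ 2)) - 1) / 2)) := by
  have key : ∀ b : Fin n → Bool, Real.exp (2 * (κ * m * expo ρ L ce c s b z))
      = Real.exp (2 * (κ * m) * prof (z.1 ^ 2 + z.2 ^ 2)) *
        (1 + (if b i then 1 else 0) *
          (Real.exp (2 * (κ * m * ρ ^ L) * bump (dq z (zc ρ ce c s i) / ρ ^ 2)) - 1)) := by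
    intro b
    rw [expo_disc hρ hce hce1 hcs b i hz]
    by_cases hb : b i
    · simp only [hb, if_true, one_mul]
      rw [add_sub_cancel, ← Real.exp_add]
      congr 1
      ring
    · simp only [hb]
      simp only [Bool.false_eq_true, if_false, zero_mul, mul_zero, add_zero, mul_one]
      congr 1
      ring
  simp only [HH, sg]
  rw [key b, key b']
  ring

/-- sign and lower bound -/
theorem HH_lower {n : ℕ} {κ m ρ : ℝ} {L : ℕ} {ce c s : ℝ} (hκ : 0 < κ) (hm : 0 < m)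
    (hρ : 0 < ρ) (hρ1 : ρ ≤ 1 / 8) (hce : 0 < ce) (hce1 : ce ≤ 1) (hcs : c ^ 2 + s ^ 2 = 1)
    (hn : 8 * ρ * n / ce ≤ 1 / 64) {b b' : Fin n → Bool} (i : Fin n) (hi : b i ≠ b' i) {z : PP}
    (hz : dq z (zc ρ ce c s i) < ρ ^ 2) :
    0 ≤ sg b b' i * HH κ m ρ L ce c s b b' z ∧
    (dq z (zc ρ ce c s i) ≤ ρ ^ 2 / 16 → κ * m * ρ ^ L ≤ sg b b' i * HH κ m ρ L ce c s b b' z) := by
  have hsg : sg b b' i * sg b b' i = 1 := by
    simp only [sg]
    cases hb : b i <;> cases hb' : b' i <;> simp_all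
  rw [HH_formula hρ hce hce1 hcs b b' i hz, ← mul_assoc, hsg, one_mul]
  obtain ⟨h1, h2⟩ := zc_small hρ hce hcs hn i
  have hτ : 0 < κ * m * ρ ^ L := by positivity
  constructor
  · have h3 : 1 ≤ Real.exp (2 * (κ * m * ρ ^ L) * bump (dq z (zc ρ ce c s i) / ρ ^ 2)) := by
      apply Real.one_le_exp
      have := bump_nonneg (dq z (zc ρ ce c s i) / ρ ^ 2)
      positivity
    have h4 : 0 ≤ (Real.exp (2 * (κ * m * ρ ^ L) * bump (dq z (zc ρ ce c s i) / ρ ^ 2)) - 1) / 2 := by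
      linarith
    positivity
  · intro hz2
    rw [bump_eq_one (by rw [div_le_iff₀ (by positivity)]; linarith), mul_one]
    have h3 : 1 ≤ Real.exp (2 * (κ * m) * prof (z.1 ^ 2 + z.2 ^ 2)) := by
      apply Real.one_le_exp
      have h5 : z.1 ^ 2 + z.2 ^ 2 ≤ 1 := by
        have e1 : (z.1 - (zc ρ ce c s i).1) ^ 2 ≤ 1 / 64 := by
          have : (z.1 - (zc ρ ce c s i).1) ^ 2 ≤ dq z (zc ρ ce c s i) := by
            simp only [dq]
            nlinarith [sq_nonneg (z.2 - (zc ρ ce c s i).2)]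
          nlinarith
        have e2 : (z.2 - (zc ρ ce c s i).2) ^ 2 ≤ 1 / 64 := by
          have : (z.2 - (zc ρ ce c s i).2) ^ 2 ≤ dq z (zc ρ ce c s i) := by
            simp only [dq]
            nlinarith [sq_nonneg (z.1 - (zc ρ ce c s i).1)]
          nlinarith
        have e3 : (zc ρ ce c s i).1 ^ 2 ≤ 1 / 64 := by
          rw [← sq_abs]
          nlinarith [abs_nonneg (zc ρ ce c s i).1]
        have e4 : (zc ρ ce c s i).2 ^ 2 ≤ 1 / 64 := by
          rw [← sq_abs]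
          nlinarith [abs_nonneg (zc ρ ce c s i).2]
        nlinarith [sq_nonneg (z.1 - 2 * (zc ρ ce c s i).1), sq_nonneg (z.2 - 2 * (zc ρ ce c s i).2)]
      have h6 : 0 ≤ prof (z.1 ^ 2 + z.2 ^ 2) := by
        unfold prof
        apply mul_nonneg (Real.smoothTransition.nonneg _)
        have h0 : 0 ≤ z.1 ^ 2 + z.2 ^ 2 := by positivity
        nlinarith
      positivity
    have h4 : 2 * (κ * m * ρ ^ L) ≤ Real.exp (2 * (κ * m * ρ ^ L)) - 1 := by
      have := Real.add_one_le_exp (2 * (κ * m * ρ ^ L))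
      linarith
    calc κ * m * ρ ^ L = 1 * (2 * (κ * m * ρ ^ L) / 2) := by ring
      _ ≤ Real.exp (2 * (κ * m) * prof (z.1 ^ 2 + z.2 ^ 2))
          * ((Real.exp (2 * (κ * m * ρ ^ L)) - 1) / 2) := by gcongr

/-! ### the bound of the derivatives -/

/-- scaling -/
theorem Cl.scale (n : ℕ) {F : PP → ℝ} {B : Set PP} {a : ℝ} (ha : 0 ≤ a) (hF : ContDiff ℝ ∞ F)
    (h : Cl n F B a) {ρ : ℝ} (hρ : 0 < ρ) (hρ1 : ρ ≤ 1) (w : PP) :
    Cl n (fun z : PP => F ((z.1 - w.1) / ρ, (z.2 - w.2) / ρ))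
      {z : PP | ((z.1 - w.1) / ρ, (z.2 - w.2) / ρ) ∈ B} (a / ρ ^ n) := by
  induction n generalizing F with
  | zero =>
    intro z hz
    simpa using h _ hz
  | succ n ih =>
    have hmap : ContDiff ℝ ∞ (fun z : PP => (((z.1 - w.1) / ρ, (z.2 - w.2) / ρ) : PP)) := by
      fun_prop
    have hder : ∀ z : PP, HasFDerivAt (fun z : PP => (((z.1 - w.1) / ρ, (z.2 - w.2) / ρ) : PP))
        (ρ⁻¹ • ContinuousLinearMap.id ℝ PP) z := by
      intro z
      have h1 : (fun z : PP => (((z.1 - w.1) / ρ, (z.2 - w.2) / ρ) : PP))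
          = fun z => ρ⁻¹ • (z - w) := by
        funext z
        apply Prod.ext
        · simp [div_eq_inv_mul]
        · simp [div_eq_inv_mul]
      rw [h1]
      exact ((hasFDerivAt_id z).sub_const w).const_smul ρ⁻¹
    have hcomp : ∀ (G : PP → ℝ), ContDiff ℝ ∞ G → ∀ z : PP,
        HasFDerivAt (fun z : PP => G ((z.1 - w.1) / ρ, (z.2 - w.2) / ρ))
          ((fderiv ℝ G ((z.1 - w.1) / ρ, (z.2 - w.2) / ρ)).comp
            (ρ⁻¹ • ContinuousLinearMap.id ℝ PP)) z := by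
      intro G hG z
      exact (diffAt hG _).hasFDerivAt.comp z (hder z)
    have dxe : Iso341.dx (fun z : PP => F ((z.1 - w.1) / ρ, (z.2 - w.2) / ρ))
        = fun z => ρ⁻¹ * (fun z : PP => Iso341.dx F ((z.1 - w.1) / ρ, (z.2 - w.2) / ρ)) z := by
      funext z
      rw [dx_of (hcomp F hF z)]
      simp [Iso341.dx]
    have dye : Iso341.dy (fun z : PP => F ((z.1 - w.1) / ρ, (z.2 - w.2) / ρ))
        = fun z => ρ⁻¹ * (fun z : PP => Iso341.dy F ((z.1 - w.1) / ρ, (z.2 - w.2) / ρ)) z := by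
      funext z
      rw [dy_of (hcomp F hF z)]
      simp [Iso341.dy]
    have e1 : |ρ⁻¹| * (a / ρ ^ n) = a / ρ ^ (n + 1) := by
      rw [abs_of_pos (by positivity), pow_succ]
      field_simp
    refine ⟨fun z hz => (h.1 _ hz).trans ?_, ?_, ?_⟩
    · rw [le_div_iff₀ (by positivity)]
      have : ρ ^ (n + 1) ≤ 1 := pow_le_one₀ hρ.le hρ1
      nlinarith
    · rw [dxe, ← e1]
      exact Cl.const_mul ((contDiff_dx hF).comp hmap) (ih (contDiff_dx hF) h.2.1)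
    · rw [dye, ← e1]
      exact Cl.const_mul ((contDiff_dy hF).comp hmap) (ih (contDiff_dy hF) h.2.2)

/-- the unit scale bound -/
theorem Cl.exp_sub_one (n : ℕ) {B₀ : PP → ℝ} (hB : ContDiff ℝ ∞ B₀) {K : Set PP} {a : ℝ}
    (ha : 0 ≤ a) (hBa : Cl (n + 1) B₀ K a) : ∃ C : ℝ, 0 < C ∧ ∀ τ : ℝ, 0 ≤ τ → τ ≤ 2 →
    Cl (n + 1) (fun z => Real.exp (τ * B₀ z) - 1) K (C * τ) := by
  obtain ⟨b, hb, H⟩ := Cl.exp n (2 * a) (by positivity)
  refine ⟨a * Real.exp (2 * a) + 2 ^ n * b * a + 1, by positivity, fun τ hτ hτ2 => ?_⟩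
  have hτB : ContDiff ℝ ∞ (fun z => τ * B₀ z) := contDiff_const.mul hB
  have hC : Cl (n + 1) (fun z => τ * B₀ z) K (τ * a) := by
    have := Cl.const_mul (c := τ) hB hBa
    rwa [abs_of_nonneg hτ] at this
  have hC2 : Cl n (fun z => τ * B₀ z) K (2 * a) :=
    Cl.mono (Cl.pred hC) (by gcongr)
  have hE := H _ K hτB hC2
  have hEs : ContDiff ℝ ∞ (fun z => Real.exp (τ * B₀ z)) := hτB.exp
  have hpos1 : 0 ≤ 2 ^ n * b * a * τ := by positivity
  have hpos2 : 0 ≤ a * Real.exp (2 * a) * τ := by positivity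
  have dxe : Iso341.dx (fun z => Real.exp (τ * B₀ z) - 1)
      = fun z => Real.exp (τ * B₀ z) * Iso341.dx (fun z => τ * B₀ z) z := by
    funext z
    rw [dx_sub hEs contDiff_const, dx_comp (g := Real.exp) Real.contDiff_exp hτB z,
      Real.deriv_exp, dx_const' 1]
    ring
  have dye : Iso341.dy (fun z => Real.exp (τ * B₀ z) - 1)
      = fun z => Real.exp (τ * B₀ z) * Iso341.dy (fun z => τ * B₀ z) z := by
    funext z
    rw [dy_sub hEs contDiff_const, dy_comp (g := Real.exp) Real.contDiff_exp hτB z,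
      Real.deriv_exp, dy_const' 1]
    ring
  refine ⟨fun z hz => ?_, ?_, ?_⟩
  · have h1 := hC.1 z hz
    have h2 : |τ * B₀ z| ≤ 2 * a := Cl.bd hC2 z hz
    have h3 : |Real.exp (τ * B₀ z) - 1| ≤ |τ * B₀ z| * Real.exp |τ * B₀ z| := by
      have h4 := Real.add_one_le_exp (τ * B₀ z)
      have h5 := Real.add_one_le_exp (-(τ * B₀ z))
      have h6 := Real.exp_pos (τ * B₀ z)
      have h7 : Real.exp (-(τ * B₀ z)) * Real.exp (τ * B₀ z) = 1 := by
        rw [← Real.exp_add]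
        simp
      have h8 : Real.exp (τ * B₀ z) - 1 ≤ τ * B₀ z * Real.exp (τ * B₀ z) := by nlinarith
      have h9 : Real.exp (τ * B₀ z) ≤ Real.exp |τ * B₀ z| := Real.exp_le_exp.2 (le_abs_self _)
      have h10 : 1 ≤ Real.exp |τ * B₀ z| := Real.one_le_exp (abs_nonneg _)
      rw [abs_le]
      constructor
      · have : -|τ * B₀ z| ≤ τ * B₀ z := neg_abs_le _
        nlinarith [abs_nonneg (τ * B₀ z)]
      · calc Real.exp (τ * B₀ z) - 1 ≤ τ * B₀ z * Real.exp (τ * B₀ z) := h8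
          _ ≤ |τ * B₀ z| * Real.exp (τ * B₀ z) := by gcongr; exact le_abs_self _
          _ ≤ |τ * B₀ z| * Real.exp |τ * B₀ z| := by gcongr
    calc |Real.exp (τ * B₀ z) - 1| ≤ |τ * B₀ z| * Real.exp |τ * B₀ z| := h3
      _ ≤ (τ * a) * Real.exp (2 * a) := by gcongr
      _ ≤ (a * Real.exp (2 * a) + 2 ^ n * b * a + 1) * τ := by nlinarith
  · rw [dxe]
    refine Cl.mono (Cl.mul hb.le (by positivity) hEs (contDiff_dx hτB) hE hC.2.1) ?_
    nlinarith
  · rw [dye]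
    refine Cl.mono (Cl.mul hb.le (by positivity) hEs (contDiff_dy hτB) hE hC.2.2) ?_
    nlinarith

theorem HH_bound : ∃ C : ℝ, 0 < C ∧ ∀ (n : ℕ) (κ m ρ : ℝ) (L : ℕ) (ce c s : ℝ)
    (b b' : Fin n → Bool), 0 < κ → κ ≤ 1 → 0 < m → m ≤ 1 → 0 < ρ → ρ ≤ 1 / 8 → 0 < ce → ce ≤ 1 →
    c ^ 2 + s ^ 2 = 1 → 8 * ρ * n / ce ≤ 1 / 64 → ∀ i : Fin n,
    Cl 2 (HH κ m ρ L ce c s b b') {z | dq z (zc ρ ce c s i) < ρ ^ 2} (C * (κ * m * ρ ^ L / ρ ^ 2)) := by
  -- the bump at unit scale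
  have hB : ContDiff ℝ ∞ (fun z : PP => bump (z.1 ^ 2 + z.2 ^ 2)) :=
    contDiff_bump.comp (by fun_prop)
  have hP : ContDiff ℝ ∞ (fun z : PP => prof (z.1 ^ 2 + z.2 ^ 2)) :=
    contDiff_prof.comp (by fun_prop)
  have hK : IsCompact (Metric.closedBall (0 : PP) 1) := isCompact_closedBall _ _
  obtain ⟨a, ha, hBa⟩ := Cl.of_compact 2 hB hK
  obtain ⟨a', ha', hPa⟩ := Cl.of_compact 2 hP hK
  obtain ⟨C1, hC1, H1⟩ := Cl.exp_sub_one 1 hB ha.le hBa
  obtain ⟨C2, hC2, H2⟩ := Cl.exp 2 (2 * a') (by positivity)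
  refine ⟨4 * C2 * C1, by positivity, ?_⟩
  intro n κ m ρ L ce c s b b' hκ hκ1 hm hm1 hρ hρ1 hce hce1 hcs hn i
  have hopen : IsOpen {z : PP | dq z (zc ρ ce c s i) < ρ ^ 2} := by
    apply isOpen_lt _ continuous_const
    unfold dq
    fun_prop
  refine Cl.congr_on hopen (fun z hz => HH_formula hρ hce hce1 hcs b b' i hz) ?_
  have hκm : 0 < κ * m := by positivity
  have hκm1 : κ * m ≤ 1 := by nlinarith
  have hρL : 0 < ρ ^ L := by positivity
  have hρL1 : ρ ^ L ≤ 1 := pow_le_one₀ hρ.le (by linarith)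
  have hτ : 0 < κ * m * ρ ^ L := by positivity
  have hτ1 : κ * m * ρ ^ L ≤ 1 := by nlinarith
  -- subset of the compact ball
  have hsub : {z : PP | dq z (zc ρ ce c s i) < ρ ^ 2} ⊆ Metric.closedBall (0 : PP) 1 := by
    intro z hz
    simp only [mem_ofPred_eq, dq] at hz
    obtain ⟨h1, h2⟩ := zc_small hρ hce hcs hn i
    rw [mem_closedBall_zero_iff, Prod.norm_def, max_le_iff, Real.norm_eq_abs, Real.norm_eq_abs]
    have e1 : |z.1 - (zc ρ ce c s i).1| ≤ ρ := by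
      apply abs_le_of_sq_le_sq _ hρ.le |>.trans
      · exact le_rfl
      · nlinarith [sq_nonneg (z.2 - (zc ρ ce c s i).2)]
    have e2 : |z.2 - (zc ρ ce c s i).2| ≤ ρ := by
      apply abs_le_of_sq_le_sq _ hρ.le |>.trans
      · exact le_rfl
      · nlinarith [sq_nonneg (z.1 - (zc ρ ce c s i).1)]
    simp only [abs_le] at *
    constructor <;> constructor <;> linarith [h1.1, h1.2, h2.1, h2.2, e1.1, e1.2, e2.1, e2.2]
  -- the factor `P`
  have hPs : ContDiff ℝ ∞ (fun z : PP => 2 * (κ * m) * prof (z.1 ^ 2 + z.2 ^ 2)) :=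
    contDiff_const.mul hP
  have hPc : Cl 2 (fun z : PP => 2 * (κ * m) * prof (z.1 ^ 2 + z.2 ^ 2))
      {z | dq z (zc ρ ce c s i) < ρ ^ 2} (2 * a') := by
    refine Cl.mono (Cl.anti (Cl.const_mul (c := 2 * (κ * m)) hP hPa) hsub) ?_
    rw [abs_of_pos (by positivity)]
    nlinarith
  have hPe := H2 _ _ hPs hPc
  -- the factor `E`
  have hE1 := H1 (2 * (κ * m * ρ ^ L)) (by positivity) (by linarith)
  have hEs : ContDiff ℝ ∞ (fun z : PP => Real.exp (2 * (κ * m * ρ ^ L)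
      * bump (z.1 ^ 2 + z.2 ^ 2)) - 1) := (contDiff_const.mul hB).exp.sub contDiff_const
  have hE2 := Cl.scale 2 (by positivity) hEs hE1 hρ (by linarith) (zc ρ ce c s i)
  have hsub2 : {z : PP | dq z (zc ρ ce c s i) < ρ ^ 2} ⊆
      {z : PP | ((z.1 - (zc ρ ce c s i).1) / ρ, (z.2 - (zc ρ ce c s i).2) / ρ)
        ∈ Metric.closedBall (0 : PP) 1} := by
    intro z hz
    simp only [mem_ofPred_eq, dq] at hz
    simp only [mem_ofPred_eq]
    rw [mem_closedBall_zero_iff, Prod.norm_def, max_le_iff, Real.norm_eq_abs, Real.norm_eq_abs,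
      abs_div, abs_div, abs_of_pos hρ]
    constructor
    · rw [div_le_one hρ]
      apply abs_le_of_sq_le_sq _ hρ.le |>.trans
      · exact le_rfl
      · nlinarith [sq_nonneg (z.2 - (zc ρ ce c s i).2)]
    · rw [div_le_one hρ]
      apply abs_le_of_sq_le_sq _ hρ.le |>.trans
      · exact le_rfl
      · nlinarith [sq_nonneg (z.1 - (zc ρ ce c s i).1)]
  have hE3 := Cl.anti hE2 hsub2
  have hfun : (fun z : PP => Real.exp (2 * (κ * m * ρ ^ L) *
        bump (((z.1 - (zc ρ ce c s i).1) / ρ) ^ 2 + ((z.2 - (zc ρ ce c s i).2) / ρ) ^ 2)) - 1)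
      = fun z : PP => Real.exp (2 * (κ * m * ρ ^ L) * bump (dq z (zc ρ ce c s i) / ρ ^ 2)) - 1 := by
    funext z
    have : ((z.1 - (zc ρ ce c s i).1) / ρ) ^ 2 + ((z.2 - (zc ρ ce c s i).2) / ρ) ^ 2
        = dq z (zc ρ ce c s i) / ρ ^ 2 := by
      simp only [dq]
      rw [div_pow, div_pow, add_div]
    rw [this]
  simp only at hE3
  rw [hfun] at hE3
  have hdqs : ContDiff ℝ ∞ (fun z : PP => dq z (zc ρ ce c s i) / ρ ^ 2) := by
    unfold dq
    fun_prop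
  have hEs' : ContDiff ℝ ∞ (fun z : PP => Real.exp (2 * (κ * m * ρ ^ L) *
      bump (dq z (zc ρ ce c s i) / ρ ^ 2)) - 1) :=
    (contDiff_const.mul (contDiff_bump.comp hdqs)).exp.sub contDiff_const
  have hE4 := Cl.const_mul (c := (1 / 2 : ℝ)) hEs' hE3
  have hprod := Cl.mul hC2.le (by positivity) hPs.exp (contDiff_const.mul hEs') hPe hE4
  have hfin := Cl.const_mul (c := sg b b' i) (hPs.exp.mul (contDiff_const.mul hEs')) hprod
  have hfun2 : (fun z : PP => sg b b' i * (Real.exp (2 * (κ * m) * prof (z.1 ^ 2 + z.2 ^ 2)) *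
      ((Real.exp (2 * (κ * m * ρ ^ L) * bump (dq z (zc ρ ce c s i) / ρ ^ 2)) - 1) / 2)))
      = fun z : PP => sg b b' i * (Real.exp (2 * (κ * m) * prof (z.1 ^ 2 + z.2 ^ 2)) *
      (1 / 2 * (Real.exp (2 * (κ * m * ρ ^ L) * bump (dq z (zc ρ ce c s i) / ρ ^ 2)) - 1))) := by
    funext z
    ring
  rw [hfun2]
  refine Cl.mono hfin ?_
  have hsg : |sg b b' i| ≤ 1 := by
    simp only [sg]
    cases hb : b i <;> cases hb' : b' i <;> simp
  rw [abs_of_pos (by norm_num : (0 : ℝ) < 1 / 2)]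
  have hX : 0 ≤ 2 ^ 2 * C2 * (1 / 2 * (C1 * (2 * (κ * m * ρ ^ L)) / ρ ^ 2)) := by positivity
  calc |sg b b' i| * (2 ^ 2 * C2 * (1 / 2 * (C1 * (2 * (κ * m * ρ ^ L)) / ρ ^ 2)))
      ≤ 1 * (2 ^ 2 * C2 * (1 / 2 * (C1 * (2 * (κ * m * ρ ^ L)) / ρ ^ 2))) := by gcongr
    _ = 4 * C2 * C1 * (κ * m * ρ ^ L / ρ ^ 2) := by ring

end Crest.Agent.Iso341.Test
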