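import Crest.Agent.Iso341.TestCl

/-! S0341, TEST: locality of the source `SS` and its bound. -/

set_option autoImplicit false

open MeasureTheory Set
open scoped ContDiff

namespace Crest.Agent.Iso341.Test

/-- consequences of `Near` used in this part -/
structure Ctl (δ : ℝ) (X Y f : PP → ℝ) : Prop where
  smX : ContDiff ℝ ∞ X
  smY : ContDiff ℝ ∞ Y
  smf : ContDiff ℝ ∞ f
  J0ne : ∀ z, br X Y z ≠ 0
  ch : Chart δ (slp X Y f) Y
  clX : Cl 4 (fun z => X z - z.1) univ δ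
  clY : Cl 4 (fun z => Y z - z.2) univ δ
  clp : Cl 3 (fun z => slp X Y f z - z.1) univ δ
  clJ0 : Cl 3 (fun z => br X Y z - 1) univ δ
  clJ : Cl 2 (fun z => br (slp X Y f) Y z - 1) univ δ

section

variable {δ : ℝ} {X Y f : PP → ℝ}

theorem Ctl.mono {δ' : ℝ} (h : Ctl δ X Y f) (hd : δ ≤ δ') : Ctl δ' X Y f where
  smX := h.smX
  smY := h.smY
  smf := h.smf
  J0ne := h.J0ne
  ch := ⟨h.ch.smp, h.ch.smY, fun z => (h.ch.p0 z).trans hd, fun z => (h.ch.Y0 z).trans hd,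
    fun z => (h.ch.px z).trans hd, fun z => (h.ch.py z).trans hd, fun z => (h.ch.Yx z).trans hd,
    fun z => (h.ch.Yy z).trans hd⟩
  clX := Cl.mono h.clX hd
  clY := Cl.mono h.clY hd
  clp := Cl.mono h.clp hd
  clJ0 := Cl.mono h.clJ0 hd
  clJ := Cl.mono h.clJ hd

/-- `dx` of something close to a coordinate -/
theorem dx_shift_fst {g : PP → ℝ} (hg : ContDiff ℝ ∞ g) :
    dx g = fun z => dx (fun z => g z - z.1) z + 1 := by
  funext z
  rw [dx_sub_at (diffAt hg z) differentiableAt_fst, dx_fst]; ring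

theorem dy_shift_fst {g : PP → ℝ} (hg : ContDiff ℝ ∞ g) :
    dy g = fun z => dy (fun z => g z - z.1) z := by
  funext z
  rw [dy_sub_at (diffAt hg z) differentiableAt_fst, dy_fst]; ring

theorem dx_shift_snd {g : PP → ℝ} (hg : ContDiff ℝ ∞ g) :
    dx g = fun z => dx (fun z => g z - z.2) z := by
  funext z
  rw [dx_sub_at (diffAt hg z) differentiableAt_snd, dx_snd]; ring

theorem dy_shift_snd {g : PP → ℝ} (hg : ContDiff ℝ ∞ g) :
    dy g = fun z => dy (fun z => g z - z.2) z + 1 := by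
  funext z
  rw [dy_sub_at (diffAt hg z) differentiableAt_snd, dy_snd]; ring

theorem contDiff_shift_fst {g : PP → ℝ} (hg : ContDiff ℝ ∞ g) :
    ContDiff ℝ ∞ (fun z : PP => g z - z.1) := hg.sub contDiff_fst

theorem contDiff_shift_snd {g : PP → ℝ} (hg : ContDiff ℝ ∞ g) :
    ContDiff ℝ ∞ (fun z : PP => g z - z.2) := hg.sub contDiff_snd

theorem cl_dx_fst {n : ℕ} {g : PP → ℝ} {A : Set PP} (hg : ContDiff ℝ ∞ g)
    (h : Cl (n + 1) (fun z => g z - z.1) A δ) : Cl n (dx g) A (δ + 1) := by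
  rw [dx_shift_fst hg]
  exact Cl.add (contDiff_dx (contDiff_shift_fst hg)) contDiff_const h.2.1 (Cl.const (by simp))

theorem cl_dy_fst {n : ℕ} {g : PP → ℝ} {A : Set PP} (hg : ContDiff ℝ ∞ g)
    (h : Cl (n + 1) (fun z => g z - z.1) A δ) : Cl n (dy g) A δ := by
  rw [dy_shift_fst hg]; exact h.2.2

theorem cl_dx_snd {n : ℕ} {g : PP → ℝ} {A : Set PP} (hg : ContDiff ℝ ∞ g)
    (h : Cl (n + 1) (fun z => g z - z.2) A δ) : Cl n (dx g) A δ := by
  rw [dx_shift_snd hg]; exact h.2.1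

theorem cl_dy_snd {n : ℕ} {g : PP → ℝ} {A : Set PP} (hg : ContDiff ℝ ∞ g)
    (h : Cl (n + 1) (fun z => g z - z.2) A δ) : Cl n (dy g) A (δ + 1) := by
  rw [dy_shift_snd hg]
  exact Cl.add (contDiff_dy (contDiff_shift_snd hg)) contDiff_const h.2.2 (Cl.const (by simp))

theorem cl_of_sub_one {n : ℕ} {g : PP → ℝ} {A : Set PP} (hg : ContDiff ℝ ∞ g)
    (h : Cl n (fun z => g z - 1) A δ) : Cl n g A (δ + 1) := by
  have := Cl.add (hg.sub contDiff_const) contDiff_const h (Cl.const (c := 1) (a := 1) (A := A) (n := n) (by simp))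
  simpa using this

theorem Ctl.smp (h : Ctl δ X Y f) : ContDiff ℝ ∞ (slp X Y f) := h.ch.smp

theorem Ctl.smJ0 (h : Ctl δ X Y f) : ContDiff ℝ ∞ (br X Y) := contDiff_br h.smX h.smY

theorem Ctl.smJ (h : Ctl δ X Y f) : ContDiff ℝ ∞ (br (slp X Y f) Y) := contDiff_br h.smp h.smY

theorem Ctl.J0_ge (h : Ctl δ X Y f) (hd : δ ≤ 1 / 2) (z : PP) : 1 / 2 ≤ br X Y z := by
  have := abs_le.1 (Cl.bd h.clJ0 z (mem_univ _)); linarith [this.1]

theorem Ctl.J_ge (h : Ctl δ X Y f) (hd : δ ≤ 1 / 2) (z : PP) : 1 / 2 ≤ br (slp X Y f) Y z := by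
  have := abs_le.1 (Cl.bd h.clJ z (mem_univ _)); linarith [this.1]

theorem Ctl.Jne (h : Ctl δ X Y f) (hd : δ ≤ 1 / 2) (z : PP) : br (slp X Y f) Y z ≠ 0 := by
  have := h.J_ge hd z; positivity

end

theorem Cl.div (n : ℕ) (c : ℝ) (hc : 0 ≤ c) : ∃ K : ℝ, 0 < K ∧ ∀ (f g : PP → ℝ) (A : Set PP)
    (a : ℝ), 0 ≤ a → ContDiff ℝ ∞ f → ContDiff ℝ ∞ g → (∀ z, 1 / 2 ≤ g z) → Cl n g A c →
    Cl n f A a → Cl n (fun z => f z / g z) A (K * a) := by
  obtain ⟨b, hb, H⟩ := Cl.inv n c hc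
  refine ⟨2 ^ n * b, by positivity, fun f g A a ha hf hg h0 hgc hfa => ?_⟩
  have hne : ∀ z, g z ≠ 0 := fun z => by have := h0 z; positivity
  have h1 := Cl.mul ha hb.le hf (contDiff_inv' hg hne) hfa (H g A hg h0 hgc)
  have e : 2 ^ n * b * a = 2 ^ n * a * b := by ring
  rw [e]
  simpa only [div_eq_mul_inv] using h1

theorem Cl.br {n : ℕ} {f g : PP → ℝ} {A : Set PP} {a b : ℝ} (ha : 0 ≤ a) (hb : 0 ≤ b)
    (hf : ContDiff ℝ ∞ f) (hg : ContDiff ℝ ∞ g) (hfx : Cl n (Iso341.dx f) A a)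
    (hfy : Cl n (Iso341.dy f) A a) (hgx : Cl n (Iso341.dx g) A b) (hgy : Cl n (Iso341.dy g) A b) :
    Cl n (Iso341.br f g) A (2 ^ (n + 1) * a * b) := by
  have h1 := Cl.mul ha hb (contDiff_dx hf) (contDiff_dy hg) hfx hgy
  have h2 := Cl.mul ha hb (contDiff_dy hf) (contDiff_dx hg) hfy hgx
  have h3 := Cl.sub ((contDiff_dx hf).mul (contDiff_dy hg)) ((contDiff_dy hf).mul (contDiff_dx hg))
    h1 h2
  have e : 2 ^ (n + 1) * a * b = 2 ^ n * a * b + 2 ^ n * a * b := by ring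
  rw [e]
  exact h3

theorem SS_zero {m : ℝ} {X Y f H : PP → ℝ} {U : Set PP} (hU : IsOpen U) (h : ∀ z ∈ U, H z = 0) :
    ∀ z ∈ U, SS m X Y f H z = 0 := by
  have hr1 : ∀ z ∈ U, r1 X Y H z = 0 := by
    intro z hz
    have e1 : dx (fun w => H w / Iso341.br X Y w * dx Y w) z = dx (fun _ => (0 : ℝ)) z :=
      dx_congr_on hU (fun w hw => by simp [h w hw]) z hz
    have e2 : dy (fun w => H w / Iso341.br X Y w * dy Y w) z = dy (fun _ => (0 : ℝ)) z :=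
      dy_congr_on hU (fun w hw => by simp [h w hw]) z hz
    simp only [r1, e1, e2, dx_const, dy_const]; ring
  have hr2 : ∀ z ∈ U, r2 X Y H z = 0 := by
    intro z hz
    have e1 : dx (fun w => H w / Iso341.br X Y w * dx X w) z = dx (fun _ => (0 : ℝ)) z :=
      dx_congr_on hU (fun w hw => by simp [h w hw]) z hz
    have e2 : dy (fun w => H w / Iso341.br X Y w * dy X w) z = dy (fun _ => (0 : ℝ)) z :=
      dy_congr_on hU (fun w hw => by simp [h w hw]) z hz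
    simp only [r2, e1, e2, dx_const, dy_const]; ring
  intro z hz
  have e1 : Dy (slp X Y f) Y (fun w => r1 X Y H w / Iso341.br (slp X Y f) Y w) z
      = Dy (slp X Y f) Y (fun _ => (0 : ℝ)) z := by
    apply Dy_congr
    filter_upwards [hU.mem_nhds hz] with w hw
    simp [hr1 w hw]
  have e2 : Dp (slp X Y f) Y (fun w => (Iso341.br (slp X Y f) X w / Iso341.br (slp X Y f) Y w
        * r1 X Y H w + r2 X Y H w) / Iso341.br X Y w) z
      = Dp (slp X Y f) Y (fun _ => (0 : ℝ)) z := by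
    apply Dp_congr
    filter_upwards [hU.mem_nhds hz] with w hw
    simp [hr1 w hw, hr2 w hw]
  rw [SS, e1, e2, Dy_const, Dp_const]; ring

theorem contDiff_r1 {X Y H : PP → ℝ} (hX : ContDiff ℝ ∞ X) (hY : ContDiff ℝ ∞ Y)
    (hH : ContDiff ℝ ∞ H) (hJ : ∀ z, Iso341.br X Y z ≠ 0) : ContDiff ℝ ∞ (r1 X Y H) := by
  have h0 : ContDiff ℝ ∞ (fun w => H w / Iso341.br X Y w) := hH.div (contDiff_br hX hY) hJ
  exact ((contDiff_dx (h0.mul (contDiff_dx hY))).add (contDiff_dy (h0.mul (contDiff_dy hY)))).neg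

theorem contDiff_r2 {X Y H : PP → ℝ} (hX : ContDiff ℝ ∞ X) (hY : ContDiff ℝ ∞ Y)
    (hH : ContDiff ℝ ∞ H) (hJ : ∀ z, Iso341.br X Y z ≠ 0) : ContDiff ℝ ∞ (r2 X Y H) := by
  have h0 : ContDiff ℝ ∞ (fun w => H w / Iso341.br X Y w) := hH.div (contDiff_br hX hY) hJ
  exact (contDiff_dx (h0.mul (contDiff_dx hX))).add (contDiff_dy (h0.mul (contDiff_dy hX)))

/-- the inner function of the second term of `SS` -/
noncomputable def BB (X Y f H : PP → ℝ) (w : PP) : ℝ :=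
  (Iso341.br (slp X Y f) X w / Iso341.br (slp X Y f) Y w * r1 X Y H w + r2 X Y H w)
    / Iso341.br X Y w

theorem SS_eq (m : ℝ) (X Y f H : PP → ℝ) (z : PP) : SS m X Y f H z
    = 1 / m * (Dy (slp X Y f) Y (fun w => r1 X Y H w / Iso341.br (slp X Y f) Y w) z
      - Dp (slp X Y f) Y (BB X Y f H) z) := rfl

theorem SS_bound' : ∃ C : ℝ, 0 < C ∧ ∀ X Y f : PP → ℝ, Ctl (1 / 2) X Y f → ∀ m : ℝ, 0 < m →
    ∀ H : PP → ℝ, ContDiff ℝ ∞ H → ∀ (A : Set PP) (a : ℝ), 0 ≤ a → Cl 2 H A a → ∀ z ∈ A,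
    |SS m X Y f H z| ≤ C * a / m := by
  obtain ⟨K2, hK2, D2⟩ := Cl.div 2 2 (by norm_num)
  obtain ⟨K1, hK1, D1⟩ := Cl.div 1 2 (by norm_num)
  refine ⟨100000 * (K2 + 1) * (K1 + 1) ^ 3, by positivity, fun X Y f hc m hm H hH A a ha hHa z hz => ?_⟩
  set p := slp X Y f with hp
  have smp : ContDiff ℝ ∞ p := hc.smp
  have hJ0 := hc.J0_ge le_rfl
  have hJ := hc.J_ge le_rfl
  have hJ0n := hc.J0ne
  have hJn := hc.Jne le_rfl
  have uA : A ⊆ univ := subset_univ _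
  have e : (1 / 2 + 1 : ℝ) ≤ 2 := by norm_num
  have e' : (1 / 2 : ℝ) ≤ 2 := by norm_num
  -- first derivatives of the data
  have Xx : Cl 3 (dx X) A 2 := Cl.mono (Cl.anti (cl_dx_fst hc.smX hc.clX) uA) e
  have Xy : Cl 3 (dy X) A 2 := Cl.mono (Cl.anti (cl_dy_fst hc.smX hc.clX) uA) e'
  have Yx : Cl 3 (dx Y) A 2 := Cl.mono (Cl.anti (cl_dx_snd hc.smY hc.clY) uA) e'
  have Yy : Cl 3 (dy Y) A 2 := Cl.mono (Cl.anti (cl_dy_snd hc.smY hc.clY) uA) e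
  have px : Cl 2 (dx p) A 2 := Cl.mono (Cl.anti (cl_dx_fst smp hc.clp) uA) e
  have py : Cl 2 (dy p) A 2 := Cl.mono (Cl.anti (cl_dy_fst smp hc.clp) uA) e'
  have cJ0 : Cl 3 (br X Y) A 2 := Cl.mono (Cl.anti (cl_of_sub_one hc.smJ0 hc.clJ0) uA) e
  have cJ : Cl 2 (br p Y) A 2 := Cl.mono (Cl.anti (cl_of_sub_one hc.smJ hc.clJ) uA) e
  -- `G`
  have sG : ContDiff ℝ ∞ (fun w => H w / br X Y w) := hH.div hc.smJ0 hJ0n
  have cG : Cl 2 (fun w => H w / br X Y w) A (K2 * a) :=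
    D2 H (br X Y) A a ha hH hc.smJ0 hJ0 (Cl.le cJ0 (by norm_num)) hHa
  have hK2a : 0 ≤ K2 * a := by positivity
  -- `r1` and `r2`
  have cr1 : Cl 1 (r1 X Y H) A (16 * (K2 * a)) := by
    have h1 := Cl.mul hK2a (by norm_num) sG (contDiff_dx hc.smY) cG (Cl.le Yx (by norm_num))
    have h2 := Cl.mul hK2a (by norm_num) sG (contDiff_dy hc.smY) cG (Cl.le Yy (by norm_num))
    have h3 := Cl.neg (Cl.add (contDiff_dx (sG.mul (contDiff_dx hc.smY)))
      (contDiff_dy (sG.mul (contDiff_dy hc.smY))) h1.2.1 h2.2.2)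
    refine Cl.mono h3 (by nlinarith)
  have cr2 : Cl 1 (r2 X Y H) A (16 * (K2 * a)) := by
    have h1 := Cl.mul hK2a (by norm_num) sG (contDiff_dx hc.smX) cG (Cl.le Xx (by norm_num))
    have h2 := Cl.mul hK2a (by norm_num) sG (contDiff_dy hc.smX) cG (Cl.le Xy (by norm_num))
    have h3 := Cl.add (contDiff_dx (sG.mul (contDiff_dx hc.smX)))
      (contDiff_dy (sG.mul (contDiff_dy hc.smX))) h1.2.1 h2.2.2
    refine Cl.mono h3 (by nlinarith)
  have sr1 := contDiff_r1 hc.smX hc.smY hH hJ0n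
  have sr2 := contDiff_r2 hc.smX hc.smY hH hJ0n
  set u := K2 * a with hu
  -- first term
  have s1 : ContDiff ℝ ∞ (fun w => r1 X Y H w / br p Y w) := sr1.div hc.smJ hJn
  have c1 : Cl 1 (fun w => r1 X Y H w / br p Y w) A (K1 * (16 * u)) :=
    D1 _ _ A _ (by positivity) sr1 hc.smJ hJ (Cl.le cJ (by norm_num)) cr1
  -- second term
  have sbr : ContDiff ℝ ∞ (br p X) := contDiff_br smp hc.smX
  have cbr : Cl 1 (br p X) A (2 ^ (1 + 1) * 2 * 2) :=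
    Cl.br (by norm_num) (by norm_num) smp hc.smX (Cl.le px (by norm_num)) (Cl.le py (by norm_num))
      (Cl.le Xx (by norm_num)) (Cl.le Xy (by norm_num))
  have sq : ContDiff ℝ ∞ (fun w => br p X w / br p Y w) := sbr.div hc.smJ hJn
  have cq : Cl 1 (fun w => br p X w / br p Y w) A (K1 * (2 ^ (1 + 1) * 2 * 2)) :=
    D1 _ _ A _ (by norm_num) sbr hc.smJ hJ (Cl.le cJ (by norm_num)) cbr
  have cqr := Cl.add (sq.mul sr1) sr2
    (Cl.mul (by positivity) (by positivity) sq sr1 cq cr1) cr2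
  have sqr : ContDiff ℝ ∞ (fun w => br p X w / br p Y w * r1 X Y H w + r2 X Y H w) :=
    (sq.mul sr1).add sr2
  have sB : ContDiff ℝ ∞ (BB X Y f H) := sqr.div hc.smJ0 hJ0n
  have cB : Cl 1 (BB X Y f H) A (K1 * (2 ^ 1 * (K1 * (2 ^ (1 + 1) * 2 * 2)) * (16 * u) + 16 * u)) :=
    D1 _ _ A _ (by positivity) sqr hc.smJ0 hJ0 (Cl.le cJ0 (by norm_num)) cqr
  -- the two derivatives at `z`
  have hpx := Cl.bd px z hz
  have hpy := Cl.bd py z hz
  have hYx := Cl.bd Yx z hz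
  have hYy := Cl.bd Yy z hz
  have hJz := hJ z
  have hdiv : ∀ N t : ℝ, |N| ≤ t → |N / br p Y z| ≤ 2 * t := by
    intro N t hN
    have hpos : 0 < br p Y z := by linarith
    rw [abs_div, abs_of_pos hpos, div_le_iff₀ hpos]
    nlinarith [abs_nonneg N]
  have hbr : ∀ a1 a2 b1 b2 t : ℝ, |a1| ≤ 2 → |a2| ≤ 2 → |b1| ≤ t → |b2| ≤ t →
      |a1 * b2 - a2 * b1| ≤ 4 * t := by
    intro a1 a2 b1 b2 t h1 h2 h3 h4
    have ht : 0 ≤ t := (abs_nonneg _).trans h3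
    calc |a1 * b2 - a2 * b1| ≤ |a1 * b2| + |a2 * b1| := abs_sub _ _
      _ = |a1| * |b2| + |a2| * |b1| := by rw [abs_mul, abs_mul]
      _ ≤ 2 * t + 2 * t := add_le_add (mul_le_mul h1 h4 (abs_nonneg _) (by norm_num))
          (mul_le_mul h2 h3 (abs_nonneg _) (by norm_num))
      _ = 4 * t := by ring
  have t1 : |Dy p Y (fun w => r1 X Y H w / br p Y w) z| ≤ 2 * (4 * (K1 * (16 * u))) := by
    apply hdiv
    exact hbr _ _ _ _ _ hpx hpy (Cl.bd c1.2.1 z hz) (Cl.bd c1.2.2 z hz)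
  have t2 : |Dp p Y (BB X Y f H) z|
      ≤ 2 * (4 * (K1 * (2 ^ 1 * (K1 * (2 ^ (1 + 1) * 2 * 2)) * (16 * u) + 16 * u))) := by
    apply hdiv
    have := hbr _ _ _ _ _ hYx hYy (Cl.bd cB.2.1 z hz) (Cl.bd cB.2.2 z hz)
    rw [Iso341.br, ← abs_neg]
    convert this using 2
    ring
  rw [SS_eq, abs_mul, abs_of_pos (by positivity : 0 < 1 / m)]
  have h3 : |Dy p Y (fun w => r1 X Y H w / br p Y w) z - Dp p Y (BB X Y f H) z|
      ≤ 100000 * (K2 + 1) * (K1 + 1) ^ 3 * a := by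
    refine (abs_sub _ _).trans ((add_le_add t1 t2).trans ?_)
    have hu1 : u ≤ (K2 + 1) * a := by rw [hu]; nlinarith
    have hu0 : 0 ≤ u := hK2a
    have k1 : K1 ≤ (K1 + 1) ^ 3 := by nlinarith [sq_nonneg K1, mul_pos hK1 hK1, mul_pos (mul_pos hK1 hK1) hK1]
    have k2 : K1 * K1 ≤ (K1 + 1) ^ 3 := by nlinarith [sq_nonneg K1, mul_pos hK1 hK1, mul_pos (mul_pos hK1 hK1) hK1]
    have s1 : 2 * (4 * (K1 * (16 * u))) + 2 * (4 * (K1 * (2 ^ 1 * (K1 * (2 ^ (1 + 1) * 2 * 2)) * (16 * u) + 16 * u)))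
        = 256 * (K1 * u) + 4096 * (K1 * K1 * u) := by ring
    rw [s1]
    have s2 : K1 * u ≤ (K1 + 1) ^ 3 * u := mul_le_mul_of_nonneg_right k1 hu0
    have s3 : K1 * K1 * u ≤ (K1 + 1) ^ 3 * u := mul_le_mul_of_nonneg_right k2 hu0
    have s4 : (K1 + 1) ^ 3 * u ≤ (K1 + 1) ^ 3 * ((K2 + 1) * a) :=
      mul_le_mul_of_nonneg_left hu1 (by positivity)
    nlinarith
  calc 1 / m * |Dy p Y (fun w => r1 X Y H w / br p Y w) z - Dp p Y (BB X Y f H) z|
      ≤ 1 / m * (100000 * (K2 + 1) * (K1 + 1) ^ 3 * a) :=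
        mul_le_mul_of_nonneg_left h3 (by positivity)
    _ = 100000 * (K2 + 1) * (K1 + 1) ^ 3 * a / m := by ring

end Crest.Agent.Iso341.Test
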